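-- KEEP
import Claimed.Agent.R256.Base.RndGeo
import Claimed.Agent.R256.Rnd.Defs

/-!
# Row 256, unit RE (sec. 8, Q-layer), file 1: THE FINITE ROUND DOCUMENT `ReDoc`      (chief helper223; prefix `re`)      DEFINITIONS ONLY

`ReDoc` is the OPERATOR-FREE interface between the packet model (07, 08 l.1-672, lem:rt-slab-removal) and the entropy layer (prop:rt-profiles, lem:rt-stability, lem:rt-time, queries), wave case.
PRODUCER  (`Re/Tow*.lean`, model level):   `¬ Rate (rndWav η) (100 η)`  ⟹  documents with arbitrarily small tolerance, arbitrarily large `m`.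
CONSUMER  (`Re/Prof*.lean`, finite laws only):   documents  ⟹  `RnProf` of `Rnd/Defs.lean`.

CONVENTIONS
* MESH.  `q` mesh steps, `m` BITS per mesh step:  `s = 2^-(q m)`;  the cut `i` (`1 ≤ i < q`) has depth `dp i = k0 + i m`, length `ℓ_i = 2^-(dp i)`;  width index `j`: `R_j = R0 2^-(j m)`, `R0 = d_ℓ` at the depth `k0 + q m`.
  So `d_{ℓ_i} = R_j` iff `2 j + i = q` (`v = u(a)`).   ALL TOLERANCES ARE IN MESH STEPS: `2^(t m)` is the paper's `s^-o(1)`, `2^-(N m)` is `negligible`.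
* ATOMS.  `Row i` = finitely many atoms of the selected raw rows at the cut `i` (rows binned at a very fine scale); `ms` = raw selected mass, `iv` = index of the interval (depth `dp i`), `pt` = representative phase point AT THE LEFT END POINT of that interval.
  Every name is an explicit function of `(iv, pt)`: integer cells `⌊x / w⌋`, NESTED in `j` and in `i`.
* `nm b i j ω` = the name `C(a, v)` of (grid), `a = i/q`, `v = j/q`, back-evaluated along the own ray of the atom `ω` of the cut `b ≥ i`;   `an b w ω` = `A_w`.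
* `Conn Λ i l ω ω'` = the correspondence (acc) with enlargement `Λ`.
* `Dn i j`, `Gn i j w` = exponents (mesh steps, NOT shifted) of `C(a,v)` and of `(C(a,v), A_w)` under the law of the cut `i`.
-/

set_option autoImplicit false

namespace Claimed.Agent.R256

open scoped BigOperators
open Classical

/-- integer cell of width `w` -/
noncomputable def reCell (w x : ℝ) : ℤ := ⌊x / w⌋

noncomputable def reCell2 (w : ℝ) (x : ℝ × ℝ) : ℤ × ℤ := (reCell w x.1, reCell w x.2)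

/-- lower corner of the cell -/
noncomputable def reCor2 (w : ℝ) (x : ℝ × ℝ) : ℝ × ℝ := (w * reCell w x.1, w * reCell w x.2)

/-- the phase part of (grid): length `l`, width `R` -/
noncomputable def reNm (l R : ℝ) (p : RtRow) : (ℤ × ℤ) × (ℤ × ℤ) × ℤ :=
  (reCell2 R p.A, reCell2 (l * R) p.b, reCell (l * R ^ 2) (p.y - 2 * rtIp (reCor2 R p.A) p.b))

/-- type of the names `C(a, v)` -/
abbrev ReName : Type := ℕ × ((ℤ × ℤ) × (ℤ × ℤ) × ℤ)

/-- the data of a finite round document -/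
structure ReDoc where
  q : ℕ
  m : ℕ
  k0 : ℕ
  H : ℝ
  e : ℝ
  ka : ℝ
  Row : ℕ → Type
  fin : ∀ i, Fintype (Row i)
  ms : ∀ i, Row i → ℝ
  iv : ∀ i, Row i → ℕ
  pt : ∀ i, Row i → RtRow
  /-- the peeling labels of the cut `i` -/
  Lb : ℕ → Type
  finL : ∀ i, Fintype (Lb i)
  lI : ∀ i, Lb i → ℕ
  lQ : ∀ i, Lb i → RdTst
  Dn : ℕ → ℕ → ℝ
  Gn : ℕ → ℕ → ℕ → ℝ

attribute [instance] ReDoc.fin ReDoc.finL

namespace ReDoc

variable (D : ReDoc)

/-- depth of the cut `i` -/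
def dp (i : ℕ) : ℕ := D.k0 + i * D.m

/-- length of the cut `i` -/
noncomputable def len (i : ℕ) : ℝ := rdLen (D.dp i)

/-- the angular unit -/
noncomputable def R0 : ℝ := rdD D.H (D.dp D.q)

/-- the width `R_j` -/
noncomputable def Rw (j : ℕ) : ℝ := D.R0 * rdLen (j * D.m)

/-- the factor `2^(t m)` -/
noncomputable def tl (t : ℝ) : ℝ := (2 : ℝ) ^ (t * D.m)

/-- time of an atom -/
noncomputable def tm (i : ℕ) (ω : D.Row i) : ℝ := tmL (D.dp i) (D.iv i ω)

/-- index of the ancestor interval at the cut `i` of an atom of the cut `b` -/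
def anc (b i : ℕ) (ω : D.Row b) : ℕ := ancI (D.dp b) (D.dp i) (D.iv b ω)

/-- the phase point of an atom of the cut `b`, moved along its own ray to the left end point of its ancestor at the cut `i` -/
noncomputable def back (b i : ℕ) (ω : D.Row b) : RtRow := (D.pt b ω).flow (tmL (D.dp i) (D.anc b i ω) - D.tm b ω)

/-- the name `C(a, v)` -/
noncomputable def nm (b i j : ℕ) (ω : D.Row b) : ReName := (D.anc b i ω, reNm (D.len i) (D.Rw j) (D.back b i ω))

/-- the angular name `A_w` -/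
noncomputable def an (b w : ℕ) (ω : D.Row b) : ℤ × ℤ := reCell2 (D.Rw w) (D.pt b ω).A

/-- `Z = (A - A_v) / R_v` -/
noncomputable def Zv (b j : ℕ) (ω : D.Row b) : ℝ × ℝ := (D.Rw j)⁻¹ • ((D.pt b ω).A - reCor2 (D.Rw j) (D.pt b ω).A)

/-- total mass of the cut -/
noncomputable def tot (i : ℕ) : ℝ := ∑ ω, D.ms i ω

/-- mass of a set of atoms -/
noncomputable def mass (i : ℕ) (S : D.Row i → Prop) : ℝ := ∑ ω, if S ω then D.ms i ω else 0

/-- the correspondence (acc), enlargement `Λ` -/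
def Conn (Λ : ℝ) (i l : ℕ) (ω : D.Row i) (ω' : D.Row l) : Prop :=
  D.anc l i ω' = D.iv i ω ∧
  rtSq ((D.pt l ω').A - (D.pt i ω).A) ≤ (Λ * rdD D.H (D.dp l)) ^ 2 ∧
  rtSq ((D.pt l ω').b - ((D.pt i ω).flow (D.tm l ω' - D.tm i ω)).b) ≤ (Λ * rdQ D.H (D.dp i)) ^ 2 ∧
  |(D.pt l ω').y - ((D.pt i ω).flow (D.tm l ω' - D.tm i ω)).y
      - 2 * rtIp (D.pt i ω).A ((D.pt l ω').b - ((D.pt i ω).flow (D.tm l ω' - D.tm i ω)).b)| ≤ Λ * D.H

/-- energy benchmark `E_a = e s^(-d a)` -/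
noncomputable def Eb (d : ℝ) (i : ℕ) : ℝ := D.e * (2 : ℝ) ^ (d * i * D.m)

/-- regularity benchmark `κ_a = κ s^(p a)` -/
noncomputable def Kb (p : ℝ) (i : ℕ) : ℝ := D.ka * (2 : ℝ) ^ (-(p * i * D.m))

/-- number of values of an observation on the charged atoms -/
noncomputable def nval {α : Type} (i : ℕ) (X : D.Row i → α) : ℕ :=
  ((Finset.univ.filter fun ω => 0 < D.ms i ω).image X).card

/-- an observation is flat at the exponent `x` (mesh steps), tolerance `t`: few values, no heavy value -/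
def Flat {α : Type} (i : ℕ) (X : D.Row i → α) (x t : ℝ) : Prop :=
  (D.nval i X : ℝ) ≤ D.tl (x + t) ∧ ∀ a : α, D.mass i (fun ω => X ω = a) ≤ D.tl (-(x - t)) * D.tot i

/-- the atom lies in the slab `|n · (Z, |Z|²) - c| ≤ w` -/
def InSlab (b j : ℕ) (n : ℝ × ℝ × ℝ) (c w : ℝ) (ω : D.Row b) : Prop :=
  |n.1 * (D.Zv b j ω).1 + n.2.1 * (D.Zv b j ω).2 + n.2.2 * rtSq (D.Zv b j ω) - c| ≤ w

/-- **the properties of a document.**   `η` weight exponent, `p d` extremal exponents, `t` tolerance, `N` order of the negligible terms, `K` fine depth of the queries, `es` slab exponent, `ts` exponent of the number of removable portions   (`t N` in mesh steps; `es ts` relative to the step `S` of the query). -/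
structure Ok (η p d t N : ℝ) (K : ℕ) (es ts : ℝ) : Prop where
  H_pos : 0 < D.H
  e_pos : 0 < D.e
  ka_pos : 0 < D.ka
  ms_nn : ∀ i ω, 0 ≤ D.ms i ω
  /-- (CE): the selected raw mass -/
  massLo : ∀ i, 0 < i → i < D.q → D.tl (-t) * D.Eb d i ≤ D.tot i
  massHi : ∀ i, 0 < i → i < D.q → D.tot i ≤ D.tl t * D.Eb d i
  /-- intervalwise regularity of the selected raw rows -/
  reg : ∀ i, 0 < i → i < D.q → ∀ (I : ℕ) (Q : RdTst), (Q.toT (D.dp i)).Adm 1 → rdD D.H (D.dp i) ≤ Q.r * Q.f →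
    D.mass i (fun ω => D.iv i ω = I ∧ D.pt i ω ∈ Q.rows (D.dp i)) ≤ D.tl t * D.Kb p i * Q.wt η
  /-- (rt-weight-count), (round-Pl), `f = s^o(1)` -/
  lbAdm : ∀ i, 0 < i → i < D.q → ∀ u : D.Lb i, ((D.lQ i u).toT (D.dp i)).Adm 1 ∧ rdD D.H (D.dp i) ≤ (D.lQ i u).r * (D.lQ i u).f ∧
    (D.lQ i u).r ≤ D.tl t * rdD D.H (D.dp i) ∧ D.tl (-t) ≤ (D.lQ i u).f
  lbCnt : ∀ i, 0 < i → i < D.q → ∑ u : D.Lb i, (D.lQ i u).wt η ≤ D.tl t * (D.Eb d i / D.Kb p i)
  lbCov : ∀ i, 0 < i → i < D.q → ∀ ω : D.Row i, 0 < D.ms i ω → ∃ u : D.Lb i, D.lI i u = D.iv i ω ∧ D.pt i ω ∈ ((D.lQ i u).toT (D.dp i)).set 2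
  /-- lem:rt-laws, rarity transfer -/
  rar : ∀ i l, 0 < i → i < l → l < D.q → ∀ (T : D.Row l → Prop) (Sg : D.Row i → Prop),
    (∀ ω ω', T ω' → D.Conn (D.tl t) i l ω ω' → Sg ω) →
    D.mass l T / D.tot l ≤ D.tl t * (D.mass i Sg / D.tot i) ^ (2 / 3 : ℝ) + D.tl (-N)
  /-- contraction on every interval of the later cut -/
  tp : ∀ i l, 0 < i → i < l → l < D.q → ∀ T : D.Row l → Prop,
    D.mass l T ≤ D.tl t * ∑ J ∈ (Finset.univ.image (D.iv l)),
        D.mass i (fun ω => ∃ ω', T ω' ∧ D.iv l ω' = J ∧ D.Conn (D.tl t) i l ω ω') + D.tl (-N) * D.tot l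
  /-- preflattening -/
  flatC : ∀ i j, RnVal D.q i j → i < D.q → D.Flat i (D.nm i i j) (D.Dn i j) t
  flatG : ∀ i j w, RnVal D.q i w → i < D.q → j ≤ w → D.Flat i (fun ω => (D.nm i i j ω, D.an i w ω)) (D.Gn i j w) t
  /-- lem:rt-slab-removal, model half: removable portions cannot carry the certificate -/
  slab : ∀ i j S, 0 < S → RnDom D.q K i j S → ∀ (Np : ℕ), (Np : ℝ) ≤ D.tl (ts * S) →
    ∀ (Rm : D.Row (i + K * S) → Prop) (lab : D.Row (i + K * S) → Fin Np) (pn : ReName × ReName → Fin Np → ℝ × ℝ × ℝ)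
      (pc : ReName × ReName → Fin Np → ℝ),
      (∀ x ν, (pn x ν).1 ^ 2 + (pn x ν).2.1 ^ 2 + (pn x ν).2.2 ^ 2 = 1) →
      (∀ ω, Rm ω → D.InSlab (i + K * S) j (pn (D.nm (i + K * S) i j ω, D.nm (i + K * S) (i + K * S) j ω) (lab ω))
        (pc (D.nm (i + K * S) i j ω, D.nm (i + K * S) (i + K * S) j ω) (lab ω)) (D.tl (-(es * S))) ω) →
      D.tl (-t) * D.tot (i + K * S) ≤ D.mass (i + K * S) (fun ω => ¬ Rm ω)

end ReDoc

theorem re_doc_eqns_cite : True := by
  have := @reCell.eq_1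
  have := @reCell2.eq_1
  have := @reCor2.eq_1
  have := @reNm.eq_1
  have := @ReDoc.dp.eq_1
  have := @ReDoc.len.eq_1
  have := @ReDoc.R0.eq_1
  have := @ReDoc.Rw.eq_1
  have := @ReDoc.tl.eq_1
  have := @ReDoc.tm.eq_1
  have := @ReDoc.anc.eq_1
  have := @ReDoc.back.eq_1
  have := @ReDoc.nm.eq_1
  have := @ReDoc.an.eq_1
  have := @ReDoc.Zv.eq_1
  have := @ReDoc.tot.eq_1
  have := @ReDoc.mass.eq_1
  have := @ReDoc.Conn.eq_1
  have := @ReDoc.Eb.eq_1
  have := @ReDoc.Kb.eq_1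
  have := @ReDoc.nval.eq_1
  have := @ReDoc.Flat.eq_1
  have := @ReDoc.InSlab.eq_1
  trivial

end Claimed.Agent.R256
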