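-- KEEP
import Claimed.Agent.R256.Re.Doc
import Claimed.Agent.R255.Ent.Basic

/-!
# Row 256, unit RE, block II (`ReDoc ⟹ RnProf`), file 1: DEFINITIONS      (architect helper159; prefix `re`)      DEFINITIONS ONLY

Source: 08-round-entropy.tex l.605-975 (preflattening, lem:rt-stability, prop:rt-profiles, (query), lem:rt-time, greedy half of lem:rt-slab-removal), l.1078-1141 (O, point score, first paragraph of (rv)).
Everything here is FINITE and OPERATOR FREE: a document `D : ReDoc` (`Re/Doc.lean`), finite laws `R255.FLaw`.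

FILES
* `Re/Prof.lean`      definitions: unit `D.u`, laws `D.law b R`, query coordinates `D.th, D.Wv, reO, D.Ov`, the query `D.qry`, the arrays `D.Dp, D.Jp`, `ReNear` (accuracy relation), `reGn` (general phase name), `ReDet` (bounded lists), `reTyp` (typical surprise), `ReSm` (smallness of the tolerances).
* `Re/ProfKit.lean`   paper free kit: bounded lists, typical surprise, entropy tails, abstract stability, greedy removal.
* `Re/ProfGeo.lean`   deterministic geometry of the names: scales, `ReNear` calculus, the list lemma, exact cell identities, refinement lists.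
* `Re/ProfArr.lean`   stability on the document, the arrays (`RnArr`).
* `Re/ProfQry.lean`   the fields of `RnQ.Ok` on the residual law.
* `Re/ProfMain.lean`  glue: `re_prof`.

CONVENTIONS
* query `(i, j, S)`, `S = r σ`, measuring cut `b = i + K S`;   base `M = 2 ^ (D.m * σ)`;   `ρ = M^-r = 2^-(m S)`.
* one mesh step `= D.u = m log 2` natural units;  `D.tl t = exp (t D.u)`.
* `t` tolerance of the document, `ζ` tolerance of the typical scores (`20 t ≤ ζ`), `τ` tolerance of the consumer (`100 ζ ≤ τ`);  failure probability of a typical score `3 D.tl (-(ζ/4))`.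
-/

set_option autoImplicit false

namespace Claimed.Agent.R256

open Claimed.Agent.R255
open Claimed.Agent.R255.FLaw (pair)
open scoped BigOperators
open Classical

/-- `B` is determined by `A` up to `N` values -/
def ReDet {Ω α β : Type} (A : Ω → α) (B : Ω → β) (N : ℝ) : Prop :=
  ∃ L : α → Finset β, (∀ x, ((L x).card : ℝ) ≤ N) ∧ ∀ ω, B ω ∈ L (A ω)

/-- the surprise of `X` is `x ± ζ` (natural units) off probability `δ` -/
def reTyp {Ω α : Type} [Fintype Ω] (P : FLaw Ω) (X : Ω → α) (x ζ δ : ℝ) : Prop :=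
  P.pr (fun ω => ζ < |(- Real.log (P.fib X ω)) - x|) ≤ δ

/-- two rows at the same time agree to the accuracy `(δ, l δ, l δ²)` up to the factor `Λ` -/
def ReNear (Λ l δ : ℝ) (p p' : RtRow) : Prop :=
  rtSq (p'.A - p.A) ≤ (Λ * δ) ^ 2 ∧ rtSq (p'.b - p.b) ≤ (Λ * l * δ) ^ 2 ∧
  |p'.y - p.y - 2 * rtIp p.A (p'.b - p.b)| ≤ Λ ^ 2 * l * δ ^ 2

/-- general phase name: angle at the width `R1`, position at the widths `l R2`, `l R R2`, tilt at the corner of the angular cell of width `R`.
`reNm l R = reGn l R R R`;   `(C, A_w) ≅ reGn l R R_w R`;   `(C, Y#) ≅ reGn l R R' R'`, `R' = R ρ^K`. -/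
noncomputable def reGn (l R R1 R2 : ℝ) (p : RtRow) : (ℤ × ℤ) × (ℤ × ℤ) × ℤ :=
  (reCell2 R1 p.A, reCell2 (l * R2) p.b, reCell (l * R * R2) (p.y - 2 * rtIp (reCor2 R p.A) p.b))

/-- fractional part in units of `w` -/
noncomputable def reFr (w x : ℝ) : ℝ := Int.fract (x / w)

/-- the representative `O` of (rt-incidence-point) as an explicit function of the two names `c = C(a, v)` (depth `ki`), `c' = C(a + K h, v)` (depth `kb`) -/
noncomputable def reO (ki kb : ℕ) (R : ℝ) (c c' : ReName) : Fin 4 → ℝ :=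
  ![(tmL kb c'.1 - tmL ki c.1) / rdLen ki,
    (rdLen kb * R * c'.2.2.1.1 - (tmL kb c'.1 - tmL ki c.1) * (R * c.2.1.1) - rdLen ki * R * c.2.2.1.1) / (rdLen ki * R),
    (rdLen kb * R * c'.2.2.1.2 - (tmL kb c'.1 - tmL ki c.1) * (R * c.2.1.2) - rdLen ki * R * c.2.2.1.2) / (rdLen ki * R),
    (rdLen kb * R ^ 2 * c'.2.2.2 + (tmL kb c'.1 - tmL ki c.1) * ((R * c.2.1.1) ^ 2 + (R * c.2.1.2) ^ 2)
      - rdLen ki * R ^ 2 * c.2.2.2) / (rdLen ki * R ^ 2)]

namespace ReDoc

variable (D : ReDoc)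

/-- one mesh step in natural units -/
noncomputable def u : ℝ := D.m * Real.log 2

/-- the normalised raw law of the cut `b`, restricted to `R` -/
noncomputable def law (b : ℕ) (R : D.Row b → Prop) (h0 : ∀ ω, 0 ≤ D.ms b ω) (h : 0 < D.mass b R) : FLaw (D.Row b) where
  p := fun ω => (if R ω then D.ms b ω else 0) / D.mass b R
  nonneg := fun ω => div_nonneg (by split_ifs; exacts [h0 ω, le_refl 0]) h.le
  sum_one := by
    rw [← Finset.sum_div]
    exact div_self h.ne'

/-- `θ = (T_b - T_a) / ℓ_a` -/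
noncomputable def th (b i : ℕ) (ω : D.Row b) : ℝ := (D.tm b ω - tmL (D.dp i) (D.anc b i ω)) / D.len i

/-- the tilted height `y(T_a) - 2 A_v · b(T_a)` -/
noncomputable def hv (b i j : ℕ) (ω : D.Row b) : ℝ :=
  (D.back b i ω).y - 2 * rtIp (reCor2 (D.Rw j) (D.back b i ω).A) (D.back b i ω).b

/-- `W` : position at `T_a`, central tilt, bin origins of `C` subtracted, in units of the grid of `C` -/
noncomputable def Wv (b i j : ℕ) (ω : D.Row b) : ℝ × ℝ × ℝ :=
  (reFr (D.len i * D.Rw j) (D.back b i ω).b.1, reFr (D.len i * D.Rw j) (D.back b i ω).b.2,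
    reFr (D.len i * D.Rw j ^ 2) (D.hv b i j ω))

/-- `O` -/
noncomputable def Ov (b i j : ℕ) (ω : D.Row b) : Fin 4 → ℝ :=
  reO (D.dp i) (D.dp b) (D.Rw j) (D.nm b i j ω) (D.nm b b j ω)

/-- the tangent query `(i, j)` measured at the cut `b` under the law `P` -/
noncomputable def qry (i j b : ℕ) (P : FLaw (D.Row b)) : RnQ where
  Ω := D.Row b
  fin := D.fin b
  P := P
  α := ReName
  β := ReName
  C := D.nm b i j
  C' := D.nm b b j
  Z := D.Zv b j
  W := D.Wv b i j
  th := D.th b i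
  O := D.Ov b i j

/-- cells of the query coordinates (`= (D.qry i j b P).Zc M k` etc., by `rfl`) -/
noncomputable def Zc (b j M k : ℕ) : D.Row b → ℤ × ℤ := fun ω => rnCell2 M k (D.Zv b j ω)
noncomputable def Wc (b i j M k : ℕ) : D.Row b → ℤ × ℤ × ℤ := fun ω => rnCell3 M k (D.Wv b i j ω)
noncomputable def tc (b i M k : ℕ) : D.Row b → ℤ := fun ω => rnCell M k (D.th b i ω)
noncomputable def Oc (b i j M k : ℕ) : D.Row b → Fin 4 → ℤ := fun ω => rnCell4 M k (D.Ov b i j ω)

/-- the common offset `log_{1/s}(e/κ)` in mesh steps (`κ` in units of the angular unit `R0`) -/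
noncomputable def sh : ℝ := Real.logb 2 (D.e / (D.ka * D.R0 ^ 4)) / D.m

/-- the profile `D(a, v)` in mesh units (at the corner `i = q`, where there is no cut: crude extension) -/
noncomputable def Dp (i j : ℕ) : ℝ := if i < D.q then D.Dn i j - D.sh else D.Dn (D.q - 1) j - D.sh + 4

/-- the profile `J(a, v, w)` in mesh units -/
noncomputable def Jp (i j w : ℕ) : ℝ := if i < D.q then D.Gn i j w - D.Dn i j else 0

/-- failure probability of a typical score at the tolerance `ζ` -/
noncomputable def dl (ζ : ℝ) : ℝ := 3 * D.tl (-(ζ / 4))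

end ReDoc

/-- **smallness of the tolerances** : `t` (document) `≪ ζ` (typical scores) `≪ τ` (consumer), `m` large -/
structure ReSm (D : ReDoc) (t ζ τ : ℝ) : Prop where
  t_pos : 0 < t
  tz : 20 * t ≤ ζ
  zt : 100 * ζ ≤ τ
  t1 : τ ≤ 1
  /-- absolute constants are absorbed -/
  big : (2 : ℝ) ^ 60 ≤ D.tl t
  /-- failure probabilities beat the number of mesh steps -/
  del : 1000 * D.q * D.dl ζ ≤ τ
  ubig : 1000 ≤ τ * D.u

/-- **the context of one query** `(i, j, S)`, `S = r σ`, measured at `b = i + K S` on the residual set `R` -/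
structure ReCtx (D : ReDoc) (η p d t N : ℝ) (K : ℕ) (es ts ζ τ : ℝ) (r σ i j S : ℕ) (R : D.Row (i + K * S) → Prop) : Prop where
  ok : D.Ok η p d t N K es ts
  sm : ReSm D t ζ τ
  N1 : 1 ≤ N
  eta0 : 0 < η
  eta1 : η < 1
  d0 : 0 < d
  d1 : d ≤ 1
  r1 : 1 ≤ r
  s1 : 1 ≤ σ
  K2 : 2 ≤ K
  hS : S = r * σ
  dom : RnDom D.q K i j S
  res : D.tl (-t) * D.tot (i + K * S) ≤ D.mass (i + K * S) R
  pos : 0 < D.mass (i + K * S) R

/-- the residual law of the query -/
noncomputable def ReCtx.P {D : ReDoc} {η p d t N : ℝ} {K : ℕ} {es ts ζ τ : ℝ} {r σ i j S : ℕ} {R : D.Row (i + K * S) → Prop}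
    (c : ReCtx D η p d t N K es ts ζ τ r σ i j S R) : FLaw (D.Row (i + K * S)) :=
  D.law (i + K * S) R (c.ok.ms_nn _) c.pos

/-- the query -/
noncomputable def ReCtx.Q {D : ReDoc} {η p d t N : ℝ} {K : ℕ} {es ts ζ τ : ℝ} {r σ i j S : ℕ} {R : D.Row (i + K * S) → Prop}
    (c : ReCtx D η p d t N K es ts ζ τ r σ i j S R) : RnQ :=
  D.qry i j (i + K * S) c.P

theorem re_prof_eqns_cite : True := by
  have := @ReCtx.P.eq_1
  have := @ReCtx.Q.eq_1
  have := @ReDet.eq_1
  have := @reTyp.eq_1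
  have := @ReNear.eq_1
  have := @reGn.eq_1
  have := @reFr.eq_1
  have := @reO.eq_1
  have := @ReDoc.u.eq_1
  have := @ReDoc.law.eq_1
  have := @ReDoc.th.eq_1
  have := @ReDoc.hv.eq_1
  have := @ReDoc.Wv.eq_1
  have := @ReDoc.Ov.eq_1
  have := @ReDoc.qry.eq_1
  have := @ReDoc.Zc.eq_1
  have := @ReDoc.Wc.eq_1
  have := @ReDoc.tc.eq_1
  have := @ReDoc.Oc.eq_1
  have := @ReDoc.sh.eq_1
  have := @ReDoc.Dp.eq_1
  have := @ReDoc.Jp.eq_1
  have := @ReDoc.dl.eq_1
  trivial

end Claimed.Agent.R256
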