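import Claimed.Agent.R256.Re.ProfQry

/-!
# Row 256, unit RE, block II, file 6: GLUE `documents ⟹ RnProf`      (architect helper159)

`re_prof_main` has EXACTLY the hypotheses of `re_prof` of `Re/Contract.lean` with `ReSrc` unfolded.
Order of the constants:  `e τ es r N M0` → `ts` (source) → `τ' = min (min τ e) 1`, `ζ = τ'/100`, `t = min (ζ/20) (ts/4)` → `m0` (`re_sm_exists`, `re_tl_small`, `M0`) → the document.
LEAVES
* L-256-RE-M1  `re_sm_exists`, `re_tl_small`, `re_arr_mono`, `re_arr_triv`      200 l.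
* L-256-RE-M2  `re_prof_doc`, `re_prof_main`      (glue)      250 l.
-/

set_option autoImplicit false

namespace Claimed.Agent.R256

open Claimed.Agent.R255
open Claimed.Agent.R255.FLaw (pair)
open scoped BigOperators
open Classical

/-- helper of L-256-RE-M1 -/
theorem re_m1_pow_small (x τ : ℝ) (hx : 0 < x) (hτ : 0 < τ) (m : ℕ) (hm : 2 / (x * τ) ≤ (m : ℝ)) :
    (2 : ℝ) ^ (-x * m) ≤ τ := by
  have hl : (1 : ℝ) / 2 ≤ Real.log 2 := by
    have := Real.log_two_gt_d9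
    linarith
  have hm0 : (0 : ℝ) ≤ m := Nat.cast_nonneg m
  have h1 : 2 ≤ (m : ℝ) * (x * τ) := by
    rwa [div_le_iff₀ (mul_pos hx hτ)] at hm
  have h2 : x * m / 2 ≤ (2 : ℝ) ^ (x * m) := by
    rw [Real.rpow_def_of_pos (by norm_num : (0 : ℝ) < 2)]
    have h3 := Real.add_one_le_exp (Real.log 2 * (x * m))
    have h4 : (1 / 2 : ℝ) * (x * m) ≤ Real.log 2 * (x * m) :=
      mul_le_mul_of_nonneg_right hl (mul_nonneg hx.le hm0)
    linarith
  have h5 : 1 / τ ≤ (2 : ℝ) ^ (x * m) := by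
    refine le_trans ?_ h2
    rw [div_le_iff₀ hτ]
    nlinarith
  have h6 : (2 : ℝ) ^ (-x * m) = ((2 : ℝ) ^ (x * m))⁻¹ := by
    rw [← Real.rpow_neg (by norm_num : (0 : ℝ) ≤ 2)]
    congr 1
    ring
  rw [h6]
  have h7 : (0 : ℝ) < 1 / τ := by positivity
  calc ((2 : ℝ) ^ (x * m))⁻¹ ≤ (1 / τ)⁻¹ := inv_anti₀ h7 h5
    _ = τ := by rw [one_div, inv_inv]

/-- (leaf L-256-RE-M1, proved helper225) -/
theorem re_tl_small (x τ : ℝ) (hx : 0 < x) (hτ : 0 < τ) : ∃ m0 : ℕ, ∀ D : ReDoc, m0 ≤ D.m → D.tl (-x) ≤ τ := by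
  obtain ⟨m0, hm0⟩ := exists_nat_ge (2 / (x * τ))
  refine ⟨m0, fun D hD => ?_⟩
  unfold ReDoc.tl
  exact re_m1_pow_small x τ hx hτ D.m (le_trans hm0 (by exact_mod_cast hD))

/-- the tolerances are small as soon as `m` is large   (leaf L-256-RE-M1, proved helper225) -/
theorem re_sm_exists (t ζ τ : ℝ) (q : ℕ) (ht : 0 < t) (htz : 20 * t ≤ ζ) (hzt : 100 * ζ ≤ τ) (hτ1 : τ ≤ 1) :
    ∃ m0 : ℕ, ∀ D : ReDoc, D.q = q → m0 ≤ D.m → ReSm D t ζ τ := by
  have hζ : 0 < ζ := by linarith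
  have hτ : 0 < τ := by linarith
  obtain ⟨m1, hm1⟩ := exists_nat_ge (60 / t)
  obtain ⟨m2, hm2⟩ := re_tl_small (ζ / 4) (τ / (3000 * ((q : ℝ) + 1))) (by positivity) (by positivity)
  obtain ⟨m3, hm3⟩ := exists_nat_ge (2000 / τ)
  refine ⟨max m1 (max m2 m3), fun D hq hD => ?_⟩
  have hD1 : m1 ≤ D.m := le_trans (le_max_left _ _) hD
  have hD2 : m2 ≤ D.m := le_trans (le_trans (le_max_left _ _) (le_max_right _ _)) hD
  have hD3 : m3 ≤ D.m := le_trans (le_trans (le_max_right _ _) (le_max_right _ _)) hD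
  refine ⟨ht, htz, hzt, hτ1, ?_, ?_, ?_⟩
  · unfold ReDoc.tl
    have h1 : (60 : ℝ) ≤ t * D.m := by
      have h2 : 60 / t ≤ (D.m : ℝ) := le_trans hm1 (by exact_mod_cast hD1)
      rw [div_le_iff₀ ht] at h2
      linarith
    calc (2 : ℝ) ^ 60 = (2 : ℝ) ^ ((60 : ℕ) : ℝ) := (Real.rpow_natCast 2 60).symm
      _ ≤ (2 : ℝ) ^ (t * D.m) := Real.rpow_le_rpow_of_exponent_le (by norm_num) (by push_cast; exact h1)
  · have h1 := hm2 D hD2
    unfold ReDoc.dl
    rw [hq]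
    have hq0 : (0 : ℝ) ≤ q := Nat.cast_nonneg q
    have h0 : 0 ≤ D.tl (-(ζ / 4)) := by
      unfold ReDoc.tl
      positivity
    rw [le_div_iff₀ (by positivity)] at h1
    nlinarith
  · unfold ReDoc.u
    have hl : (1 : ℝ) / 2 ≤ Real.log 2 := by
      have := Real.log_two_gt_d9
      linarith
    have h2 : 2000 / τ ≤ (D.m : ℝ) := le_trans hm3 (by exact_mod_cast hD3)
    rw [div_le_iff₀ hτ] at h2
    have h3 : (D.m : ℝ) * τ * (1 / 2) ≤ (D.m : ℝ) * τ * Real.log 2 :=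
      mul_le_mul_of_nonneg_left hl (by positivity)
    nlinarith

/-- (leaf L-256-RE-M1, proved helper225) -/
theorem re_arr_mono {n : ℕ} {pd e e' : ℝ} {D : ℕ → ℕ → ℝ} {J : ℕ → ℕ → ℕ → ℝ} (h : RnArr n pd e D J) (he : e ≤ e') :
    RnArr n pd e' D J :=
  { dvLo := fun i j j' h1 h2 => by have := h.dvLo i j j' h1 h2; linarith
    dvHi := fun i j j' h1 h2 => by have := h.dvHi i j j' h1 h2; linarith
    daLo := fun i i' j h0 h1 h2 => by have := h.daLo i i' j h0 h1 h2; linarith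
    daHi := fun i i' j h0 h1 h2 => by have := h.daHi i i' j h0 h1 h2; linarith
    exc := fun i j h1 => by have := h.exc i j h1; linarith
    bdry := fun i j h0 h1 h2 => by have := h.bdry i j h0 h1 h2; linarith
    jDiag := fun i u h1 => le_trans (h.jDiag i u h1) he
    jLo := fun i u q h1 h2 => by have := h.jLo i u q h1 h2; linarith
    jHi := fun i u q h1 h2 => by have := h.jHi i u q h1 h2; linarith
    jIncr := fun i u u' a b h1 h2 h3 h4 => by have := h.jIncr i u u' a b h1 h2 h3 h4; linarith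
    jMono := fun i i' u q h0 h1 h2 h3 => by have := h.jMono i i' u q h0 h1 h2 h3; linarith }

/-- the trivial arrays (used when no query is admissible)   (leaf L-256-RE-M1, proved helper225) -/
theorem re_arr_triv (n : ℕ) {pd e : ℝ} (h0 : 0 ≤ pd) (h4 : pd ≤ 4) (he : 0 ≤ e) :
    RnArr n pd e (fun i j => pd * i + 4 * j) (fun _ _ _ => 0) :=
  { dvLo := fun i j j' _ h2 => by
      have : (j : ℝ) ≤ j' := by exact_mod_cast h2
      linarith
    dvHi := fun i j j' _ h2 => by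
      have : (j : ℝ) ≤ j' := by exact_mod_cast h2
      linarith
    daLo := fun i i' j _ _ h2 => by
      have : (i : ℝ) ≤ i' := by exact_mod_cast h2
      nlinarith
    daHi := fun i i' j _ _ h2 => by
      have : (i : ℝ) ≤ i' := by exact_mod_cast h2
      nlinarith
    exc := fun i j _ => by linarith
    bdry := fun i j _ _ _ => by linarith
    jDiag := fun i u _ => by simpa using he
    jLo := fun i u q _ _ => by linarith
    jHi := fun i u q _ _ => by linarith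
    jIncr := fun i u u' a b _ _ _ _ => by linarith
    jMono := fun i i' u q _ _ _ _ => by linarith }

/-- helper of L-256-RE-M1 -/
theorem re_m1_pr_mono {Ω : Type} [Fintype Ω] (P : FLaw Ω) {E F : Ω → Prop} (h : ∀ ω, E ω → F ω) : P.pr E ≤ P.pr F := by
  classical
  unfold FLaw.pr
  refine Finset.sum_le_sum fun ω _ => ?_
  by_cases hE : E ω
  · rw [if_pos hE, if_pos (h ω hE)]
  · rw [if_neg hE]
    split_ifs
    · exact P.nonneg ω
    · exact le_rfl

/-- helper of L-256-RE-M1 -/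
theorem re_m1_pr_nonneg {Ω : Type} [Fintype Ω] (P : FLaw Ω) (E : Ω → Prop) : 0 ≤ P.pr E := by
  classical
  unfold FLaw.pr
  refine Finset.sum_nonneg fun ω _ => ?_
  split_ifs
  · exact P.nonneg ω
  · exact le_rfl

/-- tolerance of a query is monotone (same statement as `rn_ok_mono` of `Rnd/Contract.lean`, which is not imported here)   (leaf L-256-RE-M1, proved helper225) -/
theorem re_ok_mono {q : RnQ} {M r K : ℕ} {A d τ τ' es oT dv st : ℝ} {jj : ℕ → ℝ} (hM : 1 ≤ M) (hτ : τ ≤ τ')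
    (h : q.Ok M r K A d τ es oT dv st jj) : q.Ok M r K A d τ' es oT dv st jj := by
  have hL : 0 ≤ Real.log M := Real.log_nonneg (by exact_mod_cast hM)
  exact
  { bdZ := h.bdZ
    bdW := h.bdW
    bdt := h.bdt
    inc := h.inc
    ofun := h.ofun
    time := fun k k' hk hk' => by
      refine le_trans (le_trans (re_m1_pr_mono q.P fun ω hω => ?_) (h.time k k' hk hk')) hτ
      refine lt_of_lt_of_le hω (mul_le_mul_of_nonneg_right ?_ hL)
      linarith
    ang := fun k k' hk hk' => by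
      refine le_trans (le_trans (re_m1_pr_mono q.P fun ω hω => ?_) (h.ang k k' hk hk')) hτ
      refine lt_of_lt_of_le hω (mul_le_mul_of_nonneg_right ?_ hL)
      linarith
    angU := h.angU.trans (mul_le_mul_of_nonneg_right (by linarith) hL)
    stat := h.stat.trans (mul_le_mul_of_nonneg_right (by linarith) hL)
    pt := h.pt.trans (mul_le_mul_of_nonneg_right (by linarith) hL)
    wid := le_trans (mul_le_mul_of_nonneg_right (by linarith) hL) h.wid
    slab := by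
      refine le_trans (le_trans (re_m1_pr_mono q.P fun ω hω => ?_) h.slab) hτ
      obtain ⟨n, c, h1, h2⟩ := hω
      refine ⟨n, c, h1, lt_of_le_of_lt (mul_le_mul_of_nonneg_right hτ ?_) h2⟩
      exact re_m1_pr_nonneg _ _ }

/-- **one good document gives PROF** -/
theorem re_prof_doc {D : ReDoc} {η p d t Nn es ts ζ τ : ℝ} {K r N M0 : ℕ} (h : D.Ok η p d t Nn K es ts) (sm : ReSm D t ζ τ)
    (hNn : 1 ≤ Nn) (hη0 : 0 < η) (hη1 : η < 1) (hd0 : 0 < d) (hd1 : d ≤ 1) (hpd : p + d ≤ 4) (hr : 2 ≤ r) (hN : 1 ≤ N)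
    (hK : 2 ≤ K) (hq : D.q = r ^ N) (hts : 4 * t ≤ ts) (hts' : D.tl (-(ts / 4)) ≤ τ) (hM0 : M0 ≤ D.m) (k0 : ℕ) {A : ℝ}
    (hA : 1 ≤ A) : RnProf r N k0 K M0 A d (p + d) τ τ es := by
  have hq2 : 2 ≤ D.q := by
    rw [hq]
    calc 2 ≤ r := hr
      _ = r ^ 1 := (pow_one r).symm
      _ ≤ r ^ N := Nat.pow_le_pow_right (by omega) hN
  have hts0 : 0 ≤ ts := le_trans (by have := sm.t_pos; positivity) hts
  refine ⟨D.Dp, D.Jp, ?_, ?_⟩
  · rw [← hq]
    exact re_arr h sm hNn hη0 hη1 hq2 hpd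
  · intro k _ hkN i j hdom
    rw [← hq] at hdom
    have hS : r ^ (N - k) = r * r ^ (N - k - 1) := by
      rw [← pow_succ']
      congr 1
      omega
    obtain ⟨R, hres, hRes⟩ := re_slab_res h hts0 (Nat.pow_pos (by omega)) hdom
    have hb0 : 0 < i + K * r ^ (N - k) := lt_of_lt_of_le hdom.1 (Nat.le_add_right _ _)
    have hbq : i + K * r ^ (N - k) < D.q := by
      have := hdom.2.2
      omega
    have hpos : 0 < D.mass (i + K * r ^ (N - k)) R :=
      lt_of_lt_of_le (mul_pos (re_tl_pos D _) (re_tot_pos h hb0 hbq)) hres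
    have hσ : 1 ≤ r ^ (N - k - 1) := Nat.one_le_pow _ _ (by omega)
    have c : ReCtx D η p d t Nn K es ts ζ τ r (r ^ (N - k - 1)) i j (r ^ (N - k)) R :=
      ⟨h, sm, hNn, hη0, hη1, hd0, hd1, by omega, hσ, hK, hS, hdom, hres, hpos⟩
    refine ⟨c.Q, D.m * r ^ (N - k - 1), ?_, ?_⟩
    · exact le_trans hM0 (Nat.le_mul_of_pos_right _ (by omega))
    · have := re_q_ok c hRes hts hts' hA
      rw [Nat.cast_pow] at this
      exact this

/-- **BLOCK (II)** -/
theorem re_prof_main (η Γ d : ℝ) (hη0 : 0 < η) (hη1 : η < 1) (hd0 : 0 < d) (hd1 : d ≤ 1) (hΓ : 0 < Γ) (hΓd : Γ ≤ d)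
    (h : ∀ (q : ℕ) (es : ℝ), 0 < es → ∃ ts : ℝ, 0 < ts ∧ ∀ (t N : ℝ) (m0 : ℕ), 0 < t →
      ∃ D : ReDoc, D.q = q ∧ m0 ≤ D.m ∧ D.Ok η (1 + 2 * d - 2 * Γ) d t N 3 es ts)
    (r N k0 M0 : ℕ) (e τ es : ℝ) (hr : 2 ≤ r) (he : 0 < e) (hτ : 0 < τ) (hes : 0 < es) :
    RnProf r N k0 3 M0 4 d (1 + 3 * d - 2 * Γ) e τ es := by
  rcases Nat.eq_zero_or_pos N with hN | hN
  · subst hN
    refine ⟨_, _, re_arr_triv _ (by linarith) (by linarith) he.le, ?_⟩
    intro k _ hk
    omega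
  · obtain ⟨ts, hts, hD⟩ := h (r ^ N) es hes
    obtain ⟨τ', hτ'⟩ : ∃ τ' : ℝ, τ' = min (min τ e) 1 := ⟨_, rfl⟩
    have hτ'0 : 0 < τ' := by
      rw [hτ']
      exact lt_min (lt_min hτ he) one_pos
    have hτ'τ : τ' ≤ τ := by
      rw [hτ']
      exact (min_le_left _ _).trans (min_le_left _ _)
    have hτ'e : τ' ≤ e := by
      rw [hτ']
      exact (min_le_left _ _).trans (min_le_right _ _)
    have hτ'1 : τ' ≤ 1 := by
      rw [hτ']
      exact min_le_right _ _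
    obtain ⟨t, ht⟩ : ∃ t : ℝ, t = min (τ' / 100 / 20) (ts / 4) := ⟨_, rfl⟩
    have ht0 : 0 < t := by
      rw [ht]
      exact lt_min (by positivity) (by positivity)
    have ht1 : 20 * t ≤ τ' / 100 := by
      have : t ≤ τ' / 100 / 20 := by
        rw [ht]
        exact min_le_left _ _
      linarith
    have ht2 : 4 * t ≤ ts := by
      have : t ≤ ts / 4 := by
        rw [ht]
        exact min_le_right _ _
      linarith
    obtain ⟨m1, hm1⟩ := re_sm_exists t (τ' / 100) τ' (r ^ N) ht0 ht1 (by linarith) hτ'1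
    obtain ⟨m2, hm2⟩ := re_tl_small (ts / 4) τ' (by positivity) hτ'0
    obtain ⟨D, hq, hm, hOk⟩ := hD t 1 (max (max m1 m2) M0) ht0
    have hp := re_prof_doc (M0 := M0) hOk (hm1 D hq (le_trans ((le_max_left _ _).trans (le_max_left _ _)) hm)) le_rfl hη0 hη1 hd0 hd1
      (by linarith) hr hN (by norm_num) hq ht2 (hm2 D (le_trans ((le_max_right _ _).trans (le_max_left _ _)) hm))
      (le_trans (le_max_right _ _) hm) k0 (A := 4) (by norm_num)
    have hpd : 1 + 2 * d - 2 * Γ + d = 1 + 3 * d - 2 * Γ := by ring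
    rw [hpd] at hp
    obtain ⟨Dd, J, hArr, hQ⟩ := hp
    refine ⟨Dd, J, re_arr_mono hArr hτ'e, ?_⟩
    intro k hk0 hkN i j hdom
    obtain ⟨q, b, hb, hok⟩ := hQ k hk0 hkN i j hdom
    exact ⟨q, b, hb, re_ok_mono Nat.one_le_two_pow hτ'τ hok⟩

end Claimed.Agent.R256
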