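import Claimed.Agent.R256.Re.ProfKit

/-!
# Row 256, unit RE, block II, file 3: DETERMINISTIC GEOMETRY OF THE NAMES      (architect helper159)

No probability, no `Ok`: only `0 < D.H`, floors and real algebra.   Source: (grid) 08 l.519-531, proof of lem:rt-stability l.646-660, prop:rt-profiles l.714-727, (query) l.788-805, (rt-incidence-point) l.1078-1092, (rv) l.1121-1127.
NOTATION  `ℓ_i = D.len i`, `R_j = D.Rw j`, `d_i = rdD D.H (D.dp i)` (`= R_j` iff `2 j + i = q`), `T_i = tmL (D.dp i) (D.anc b i ω)`, `p_i = D.back b i ω`.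
LEAVES
* L-256-RE-G0  scales and ancestors (`re_len_*`, `re_Rw_*`, `re_tl_*`, `re_rdD_*`, `re_anc_*`, `re_back_*`, `re_gap`)      200 l.
* L-256-RE-G1  `ReNear` calculus (`re_near_*`), `re_near_conn`      200 l.
* L-256-RE-G2  THE LIST LEMMA `re_list`      350 l.
* L-256-RE-G3  `re_acc_list`, `re_label_list`, `re_cell_tests`      (from G0-G2)   350 l.
* L-256-RE-G4  exact cell identities `re_cell_fr`, `re_Zc_eq`, `re_tc_eq`, `re_Wc_eq`, `re_an_*`      250 l.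
* L-256-RE-G5  width refinement `re_det_w_dn`, `re_det_w_up`, `re_det_Y`      400 l.
* L-256-RE-G6  depth refinement `re_det_a_dn`, `re_det_a_up`      400 l.
* L-256-RE-G7  `re_q_bd`, `re_q_inc`, `re_det_O`      400 l.
* L-256-RE-G8  `re_time_list`      (from G0-G2, G4)    300 l.
Edit only the bodies; helper lemmas directly above your theorem, or in an own file `Re/Geo<Leaf>.lean` importing this one is NOT possible (cycle): put long proofs in `Re/G<k>.lean` importing `Re/ProfKit.lean` and cite them here.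
-/

set_option autoImplicit false

namespace Claimed.Agent.R256

open Claimed.Agent.R255
open Claimed.Agent.R255.FLaw (pair)
open scoped BigOperators
open Classical

/-! ## G0. scales and ancestors -/

/-- OWNER helper159 (leaf L-256-RE-G0), EST 8 lines -/
theorem re_len_pos (D : ReDoc) (i : ℕ) : 0 < D.len i := by
  exact rdLen_pos _

/-- OWNER helper159 (leaf L-256-RE-G0), EST 8 lines -/
theorem re_R0_pos (D : ReDoc) (hH : 0 < D.H) : 0 < D.R0 := by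
  unfold ReDoc.R0 rdD
  exact Real.sqrt_pos.2 (div_pos hH (rdLen_pos _))

/-- OWNER helper159 (leaf L-256-RE-G0), EST 8 lines -/
theorem re_Rw_pos (D : ReDoc) (hH : 0 < D.H) (j : ℕ) : 0 < D.Rw j := by
  exact mul_pos (re_R0_pos D hH) (rdLen_pos _)

/-- OWNER helper159 (leaf L-256-RE-G0), EST 8 lines -/
theorem re_tl_exp (D : ReDoc) (t : ℝ) : D.tl t = Real.exp (t * D.u) := by
  unfold ReDoc.tl ReDoc.u
  rw [Real.rpow_def_of_pos (by norm_num)]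
  congr 1
  ring

/-- OWNER helper159 (leaf L-256-RE-G0), EST 8 lines -/
theorem re_tl_pos (D : ReDoc) (t : ℝ) : 0 < D.tl t := by
  unfold ReDoc.tl
  positivity

/-- OWNER helper159 (leaf L-256-RE-G0), EST 8 lines -/
theorem re_tl_add (D : ReDoc) (s t : ℝ) : D.tl (s + t) = D.tl s * D.tl t := by
  unfold ReDoc.tl
  rw [add_mul, Real.rpow_add (by norm_num)]

/-- OWNER helper159 (leaf L-256-RE-G0), EST 8 lines -/
theorem re_tl_mono (D : ReDoc) {s t : ℝ} (h : s ≤ t) : D.tl s ≤ D.tl t := by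
  unfold ReDoc.tl
  exact Real.rpow_le_rpow_of_exponent_le (by norm_num) (mul_le_mul_of_nonneg_right h (Nat.cast_nonneg _))

/-- OWNER helper159 (leaf L-256-RE-G0), EST 8 lines -/
theorem re_tl_zero (D : ReDoc) : D.tl 0 = 1 := by
  unfold ReDoc.tl
  simp

/-- OWNER helper159 (leaf L-256-RE-G0), EST 8 lines -/
theorem re_tl_rpow (D : ReDoc) (t x : ℝ) : D.tl t ^ x = D.tl (t * x) := by
  unfold ReDoc.tl
  rw [← Real.rpow_mul (by norm_num)]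
  congr 1
  ring

/-- OWNER helper159 (leaf L-256-RE-G0), EST 8 lines -/
theorem re_tl_nat (D : ReDoc) (k : ℕ) : D.tl k = (2 : ℝ) ^ (k * D.m) := by
  unfold ReDoc.tl
  rw [← Real.rpow_natCast]
  push_cast
  rfl

/-- OWNER helper159 (leaf L-256-RE-G0), EST 8 lines -/
theorem re_rdLen_tl (D : ReDoc) (k : ℕ) : rdLen (k * D.m) = D.tl (-(k : ℝ)) := by
  unfold rdLen ReDoc.tl
  rw [neg_mul, Real.rpow_neg (by norm_num), inv_pow, ← Real.rpow_natCast]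
  push_cast
  rfl

/-- OWNER helper159 (leaf L-256-RE-G0), EST 8 lines -/
theorem re_len_add (D : ReDoc) (i k : ℕ) : D.len (i + k) = D.len i * rdLen (k * D.m) := by
  unfold ReDoc.len ReDoc.dp rdLen
  rw [← pow_add]
  congr 1
  ring

/-- OWNER helper159 (leaf L-256-RE-G0), EST 8 lines -/
theorem re_Rw_add (D : ReDoc) (j k : ℕ) : D.Rw (j + k) = D.Rw j * rdLen (k * D.m) := by
  unfold ReDoc.Rw rdLen
  rw [mul_assoc, ← pow_add]
  congr 2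
  ring

theorem re_aux_rdLen_le_one (k : ℕ) : rdLen k ≤ 1 := by
  unfold rdLen
  exact pow_le_one₀ (by norm_num) (by norm_num)

/-- OWNER helper159 (leaf L-256-RE-G0), EST 8 lines -/
theorem re_len_anti (D : ReDoc) {i l : ℕ} (h : i ≤ l) : D.len l ≤ D.len i := by
  obtain ⟨k, rfl⟩ := Nat.exists_eq_add_of_le h
  rw [re_len_add]
  exact mul_le_of_le_one_right (re_len_pos D i).le (re_aux_rdLen_le_one _)

/-- OWNER helper159 (leaf L-256-RE-G0), EST 8 lines -/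
theorem re_Rw_anti (D : ReDoc) (hH : 0 < D.H) {j w : ℕ} (h : j ≤ w) : D.Rw w ≤ D.Rw j := by
  obtain ⟨k, rfl⟩ := Nat.exists_eq_add_of_le h
  rw [re_Rw_add]
  exact mul_le_of_le_one_right (re_Rw_pos D hH j).le (re_aux_rdLen_le_one _)

/-- OWNER helper159 (leaf L-256-RE-G0), EST 8 lines -/
theorem re_rdD_pos (D : ReDoc) (hH : 0 < D.H) (i : ℕ) : 0 < rdD D.H (D.dp i) := by
  unfold rdD
  exact Real.sqrt_pos.2 (div_pos hH (rdLen_pos _))

/-- `d_{ℓ_i} = R_j` on the boundary `v = u(a)`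
OWNER helper159 (leaf L-256-RE-G0), EST 8 lines -/
theorem re_rdD_eq (D : ReDoc) (hH : 0 < D.H) {i j : ℕ} (h : 2 * j + i = D.q) : rdD D.H (D.dp i) = D.Rw j := by
  have h1 : 0 ≤ D.Rw j := (re_Rw_pos D hH j).le
  unfold rdD
  rw [Real.sqrt_eq_iff_mul_self_eq (div_pos hH (rdLen_pos _)).le h1]
  unfold ReDoc.Rw ReDoc.R0 rdD
  have h2 : 0 ≤ D.H / rdLen (D.dp D.q) := (div_pos hH (rdLen_pos _)).le
  have h3 : Real.sqrt (D.H / rdLen (D.dp D.q)) * rdLen (j * D.m) * (Real.sqrt (D.H / rdLen (D.dp D.q)) * rdLen (j * D.m))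
      = (Real.sqrt (D.H / rdLen (D.dp D.q)) * Real.sqrt (D.H / rdLen (D.dp D.q))) * (rdLen (j * D.m) * rdLen (j * D.m)) := by ring
  rw [h3, Real.mul_self_sqrt h2]
  have h4 : rdLen (D.dp D.q) = rdLen (D.dp i) * (rdLen (j * D.m) * rdLen (j * D.m)) := by
    unfold rdLen ReDoc.dp
    rw [← pow_add, ← pow_add, ← h]
    congr 1
    ring
  rw [h4]
  have := rdLen_pos (D.dp i)
  have := rdLen_pos (j * D.m)
  field_simp

/-- OWNER helper159 (leaf L-256-RE-G0), EST 8 lines -/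
theorem re_rdD_mono (D : ReDoc) (hH : 0 < D.H) {i l : ℕ} (h : i ≤ l) : rdD D.H (D.dp i) ≤ rdD D.H (D.dp l) := by
  unfold rdD
  refine Real.sqrt_le_sqrt ?_
  exact div_le_div_of_nonneg_left hH.le (rdLen_pos _) (re_len_anti D h)

/-- OWNER helper159 (leaf L-256-RE-G0), EST 8 lines -/
theorem re_rdD_le (D : ReDoc) (hH : 0 < D.H) {i j : ℕ} (h : 2 * j + i ≤ D.q) : rdD D.H (D.dp i) ≤ D.Rw j := by
  have h1 : 2 * j + (D.q - 2 * j) = D.q := by omega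
  rw [← re_rdD_eq D hH h1]
  exact re_rdD_mono D hH (by omega)

/-- OWNER helper159 (leaf L-256-RE-G0), EST 8 lines -/
theorem re_H_eq (D : ReDoc) (hH : 0 < D.H) (i : ℕ) : D.H = D.len i * rdD D.H (D.dp i) ^ 2 := by
  unfold rdD ReDoc.len
  rw [Real.sq_sqrt (div_pos hH (rdLen_pos _)).le]
  have := rdLen_pos (D.dp i)
  field_simp

/-- OWNER helper159 (leaf L-256-RE-G0), EST 8 lines -/
theorem re_rdQ_eq (D : ReDoc) (hH : 0 < D.H) (i : ℕ) : rdQ D.H (D.dp i) = D.len i * rdD D.H (D.dp i) := by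
  have h1 : 0 ≤ D.len i * rdD D.H (D.dp i) := (mul_pos (re_len_pos D i) (re_rdD_pos D hH i)).le
  unfold rdQ
  rw [Real.sqrt_eq_iff_mul_self_eq (mul_pos hH (rdLen_pos _)).le h1]
  have h2 := re_H_eq D hH i
  have h3 : D.len i = rdLen (D.dp i) := rfl
  rw [← h3]
  nlinarith

/-- OWNER helper159 (leaf L-256-RE-G0), EST 8 lines -/
theorem re_anc_self (D : ReDoc) (b : ℕ) (ω : D.Row b) : D.anc b b ω = D.iv b ω := by
  unfold ReDoc.anc ancI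
  simp

/-- OWNER helper159 (leaf L-256-RE-G0), EST 8 lines -/
theorem re_anc_anc (D : ReDoc) {i a b : ℕ} (hia : i ≤ a) (hab : a ≤ b) (ω : D.Row b) :
    ancI (D.dp a) (D.dp i) (D.anc b a ω) = D.anc b i ω := by
  unfold ReDoc.anc ancI
  rw [Nat.div_div_eq_div_mul, ← pow_add]
  congr 2
  have h1 : D.dp i ≤ D.dp a := by
    unfold ReDoc.dp
    exact Nat.add_le_add_left (Nat.mul_le_mul_right _ hia) _
  have h2 : D.dp a ≤ D.dp b := by
    unfold ReDoc.dp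
    exact Nat.add_le_add_left (Nat.mul_le_mul_right _ hab) _
  omega

theorem re_aux_flow_zero (p : RtRow) : p.flow 0 = p := by
  unfold RtRow.flow
  ext <;> simp

theorem re_aux_flow_flow (p : RtRow) (s t : ℝ) : (p.flow s).flow t = p.flow (s + t) := by
  unfold RtRow.flow
  ext <;> simp <;> ring

/-- OWNER helper159 (leaf L-256-RE-G0), EST 8 lines -/
theorem re_back_self (D : ReDoc) (b : ℕ) (ω : D.Row b) : D.back b b ω = D.pt b ω := by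
  unfold ReDoc.back ReDoc.tm
  rw [re_anc_self, sub_self, re_aux_flow_zero]

/-- OWNER helper159 (leaf L-256-RE-G0), EST 8 lines -/
theorem re_back_A (D : ReDoc) (b i : ℕ) (ω : D.Row b) : (D.back b i ω).A = (D.pt b ω).A := by
  rfl

/-- OWNER helper159 (leaf L-256-RE-G0), EST 8 lines -/
theorem re_back_back (D : ReDoc) (i a b : ℕ) (ω : D.Row b) :
    D.back b i ω = (D.back b a ω).flow (tmL (D.dp i) (D.anc b i ω) - tmL (D.dp a) (D.anc b a ω)) := by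
  unfold ReDoc.back
  rw [re_aux_flow_flow]
  congr 1
  ring

/-- the ancestor interval contains the descendant
OWNER helper159 (leaf L-256-RE-G0), EST 8 lines -/
theorem re_gap (D : ReDoc) {i a b : ℕ} (hia : i ≤ a) (hab : a ≤ b) (ω : D.Row b) :
    0 ≤ tmL (D.dp a) (D.anc b a ω) - tmL (D.dp i) (D.anc b i ω) ∧
      tmL (D.dp a) (D.anc b a ω) - tmL (D.dp i) (D.anc b i ω) < D.len i := by
  rw [← re_anc_anc D hia hab ω]
  obtain ⟨x, hx⟩ : ∃ x, x = D.anc b a ω := ⟨_, rfl⟩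
  rw [← hx]
  have h1 : D.dp i ≤ D.dp a := by
    unfold ReDoc.dp
    exact Nat.add_le_add_left (Nat.mul_le_mul_right _ hia) _
  obtain ⟨k, hk⟩ := Nat.exists_eq_add_of_le h1
  unfold tmL ancI ReDoc.len rdLen
  rw [hk, Nat.add_sub_cancel_left]
  have h2 : (0 : ℝ) < 2 ^ D.dp i := by positivity
  have h3 : (0 : ℝ) < 2 ^ k := by positivity
  have h4 : ((x / 2 ^ k : ℕ) : ℝ) * 2 ^ k ≤ x := by
    exact_mod_cast Nat.div_mul_le_self x (2 ^ k)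
  have h5 : (x : ℝ) < ((x / 2 ^ k : ℕ) + 1 : ℝ) * 2 ^ k := by
    have h6 : x < (x / 2 ^ k + 1) * 2 ^ k := by
      have h7 := Nat.div_add_mod x (2 ^ k)
      have h8 := Nat.mod_lt x (show 0 < 2 ^ k by positivity)
      calc x = 2 ^ k * (x / 2 ^ k) + x % 2 ^ k := h7.symm
        _ < 2 ^ k * (x / 2 ^ k) + 2 ^ k := by omega
        _ = (x / 2 ^ k + 1) * 2 ^ k := by ring
    exact_mod_cast h6
  have h6 : (x : ℝ) / 2 ^ (D.dp i + k) - ((x / 2 ^ k : ℕ) : ℝ) / 2 ^ D.dp i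
      = ((x : ℝ) - ((x / 2 ^ k : ℕ) : ℝ) * 2 ^ k) / (2 ^ D.dp i * 2 ^ k) := by
    rw [pow_add]
    field_simp
  rw [h6]
  constructor
  · exact div_nonneg (by linarith) (by positivity)
  · rw [div_lt_iff₀ (by positivity), inv_pow]
    have h7 : ((2 : ℝ) ^ D.dp i)⁻¹ * (2 ^ D.dp i * 2 ^ k) = 2 ^ k := by
      field_simp
    rw [h7]
    linarith

/-! ## G1. the accuracy relation -/

/-- triangle inequality -/
theorem re_aux_sq_add {u v : ℝ × ℝ} {a b : ℝ} (ha : 0 ≤ a) (hb : 0 ≤ b) (hu : rtSq u ≤ a ^ 2) (hv : rtSq v ≤ b ^ 2) :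
    rtSq (u + v) ≤ (a + b) ^ 2 := by
  have h1 := (abs_le.1 (rtIp_abs_le ha hb hu hv)).2
  have h2 : rtSq (u + v) = rtSq u + 2 * rtIp u v + rtSq v := by
    simp only [rtSq, rtIp, Prod.fst_add, Prod.snd_add]
    ring
  rw [h2]
  nlinarith

theorem re_aux_sq_smul (s : ℝ) (u : ℝ × ℝ) : rtSq (s • u) = s ^ 2 * rtSq u := by
  simp only [rtSq, Prod.smul_fst, Prod.smul_snd, smul_eq_mul]
  ring

theorem re_aux_sq_neg (u : ℝ × ℝ) : rtSq (-u) = rtSq u := by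
  simp only [rtSq, Prod.fst_neg, Prod.snd_neg]
  ring

theorem re_aux_sq_smul_le {s c a : ℝ} {u : ℝ × ℝ} (hs : |s| ≤ c) (ha : 0 ≤ a) (hu : rtSq u ≤ a ^ 2) :
    rtSq (s • u) ≤ (c * a) ^ 2 := by
  rw [re_aux_sq_smul, mul_pow]
  have h1 : s ^ 2 ≤ c ^ 2 := by
    rw [← sq_abs s]
    exact pow_le_pow_left₀ (abs_nonneg s) hs 2
  exact mul_le_mul h1 hu (rtSq_nonneg u) (by positivity)

/-- OWNER helper159 (leaf L-256-RE-G1), EST 50 lines -/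
theorem re_near_mono {Λ Λ' l l' δ δ' : ℝ} {p p' : RtRow} (h : ReNear Λ l δ p p') (hΛ0 : 0 ≤ Λ) (hl0 : 0 ≤ l) (hδ0 : 0 ≤ δ)
    (hΛ : Λ ≤ Λ') (hl : l ≤ l') (hδ : δ ≤ δ') : ReNear Λ' l' δ' p p' := by
  obtain ⟨h1, h2, h3⟩ := h
  have a1 : Λ * δ ≤ Λ' * δ' := mul_le_mul hΛ hδ hδ0 (hΛ0.trans hΛ)
  have a2 : Λ * l ≤ Λ' * l' := mul_le_mul hΛ hl hl0 (hΛ0.trans hΛ)
  refine ⟨h1.trans (pow_le_pow_left₀ (mul_nonneg hΛ0 hδ0) a1 2), h2.trans (pow_le_pow_left₀ (by positivity) ?_ 2), h3.trans ?_⟩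
  · exact mul_le_mul a2 hδ hδ0 (mul_nonneg (hΛ0.trans hΛ) (hl0.trans hl))
  · have b1 : Λ ^ 2 ≤ Λ' ^ 2 := pow_le_pow_left₀ hΛ0 hΛ 2
    have b2 : δ ^ 2 ≤ δ' ^ 2 := pow_le_pow_left₀ hδ0 hδ 2
    have b3 : Λ ^ 2 * l ≤ Λ' ^ 2 * l' := mul_le_mul b1 hl hl0 (by positivity)
    exact mul_le_mul b3 b2 (by positivity) (mul_nonneg (by positivity) (hl0.trans hl))

/-- OWNER helper159 (leaf L-256-RE-G1), EST 50 lines -/
theorem re_near_symm {Λ l δ : ℝ} {p p' : RtRow} (h : ReNear Λ l δ p p') (hΛ0 : 0 ≤ Λ) (hl0 : 0 ≤ l) (hδ0 : 0 ≤ δ) :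
    ReNear (2 * Λ) l δ p' p := by
  obtain ⟨h1, h2, h3⟩ := h
  have e1 : p.A - p'.A = -(p'.A - p.A) := by abel
  have e2 : p.b - p'.b = -(p'.b - p.b) := by abel
  refine ⟨?_, ?_, ?_⟩
  · rw [e1, re_aux_sq_neg]
    refine h1.trans (pow_le_pow_left₀ (by positivity) ?_ 2)
    nlinarith [mul_nonneg hΛ0 hδ0]
  · rw [e2, re_aux_sq_neg]
    refine h2.trans (pow_le_pow_left₀ (by positivity) ?_ 2)
    nlinarith [mul_nonneg (mul_nonneg hΛ0 hl0) hδ0]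
  · have h4 := rtIp_abs_le (mul_nonneg hΛ0 hδ0) (mul_nonneg (mul_nonneg hΛ0 hl0) hδ0) h1 h2
    have e3 : p.y - p'.y - 2 * rtIp p'.A (p.b - p'.b)
        = -(p'.y - p.y - 2 * rtIp p.A (p'.b - p.b)) + 2 * rtIp (p'.A - p.A) (p'.b - p.b) := by
      simp only [rtIp, Prod.fst_sub, Prod.snd_sub]
      ring
    rw [e3]
    have a1 := abs_le.1 h3
    have a2 := abs_le.1 h4
    have a3 : Λ * δ * (Λ * l * δ) = Λ ^ 2 * l * δ ^ 2 := by ring
    have a4 : 0 ≤ Λ ^ 2 * l * δ ^ 2 := by positivity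
    rw [abs_le]
    constructor <;> nlinarith [a1.1, a1.2, a2.1, a2.2]

/-- `y'' - y - 2A·(b''-b) = [y''-y'-2A'·(b''-b')] + [y'-y-2A·(b'-b)] + 2(A'-A)·(b''-b')`
OWNER helper159 (leaf L-256-RE-G1), EST 50 lines -/
theorem re_near_trans {Λ Λ' l δ : ℝ} {p p' p'' : RtRow} (h : ReNear Λ l δ p p') (h' : ReNear Λ' l δ p' p'')
    (hΛ0 : 0 ≤ Λ) (hΛ0' : 0 ≤ Λ') (hl0 : 0 ≤ l) (hδ0 : 0 ≤ δ) : ReNear (Λ + Λ') l δ p p'' := by
  obtain ⟨h1, h2, h3⟩ := h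
  obtain ⟨h1', h2', h3'⟩ := h'
  refine ⟨?_, ?_, ?_⟩
  · have e : p''.A - p.A = (p'.A - p.A) + (p''.A - p'.A) := by abel
    rw [e]
    have := re_aux_sq_add (mul_nonneg hΛ0 hδ0) (mul_nonneg hΛ0' hδ0) h1 h1'
    rwa [← add_mul] at this
  · have e : p''.b - p.b = (p'.b - p.b) + (p''.b - p'.b) := by abel
    rw [e]
    have := re_aux_sq_add (mul_nonneg (mul_nonneg hΛ0 hl0) hδ0) (mul_nonneg (mul_nonneg hΛ0' hl0) hδ0) h2 h2'
    rwa [← add_mul, ← add_mul] at this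
  · have h4 := rtIp_abs_le (mul_nonneg hΛ0 hδ0) (mul_nonneg (mul_nonneg hΛ0' hl0) hδ0) h1 h2'
    have e3 : p''.y - p.y - 2 * rtIp p.A (p''.b - p.b)
        = (p''.y - p'.y - 2 * rtIp p'.A (p''.b - p'.b)) + (p'.y - p.y - 2 * rtIp p.A (p'.b - p.b))
          + 2 * rtIp (p'.A - p.A) (p''.b - p'.b) := by
      simp only [rtIp, Prod.fst_sub, Prod.snd_sub]
      ring
    rw [e3]
    have a1 := abs_le.1 h3
    have a1' := abs_le.1 h3'
    have a2 := abs_le.1 h4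
    have a3 : (Λ + Λ') ^ 2 * l * δ ^ 2 = Λ ^ 2 * l * δ ^ 2 + Λ' ^ 2 * l * δ ^ 2 + 2 * (Λ * δ * (Λ' * l * δ)) := by ring
    rw [a3, abs_le]
    constructor <;> linarith [a1.1, a1.2, a2.1, a2.2, a1'.1, a1'.2]

/-- common flow over a time `|s| ≤ l'`: the tilted height changes by `s |A' - A|²`
OWNER helper159 (leaf L-256-RE-G1), EST 50 lines -/
theorem re_near_flow {Λ l l' δ s : ℝ} {p p' : RtRow} (h : ReNear Λ l δ p p') (hΛ0 : 0 ≤ Λ) (hl0 : 0 ≤ l) (hδ0 : 0 ≤ δ)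
    (hl : l ≤ l') (hs : |s| ≤ l') : ReNear (2 * Λ) l' δ (p.flow s) (p'.flow s) := by
  obtain ⟨h1, h2, h3⟩ := h
  have hl0' : 0 ≤ l' := hl0.trans hl
  refine ⟨?_, ?_, ?_⟩
  · show rtSq (p'.A - p.A) ≤ _
    refine h1.trans (pow_le_pow_left₀ (by positivity) ?_ 2)
    nlinarith [mul_nonneg hΛ0 hδ0]
  · show rtSq ((p'.b + s • p'.A) - (p.b + s • p.A)) ≤ _
    have e : (p'.b + s • p'.A) - (p.b + s • p.A) = (p'.b - p.b) + s • (p'.A - p.A) := by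
      rw [smul_sub]
      abel
    rw [e]
    have a1 := re_aux_sq_smul_le hs (mul_nonneg hΛ0 hδ0) h1
    have a2 := re_aux_sq_add (mul_nonneg (mul_nonneg hΛ0 hl0) hδ0) (mul_nonneg hl0' (mul_nonneg hΛ0 hδ0)) h2 a1
    refine a2.trans (pow_le_pow_left₀ (by positivity) ?_ 2)
    have a3 : Λ * l * δ ≤ Λ * l' * δ :=
      mul_le_mul_of_nonneg_right (mul_le_mul_of_nonneg_left hl hΛ0) hδ0
    nlinarith
  · show |(p'.y + s * rtSq p'.A) - (p.y + s * rtSq p.A) - 2 * rtIp p.A ((p'.b + s • p'.A) - (p.b + s • p.A))| ≤ _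
    have e3 : (p'.y + s * rtSq p'.A) - (p.y + s * rtSq p.A) - 2 * rtIp p.A ((p'.b + s • p'.A) - (p.b + s • p.A))
        = (p'.y - p.y - 2 * rtIp p.A (p'.b - p.b)) + s * rtSq (p'.A - p.A) := by
      simp only [rtIp, rtSq, Prod.fst_sub, Prod.snd_sub, Prod.fst_add, Prod.snd_add, Prod.smul_fst, Prod.smul_snd, smul_eq_mul]
      ring
    rw [e3]
    have a1 : |s * rtSq (p'.A - p.A)| ≤ l' * (Λ * δ) ^ 2 := by
      rw [abs_mul, abs_of_nonneg (rtSq_nonneg _)]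
      exact mul_le_mul hs h1 (rtSq_nonneg _) hl0'
    have a2 : Λ ^ 2 * l * δ ^ 2 ≤ Λ ^ 2 * l' * δ ^ 2 :=
      mul_le_mul_of_nonneg_right (mul_le_mul_of_nonneg_left hl (by positivity)) (by positivity)
    have a4 : 0 ≤ Λ ^ 2 * l' * δ ^ 2 := by positivity
    calc |(p'.y - p.y - 2 * rtIp p.A (p'.b - p.b)) + s * rtSq (p'.A - p.A)|
        ≤ |p'.y - p.y - 2 * rtIp p.A (p'.b - p.b)| + |s * rtSq (p'.A - p.A)| := abs_add_le _ _
      _ ≤ Λ ^ 2 * l * δ ^ 2 + l' * (Λ * δ) ^ 2 := add_le_add h3 a1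
      _ ≤ (2 * Λ) ^ 2 * l' * δ ^ 2 := by nlinarith

/-- (acc) back-evaluated:  `y'_back - y - 2A·(b'_back - b) = E - Δ |A' - A|²`, `E` = the last quantity of `Conn`, `Δ = T_l - T_i ∈ [0, ℓ_i)`;  `q_i = ℓ_i d_i ≤ ℓ_i d_l`, `H = ℓ_l d_l² ≤ ℓ_i d_l²`
OWNER helper159 (leaf L-256-RE-G1), EST 50 lines -/
theorem re_near_conn (D : ReDoc) (hH : 0 < D.H) {Λ : ℝ} (hΛ : 1 ≤ Λ) {i l : ℕ} (hil : i ≤ l) (ω : D.Row i) (ω' : D.Row l)
    (h : D.Conn Λ i l ω ω') : ReNear (3 * Λ) (D.len i) (rdD D.H (D.dp l)) (D.pt i ω) (D.back l i ω') := by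
  obtain ⟨h0, h1, h2, h3⟩ := h
  have hΛ0 : 0 ≤ Λ := le_trans zero_le_one hΛ
  have hli := re_len_pos D i
  have hdl := re_rdD_pos D hH l
  have hdi := re_rdD_pos D hH i
  obtain ⟨Δ, hΔ⟩ : ∃ Δ, Δ = D.tm l ω' - D.tm i ω := ⟨_, rfl⟩
  have hgap := re_gap D hil le_rfl ω'
  rw [re_anc_self, h0] at hgap
  have hΔ0 : 0 ≤ Δ := by rw [hΔ]; exact hgap.1
  have hΔ1 : Δ ≤ D.len i := by rw [hΔ]; exact hgap.2.le
  have hback : D.back l i ω' = (D.pt l ω').flow (-Δ) := by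
    unfold ReDoc.back
    rw [h0, hΔ]
    congr 1
    unfold ReDoc.tm
    ring
  rw [← hΔ] at h2 h3
  rw [hback]
  obtain ⟨p, hp⟩ : ∃ p, p = D.pt i ω := ⟨_, rfl⟩
  obtain ⟨p', hp'⟩ : ∃ p', p' = D.pt l ω' := ⟨_, rfl⟩
  rw [← hp, ← hp'] at h1 h2 h3 ⊢
  have hq : rdQ D.H (D.dp i) ≤ D.len i * rdD D.H (D.dp l) := by
    rw [re_rdQ_eq D hH i]
    exact mul_le_mul_of_nonneg_left (re_rdD_mono D hH hil) hli.le
  have hHle : D.H ≤ D.len i * rdD D.H (D.dp l) ^ 2 := by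
    calc D.H = D.len l * rdD D.H (D.dp l) ^ 2 := re_H_eq D hH l
      _ ≤ D.len i * rdD D.H (D.dp l) ^ 2 := mul_le_mul_of_nonneg_right (re_len_anti D hil) (by positivity)
  obtain ⟨dl, hdl'⟩ : ∃ dl, dl = rdD D.H (D.dp l) := ⟨_, rfl⟩
  obtain ⟨li, hli'⟩ : ∃ li, li = D.len i := ⟨_, rfl⟩
  rw [← hdl'] at h1 hq hHle hdl ⊢
  rw [← hli'] at hq hHle hli hΔ1 ⊢
  refine ⟨?_, ?_, ?_⟩
  · show rtSq (p'.A - p.A) ≤ _
    refine h1.trans (pow_le_pow_left₀ (by positivity) ?_ 2)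
    nlinarith [mul_nonneg hΛ0 hdl.le]
  · show rtSq ((p'.b + (-Δ) • p'.A) - p.b) ≤ _
    have e : (p'.b + (-Δ) • p'.A) - p.b = (p'.b - (p.flow Δ).b) + (-Δ) • (p'.A - p.A) := by
      show _ = (p'.b - (p.b + Δ • p.A)) + (-Δ) • (p'.A - p.A)
      rw [smul_sub, neg_smul, neg_smul]
      abel
    rw [e]
    have a0 : rtSq (p'.b - (p.flow Δ).b) ≤ (Λ * (li * dl)) ^ 2 :=
      h2.trans (pow_le_pow_left₀ (mul_nonneg hΛ0 (by unfold rdQ; positivity)) (mul_le_mul_of_nonneg_left hq hΛ0) 2)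
    have a1 := re_aux_sq_smul_le (s := -Δ) (c := li) (by rw [abs_neg, abs_of_nonneg hΔ0]; exact hΔ1) (mul_nonneg hΛ0 hdl.le) h1
    have a2 := re_aux_sq_add (by positivity) (by positivity) a0 a1
    refine a2.trans (pow_le_pow_left₀ (by positivity) ?_ 2)
    nlinarith [mul_nonneg (mul_nonneg hΛ0 hli.le) hdl.le]
  · show |(p'.y + (-Δ) * rtSq p'.A) - p.y - 2 * rtIp p.A ((p'.b + (-Δ) • p'.A) - p.b)| ≤ _
    have e3 : (p'.y + (-Δ) * rtSq p'.A) - p.y - 2 * rtIp p.A ((p'.b + (-Δ) • p'.A) - p.b)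
        = (p'.y - (p.flow Δ).y - 2 * rtIp p.A (p'.b - (p.flow Δ).b)) - Δ * rtSq (p'.A - p.A) := by
      simp only [RtRow.flow, rtIp, rtSq, Prod.fst_sub, Prod.snd_sub, Prod.fst_add, Prod.snd_add, Prod.smul_fst, Prod.smul_snd,
        smul_eq_mul]
      ring
    rw [e3]
    have a1 : |Δ * rtSq (p'.A - p.A)| ≤ li * (Λ * dl) ^ 2 := by
      rw [abs_mul, abs_of_nonneg (rtSq_nonneg _), abs_of_nonneg hΔ0]
      exact mul_le_mul hΔ1 h1 (rtSq_nonneg _) hli.le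
    have a2 : Λ * D.H ≤ Λ ^ 2 * (li * dl ^ 2) := by
      have b1 : Λ * D.H ≤ Λ * (li * dl ^ 2) := mul_le_mul_of_nonneg_left hHle hΛ0
      have b2 : Λ * (li * dl ^ 2) ≤ Λ ^ 2 * (li * dl ^ 2) :=
        mul_le_mul_of_nonneg_right (by nlinarith) (by positivity)
      linarith
    have a4 : 0 ≤ Λ ^ 2 * (li * dl ^ 2) := by positivity
    calc |(p'.y - (p.flow Δ).y - 2 * rtIp p.A (p'.b - (p.flow Δ).b)) - Δ * rtSq (p'.A - p.A)|
        ≤ |p'.y - (p.flow Δ).y - 2 * rtIp p.A (p'.b - (p.flow Δ).b)| + |Δ * rtSq (p'.A - p.A)| := abs_sub _ _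
      _ ≤ Λ * D.H + li * (Λ * dl) ^ 2 := add_le_add h3 a1
      _ ≤ (3 * Λ) ^ 2 * li * dl ^ 2 := by nlinarith

/-! ## G2. the list lemma -/

theorem re_aux_floor_diff {x x' E : ℝ} (h : |x' - x| ≤ E) :
    ⌊x'⌋ - ⌊x⌋ ∈ Finset.Icc (-(⌊E⌋ + 1)) (⌊E⌋ + 1) := by
  have h1 := abs_le.1 h
  have a1 := Int.floor_le x
  have a2 := Int.lt_floor_add_one x
  have a3 := Int.floor_le x'
  have a4 := Int.lt_floor_add_one x'
  have a5 := Int.lt_floor_add_one E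
  rw [Finset.mem_Icc]
  constructor
  · have : (⌊x⌋ : ℝ) < ((⌊x'⌋ + ⌊E⌋ + 2 : ℤ) : ℝ) := by
      push_cast
      linarith [h1.1]
    have := Int.cast_lt.1 this
    omega
  · have : (⌊x'⌋ : ℝ) < ((⌊x⌋ + ⌊E⌋ + 2 : ℤ) : ℝ) := by
      push_cast
      linarith [h1.2]
    have := Int.cast_lt.1 this
    omega

theorem re_aux_floor_diff_abs {x x' E : ℝ} (h : |x' - x| ≤ E) : |((⌊x'⌋ : ℝ) - (⌊x⌋ : ℝ))| ≤ E + 1 := by
  have h1 := abs_le.1 h
  have a1 := Int.floor_le x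
  have a2 := Int.lt_floor_add_one x
  have a3 := Int.floor_le x'
  have a4 := Int.lt_floor_add_one x'
  rw [abs_le]
  constructor <;> linarith [h1.1, h1.2]

theorem re_aux_card_Icc {E : ℝ} (hE : 0 ≤ E) : ((Finset.Icc (-(⌊E⌋ + 1)) (⌊E⌋ + 1)).card : ℝ) ≤ 2 * E + 3 := by
  rw [Int.card_Icc]
  have h0 : 0 ≤ ⌊E⌋ := Int.floor_nonneg.2 hE
  have h1 : ((⌊E⌋ + 1 + 1 - -(⌊E⌋ + 1)).toNat : ℤ) = 2 * ⌊E⌋ + 3 := by
    rw [Int.toNat_of_nonneg (by omega)]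
    ring
  have h2 : (((⌊E⌋ + 1 + 1 - -(⌊E⌋ + 1)).toNat : ℕ) : ℝ) = 2 * (⌊E⌋ : ℝ) + 3 := by
    have h3 := congrArg (fun z : ℤ => (z : ℝ)) h1
    simp only [Int.cast_natCast, Int.cast_add, Int.cast_mul, Int.cast_ofNat] at h3
    exact h3
  rw [h2]
  linarith [Int.floor_le E]

theorem re_aux_comp {u : ℝ × ℝ} {c : ℝ} (hc : 0 ≤ c) (h : rtSq u ≤ c ^ 2) : |u.1| ≤ c ∧ |u.2| ≤ c := by
  unfold rtSq at h
  constructor
  · exact abs_le_of_sq_le_sq (by nlinarith [sq_nonneg u.2]) hc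
  · exact abs_le_of_sq_le_sq (by nlinarith [sq_nonneg u.1]) hc

/-- a point minus the corner of its cell -/
theorem re_aux_cor {w : ℝ} (hw : 0 < w) (x : ℝ) : 0 ≤ x - w * reCell w x ∧ x - w * reCell w x < w := by
  unfold reCell
  have a1 := Int.floor_le (x / w)
  have a2 := Int.lt_floor_add_one (x / w)
  rw [le_div_iff₀ hw] at a1
  rw [div_lt_iff₀ hw] at a2
  constructor <;> nlinarith

theorem re_aux_cell_diff {w x x' E : ℝ} (hw : 0 < w) (h : |x' - x| ≤ E * w) :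
    reCell w x' - reCell w x ∈ Finset.Icc (-(⌊E⌋ + 1)) (⌊E⌋ + 1) ∧ |((reCell w x' : ℝ) - (reCell w x : ℝ))| ≤ E + 1 := by
  have h1 : |x' / w - x / w| ≤ E := by
    rw [← sub_div, abs_div, abs_of_pos hw, div_le_iff₀ hw]
    exact h
  exact ⟨re_aux_floor_diff h1, re_aux_floor_diff_abs h1⟩

theorem re_aux_cell_div {w : ℝ} (hw : 0 < w) (x : ℝ) (a : ℕ) : reCell w x = reCell (w / 2 ^ a) x / 2 ^ a := by
  unfold reCell
  obtain ⟨y, hy⟩ : ∃ y, y = x / (w / 2 ^ a) := ⟨_, rfl⟩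
  have hxy : x / w = y / 2 ^ a := by
    rw [hy]
    field_simp
  rw [← hy, hxy]
  have hN : (0 : ℤ) < 2 ^ a := by positivity
  have hNr : (0 : ℝ) < 2 ^ a := by positivity
  have h1 := Int.ediv_mul_le ⌊y⌋ hN.ne'
  have h2 := Int.lt_ediv_add_one_mul_self ⌊y⌋ hN
  have a1 := Int.floor_le y
  have a2 := Int.lt_floor_add_one y
  rw [Int.floor_eq_iff]
  constructor
  · rw [le_div_iff₀ hNr]
    have : ((⌊y⌋ / 2 ^ a * 2 ^ a : ℤ) : ℝ) ≤ (⌊y⌋ : ℝ) := Int.cast_le.2 h1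
    push_cast at this
    linarith
  · rw [div_lt_iff₀ hNr]
    have h3 : ⌊y⌋ + 1 ≤ (⌊y⌋ / 2 ^ a + 1) * 2 ^ a := h2
    have : ((⌊y⌋ + 1 : ℤ) : ℝ) ≤ (((⌊y⌋ / 2 ^ a + 1) * 2 ^ a : ℤ) : ℝ) := Int.cast_le.2 h3
    push_cast at this
    linarith

theorem re_aux_fifteen {Λ : ℝ} (hΛ : 1 ≤ Λ) : Λ ^ 2 + 2 * ((Λ + 2) * Λ) + 4 * (Λ + 1) ≤ 15 * Λ ^ 2 := by
  nlinarith

/-- the vertical budget of the list lemma -/
theorem re_aux_vert {Λ l R R2 δ : ℝ} (hΛ : 1 ≤ Λ) (hl : 0 < l) (hδ : 0 < δ) (h1 : δ ≤ R2) (h2 : R2 ≤ R) {p p' : RtRow}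
    (h : ReNear Λ l δ p p') :
    |((p'.y - 2 * rtIp (reCor2 R p'.A) p'.b) / (l * R * R2)
        + ((2 * (((reCell2 R p'.A).1 - (reCell2 R p.A).1) * (reCell2 (l * R2) p.b).1
            + ((reCell2 R p'.A).2 - (reCell2 R p.A).2) * (reCell2 (l * R2) p.b).2) : ℤ) : ℝ))
      - (p.y - 2 * rtIp (reCor2 R p.A) p.b) / (l * R * R2)| ≤ 15 * Λ ^ 2 := by
  obtain ⟨n1, n2, n3⟩ := h
  have hΛ0 : 0 ≤ Λ := le_trans zero_le_one hΛ
  have hR2 : 0 < R2 := lt_of_lt_of_le hδ h1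
  have hR : 0 < R := lt_of_lt_of_le hR2 h2
  have hw : 0 < l * R * R2 := by positivity
  have hδR : δ ≤ R := h1.trans h2
  -- coarse cells
  have cA := re_aux_comp (mul_nonneg hΛ0 hδ.le) n1
  have hΛδ : Λ * δ ≤ Λ * R := mul_le_mul_of_nonneg_left hδR hΛ0
  have d1 := (re_aux_cell_diff (w := R) (x := p.A.1) (x' := p'.A.1) (E := Λ) hR (by
    have := cA.1
    simp only [Prod.fst_sub] at this
    linarith)).2
  have d2 := (re_aux_cell_diff (w := R) (x := p.A.2) (x' := p'.A.2) (E := Λ) hR (by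
    have := cA.2
    simp only [Prod.snd_sub] at this
    linarith)).2
  -- fractional parts of b
  have g1 := re_aux_cor (w := l * R2) (by positivity) p.b.1
  have g2 := re_aux_cor (w := l * R2) (by positivity) p.b.2
  -- A' minus its corner
  have k1 := re_aux_cor hR p'.A.1
  have k2 := re_aux_cor hR p'.A.2
  have hsq : rtSq (p.A - reCor2 R p'.A) ≤ ((Λ + 2) * R) ^ 2 := by
    have e : p.A - reCor2 R p'.A = -(p'.A - p.A) + (p'.A - reCor2 R p'.A) := by abel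
    rw [e]
    have b1 : rtSq (-(p'.A - p.A)) ≤ (Λ * R) ^ 2 := by
      rw [re_aux_sq_neg]
      exact n1.trans (pow_le_pow_left₀ (by positivity) hΛδ 2)
    have b2 : rtSq (p'.A - reCor2 R p'.A) ≤ (2 * R) ^ 2 := by
      simp only [rtSq, reCor2, Prod.fst_sub, Prod.snd_sub]
      nlinarith [k1.1, k1.2, k2.1, k2.2]
    have := re_aux_sq_add (by positivity) (by positivity) b1 b2
    rwa [← add_mul] at this
  have hip := rtIp_abs_le (by positivity) (by positivity) hsq n2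
  obtain ⟨c1, hc1⟩ : ∃ c1 : ℝ, c1 = (reCell R p'.A.1 : ℝ) - (reCell R p.A.1 : ℝ) := ⟨_, rfl⟩
  obtain ⟨c2, hc2⟩ : ∃ c2 : ℝ, c2 = (reCell R p'.A.2 : ℝ) - (reCell R p.A.2 : ℝ) := ⟨_, rfl⟩
  obtain ⟨f1, hf1⟩ : ∃ f1 : ℝ, f1 = p.b.1 - l * R2 * reCell (l * R2) p.b.1 := ⟨_, rfl⟩
  obtain ⟨f2, hf2⟩ : ∃ f2 : ℝ, f2 = p.b.2 - l * R2 * reCell (l * R2) p.b.2 := ⟨_, rfl⟩
  rw [← hc1] at d1
  rw [← hc2] at d2
  rw [← hf1] at g1
  rw [← hf2] at g2
  have key : ((p'.y - 2 * rtIp (reCor2 R p'.A) p'.b) / (l * R * R2)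
        + ((2 * (((reCell2 R p'.A).1 - (reCell2 R p.A).1) * (reCell2 (l * R2) p.b).1
            + ((reCell2 R p'.A).2 - (reCell2 R p.A).2) * (reCell2 (l * R2) p.b).2) : ℤ) : ℝ))
      - (p.y - 2 * rtIp (reCor2 R p.A) p.b) / (l * R * R2)
      = ((p'.y - p.y - 2 * rtIp p.A (p'.b - p.b)) + 2 * rtIp (p.A - reCor2 R p'.A) (p'.b - p.b)
          - 2 * R * (c1 * f1 + c2 * f2)) / (l * R * R2) := by
    rw [hc1, hc2, hf1, hf2]
    simp only [rtIp, reCor2, reCell2, Prod.fst_sub, Prod.snd_sub]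
    push_cast
    field_simp
    ring
  rw [key, abs_div, abs_of_pos hw, div_le_iff₀ hw]
  have t1 : Λ ^ 2 * l * δ ^ 2 ≤ Λ ^ 2 * (l * R * R2) := by
    have : δ ^ 2 ≤ R * R2 := by nlinarith
    calc Λ ^ 2 * l * δ ^ 2 = (Λ ^ 2 * l) * δ ^ 2 := by ring
      _ ≤ (Λ ^ 2 * l) * (R * R2) := mul_le_mul_of_nonneg_left this (by positivity)
      _ = _ := by ring
  have t2 : (Λ + 2) * R * (Λ * l * δ) ≤ (Λ + 2) * Λ * (l * R * R2) := by
    calc (Λ + 2) * R * (Λ * l * δ) = ((Λ + 2) * R * (Λ * l)) * δ := by ring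
      _ ≤ ((Λ + 2) * R * (Λ * l)) * R2 := mul_le_mul_of_nonneg_left h1 (by positivity)
      _ = _ := by ring
  have t3 : |c1 * f1 + c2 * f2| ≤ 2 * (Λ + 1) * (l * R2) := by
    have u1 : |c1 * f1| ≤ (Λ + 1) * (l * R2) := by
      rw [abs_mul, abs_of_nonneg g1.1]
      exact mul_le_mul d1 g1.2.le g1.1 (by positivity)
    have u2 : |c2 * f2| ≤ (Λ + 1) * (l * R2) := by
      rw [abs_mul, abs_of_nonneg g2.1]
      exact mul_le_mul d2 g2.2.le g2.1 (by positivity)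
    calc |c1 * f1 + c2 * f2| ≤ |c1 * f1| + |c2 * f2| := abs_add_le _ _
      _ ≤ _ := by linarith
  have t4 : |2 * R * (c1 * f1 + c2 * f2)| ≤ 4 * (Λ + 1) * (l * R * R2) := by
    rw [abs_mul, abs_of_pos (by positivity : (0 : ℝ) < 2 * R)]
    calc 2 * R * |c1 * f1 + c2 * f2| ≤ 2 * R * (2 * (Λ + 1) * (l * R2)) := mul_le_mul_of_nonneg_left t3 (by positivity)
      _ = _ := by ring
  have t5 : |2 * rtIp (p.A - reCor2 R p'.A) (p'.b - p.b)| ≤ 2 * ((Λ + 2) * Λ * (l * R * R2)) := by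
    rw [abs_mul, abs_of_pos (by norm_num : (0 : ℝ) < 2)]
    linarith
  calc |(p'.y - p.y - 2 * rtIp p.A (p'.b - p.b)) + 2 * rtIp (p.A - reCor2 R p'.A) (p'.b - p.b)
          - 2 * R * (c1 * f1 + c2 * f2)|
      ≤ |p'.y - p.y - 2 * rtIp p.A (p'.b - p.b)| + |2 * rtIp (p.A - reCor2 R p'.A) (p'.b - p.b)|
          + |2 * R * (c1 * f1 + c2 * f2)| := by
        refine (abs_sub _ _).trans ?_
        exact add_le_add_left (abs_add_le _ _) _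
    _ ≤ Λ ^ 2 * (l * R * R2) + 2 * ((Λ + 2) * Λ * (l * R * R2)) + 4 * (Λ + 1) * (l * R * R2) := by
        linarith
    _ ≤ 15 * Λ ^ 2 * (l * R * R2) := by
        have h15 := mul_le_mul_of_nonneg_right (re_aux_fifteen hΛ) hw.le
        calc Λ ^ 2 * (l * R * R2) + 2 * ((Λ + 2) * Λ * (l * R * R2)) + 4 * (Λ + 1) * (l * R * R2)
            = (Λ ^ 2 + 2 * ((Λ + 2) * Λ) + 4 * (Λ + 1)) * (l * R * R2) := by ring
          _ ≤ _ := h15

theorem re_aux_count {Λ a b c d e : ℝ} (hΛ : 1 ≤ Λ) (ha0 : 0 ≤ a) (hb0 : 0 ≤ b) (hc0 : 0 ≤ c) (hd0 : 0 ≤ d) (he0 : 0 ≤ e)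
    (ha : a ≤ 2 * Λ + 3) (hb : b ≤ 2 * Λ + 3) (hc : c ≤ 2 * Λ + 3) (hd : d ≤ 2 * Λ + 3) (he : e ≤ 2 * (15 * Λ ^ 2) + 3) :
    a * b * (c * d * e) ≤ 2 ^ 15 * Λ ^ 6 := by
  have hΛ0 : 0 ≤ Λ := le_trans zero_le_one hΛ
  have h5 : 2 * Λ + 3 ≤ 5 * Λ := by linarith
  have h33 : 2 * (15 * Λ ^ 2) + 3 ≤ 33 * Λ ^ 2 := by nlinarith
  have e1 : a * b ≤ (5 * Λ) * (5 * Λ) := mul_le_mul (ha.trans h5) (hb.trans h5) hb0 (by positivity)
  have e2 : c * d ≤ (5 * Λ) * (5 * Λ) := mul_le_mul (hc.trans h5) (hd.trans h5) hd0 (by positivity)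
  have e3 : c * d * e ≤ (5 * Λ) * (5 * Λ) * (33 * Λ ^ 2) := mul_le_mul e2 (he.trans h33) he0 (by positivity)
  have e4 : a * b * (c * d * e) ≤ (5 * Λ) * (5 * Λ) * ((5 * Λ) * (5 * Λ) * (33 * Λ ^ 2)) :=
    mul_le_mul e1 e3 (by positivity) (by positivity)
  have e5 : (5 * Λ) * (5 * Λ) * ((5 * Λ) * (5 * Λ) * (33 * Λ ^ 2)) = 20625 * Λ ^ 6 := by ring
  have e6 : 0 ≤ Λ ^ 6 := by positivity
  rw [e5] at e4
  linarith

/-- **THE LIST LEMMA.**  Rows which agree to the accuracy `δ ≤ R1 ≤ R2 ≤ R` have names in a list of size `≤ 2^15 Λ^6` which depends only on the NAME of the first row.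
With `x = (a, β, v)`:  `|a' - a|_∞, |β' - β|_∞ ≤ Λ + 1`;   `v' - v = [y'-y-2A·(b'-b)] + 2 (A - A'_R)·(b'-b) - 2 (A'_R - A_R)·b`, where in units of `l R R2` the last term is the INTEGER `2 Δc·β` (`Δc = a'/2^n - a/2^n`, floor division) plus an error `≤ 4 (Λ+1)`, the others are `≤ Λ² + 2 (Λ+2) Λ`.
So `Lst (a, β, v) = {(a', β', v') : |a'-a|, |β'-β| ≤ Λ+1, |v' - v + 2 Δc·β| ≤ 15 Λ² + 1}`.
OWNER helper159 (leaf L-256-RE-G2), EST 400 lines -/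
theorem re_list {Λ l R R1 R2 δ : ℝ} {n : ℕ} (hΛ : 1 ≤ Λ) (hl : 0 < l) (hδ : 0 < δ) (h1 : δ ≤ R1) (h12 : R1 ≤ R2) (h2 : R2 ≤ R)
    (hn : R = R1 * 2 ^ n) :
    ∃ Lst : (ℤ × ℤ) × (ℤ × ℤ) × ℤ → Finset ((ℤ × ℤ) × (ℤ × ℤ) × ℤ), (∀ x, ((Lst x).card : ℝ) ≤ 2 ^ 15 * Λ ^ 6) ∧
      ∀ p p', ReNear Λ l δ p p' → reGn l R R1 R2 p' ∈ Lst (reGn l R R1 R2 p) := by
  have hΛ0 : 0 ≤ Λ := le_trans zero_le_one hΛ
  have hR1 : 0 < R1 := lt_of_lt_of_le hδ h1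
  have hR2 : 0 < R2 := lt_of_lt_of_le hR1 h12
  have hR : 0 < R := lt_of_lt_of_le hR2 h2
  have hRn : R / 2 ^ n = R1 := by
    rw [hn]
    field_simp
  obtain ⟨I, hI⟩ : ∃ I : Finset ℤ, I = Finset.Icc (-(⌊Λ⌋ + 1)) (⌊Λ⌋ + 1) := ⟨_, rfl⟩
  obtain ⟨Iv, hIv⟩ : ∃ Iv : Finset ℤ, Iv = Finset.Icc (-(⌊15 * Λ ^ 2⌋ + 1)) (⌊15 * Λ ^ 2⌋ + 1) := ⟨_, rfl⟩
  have hIc : (I.card : ℝ) ≤ 2 * Λ + 3 := hI ▸ re_aux_card_Icc hΛ0
  have hIvc : (Iv.card : ℝ) ≤ 2 * (15 * Λ ^ 2) + 3 := hIv ▸ re_aux_card_Icc (by positivity)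
  refine ⟨fun x => ((I ×ˢ I) ×ˢ ((I ×ˢ I) ×ˢ Iv)).image (fun y =>
    ((x.1.1 + y.1.1, x.1.2 + y.1.2), (x.2.1.1 + y.2.1.1, x.2.1.2 + y.2.1.2),
      x.2.2 - 2 * (((x.1.1 + y.1.1) / 2 ^ n - x.1.1 / 2 ^ n) * x.2.1.1
        + ((x.1.2 + y.1.2) / 2 ^ n - x.1.2 / 2 ^ n) * x.2.1.2) + y.2.2)), fun x => ?_, fun p p' h => ?_⟩
  · refine le_trans (Nat.cast_le.2 Finset.card_image_le) ?_
    rw [Finset.card_product, Finset.card_product, Finset.card_product, Finset.card_product]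
    push_cast
    exact re_aux_count hΛ (Nat.cast_nonneg _) (Nat.cast_nonneg _) (Nat.cast_nonneg _) (Nat.cast_nonneg _)
      (Nat.cast_nonneg _) hIc hIc hIc hIc hIvc
  · obtain ⟨n1, n2, n3⟩ := id h
    have cA := re_aux_comp (mul_nonneg hΛ0 hδ.le) n1
    have cb := re_aux_comp (mul_nonneg (mul_nonneg hΛ0 hl.le) hδ.le) n2
    simp only [Prod.fst_sub, Prod.snd_sub] at cA cb
    have hA : Λ * δ ≤ Λ * R1 := mul_le_mul_of_nonneg_left h1 hΛ0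
    have hb : Λ * l * δ ≤ Λ * (l * R2) := by
      calc Λ * l * δ ≤ Λ * l * R2 := mul_le_mul_of_nonneg_left (h1.trans h12) (by positivity)
        _ = _ := by ring
    have a1 := (re_aux_cell_diff (w := R1) (x := p.A.1) (x' := p'.A.1) (E := Λ) hR1 (cA.1.trans hA)).1
    have a2 := (re_aux_cell_diff (w := R1) (x := p.A.2) (x' := p'.A.2) (E := Λ) hR1 (cA.2.trans hA)).1
    have b1 := (re_aux_cell_diff (w := l * R2) (x := p.b.1) (x' := p'.b.1) (E := Λ) (by positivity) (cb.1.trans hb)).1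
    have b2 := (re_aux_cell_diff (w := l * R2) (x := p.b.2) (x' := p'.b.2) (E := Λ) (by positivity) (cb.2.trans hb)).1
    have hv := re_aux_floor_diff (re_aux_vert hΛ hl hδ (h1.trans h12) h2 h)
    rw [Int.floor_add_intCast] at hv
    rw [← hI] at a1 a2 b1 b2
    rw [← hIv] at hv
    obtain ⟨dv, hdv⟩ : ∃ dv : ℤ, dv = ⌊(p'.y - 2 * rtIp (reCor2 R p'.A) p'.b) / (l * R * R2)⌋
        + 2 * (((reCell2 R p'.A).1 - (reCell2 R p.A).1) * (reCell2 (l * R2) p.b).1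
            + ((reCell2 R p'.A).2 - (reCell2 R p.A).2) * (reCell2 (l * R2) p.b).2)
        - ⌊(p.y - 2 * rtIp (reCor2 R p.A) p.b) / (l * R * R2)⌋ := ⟨_, rfl⟩
    rw [← hdv] at hv
    refine Finset.mem_image.2 ⟨((reCell R1 p'.A.1 - reCell R1 p.A.1, reCell R1 p'.A.2 - reCell R1 p.A.2),
      (reCell (l * R2) p'.b.1 - reCell (l * R2) p.b.1, reCell (l * R2) p'.b.2 - reCell (l * R2) p.b.2), dv), ?_, ?_⟩
    · exact Finset.mem_product.2 ⟨Finset.mem_product.2 ⟨a1, a2⟩, Finset.mem_product.2 ⟨Finset.mem_product.2 ⟨b1, b2⟩, hv⟩⟩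
    · have e1 : ∀ x : ℝ, reCell R1 x / 2 ^ n = reCell R x := fun x => by
        rw [re_aux_cell_div hR x n, hRn]
      simp only [reGn, reCell2, add_sub_cancel, e1]
      refine Prod.ext rfl (Prod.ext rfl ?_)
      rw [hdv]
      simp only [reCell, reCell2]
      ring

/-! ## G3. lists on the document -/

theorem re_g3_Rw (D : ReDoc) {j w : ℕ} (h : j ≤ w) : D.Rw j = D.Rw w * 2 ^ ((w - j) * D.m) := by
  obtain ⟨k, rfl⟩ := Nat.exists_eq_add_of_le h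
  rw [re_Rw_add, Nat.add_sub_cancel_left]
  unfold rdLen
  rw [inv_pow]
  field_simp

/-- the joint name `(C, A_w)` is the general name -/
theorem re_g3_joint (D : ReDoc) (hH : 0 < D.H) (b i : ℕ) {j w : ℕ} (h : j ≤ w) (ω : D.Row b) :
    reGn (D.len i) (D.Rw j) (D.Rw w) (D.Rw j) (D.back b i ω) = (D.an b w ω, (D.nm b i j ω).2.2.1, (D.nm b i j ω).2.2.2) ∧
    (D.nm b i j ω).2.1 = ((D.an b w ω).1 / 2 ^ ((w - j) * D.m), (D.an b w ω).2 / 2 ^ ((w - j) * D.m)) := by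
  have hR := re_Rw_pos D hH j
  have hw := re_Rw_pos D hH w
  have e1 : D.Rw j / 2 ^ ((w - j) * D.m) = D.Rw w := by
    rw [re_g3_Rw D h]
    field_simp
  constructor
  · have e : D.len i * D.Rw j * D.Rw j = D.len i * D.Rw j ^ 2 := by ring
    simp only [reGn, ReDoc.nm, reNm, ReDoc.an, re_back_A, e]
  · simp only [ReDoc.nm, reNm, ReDoc.an, re_back_A, reCell2]
    rw [re_aux_cell_div hR _ ((w - j) * D.m), re_aux_cell_div hR (D.pt b ω).A.2 ((w - j) * D.m), e1]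

/-- **lists along the correspondence** (proof of lem:rt-stability, first paragraph), both directions, for the joint name `(C(a,v), A_w)`, `v ≤ w ≤ u(l)`
OWNER helper159 (leaf L-256-RE-G3), EST 133 lines -/
theorem re_acc_list (D : ReDoc) (hH : 0 < D.H) {Λ : ℝ} (hΛ : 1 ≤ Λ) {i l j w : ℕ} (hil : i ≤ l) (hjw : j ≤ w)
    (hv : 2 * w + l ≤ D.q) :
    ∃ Lf Lb : ReName × (ℤ × ℤ) → Finset (ReName × (ℤ × ℤ)),
      (∀ x, ((Lf x).card : ℝ) ≤ 2 ^ 40 * Λ ^ 6) ∧ (∀ x, ((Lb x).card : ℝ) ≤ 2 ^ 40 * Λ ^ 6) ∧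
      ∀ (ω : D.Row i) (ω' : D.Row l), D.Conn Λ i l ω ω' →
        (D.nm l i j ω', D.an l w ω') ∈ Lf (D.nm i i j ω, D.an i w ω) ∧
        (D.nm i i j ω, D.an i w ω) ∈ Lb (D.nm l i j ω', D.an l w ω') := by
  have hl := re_len_pos D i
  have hδ := re_rdD_pos D hH l
  have hΛ0 : 0 ≤ Λ := le_trans zero_le_one hΛ
  have hΛ6 : 0 ≤ Λ ^ 6 := by positivity
  obtain ⟨n, hn⟩ : ∃ n, n = (w - j) * D.m := ⟨_, rfl⟩
  obtain ⟨L1, hL1, hm1⟩ := re_list (Λ := 3 * Λ) (l := D.len i) (R := D.Rw j) (R1 := D.Rw w) (R2 := D.Rw j)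
    (δ := rdD D.H (D.dp l)) (n := (w - j) * D.m) (by linarith) hl hδ (re_rdD_le D hH hv) (re_Rw_anti D hH hjw) le_rfl (re_g3_Rw D hjw)
  obtain ⟨L2, hL2, hm2⟩ := re_list (Λ := 2 * (3 * Λ)) (l := D.len i) (R := D.Rw j) (R1 := D.Rw w) (R2 := D.Rw j)
    (δ := rdD D.H (D.dp l)) (n := (w - j) * D.m) (by linarith) hl hδ (re_rdD_le D hH hv) (re_Rw_anti D hH hjw) le_rfl (re_g3_Rw D hjw)
  refine ⟨fun x => (L1 (x.2, x.1.2.2.1, x.1.2.2.2)).image (fun g => ((x.1.1, ((g.1.1 / 2 ^ n, g.1.2 / 2 ^ n), g.2.1, g.2.2)), g.1)),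
    fun x => (L2 (x.2, x.1.2.2.1, x.1.2.2.2)).image (fun g => ((x.1.1, ((g.1.1 / 2 ^ n, g.1.2 / 2 ^ n), g.2.1, g.2.2)), g.1)),
    fun x => ?_, fun x => ?_, fun ω ω' hc => ?_⟩
  · refine le_trans (Nat.cast_le.2 Finset.card_image_le) ((hL1 _).trans ?_)
    calc (2 : ℝ) ^ 15 * (3 * Λ) ^ 6 = (2 ^ 15 * 3 ^ 6) * Λ ^ 6 := by ring
      _ ≤ _ := mul_le_mul_of_nonneg_right (by norm_num) hΛ6
  · refine le_trans (Nat.cast_le.2 Finset.card_image_le) ((hL2 _).trans ?_)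
    calc (2 : ℝ) ^ 15 * (2 * (3 * Λ)) ^ 6 = (2 ^ 15 * 6 ^ 6) * Λ ^ 6 := by ring
      _ ≤ _ := mul_le_mul_of_nonneg_right (by norm_num) hΛ6
  · have hnear := re_near_conn D hH hΛ hil ω ω' hc
    have hnear' := re_near_symm hnear (by positivity) hl.le hδ.le
    rw [← re_back_self] at hnear hnear'
    have a1 := hm1 _ _ hnear
    have a2 := hm2 _ _ hnear'
    obtain ⟨k1, k2⟩ := re_g3_joint D hH i i hjw ω
    obtain ⟨k1', k2'⟩ := re_g3_joint D hH l i hjw ω'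
    have hanc : (D.nm l i j ω').1 = (D.nm i i j ω).1 := by
      show D.anc l i ω' = D.anc i i ω
      rw [re_anc_self, hc.1]
    rw [k1, k1'] at a1 a2
    rw [← hn] at k2 k2'
    constructor
    · refine Finset.mem_image.2 ⟨_, a1, ?_⟩
      simp only
      rw [← k2', ← hanc]
    · refine Finset.mem_image.2 ⟨_, a2, ?_⟩
      simp only
      rw [← k2, hanc]

theorem re_g3_unsmul {w c : ℝ} (hw : 0 < w) {u : ℝ × ℝ} (h : rtSq (w⁻¹ • u) ≤ c ^ 2) : rtSq u ≤ (c * w) ^ 2 := by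
  rw [re_aux_sq_smul] at h
  have h1 := mul_le_mul_of_nonneg_left h (sq_nonneg w)
  have e : w ^ 2 * (w⁻¹ ^ 2 * rtSq u) = rtSq u := by
    field_simp
  rw [e] at h1
  calc rtSq u ≤ w ^ 2 * c ^ 2 := h1
    _ = _ := by ring

/-- `box 2` is `ReNear (2 Λ)` to the centre -/
theorem re_g3_near {Λ l R : ℝ} (hΛ : 1 ≤ Λ) (hl : 0 < l) (hR : 0 < R) (τ : RtTest) (hτl : τ.l = l) (hr0 : 0 < τ.r) (hr : τ.r ≤ Λ * R)
    {p : RtRow} (hp : p ∈ τ.box 2) : ReNear (2 * Λ) l R ⟨τ.As, τ.bs, τ.ys⟩ p := by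
  obtain ⟨h1, h2, h3⟩ := hp
  have hΛ0 : 0 < Λ := lt_of_lt_of_le zero_lt_one hΛ
  have hlr : 0 < τ.l * τ.r := by rw [hτl]; positivity
  refine ⟨?_, ?_, ?_⟩
  · refine (re_g3_unsmul hr0 h3).trans (pow_le_pow_left₀ (by positivity) ?_ 2)
    calc 2 * τ.r ≤ 2 * (Λ * R) := by linarith
      _ = _ := by ring
  · refine (re_g3_unsmul hlr h1).trans (pow_le_pow_left₀ (by positivity) ?_ 2)
    rw [hτl]
    calc 2 * (l * τ.r) ≤ 2 * (l * (Λ * R)) := by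
          have := mul_le_mul_of_nonneg_left hr hl.le
          linarith
      _ = _ := by ring
  · unfold RtTest.z at h2
    have hlr2 : 0 < τ.l * τ.r ^ 2 := by rw [hτl]; positivity
    rw [abs_div, abs_of_pos hlr2, div_le_iff₀ hlr2, hτl] at h2
    refine h2.trans ?_
    have a1 : τ.r ^ 2 ≤ (Λ * R) ^ 2 := pow_le_pow_left₀ hr0.le hr 2
    have a2 := mul_le_mul_of_nonneg_left a1 hl.le
    have a3 : 0 ≤ l * (Λ * R) ^ 2 := by positivity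
    calc 2 * (l * τ.r ^ 2) ≤ 4 * (l * (Λ * R) ^ 2) := by linarith
      _ = _ := by ring

theorem re_g3_Gn (l R : ℝ) (p : RtRow) : reGn l R R R p = reNm l R p := by
  unfold reGn reNm
  have e : l * R * R = l * R ^ 2 := by ring
  rw [e]

/-- a peeling label of radius `≤ Λ R_j` determines `C(a, v)` up to a list (`set 2 ⊆ box 2` is `ReNear (2Λ) ℓ R_j` to the centre)
OWNER helper159 (leaf L-256-RE-G3), EST 133 lines -/
theorem re_label_list (D : ReDoc) (hH : 0 < D.H) {Λ : ℝ} (hΛ : 1 ≤ Λ) (i j : ℕ) (Q : RdTst) (hr0 : 0 < Q.r)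
    (hr : Q.r ≤ Λ * D.Rw j) (I : ℕ) :
    ∃ Lst : Finset ReName, ((Lst.card : ℝ) ≤ 2 ^ 25 * Λ ^ 6) ∧
      ∀ ω : D.Row i, D.iv i ω = I → D.pt i ω ∈ (Q.toT (D.dp i)).set 2 → D.nm i i j ω ∈ Lst := by
  have hl := re_len_pos D i
  have hR := re_Rw_pos D hH j
  obtain ⟨L, hL, hm⟩ := re_list (Λ := 2 * Λ) (l := D.len i) (R := D.Rw j) (R1 := D.Rw j) (R2 := D.Rw j) (δ := D.Rw j) (n := 0)
    (by linarith) hl hR le_rfl le_rfl le_rfl (by simp)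
  refine ⟨(L (reGn (D.len i) (D.Rw j) (D.Rw j) (D.Rw j) ⟨Q.As, Q.bs, Q.ys⟩)).image (fun y => (I, y)), ?_, fun ω hI hω => ?_⟩
  · refine le_trans (Nat.cast_le.2 Finset.card_image_le) ((hL _).trans ?_)
    have : 0 ≤ Λ ^ 6 := by positivity
    calc (2 : ℝ) ^ 15 * (2 * Λ) ^ 6 = 2 ^ 21 * Λ ^ 6 := by ring
      _ ≤ _ := by nlinarith
  · have h1 := hm _ _ (re_g3_near hΛ hl hR (Q.toT (D.dp i)) rfl hr0 hr hω.1)
    refine Finset.mem_image.2 ⟨_, h1, ?_⟩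
    rw [re_g3_Gn, ← hI, ← re_anc_self, ← re_back_self]
    rfl

theorem re_g3_half {w : ℝ} (hw : 0 < w) (x : ℝ) :
    -(w / 2) ≤ x - w * ((reCell w x : ℝ) + 1 / 2) ∧ x - w * ((reCell w x : ℝ) + 1 / 2) ≤ w / 2 := by
  obtain ⟨h1, h2⟩ := re_aux_cor hw x
  constructor <;> nlinarith

theorem re_g3_sq {w : ℝ} (hw : 0 < w) (u : ℝ × ℝ) (h1 : -(w / 2) ≤ u.1 ∧ u.1 ≤ w / 2) (h2 : -(w / 2) ≤ u.2 ∧ u.2 ≤ w / 2) :
    rtSq (w⁻¹ • u) ≤ 1 ^ 2 := by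
  rw [re_aux_sq_smul]
  have a1 : u.1 ^ 2 ≤ (w / 2) ^ 2 := sq_le_sq' h1.1 h1.2
  have a2 : u.2 ^ 2 ≤ (w / 2) ^ 2 := sq_le_sq' h2.1 h2.2
  have a3 : rtSq u ≤ w ^ 2 := by
    unfold rtSq
    nlinarith [sq_nonneg w]
  calc (w⁻¹) ^ 2 * rtSq u ≤ (w⁻¹) ^ 2 * w ^ 2 := mul_le_mul_of_nonneg_left a3 (by positivity)
    _ = 1 ^ 2 := by
      field_simp

/-- a cell lies in two round boxes -/
theorem re_g3_box {l R : ℝ} (hl : 0 < l) (hR : 0 < R) (p : RtRow) :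
    ∃ ν : Fin 4, p ∈ (rtRound l R (R * (((reNm l R p).1.1 : ℝ) + 1 / 2), R * (((reNm l R p).1.2 : ℝ) + 1 / 2))
      (l * R * (((reNm l R p).2.1.1 : ℝ) + 1 / 2), l * R * (((reNm l R p).2.1.2 : ℝ) + 1 / 2))
      (-(R * (l * R * (((reNm l R p).2.1.1 : ℝ) + 1 / 2) + l * R * (((reNm l R p).2.1.2 : ℝ) + 1 / 2)))
        + 2 * rtIp (R * (((reNm l R p).1.1 : ℝ) + 1 / 2), R * (((reNm l R p).1.2 : ℝ) + 1 / 2))
          (l * R * (((reNm l R p).2.1.1 : ℝ) + 1 / 2), l * R * (((reNm l R p).2.1.2 : ℝ) + 1 / 2))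
        + l * R ^ 2 * (((reNm l R p).2.2 : ℝ) + ((ν : ℕ) : ℝ)))).box 1 := by
  have hlR : 0 < l * R := by positivity
  have hlR2 : 0 < l * R ^ 2 := by positivity
  have A1 := re_g3_half hR p.A.1
  have A2 := re_g3_half hR p.A.2
  have b1 := re_g3_half hlR p.b.1
  have b2 := re_g3_half hlR p.b.2
  obtain ⟨t1, t2⟩ := re_aux_cor hlR2 (p.y - 2 * rtIp (reCor2 R p.A) p.b)
  obtain ⟨T, hT⟩ : ∃ T, T = (p.y - 2 * rtIp (reCor2 R p.A) p.b - l * R ^ 2 * reCell (l * R ^ 2) (p.y - 2 * rtIp (reCor2 R p.A) p.b))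
      - R * ((p.b.1 - l * R * ((reCell (l * R) p.b.1 : ℝ) + 1 / 2)) + (p.b.2 - l * R * ((reCell (l * R) p.b.2 : ℝ) + 1 / 2))) := ⟨_, rfl⟩
  have hT1 : -(l * R ^ 2) ≤ T := by
    rw [hT]
    nlinarith [b1.2, b2.2]
  have hT2 : T ≤ 2 * (l * R ^ 2) := by
    rw [hT]
    nlinarith [b1.1, b2.1]
  have hz : ∀ ν : Fin 4, |T - l * R ^ 2 * ((ν : ℕ) : ℝ)| ≤ l * R ^ 2 →
      p ∈ (rtRound l R (R * (((reNm l R p).1.1 : ℝ) + 1 / 2), R * (((reNm l R p).1.2 : ℝ) + 1 / 2))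
      (l * R * (((reNm l R p).2.1.1 : ℝ) + 1 / 2), l * R * (((reNm l R p).2.1.2 : ℝ) + 1 / 2))
      (-(R * (l * R * (((reNm l R p).2.1.1 : ℝ) + 1 / 2) + l * R * (((reNm l R p).2.1.2 : ℝ) + 1 / 2)))
        + 2 * rtIp (R * (((reNm l R p).1.1 : ℝ) + 1 / 2), R * (((reNm l R p).1.2 : ℝ) + 1 / 2))
          (l * R * (((reNm l R p).2.1.1 : ℝ) + 1 / 2), l * R * (((reNm l R p).2.1.2 : ℝ) + 1 / 2))
        + l * R ^ 2 * (((reNm l R p).2.2 : ℝ) + ((ν : ℕ) : ℝ)))).box 1 := by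
    intro ν hν
    refine ⟨?_, ?_, ?_⟩
    · exact re_g3_sq hlR _ b1 b2
    · simp only [RtTest.z, rtRound, reNm, reCell2]
      rw [abs_div, abs_of_pos hlR2, div_le_one hlR2]
      refine le_trans (le_of_eq ?_) hν
      congr 1
      rw [hT]
      simp only [rtIp, reCor2, Prod.fst_sub, Prod.snd_sub]
      ring
    · exact re_g3_sq hR _ A1 A2
  by_cases hc : T ≤ l * R ^ 2
  · refine ⟨0, hz 0 ?_⟩
    rw [abs_le]
    constructor <;> simp <;> linarith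
  · refine ⟨1, hz 1 ?_⟩
    rw [abs_le]
    push Not at hc
    constructor <;> simp <;> linarith

/-- a cell `C(a, v)` lies in one interval and in four round tests of radius `R_j` (centre of the cell; the tilt at the centre instead of the corner moves the height by `≤ ℓ R²`)
OWNER helper159 (leaf L-256-RE-G3), EST 133 lines -/
theorem re_cell_tests (D : ReDoc) (hH : 0 < D.H) (i j : ℕ) (x : ReName) :
    ∃ Q : Fin 4 → RdTst, (∀ ν, ((Q ν).toT (D.dp i)).Adm 1 ∧ (Q ν).r = D.Rw j ∧ (Q ν).f = 1) ∧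
      ∀ ω : D.Row i, D.nm i i j ω = x → D.iv i ω = x.1 ∧ ∃ ν, D.pt i ω ∈ (Q ν).rows (D.dp i) := by
  have hl := re_len_pos D i
  have hR := re_Rw_pos D hH j
  refine ⟨fun ν => ⟨D.Rw j, 1, (D.Rw j * ((x.2.1.1 : ℝ) + 1 / 2), D.Rw j * ((x.2.1.2 : ℝ) + 1 / 2)),
      (D.len i * D.Rw j * ((x.2.2.1.1 : ℝ) + 1 / 2), D.len i * D.Rw j * ((x.2.2.1.2 : ℝ) + 1 / 2)),
      (-(D.Rw j * (D.len i * D.Rw j * ((x.2.2.1.1 : ℝ) + 1 / 2) + D.len i * D.Rw j * ((x.2.2.1.2 : ℝ) + 1 / 2)))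
        + 2 * rtIp (D.Rw j * ((x.2.1.1 : ℝ) + 1 / 2), D.Rw j * ((x.2.1.2 : ℝ) + 1 / 2))
          (D.len i * D.Rw j * ((x.2.2.1.1 : ℝ) + 1 / 2), D.len i * D.Rw j * ((x.2.2.1.2 : ℝ) + 1 / 2))
        + D.len i * D.Rw j ^ 2 * ((x.2.2.2 : ℝ) + ((ν : ℕ) : ℝ))), rtLin⟩, fun ν => ⟨?_, rfl, rfl⟩, fun ω hω => ⟨?_, ?_⟩⟩
  · exact rt_round_adm hl hR _ _ _
  · rw [← hω]
    exact (re_anc_self D i ω).symm
  · obtain ⟨ν, hν⟩ := re_g3_box hl hR (D.pt i ω)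
    have e : reNm (D.len i) (D.Rw j) (D.pt i ω) = x.2 := by
      rw [← hω, ← re_back_self]
      rfl
    rw [e] at hν
    refine ⟨ν, ?_⟩
    rw [← rt_round_set _ _ _ _ _ zero_le_one] at hν
    exact hν

/-! ## G4. exact cell identities -/

/-- OWNER helper159 (leaf L-256-RE-G4), EST 28 lines -/
theorem re_cell_fr {w : ℝ} (hw : 0 < w) (x : ℝ) (a : ℕ) :
    ⌊reFr w x * (2 : ℝ) ^ a⌋ = reCell (w / 2 ^ a) x - 2 ^ a * reCell w x := by
  unfold reFr reCell Int.fract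
  have e : (x / w - (⌊x / w⌋ : ℝ)) * 2 ^ a = x / (w / 2 ^ a) - ((2 ^ a * ⌊x / w⌋ : ℤ) : ℝ) := by
    push_cast
    field_simp
  rw [e, Int.floor_sub_intCast]

/-- nested cells: floor division
OWNER helper159 (leaf L-256-RE-G4), EST 28 lines -/
theorem re_cell_div {w : ℝ} (hw : 0 < w) (x : ℝ) (a : ℕ) : reCell w x = reCell (w / 2 ^ a) x / 2 ^ a := by
  exact re_aux_cell_div hw x a

/-- OWNER helper159 (leaf L-256-RE-G4), EST 28 lines -/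
theorem re_nm_an (D : ReDoc) (b i j : ℕ) (ω : D.Row b) : (D.nm b i j ω).2.1 = D.an b j ω := by
  rfl

theorem re_aux_M_pow (m σ k : ℕ) : (((2 ^ (m * σ) : ℕ) : ℝ)) ^ k = (2 : ℝ) ^ (m * σ * k) := by
  push_cast
  rw [← pow_mul]

theorem re_aux_Rw_div (D : ReDoc) (j σ k : ℕ) : D.Rw j / 2 ^ (D.m * σ * k) = D.Rw (j + k * σ) := by
  rw [re_Rw_add]
  unfold rdLen
  rw [inv_pow, div_eq_mul_inv]
  congr 3
  ring

theorem re_aux_Zv (D : ReDoc) (hH : 0 < D.H) (b j : ℕ) (ω : D.Row b) :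
    D.Zv b j ω = (reFr (D.Rw j) (D.pt b ω).A.1, reFr (D.Rw j) (D.pt b ω).A.2) := by
  have hR := re_Rw_pos D hH j
  unfold ReDoc.Zv reFr reCor2 reCell Int.fract
  ext
  · simp only [Prod.smul_fst, Prod.fst_sub, smul_eq_mul]
    field_simp
  · simp only [Prod.smul_snd, Prod.snd_sub, smul_eq_mul]
    field_simp

/-- OWNER helper159 (leaf L-256-RE-G4), EST 28 lines -/
theorem re_Zc_eq (D : ReDoc) (hH : 0 < D.H) (b j σ k : ℕ) (ω : D.Row b) :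
    D.Zc b j (2 ^ (D.m * σ)) k ω =
      ((D.an b (j + k * σ) ω).1 - 2 ^ (D.m * σ * k) * (D.an b j ω).1, (D.an b (j + k * σ) ω).2 - 2 ^ (D.m * σ * k) * (D.an b j ω).2) := by
  have hR := re_Rw_pos D hH j
  unfold ReDoc.Zc rnCell2 rnCell
  rw [re_aux_Zv D hH, re_aux_M_pow]
  simp only
  rw [re_cell_fr hR, re_cell_fr hR, re_aux_Rw_div]
  rfl

/-- OWNER helper159 (leaf L-256-RE-G4), EST 28 lines -/
theorem re_tc_eq (D : ReDoc) {b i σ k : ℕ} (h : i + k * σ ≤ b) (ω : D.Row b) :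
    D.tc b i (2 ^ (D.m * σ)) k ω = (D.anc b (i + k * σ) ω : ℤ) - 2 ^ (D.m * σ * k) * (D.anc b i ω : ℤ) := by
  unfold ReDoc.tc rnCell
  rw [re_aux_M_pow]
  obtain ⟨x, hx⟩ : ∃ x, x = D.iv b ω := ⟨_, rfl⟩
  have hdp : D.dp (i + k * σ) = D.dp i + D.m * σ * k := by
    unfold ReDoc.dp
    ring
  have hdp2 : D.dp (i + k * σ) ≤ D.dp b := by
    unfold ReDoc.dp
    exact Nat.add_le_add_left (Nat.mul_le_mul_right _ h) _
  obtain ⟨e, he⟩ := Nat.exists_eq_add_of_le hdp2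
  have e1 : D.th b i ω * 2 ^ (D.m * σ * k) = (x : ℝ) / 2 ^ e - ((2 ^ (D.m * σ * k) * (D.anc b i ω : ℤ) : ℤ) : ℝ) := by
    unfold ReDoc.th ReDoc.tm tmL ReDoc.len rdLen
    rw [← hx, he, hdp, inv_pow]
    push_cast
    rw [pow_add, pow_add]
    field_simp
  rw [e1, Int.floor_sub_intCast]
  congr 1
  unfold ReDoc.anc ancI
  rw [← hx, he, Nat.add_sub_cancel_left]
  have e2 : ((x : ℝ) / 2 ^ e) = ((x : ℝ) / ((2 ^ e : ℕ) : ℝ)) := by push_cast; rfl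
  rw [e2, ← Nat.floor_div_eq_div (K := ℝ), ← Int.natCast_floor_eq_floor (by positivity)]

/-- OWNER helper159 (leaf L-256-RE-G4), EST 28 lines -/
theorem re_Wc_eq (D : ReDoc) (hH : 0 < D.H) (b i j σ k : ℕ) (ω : D.Row b) :
    D.Wc b i j (2 ^ (D.m * σ)) k ω =
      (reCell (D.len i * D.Rw (j + k * σ)) (D.back b i ω).b.1 - 2 ^ (D.m * σ * k) * reCell (D.len i * D.Rw j) (D.back b i ω).b.1,
       reCell (D.len i * D.Rw (j + k * σ)) (D.back b i ω).b.2 - 2 ^ (D.m * σ * k) * reCell (D.len i * D.Rw j) (D.back b i ω).b.2,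
       reCell (D.len i * D.Rw j * D.Rw (j + k * σ)) (D.hv b i j ω) - 2 ^ (D.m * σ * k) * reCell (D.len i * D.Rw j ^ 2) (D.hv b i j ω)) := by
  have hR := re_Rw_pos D hH j
  have hl := re_len_pos D i
  unfold ReDoc.Wc rnCell3 rnCell ReDoc.Wv
  rw [re_aux_M_pow]
  simp only
  rw [re_cell_fr (by positivity), re_cell_fr (by positivity), re_cell_fr (by positivity)]
  have e1 : D.len i * D.Rw j / 2 ^ (D.m * σ * k) = D.len i * D.Rw (j + k * σ) := by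
    rw [← re_aux_Rw_div, mul_div_assoc]
  have e2 : D.len i * D.Rw j ^ 2 / 2 ^ (D.m * σ * k) = D.len i * D.Rw j * D.Rw (j + k * σ) := by
    rw [← re_aux_Rw_div]
    ring
  rw [e1, e2]

theorem re_aux_an_div (D : ReDoc) (hH : 0 < D.H) (b : ℕ) {w w' : ℕ} (h : w ≤ w') (ω : D.Row b) :
    D.an b w ω = ((D.an b w' ω).1 / 2 ^ (D.m * 1 * (w' - w)), (D.an b w' ω).2 / 2 ^ (D.m * 1 * (w' - w))) := by
  have hR := re_Rw_pos D hH w
  have e : D.Rw w / 2 ^ (D.m * 1 * (w' - w)) = D.Rw w' := by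
    rw [re_aux_Rw_div]
    congr 1
    omega
  unfold ReDoc.an reCell2
  rw [re_cell_div hR _ (D.m * 1 * (w' - w)), re_cell_div hR (D.pt b ω).A.2 (D.m * 1 * (w' - w)), e]

/-- OWNER helper159 (leaf L-256-RE-G4), EST 28 lines -/
theorem re_det_an_dn (D : ReDoc) (hH : 0 < D.H) (b : ℕ) {w w' : ℕ} (h : w ≤ w') : ReDet (D.an b w') (D.an b w) 1 := by
  exact re_det_of_eq (fun a => (a.1 / 2 ^ (D.m * 1 * (w' - w)), a.2 / 2 ^ (D.m * 1 * (w' - w))))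
    (fun ω => re_aux_an_div D hH b h ω)

theorem re_aux_ediv_mem (a : ℤ) (e : ℕ) : a ∈ Finset.Ico (2 ^ e * (a / 2 ^ e)) (2 ^ e * (a / 2 ^ e) + 2 ^ e) := by
  have hN : (0 : ℤ) < 2 ^ e := by positivity
  have h1 := Int.ediv_mul_le a hN.ne'
  have h2 := Int.lt_ediv_add_one_mul_self a hN
  rw [Finset.mem_Ico]
  constructor <;> nlinarith

/-- OWNER helper159 (leaf L-256-RE-G4), EST 28 lines -/
theorem re_det_an_up (D : ReDoc) (hH : 0 < D.H) (b : ℕ) {w w' : ℕ} (h : w ≤ w') :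
    ReDet (D.an b w) (D.an b w') ((2 : ℝ) ^ (2 * D.m * (w' - w))) := by
  obtain ⟨e, he⟩ : ∃ e, e = D.m * 1 * (w' - w) := ⟨_, rfl⟩
  refine ⟨fun a => (Finset.Ico (2 ^ e * a.1) (2 ^ e * a.1 + 2 ^ e)) ×ˢ (Finset.Ico (2 ^ e * a.2) (2 ^ e * a.2 + 2 ^ e)),
    fun a => ?_, fun ω => ?_⟩
  · rw [Finset.card_product, Int.card_Ico, Int.card_Ico]
    simp only [add_sub_cancel_left]
    have h1 : ((2 : ℤ) ^ e).toNat = 2 ^ e := by
      have : ((2 : ℤ) ^ e) = ((2 ^ e : ℕ) : ℤ) := by push_cast; rfl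
      rw [this, Int.toNat_natCast]
    rw [h1]
    push_cast
    rw [← pow_add, he]
    apply le_of_eq
    congr 1
    ring
  · rw [re_aux_an_div D hH b h ω, ← he]
    exact Finset.mem_product.2 ⟨re_aux_ediv_mem _ e, re_aux_ediv_mem _ e⟩

theorem re_aux_Z_of (D : ReDoc) (hH : 0 < D.H) (b i j σ k : ℕ) (ω ω' : D.Row b) (hC : D.nm b i j ω = D.nm b i j ω') :
    D.Zc b j (2 ^ (D.m * σ)) k ω = D.Zc b j (2 ^ (D.m * σ)) k ω' ↔ D.an b (j + k * σ) ω = D.an b (j + k * σ) ω' := by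
  have hj : D.an b j ω = D.an b j ω' := by
    rw [← re_nm_an D b i j ω, ← re_nm_an D b i j ω', hC]
  rw [re_Zc_eq D hH, re_Zc_eq D hH, hj]
  constructor
  · intro h
    have h1 := congrArg Prod.fst h
    have h2 := congrArg Prod.snd h
    simp only at h1 h2
    exact Prod.ext (by linarith) (by linarith)
  · intro h
    rw [h]

/-- given the root, `Z_k` and `A_{v + k h / r}` are the same observation
OWNER helper159 (leaf L-256-RE-G4), EST 28 lines -/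
theorem re_Z_iff (D : ReDoc) (hH : 0 < D.H) (b i j σ k : ℕ) (ω ω' : D.Row b) :
    pair (D.Zc b j (2 ^ (D.m * σ)) k) (D.nm b i j) ω = pair (D.Zc b j (2 ^ (D.m * σ)) k) (D.nm b i j) ω' ↔
      pair (D.nm b i j) (D.an b (j + k * σ)) ω = pair (D.nm b i j) (D.an b (j + k * σ)) ω' := by
  simp only [FLaw.pair, Prod.mk.injEq]
  constructor
  · rintro ⟨hZ, hC⟩
    exact ⟨hC, (re_aux_Z_of D hH b i j σ k ω ω' hC).1 hZ⟩
  · rintro ⟨hC, hA⟩
    exact ⟨(re_aux_Z_of D hH b i j σ k ω ω' hC).2 hA, hC⟩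

/-- OWNER helper159 (leaf L-256-RE-G4), EST 28 lines -/
theorem re_ZZ_iff (D : ReDoc) (hH : 0 < D.H) (b i j σ : ℕ) {k k' : ℕ} (hk : k ≤ k') (ω ω' : D.Row b) :
    pair (D.Zc b j (2 ^ (D.m * σ)) k') (pair (D.Zc b j (2 ^ (D.m * σ)) k) (D.nm b i j)) ω
        = pair (D.Zc b j (2 ^ (D.m * σ)) k') (pair (D.Zc b j (2 ^ (D.m * σ)) k) (D.nm b i j)) ω' ↔
      pair (D.nm b i j) (D.an b (j + k' * σ)) ω = pair (D.nm b i j) (D.an b (j + k' * σ)) ω' := by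
  simp only [FLaw.pair, Prod.mk.injEq]
  constructor
  · rintro ⟨hZ, _, hC⟩
    exact ⟨hC, (re_aux_Z_of D hH b i j σ k' ω ω' hC).1 hZ⟩
  · rintro ⟨hC, hA⟩
    refine ⟨(re_aux_Z_of D hH b i j σ k' ω ω' hC).2 hA, (re_aux_Z_of D hH b i j σ k ω ω' hC).2 ?_, hC⟩
    have hw : j + k * σ ≤ j + k' * σ := Nat.add_le_add_left (Nat.mul_le_mul_right _ hk) _
    rw [re_aux_an_div D hH b hw ω, re_aux_an_div D hH b hw ω', hA]

/-! ## G5. width refinement (same atom) -/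

/-- interval ⟹ few cells -/
theorem re_g5_cells {w K x : ℝ} (hw : 0 < w) (N : ℕ) (h1 : K ≤ x) (h2 : x < K + N * w) :
    reCell w x - reCell w K ∈ Finset.Icc (0 : ℤ) N := by
  unfold reCell
  have a1 := Int.floor_le (x / w)
  have b2 := Int.lt_floor_add_one (K / w)
  have c1 : K / w ≤ x / w := div_le_div_of_nonneg_right h1 hw.le
  have c2 : x / w < K / w + N := by
    rw [div_lt_iff₀ hw, add_mul, div_mul_cancel₀ _ hw.ne']
    exact h2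
  rw [Finset.mem_Icc]
  constructor
  · have := Int.floor_le_floor c1
    omega
  · have h3 : (⌊x / w⌋ : ℝ) < ((⌊K / w⌋ + 1 + N : ℤ) : ℝ) := by
      push_cast
      linarith
    have := Int.cast_lt.1 h3
    omega

/-- nested corners -/
theorem re_g5_nest {R R' : ℝ} (hR' : 0 < R') (e : ℕ) (hRe : R = R' * 2 ^ e) (x : ℝ) :
    0 ≤ R' * reCell R' x - R * reCell R x ∧ R' * reCell R' x - R * reCell R x < R := by
  have hR : 0 < R := by rw [hRe]; positivity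
  obtain ⟨a1, a2⟩ := re_aux_cor hR x
  obtain ⟨b1, b2⟩ := re_aux_cor hR' x
  refine ⟨?_, by linarith⟩
  obtain ⟨c, hc⟩ : ∃ c : ℤ, c = reCell R x := ⟨_, rfl⟩
  rw [← hc] at a1 a2 ⊢
  have e1 : R * (c : ℝ) = (2 ^ e * (c : ℝ)) * R' := by rw [hRe]; ring
  have h1 : (2 ^ e * c : ℤ) ≤ reCell R' x := by
    unfold reCell
    rw [Int.le_floor, le_div_iff₀ hR']
    push_cast
    linarith
  have h2 : ((2 ^ e * c : ℤ) : ℝ) ≤ (reCell R' x : ℝ) := Int.cast_le.2 h1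
  push_cast at h2
  have h3 := mul_le_mul_of_nonneg_left h2 hR'.le
  have e2 : R * (c : ℝ) = R' * (2 ^ e * (c : ℝ)) := by rw [hRe]; ring
  linarith

/-- the known part of `2 (A_{R'} - A_R)·b` -/
noncomputable def reG5K (l R R' : ℝ) (a a' β' : ℤ × ℤ) : ℝ :=
  2 * ((R' * a'.1 - R * a.1) * (l * R' * β'.1) + (R' * a'.2 - R * a.2) * (l * R' * β'.2))

theorem re_g5_eqns_cite : True := by
  have := @reG5K.eq_1
  trivial

theorem re_g5_tilt {l R R' : ℝ} (hl : 0 < l) (hR' : 0 < R') (e : ℕ) (hRe : R = R' * 2 ^ e) (A b : ℝ × ℝ) :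
    ∃ E : ℝ, 0 ≤ E ∧ E < 4 * (l * R * R') ∧
      2 * rtIp (reCor2 R' A) b - 2 * rtIp (reCor2 R A) b = reG5K l R R' (reCell2 R A) (reCell2 R' A) (reCell2 (l * R') b) + E := by
  have hR : 0 < R := by rw [hRe]; positivity
  obtain ⟨d1, d1'⟩ := re_g5_nest hR' e hRe A.1
  obtain ⟨d2, d2'⟩ := re_g5_nest hR' e hRe A.2
  have hlR' : 0 < l * R' := by positivity
  obtain ⟨t1, t1'⟩ := re_aux_cor hlR' b.1
  obtain ⟨t2, t2'⟩ := re_aux_cor hlR' b.2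
  refine ⟨2 * ((R' * reCell R' A.1 - R * reCell R A.1) * (b.1 - l * R' * reCell (l * R') b.1)
    + (R' * reCell R' A.2 - R * reCell R A.2) * (b.2 - l * R' * reCell (l * R') b.2)), by positivity, ?_, ?_⟩
  · have h1 : (R' * reCell R' A.1 - R * reCell R A.1) * (b.1 - l * R' * reCell (l * R') b.1) < R * (l * R') :=
      mul_lt_mul'' d1' t1' d1 t1
    have h2 : (R' * reCell R' A.2 - R * reCell R A.2) * (b.2 - l * R' * reCell (l * R') b.2) < R * (l * R') :=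
      mul_lt_mul'' d2' t2' d2 t2
    nlinarith
  · unfold reG5K rtIp reCor2 reCell2
    simp only
    ring

/-- the fine tilted height from a coarse cell of the coarse tilted height -/
theorem re_g5_fine {l R R' : ℝ} (hl : 0 < l) (hR' : 0 < R') (e : ℕ) (hRe : R = R' * 2 ^ e) {W : ℝ} (N : ℕ) (hW : 0 < W)
    (hN : W + 4 * (l * R * R') ≤ N * (l * R' ^ 2)) (p : RtRow) :
    reCell (l * R' ^ 2) (p.y - 2 * rtIp (reCor2 R' p.A) p.b)
      - reCell (l * R' ^ 2) (W * reCell W (p.y - 2 * rtIp (reCor2 R p.A) p.b)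
          - reG5K l R R' (reCell2 R p.A) (reCell2 R' p.A) (reCell2 (l * R') p.b) - 4 * (l * R * R')) ∈ Finset.Icc (0 : ℤ) N := by
  obtain ⟨E, hE0, hE1, hE⟩ := re_g5_tilt hl hR' e hRe p.A p.b
  obtain ⟨c1, c2⟩ := re_aux_cor hW (p.y - 2 * rtIp (reCor2 R p.A) p.b)
  refine re_g5_cells (by positivity) N ?_ ?_ <;> linarith

theorem re_g5_cdiv {R R' : ℝ} (hR' : 0 < R') (e : ℕ) (hRe : R = R' * 2 ^ e) (x : ℝ) : reCell R x = reCell R' x / 2 ^ e := by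
  have hR : 0 < R := by rw [hRe]; positivity
  have h := re_aux_cell_div hR x e
  have e1 : R / 2 ^ e = R' := by rw [hRe]; field_simp
  rw [e1] at h
  exact h

theorem re_g5_dn {l R R' : ℝ} (hl : 0 < l) (hR' : 0 < R') (e : ℕ) (hRe : R = R' * 2 ^ e) :
    ∃ L : (ℤ × ℤ) × (ℤ × ℤ) × ℤ → Finset ((ℤ × ℤ) × (ℤ × ℤ) × ℤ), (∀ x, ((L x).card : ℝ) ≤ 6) ∧
      ∀ p : RtRow, reNm l R p ∈ L (reNm l R' p) := by
  have hR : 0 < R := by rw [hRe]; positivity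
  have hRR : R' ≤ R := by
    rw [hRe]
    exact le_mul_of_one_le_right hR'.le (one_le_pow₀ (by norm_num))
  refine ⟨fun x => (Finset.Icc (0 : ℤ) (5 : ℕ)).image (fun t => ((x.1.1 / 2 ^ e, x.1.2 / 2 ^ e), (x.2.1.1 / 2 ^ e, x.2.1.2 / 2 ^ e),
    reCell (l * R ^ 2) (l * R' ^ 2 * x.2.2 + reG5K l R R' (x.1.1 / 2 ^ e, x.1.2 / 2 ^ e) x.1 x.2.1) + t)), fun x => ?_, fun p => ?_⟩
  · refine le_trans (Nat.cast_le.2 Finset.card_image_le) ?_
    rw [Int.card_Icc]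
    norm_num
  · obtain ⟨E, hE0, hE1, hE⟩ := re_g5_tilt hl hR' e hRe p.A p.b
    obtain ⟨c1, c2⟩ := re_aux_cor (w := l * R' ^ 2) (by positivity) (p.y - 2 * rtIp (reCor2 R' p.A) p.b)
    have hlRe : l * R = l * R' * 2 ^ e := by rw [hRe]; ring
    have eA : reCell2 R p.A = ((reCell2 R' p.A).1 / 2 ^ e, (reCell2 R' p.A).2 / 2 ^ e) := by
      unfold reCell2
      rw [re_g5_cdiv hR' e hRe, re_g5_cdiv hR' e hRe p.A.2]
    have eb : reCell2 (l * R) p.b = ((reCell2 (l * R') p.b).1 / 2 ^ e, (reCell2 (l * R') p.b).2 / 2 ^ e) := by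
      unfold reCell2
      rw [re_g5_cdiv (by positivity) e hlRe, re_g5_cdiv (by positivity) e hlRe p.b.2]
    have b1 : l * R' ^ 2 ≤ l * R ^ 2 := mul_le_mul_of_nonneg_left (pow_le_pow_left₀ hR'.le hRR 2) hl.le
    have b2 : l * R * R' ≤ l * R ^ 2 := by
      have : l * R * R' ≤ l * R * R := mul_le_mul_of_nonneg_left hRR (by positivity)
      nlinarith
    have hm := re_g5_cells (w := l * R ^ 2)
      (K := l * R' ^ 2 * reCell (l * R' ^ 2) (p.y - 2 * rtIp (reCor2 R' p.A) p.b)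
        + reG5K l R R' (reCell2 R p.A) (reCell2 R' p.A) (reCell2 (l * R') p.b))
      (x := p.y - 2 * rtIp (reCor2 R p.A) p.b) (by positivity) 5 (by linarith) (by push_cast; linarith)
    refine Finset.mem_image.2 ⟨_, hm, ?_⟩
    unfold reNm
    rw [eA, eb]
    simp only [add_sub_cancel]

theorem re_g5_cardIco (a : ℤ) (e : ℕ) : (Finset.Ico (2 ^ e * a) (2 ^ e * a + 2 ^ e)).card = 2 ^ e := by
  rw [Int.card_Ico]
  simp only [add_sub_cancel_left]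
  have : ((2 : ℤ) ^ e) = ((2 ^ e : ℕ) : ℤ) := by push_cast; rfl
  rw [this, Int.toNat_natCast]

theorem re_g5_cardIcc (N : ℕ) : (Finset.Icc (0 : ℤ) N).card = N + 1 := by
  rw [Int.card_Icc]
  have : (N : ℤ) + 1 - 0 = ((N + 1 : ℕ) : ℤ) := by push_cast; ring
  rw [this, Int.toNat_natCast]

theorem re_g5_up {l R R' : ℝ} (hl : 0 < l) (hR' : 0 < R') (e : ℕ) (hRe : R = R' * 2 ^ e) :
    ∃ L : (ℤ × ℤ) × (ℤ × ℤ) × ℤ → Finset ((ℤ × ℤ) × (ℤ × ℤ) × ℤ), (∀ x, ((L x).card : ℝ) ≤ 6 * 2 ^ (6 * e)) ∧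
      ∀ p : RtRow, reNm l R' p ∈ L (reNm l R p) := by
  have hR : 0 < R := by rw [hRe]; positivity
  have h2e : (1 : ℝ) ≤ 2 ^ e := one_le_pow₀ (by norm_num)
  refine ⟨fun x => ((Finset.Ico (2 ^ e * x.1.1) (2 ^ e * x.1.1 + 2 ^ e) ×ˢ Finset.Ico (2 ^ e * x.1.2) (2 ^ e * x.1.2 + 2 ^ e)) ×ˢ
      ((Finset.Ico (2 ^ e * x.2.1.1) (2 ^ e * x.2.1.1 + 2 ^ e) ×ˢ Finset.Ico (2 ^ e * x.2.1.2) (2 ^ e * x.2.1.2 + 2 ^ e)) ×ˢ
        Finset.Icc (0 : ℤ) ((5 * 4 ^ e : ℕ) : ℕ))).image (fun y => (y.1, y.2.1,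
          reCell (l * R' ^ 2) (l * R ^ 2 * x.2.2 - reG5K l R R' x.1 y.1 y.2.1 - 4 * (l * R * R')) + y.2.2)),
    fun x => ?_, fun p => ?_⟩
  · refine le_trans (Nat.cast_le.2 Finset.card_image_le) ?_
    rw [Finset.card_product, Finset.card_product, Finset.card_product, Finset.card_product, re_g5_cardIco, re_g5_cardIco,
      re_g5_cardIco, re_g5_cardIco, re_g5_cardIcc]
    push_cast
    have e4 : (4 : ℝ) ^ e = 2 ^ e * 2 ^ e := by
      rw [← mul_pow]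
      norm_num
    have e6 : (2 : ℝ) ^ (6 * e) = 2 ^ e * 2 ^ e * (2 ^ e * 2 ^ e * (2 ^ e * 2 ^ e)) := by
      rw [← pow_add, ← pow_add, ← pow_add]
      congr 1
      ring
    rw [e4, e6]
    have h1 : (5 : ℝ) * (2 ^ e * 2 ^ e) + 1 ≤ 6 * (2 ^ e * 2 ^ e) := by nlinarith
    calc (2 : ℝ) ^ e * 2 ^ e * (2 ^ e * 2 ^ e * (5 * (2 ^ e * 2 ^ e) + 1))
        ≤ 2 ^ e * 2 ^ e * (2 ^ e * 2 ^ e * (6 * (2 ^ e * 2 ^ e))) := by gcongr
      _ = _ := by ring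
  · have hlRe : l * R = l * R' * 2 ^ e := by rw [hRe]; ring
    have hN : l * R ^ 2 + 4 * (l * R * R') ≤ ((5 * 4 ^ e : ℕ) : ℝ) * (l * R' ^ 2) := by
      push_cast
      have e4 : (4 : ℝ) ^ e = 2 ^ e * 2 ^ e := by
        rw [← mul_pow]
        norm_num
      rw [e4, hRe]
      have h0 : 0 < l * R' ^ 2 := by positivity
      have h1 : (2 : ℝ) ^ e ≤ 2 ^ e * 2 ^ e := by nlinarith
      calc l * (R' * 2 ^ e) ^ 2 + 4 * (l * (R' * 2 ^ e) * R') = (2 ^ e * 2 ^ e + 4 * 2 ^ e) * (l * R' ^ 2) := by ring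
        _ ≤ (5 * (2 ^ e * 2 ^ e)) * (l * R' ^ 2) := mul_le_mul_of_nonneg_right (by linarith) h0.le
    have hm := re_g5_fine hl hR' e hRe (W := l * R ^ 2) (5 * 4 ^ e) (by positivity) hN p
    refine Finset.mem_image.2 ⟨(reCell2 R' p.A, reCell2 (l * R') p.b, reCell (l * R' ^ 2) (p.y - 2 * rtIp (reCor2 R' p.A) p.b)
        - reCell (l * R' ^ 2) (l * R ^ 2 * reCell (l * R ^ 2) (p.y - 2 * rtIp (reCor2 R p.A) p.b)
          - reG5K l R R' (reCell2 R p.A) (reCell2 R' p.A) (reCell2 (l * R') p.b) - 4 * (l * R * R'))), ?_, ?_⟩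
    · refine Finset.mem_product.2 ⟨Finset.mem_product.2 ⟨?_, ?_⟩, Finset.mem_product.2 ⟨Finset.mem_product.2 ⟨?_, ?_⟩, hm⟩⟩
      · simp only [reNm, reCell2]
        rw [re_g5_cdiv hR' e hRe]
        exact re_aux_ediv_mem _ e
      · simp only [reNm, reCell2]
        rw [re_g5_cdiv hR' e hRe]
        exact re_aux_ediv_mem _ e
      · simp only [reNm, reCell2]
        rw [re_g5_cdiv (by positivity) e hlRe]
        exact re_aux_ediv_mem _ e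
      · simp only [reNm, reCell2]
        rw [re_g5_cdiv (by positivity) e hlRe]
        exact re_aux_ediv_mem _ e
    · simp only [reNm, add_sub_cancel]

theorem re_g5_Y {l R R' : ℝ} (hl : 0 < l) (hR' : 0 < R') (e : ℕ) (hRe : R = R' * 2 ^ e) :
    ∃ L : (ℤ × ℤ) × (ℤ × ℤ) × ℤ → Finset ((ℤ × ℤ) × (ℤ × ℤ) × ℤ), (∀ x, ((L x).card : ℝ) ≤ 6 * 2 ^ e) ∧
      ∀ p : RtRow, reNm l R' p ∈ L (reGn l R R' R' p) := by
  have hR : 0 < R := by rw [hRe]; positivity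
  have h2e : (1 : ℝ) ≤ 2 ^ e := one_le_pow₀ (by norm_num)
  refine ⟨fun x => (Finset.Icc (0 : ℤ) ((5 * 2 ^ e : ℕ) : ℕ)).image (fun t => (x.1, x.2.1,
          reCell (l * R' ^ 2) (l * R * R' * x.2.2 - reG5K l R R' (x.1.1 / 2 ^ e, x.1.2 / 2 ^ e) x.1 x.2.1 - 4 * (l * R * R')) + t)),
    fun x => ?_, fun p => ?_⟩
  · refine le_trans (Nat.cast_le.2 Finset.card_image_le) ?_
    rw [re_g5_cardIcc]
    push_cast
    linarith
  · have hN : l * R * R' + 4 * (l * R * R') ≤ ((5 * 2 ^ e : ℕ) : ℝ) * (l * R' ^ 2) := by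
      push_cast
      rw [hRe]
      apply le_of_eq
      ring
    have hm := re_g5_fine hl hR' e hRe (W := l * R * R') (5 * 2 ^ e) (by positivity) hN p
    have eA : reCell2 R p.A = ((reCell2 R' p.A).1 / 2 ^ e, (reCell2 R' p.A).2 / 2 ^ e) := by
      unfold reCell2
      rw [re_g5_cdiv hR' e hRe, re_g5_cdiv hR' e hRe p.A.2]
    refine Finset.mem_image.2 ⟨_, hm, ?_⟩
    simp only [reNm, reGn]
    rw [← eA]
    simp only [add_sub_cancel]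

theorem re_g5_Rw (D : ReDoc) (j σ k : ℕ) : D.Rw j = D.Rw (j + k * σ) * 2 ^ (D.m * σ * k) := by
  rw [← re_aux_Rw_div]
  field_simp

theorem re_g5_lift {Ω : Type} (an : Ω → ℕ) (X Y : Ω → (ℤ × ℤ) × (ℤ × ℤ) × ℤ) {N : ℝ}
    (h : ∃ L : (ℤ × ℤ) × (ℤ × ℤ) × ℤ → Finset ((ℤ × ℤ) × (ℤ × ℤ) × ℤ), (∀ x, ((L x).card : ℝ) ≤ N) ∧ ∀ ω, Y ω ∈ L (X ω)) :
    ReDet (fun ω => ((an ω, X ω) : ReName)) (fun ω => ((an ω, Y ω) : ReName)) N := by
  obtain ⟨L, hL, hm⟩ := h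
  refine ⟨fun c => (L c.2).image (fun y => (c.1, y)), fun c => ?_, fun ω => ?_⟩
  · exact le_trans (Nat.cast_le.2 Finset.card_image_le) (hL _)
  · exact Finset.mem_image.2 ⟨_, hm ω, rfl⟩

/-- `C(a, v')` determines `C(a, v)`, `v ≤ v'`: angle and position are nested; `y - 2A_v·b = (y - 2A_{v'}·b) + 2 (A_{v'} - A_v)·b` is known up to `5 ℓ R_v²`
OWNER helper159 (leaf L-256-RE-G5), EST 133 lines -/
theorem re_det_w_dn (D : ReDoc) (hH : 0 < D.H) (b i : ℕ) {j j' : ℕ} (h : j ≤ j') : ReDet (D.nm b i j') (D.nm b i j) (2 ^ 4) := by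
  have hRe := re_g5_Rw D j 1 (j' - j)
  have ej : j + (j' - j) * 1 = j' := by omega
  rw [ej] at hRe
  obtain ⟨L, hL, hm⟩ := re_g5_dn (re_len_pos D i) (re_Rw_pos D hH j') _ hRe
  exact re_det_mono (re_g5_lift (D.anc b i) _ _ ⟨L, hL, fun ω => hm (D.back b i ω)⟩) (by norm_num)

/-- six branching exponents
OWNER helper159 (leaf L-256-RE-G5), EST 133 lines -/
theorem re_det_w_up (D : ReDoc) (hH : 0 < D.H) (b i : ℕ) {j j' : ℕ} (h : j ≤ j') :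
    ReDet (D.nm b i j) (D.nm b i j') (2 ^ 6 * (2 : ℝ) ^ (6 * D.m * (j' - j))) := by
  have hRe := re_g5_Rw D j 1 (j' - j)
  have ej : j + (j' - j) * 1 = j' := by omega
  rw [ej] at hRe
  obtain ⟨L, hL, hm⟩ := re_g5_up (re_len_pos D i) (re_Rw_pos D hH j') _ hRe
  refine re_det_mono (re_g5_lift (D.anc b i) _ _ ⟨L, hL, fun ω => hm (D.back b i ω)⟩) ?_
  have e1 : 6 * (D.m * 1 * (j' - j)) = 6 * D.m * (j' - j) := by ring
  rw [e1]
  exact mul_le_mul_of_nonneg_right (by norm_num) (by positivity)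

/-- first paragraph of the proof of (rv): `(C, (Z, W)_1)` determines `C(a, v + h)` up to `O(1/ρ)` values
OWNER helper159 (leaf L-256-RE-G5), EST 133 lines -/
theorem re_det_Y (D : ReDoc) (hH : 0 < D.H) (b i j r σ : ℕ) :
    ReDet (pair (pair (D.Zc b j (2 ^ (D.m * σ)) r) (D.Wc b i j (2 ^ (D.m * σ)) r)) (D.nm b i j)) (D.nm b i (j + r * σ))
      (2 ^ 4 * (2 : ℝ) ^ (D.m * (r * σ))) := by
  have hRe := re_g5_Rw D j σ r
  obtain ⟨L, hL, hm⟩ := re_g5_Y (re_len_pos D i) (re_Rw_pos D hH (j + r * σ)) _ hRe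
  obtain ⟨E, hE⟩ : ∃ E, E = D.m * σ * r := ⟨_, rfl⟩
  rw [← hE] at hL
  refine ⟨fun x => (L ((x.1.1.1 + 2 ^ E * x.2.2.1.1, x.1.1.2 + 2 ^ E * x.2.2.1.2),
      (x.1.2.1 + 2 ^ E * x.2.2.2.1.1, x.1.2.2.1 + 2 ^ E * x.2.2.2.1.2), x.1.2.2.2 + 2 ^ E * x.2.2.2.2)).image (fun y => (x.2.1, y)),
    fun x => ?_, fun ω => ?_⟩
  · refine le_trans (Nat.cast_le.2 Finset.card_image_le) ((hL _).trans ?_)
    have e1 : D.m * (r * σ) = E := by rw [hE]; ring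
    rw [e1]
    exact mul_le_mul_of_nonneg_right (by norm_num) (by positivity)
  · refine Finset.mem_image.2 ⟨_, ?_, rfl⟩
    have h1 := hm (D.back b i ω)
    convert h1 using 2
    simp only [FLaw.pair]
    rw [re_Zc_eq D hH, re_Wc_eq D hH, ← hE]
    simp only [ReDoc.nm, reNm, reGn, reCell2, ReDoc.an, ReDoc.hv, re_back_A, sub_add_cancel]

/-! ## G6. depth refinement (same atom) -/

theorem re_g6_cell {w c x : ℝ} {N : ℕ} (hw : 0 < w) (h1 : c ≤ x) (h2 : x < c + N * w) :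
    reCell w x ∈ Finset.Icc (reCell w c) (reCell w c + N) := by
  unfold reCell
  rw [Finset.mem_Icc]
  constructor
  · exact Int.floor_le_floor (div_le_div_of_nonneg_right h1 hw.le)
  · have h3 : x / w < c / w + N := by
      rw [div_lt_iff₀ hw, add_mul, div_mul_cancel₀ _ hw.ne']
      exact h2
    have h4 : ⌊x / w⌋ ≤ ⌊c / w + (N : ℝ)⌋ := Int.floor_le_floor h3.le
    rwa [Int.floor_add_natCast] at h4

theorem re_g6_card (a : ℤ) (N : ℕ) : (Finset.Icc a (a + N)).card = N + 1 := by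
  rw [Int.card_Icc]
  have : a + (N : ℤ) + 1 - a = ((N + 1 : ℕ) : ℤ) := by push_cast; ring
  rw [this, Int.toNat_natCast]

theorem re_g6_list_card (a : ℤ × ℤ) (c1 c2 c3 : ℤ) (Nb Nh : ℕ) :
    (({a} : Finset (ℤ × ℤ)) ×ˢ ((Finset.Icc c1 (c1 + Nb) ×ˢ Finset.Icc c2 (c2 + Nb)) ×ˢ Finset.Icc c3 (c3 + Nh))).card
      = (Nb + 1) * (Nb + 1) * (Nh + 1) := by
  rw [Finset.card_product, Finset.card_product, Finset.card_product, re_g6_card, re_g6_card, re_g6_card, Finset.card_singleton, one_mul]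

theorem re_g6_dn {l l' R : ℝ} (hl' : 0 < l') (hll : l' ≤ l) (hR : 0 < R) :
    ∃ L : ℝ → (ℤ × ℤ) × (ℤ × ℤ) × ℤ → Finset ((ℤ × ℤ) × (ℤ × ℤ) × ℤ), (∀ Δ x, (L Δ x).card = 36) ∧
      ∀ Δ : ℝ, 0 ≤ Δ → Δ < l → ∀ p' : RtRow, reNm l R (p'.flow (-Δ)) ∈ L Δ (reNm l' R p') := by
  have hl : 0 < l := lt_of_lt_of_le hl' hll
  refine ⟨fun Δ x => ({x.1} : Finset (ℤ × ℤ)) ×ˢ
    ((Finset.Icc (reCell (l * R) (l' * R * x.2.1.1 - Δ * (R * x.1.1) - Δ * R)) (reCell (l * R) (l' * R * x.2.1.1 - Δ * (R * x.1.1) - Δ * R) + (2 : ℕ))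
      ×ˢ Finset.Icc (reCell (l * R) (l' * R * x.2.1.2 - Δ * (R * x.1.2) - Δ * R)) (reCell (l * R) (l' * R * x.2.1.2 - Δ * (R * x.1.2) - Δ * R) + (2 : ℕ)))
      ×ˢ Finset.Icc (reCell (l * R ^ 2) (l' * R ^ 2 * x.2.2 - 2 * Δ * R ^ 2 + Δ * ((R * x.1.1) ^ 2 + (R * x.1.2) ^ 2)))
        (reCell (l * R ^ 2) (l' * R ^ 2 * x.2.2 - 2 * Δ * R ^ 2 + Δ * ((R * x.1.1) ^ 2 + (R * x.1.2) ^ 2)) + (3 : ℕ))),
    fun Δ x => by rw [re_g6_list_card], ?_⟩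
  intro Δ hΔ0 hΔ p'
  obtain ⟨A1l, A1u⟩ := re_aux_cor hR p'.A.1
  obtain ⟨A2l, A2u⟩ := re_aux_cor hR p'.A.2
  obtain ⟨b1l, b1u⟩ := re_aux_cor (mul_pos hl' hR) p'.b.1
  obtain ⟨b2l, b2u⟩ := re_aux_cor (mul_pos hl' hR) p'.b.2
  obtain ⟨hl0, hu0⟩ := re_aux_cor (mul_pos hl' (pow_pos hR 2)) (p'.y - 2 * rtIp (reCor2 R p'.A) p'.b)
  have hlR : l' * R ≤ l * R := mul_le_mul_of_nonneg_right hll hR.le
  have hΔR : Δ * R ≤ l * R := mul_le_mul_of_nonneg_right hΔ.le hR.le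
  have hlR2 : l' * R ^ 2 ≤ l * R ^ 2 := mul_le_mul_of_nonneg_right hll (by positivity)
  have hΔR2 : Δ * R ^ 2 ≤ l * R ^ 2 := mul_le_mul_of_nonneg_right hΔ.le (by positivity)
  simp only [reNm, RtRow.flow, reCell2, Finset.mem_product, Finset.mem_singleton, true_and]
  refine ⟨⟨?_, ?_⟩, ?_⟩
  · apply re_g6_cell (mul_pos hl hR)
    · simp only [Prod.fst_add, Prod.smul_fst, smul_eq_mul]
      nlinarith [mul_nonneg hΔ0 (sub_nonneg.2 A1u.le)]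
    · simp only [Prod.fst_add, Prod.smul_fst, smul_eq_mul]
      push_cast
      nlinarith [mul_nonneg hΔ0 A1l]
  · apply re_g6_cell (mul_pos hl hR)
    · simp only [Prod.snd_add, Prod.smul_snd, smul_eq_mul]
      nlinarith [mul_nonneg hΔ0 (sub_nonneg.2 A2u.le)]
    · simp only [Prod.snd_add, Prod.smul_snd, smul_eq_mul]
      push_cast
      nlinarith [mul_nonneg hΔ0 A2l]
  · have e1 : (p'.A.1 - R * reCell R p'.A.1) ^ 2 ≤ R ^ 2 := pow_le_pow_left₀ A1l A1u.le 2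
    have e2 : (p'.A.2 - R * reCell R p'.A.2) ^ 2 ≤ R ^ 2 := pow_le_pow_left₀ A2l A2u.le 2
    have key : p'.y + -Δ * rtSq p'.A - 2 * rtIp (reCor2 R p'.A) (p'.b + -Δ • p'.A)
        = (p'.y - 2 * rtIp (reCor2 R p'.A) p'.b) - Δ * ((p'.A.1 - R * reCell R p'.A.1) ^ 2 + (p'.A.2 - R * reCell R p'.A.2) ^ 2)
          + Δ * ((R * reCell R p'.A.1) ^ 2 + (R * reCell R p'.A.2) ^ 2) := by
      simp only [rtSq, rtIp, reCor2, Prod.fst_add, Prod.snd_add, Prod.smul_fst, Prod.smul_snd, smul_eq_mul]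
      ring
    rw [key]
    apply re_g6_cell (mul_pos hl (pow_pos hR 2))
    · nlinarith [mul_nonneg hΔ0 (sub_nonneg.2 e1), mul_nonneg hΔ0 (sub_nonneg.2 e2)]
    · push_cast
      nlinarith [mul_nonneg hΔ0 (sq_nonneg (p'.A.1 - R * reCell R p'.A.1)), mul_nonneg hΔ0 (sq_nonneg (p'.A.2 - R * reCell R p'.A.2))]

/-- `C(a', v)` determines `C(a, v)`, `a ≤ a'`: backflow within the angular cell; the tilted height moves with the velocity `|A - A_v|² - |A_v|²`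
OWNER helper159 (leaf L-256-RE-G6), EST 200 lines -/
theorem re_det_a_dn (D : ReDoc) (hH : 0 < D.H) {b i i' : ℕ} (j : ℕ) (h : i ≤ i') (hb : i' ≤ b) :
    ReDet (D.nm b i' j) (D.nm b i j) (2 ^ 6) := by
  obtain ⟨L, hL, hmem⟩ := re_g6_dn (re_len_pos D i') (re_len_anti D h) (re_Rw_pos D hH j)
  refine ⟨fun x => ({ancI (D.dp i') (D.dp i) x.1} : Finset ℕ) ×ˢ
    L (tmL (D.dp i') x.1 - tmL (D.dp i) (ancI (D.dp i') (D.dp i) x.1)) x.2, fun x => ?_, fun ω => ?_⟩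
  · rw [Finset.card_product, Finset.card_singleton, hL]
    norm_num
  · obtain ⟨g0, g1⟩ := re_gap D h hb ω
    have e1 := re_anc_anc D h hb ω
    rw [Finset.mem_product, Finset.mem_singleton]
    refine ⟨e1.symm, ?_⟩
    have e2 : (D.nm b i j ω).2 = reNm (D.len i) (D.Rw j)
        ((D.back b i' ω).flow (-(tmL (D.dp i') (D.anc b i' ω) - tmL (D.dp i) (D.anc b i ω)))) := by
      show reNm (D.len i) (D.Rw j) (D.back b i ω) = _
      rw [re_back_back D i i' b ω, neg_sub]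
    rw [e2]
    have e3 : (D.nm b i' j ω).1 = D.anc b i' ω := rfl
    rw [e3, e1]
    exact hmem _ g0 g1 (D.back b i' ω)

theorem re_g6_up {l l' R : ℝ} (k : ℕ) (hl' : 0 < l') (hll : l = l' * 2 ^ k) (hR : 0 < R) :
    ∃ L : ℝ → (ℤ × ℤ) × (ℤ × ℤ) × ℤ → Finset ((ℤ × ℤ) × (ℤ × ℤ) × ℤ), (∀ Δ x, (L Δ x).card = (2 * 2 ^ k + 1) * (2 * 2 ^ k + 1) * (3 * 2 ^ k + 1)) ∧
      ∀ Δ : ℝ, 0 ≤ Δ → Δ < l → ∀ p : RtRow, reNm l' R (p.flow Δ) ∈ L Δ (reNm l R p) := by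
  have hl : 0 < l := by rw [hll]; positivity
  refine ⟨fun Δ x => ({x.1} : Finset (ℤ × ℤ)) ×ˢ
    ((Finset.Icc (reCell (l' * R) (l * R * x.2.1.1 + Δ * (R * x.1.1))) (reCell (l' * R) (l * R * x.2.1.1 + Δ * (R * x.1.1)) + (2 * 2 ^ k : ℕ))
      ×ˢ Finset.Icc (reCell (l' * R) (l * R * x.2.1.2 + Δ * (R * x.1.2))) (reCell (l' * R) (l * R * x.2.1.2 + Δ * (R * x.1.2)) + (2 * 2 ^ k : ℕ)))
      ×ˢ Finset.Icc (reCell (l' * R ^ 2) (l * R ^ 2 * x.2.2 - Δ * ((R * x.1.1) ^ 2 + (R * x.1.2) ^ 2)))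
        (reCell (l' * R ^ 2) (l * R ^ 2 * x.2.2 - Δ * ((R * x.1.1) ^ 2 + (R * x.1.2) ^ 2)) + (3 * 2 ^ k : ℕ))),
    fun Δ x => by rw [re_g6_list_card], ?_⟩
  intro Δ hΔ0 hΔ p
  obtain ⟨A1l, A1u⟩ := re_aux_cor hR p.A.1
  obtain ⟨A2l, A2u⟩ := re_aux_cor hR p.A.2
  obtain ⟨b1l, b1u⟩ := re_aux_cor (mul_pos hl hR) p.b.1
  obtain ⟨b2l, b2u⟩ := re_aux_cor (mul_pos hl hR) p.b.2
  obtain ⟨hl0, hu0⟩ := re_aux_cor (mul_pos hl (pow_pos hR 2)) (p.y - 2 * rtIp (reCor2 R p.A) p.b)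
  have hΔR : Δ * R ≤ l * R := mul_le_mul_of_nonneg_right hΔ.le hR.le
  have hΔR2 : Δ * R ^ 2 ≤ l * R ^ 2 := mul_le_mul_of_nonneg_right hΔ.le (by positivity)
  have c2 : (((2 * 2 ^ k : ℕ) : ℝ)) * (l' * R) = 2 * (l * R) := by
    rw [hll]; push_cast; ring
  have c3 : (((3 * 2 ^ k : ℕ) : ℝ)) * (l' * R ^ 2) = 3 * (l * R ^ 2) := by
    rw [hll]; push_cast; ring
  simp only [reNm, RtRow.flow, reCell2, Finset.mem_product, Finset.mem_singleton, true_and]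
  refine ⟨⟨?_, ?_⟩, ?_⟩
  · apply re_g6_cell (mul_pos hl' hR)
    · simp only [Prod.fst_add, Prod.smul_fst, smul_eq_mul]
      nlinarith [mul_nonneg hΔ0 A1l]
    · simp only [Prod.fst_add, Prod.smul_fst, smul_eq_mul]
      rw [c2]
      nlinarith [mul_nonneg hΔ0 (sub_nonneg.2 A1u.le)]
  · apply re_g6_cell (mul_pos hl' hR)
    · simp only [Prod.snd_add, Prod.smul_snd, smul_eq_mul]
      nlinarith [mul_nonneg hΔ0 A2l]
    · simp only [Prod.snd_add, Prod.smul_snd, smul_eq_mul]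
      rw [c2]
      nlinarith [mul_nonneg hΔ0 (sub_nonneg.2 A2u.le)]
  · have e1 : (p.A.1 - R * reCell R p.A.1) ^ 2 ≤ R ^ 2 := pow_le_pow_left₀ A1l A1u.le 2
    have e2 : (p.A.2 - R * reCell R p.A.2) ^ 2 ≤ R ^ 2 := pow_le_pow_left₀ A2l A2u.le 2
    have key : p.y + Δ * rtSq p.A - 2 * rtIp (reCor2 R p.A) (p.b + Δ • p.A)
        = (p.y - 2 * rtIp (reCor2 R p.A) p.b) + Δ * ((p.A.1 - R * reCell R p.A.1) ^ 2 + (p.A.2 - R * reCell R p.A.2) ^ 2)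
          - Δ * ((R * reCell R p.A.1) ^ 2 + (R * reCell R p.A.2) ^ 2) := by
      simp only [rtSq, rtIp, reCor2, Prod.fst_add, Prod.snd_add, Prod.smul_fst, Prod.smul_snd, smul_eq_mul]
      ring
    rw [key]
    apply re_g6_cell (mul_pos hl' (pow_pos hR 2))
    · nlinarith [mul_nonneg hΔ0 (sq_nonneg (p.A.1 - R * reCell R p.A.1)), mul_nonneg hΔ0 (sq_nonneg (p.A.2 - R * reCell R p.A.2))]
    · rw [c3]
      nlinarith [mul_nonneg hΔ0 (sub_nonneg.2 e1), mul_nonneg hΔ0 (sub_nonneg.2 e2)]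

/-- four branching exponents
OWNER helper159 (leaf L-256-RE-G6), EST 200 lines -/
theorem re_det_a_up (D : ReDoc) (hH : 0 < D.H) {b i i' : ℕ} (j : ℕ) (h : i ≤ i') (hb : i' ≤ b) :
    ReDet (D.nm b i j) (D.nm b i' j) (2 ^ 6 * (2 : ℝ) ^ (4 * D.m * (i' - i))) := by
  obtain ⟨k, hk⟩ : ∃ k : ℕ, k = (i' - i) * D.m := ⟨_, rfl⟩
  have hdp : D.dp i' - D.dp i = k := by
    unfold ReDoc.dp
    rw [hk, Nat.sub_mul]
    have := Nat.mul_le_mul_right D.m h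
    omega
  have hlen : D.len i = D.len i' * 2 ^ k := by
    have e : i' = i + (i' - i) := by omega
    rw [e, re_len_add, ← hk]
    unfold rdLen
    rw [mul_assoc, inv_pow, inv_mul_cancel₀ (by positivity), mul_one]
  obtain ⟨L, hL, hmem⟩ := re_g6_up k (re_len_pos D i') hlen (re_Rw_pos D hH j)
  refine ⟨fun x => (Finset.Ico (x.1 * 2 ^ k) ((x.1 + 1) * 2 ^ k)).biUnion fun I' =>
    ({I'} : Finset ℕ) ×ˢ L (tmL (D.dp i') I' - tmL (D.dp i) x.1) x.2, fun x => ?_, fun ω => ?_⟩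
  · have h1 : ((Finset.Ico (x.1 * 2 ^ k) ((x.1 + 1) * 2 ^ k)).biUnion fun I' =>
        ({I'} : Finset ℕ) ×ˢ L (tmL (D.dp i') I' - tmL (D.dp i) x.1) x.2).card
        ≤ 2 ^ k * ((2 * 2 ^ k + 1) * (2 * 2 ^ k + 1) * (3 * 2 ^ k + 1)) := by
      refine (Finset.card_biUnion_le_card_mul _ _ ((2 * 2 ^ k + 1) * (2 * 2 ^ k + 1) * (3 * 2 ^ k + 1)) fun I' _ => ?_).trans ?_
      · rw [Finset.card_product, Finset.card_singleton, hL, one_mul]
      · rw [Nat.card_Ico]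
        have : (x.1 + 1) * 2 ^ k - x.1 * 2 ^ k = 2 ^ k := by
          rw [add_mul, one_mul, Nat.add_sub_cancel_left]
        rw [this]
    have h2 : (2 : ℝ) ^ (4 * D.m * (i' - i)) = ((2 : ℝ) ^ k) ^ 4 := by
      rw [← pow_mul, hk]
      congr 1
      ring
    rw [h2]
    have h3 : (1 : ℝ) ≤ 2 ^ k := one_le_pow₀ (by norm_num)
    obtain ⟨X, hX⟩ : ∃ X : ℝ, X = 2 ^ k := ⟨_, rfl⟩
    rw [← hX] at h3 ⊢
    calc ((((Finset.Ico (x.1 * 2 ^ k) ((x.1 + 1) * 2 ^ k)).biUnion fun I' =>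
        ({I'} : Finset ℕ) ×ˢ L (tmL (D.dp i') I' - tmL (D.dp i) x.1) x.2).card : ℕ) : ℝ)
        ≤ ((2 ^ k * ((2 * 2 ^ k + 1) * (2 * 2 ^ k + 1) * (3 * 2 ^ k + 1)) : ℕ) : ℝ) := by exact_mod_cast h1
      _ = X * ((2 * X + 1) * (2 * X + 1) * (3 * X + 1)) := by rw [hX]; push_cast; ring
      _ ≤ X * ((3 * X) * (3 * X) * (4 * X)) := by
          have hX0 : 0 ≤ X := by linarith
          apply mul_le_mul_of_nonneg_left _ hX0
          apply mul_le_mul (mul_le_mul (by linarith) (by linarith) (by linarith) (by linarith)) (by linarith) (by linarith) (by positivity)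
      _ ≤ 2 ^ 6 * X ^ 4 := by nlinarith [pow_pos (lt_of_lt_of_le one_pos h3) 4]
  · obtain ⟨g0, g1⟩ := re_gap D h hb ω
    have e1 := re_anc_anc D h hb ω
    rw [Finset.mem_biUnion]
    refine ⟨D.anc b i' ω, ?_, ?_⟩
    · have e3 : (D.nm b i j ω).1 = D.anc b i' ω / 2 ^ k := by
        show D.anc b i ω = _
        rw [← e1]
        unfold ancI
        rw [hdp]
      rw [e3, Finset.mem_Ico]
      have hp : 0 < 2 ^ k := by positivity
      constructor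
      · exact Nat.div_mul_le_self _ _
      · have := Nat.lt_div_mul_add (a := D.anc b i' ω) hp
        rw [add_mul, one_mul]
        exact this
    · rw [Finset.mem_product, Finset.mem_singleton]
      refine ⟨rfl, ?_⟩
      have e2 : (D.nm b i' j ω).2 = reNm (D.len i') (D.Rw j)
          ((D.back b i ω).flow (tmL (D.dp i') (D.anc b i' ω) - tmL (D.dp i) (D.anc b i ω))) := by
        show reNm (D.len i') (D.Rw j) (D.back b i' ω) = _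
        rw [re_back_back D i' i b ω]
      rw [e2]
      exact hmem _ g0 g1 (D.back b i ω)

/-! ## G7. the query coordinates -/

/-- the time from the ancestor at the cut `a` -/
theorem re_aux_g7_dt (D : ReDoc) {a b : ℕ} (hab : a ≤ b) (ω : D.Row b) :
    0 ≤ D.tm b ω - tmL (D.dp a) (D.anc b a ω) ∧ D.tm b ω - tmL (D.dp a) (D.anc b a ω) < D.len a := by
  have h := re_gap D hab (le_refl b) ω
  rw [re_anc_self] at h
  exact h

theorem re_aux_g7_back_b (D : ReDoc) (b a : ℕ) (ω : D.Row b) :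
    (D.back b a ω).b = ((D.pt b ω).b.1 - (D.tm b ω - tmL (D.dp a) (D.anc b a ω)) * (D.pt b ω).A.1,
      (D.pt b ω).b.2 - (D.tm b ω - tmL (D.dp a) (D.anc b a ω)) * (D.pt b ω).A.2) := by
  unfold ReDoc.back RtRow.flow
  ext <;> simp <;> ring

theorem re_aux_g7_back_y (D : ReDoc) (b a : ℕ) (ω : D.Row b) :
    (D.back b a ω).y = (D.pt b ω).y - (D.tm b ω - tmL (D.dp a) (D.anc b a ω)) * rtSq (D.pt b ω).A := by
  unfold ReDoc.back RtRow.flow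
  simp
  ring

/-- explicit form of `O` -/
theorem re_aux_g7_Ov (D : ReDoc) (b i j : ℕ) (ω : D.Row b) :
    D.Ov b i j ω = ![(D.tm b ω - tmL (D.dp i) (D.anc b i ω)) / D.len i,
      (D.len b * D.Rw j * reCell (D.len b * D.Rw j) (D.pt b ω).b.1
        - (D.tm b ω - tmL (D.dp i) (D.anc b i ω)) * (D.Rw j * reCell (D.Rw j) (D.pt b ω).A.1)
        - D.len i * D.Rw j * reCell (D.len i * D.Rw j) (D.back b i ω).b.1) / (D.len i * D.Rw j),
      (D.len b * D.Rw j * reCell (D.len b * D.Rw j) (D.pt b ω).b.2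
        - (D.tm b ω - tmL (D.dp i) (D.anc b i ω)) * (D.Rw j * reCell (D.Rw j) (D.pt b ω).A.2)
        - D.len i * D.Rw j * reCell (D.len i * D.Rw j) (D.back b i ω).b.2) / (D.len i * D.Rw j),
      (D.len b * D.Rw j ^ 2 * reCell (D.len b * D.Rw j ^ 2) (D.hv b b j ω)
        + (D.tm b ω - tmL (D.dp i) (D.anc b i ω)) * ((D.Rw j * reCell (D.Rw j) (D.pt b ω).A.1) ^ 2
            + (D.Rw j * reCell (D.Rw j) (D.pt b ω).A.2) ^ 2)
        - D.len i * D.Rw j ^ 2 * reCell (D.len i * D.Rw j ^ 2) (D.hv b i j ω)) / (D.len i * D.Rw j ^ 2)] := by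
  unfold ReDoc.Ov reO ReDoc.nm reNm reCell2 ReDoc.hv
  simp only [re_anc_self, re_back_self]
  rfl


theorem re_aux_g7_fr01 (w x : ℝ) : 0 ≤ reFr w x ∧ reFr w x < 1 := ⟨Int.fract_nonneg _, Int.fract_lt_one _⟩

theorem re_aux_g7_fr_abs (w x : ℝ) : |reFr w x| ≤ 1 := by
  have h := re_aux_g7_fr01 w x
  rw [abs_le]
  constructor <;> linarith [h.1, h.2]

/-- OWNER helper159 (leaf L-256-RE-G7), EST 133 lines -/
theorem re_q_bd (D : ReDoc) (hH : 0 < D.H) {b i : ℕ} (j : ℕ) (hib : i ≤ b) (ω : D.Row b) :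
    (|(D.Zv b j ω).1| ≤ 1 ∧ |(D.Zv b j ω).2| ≤ 1) ∧
    (|(D.Wv b i j ω).1| ≤ 1 ∧ |(D.Wv b i j ω).2.1| ≤ 1 ∧ |(D.Wv b i j ω).2.2| ≤ 1) ∧ |D.th b i ω| ≤ 1 := by
  refine ⟨?_, ⟨re_aux_g7_fr_abs _ _, re_aux_g7_fr_abs _ _, re_aux_g7_fr_abs _ _⟩, ?_⟩
  · rw [re_aux_Zv D hH]
    exact ⟨re_aux_g7_fr_abs _ _, re_aux_g7_fr_abs _ _⟩
  · have h := re_aux_g7_dt D hib ω
    have hl := re_len_pos D i
    unfold ReDoc.th
    rw [abs_le]
    constructor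
    · have : 0 ≤ (D.tm b ω - tmL (D.dp i) (D.anc b i ω)) / D.len i := div_nonneg h.1 hl.le
      linarith
    · rw [div_le_one hl]
      exact h.2.le

/-- planar coordinates of (rt-incidence-point), exact -/
theorem re_aux_g7_inc1 {R li lb Δ x a : ℝ} (hR : 0 < R) (hli : 0 < li) (hlb : 0 < lb) :
    (lb * R * reCell (lb * R) x - Δ * (R * reCell R a) - li * R * reCell (li * R) (x - Δ * a)) / (li * R)
      - (reFr (li * R) (x - Δ * a) + Δ / li * reFr R a) = - (lb / li * reFr (lb * R) x) := by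
  unfold reFr Int.fract reCell
  field_simp
  ring

/-- the height of (rt-incidence-point), exact -/
theorem re_aux_g7_inc3 {R li lb Δ hb hi a1 a2 : ℝ} (hR : 0 < R) (hli : 0 < li) (hlb : 0 < lb)
    (h : hi + Δ * ((a1 - R * reCell R a1) ^ 2 + (a2 - R * reCell R a2) ^ 2)
      = hb + Δ * ((R * reCell R a1) ^ 2 + (R * reCell R a2) ^ 2)) :
    (lb * R ^ 2 * reCell (lb * R ^ 2) hb + Δ * ((R * reCell R a1) ^ 2 + (R * reCell R a2) ^ 2)
        - li * R ^ 2 * reCell (li * R ^ 2) hi) / (li * R ^ 2)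
      - (reFr (li * R ^ 2) hi + Δ / li * (reFr R a1 ^ 2 + reFr R a2 ^ 2)) = - (lb / li * reFr (lb * R ^ 2) hb) := by
  have e : Δ * ((R * reCell R a1) ^ 2 + (R * reCell R a2) ^ 2)
      = hi + Δ * ((a1 - R * reCell R a1) ^ 2 + (a2 - R * reCell R a2) ^ 2) - hb := by linarith
  rw [e]
  unfold reFr Int.fract reCell
  field_simp
  ring

/-- the tilted heights at two times of the same ray -/
theorem re_aux_g7_hv (D : ReDoc) (b a j : ℕ) (ω : D.Row b) :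
    D.hv b a j ω + (D.tm b ω - tmL (D.dp a) (D.anc b a ω)) * (((D.pt b ω).A.1 - D.Rw j * reCell (D.Rw j) (D.pt b ω).A.1) ^ 2
        + ((D.pt b ω).A.2 - D.Rw j * reCell (D.Rw j) (D.pt b ω).A.2) ^ 2)
      = D.hv b b j ω + (D.tm b ω - tmL (D.dp a) (D.anc b a ω)) * ((D.Rw j * reCell (D.Rw j) (D.pt b ω).A.1) ^ 2
        + (D.Rw j * reCell (D.Rw j) (D.pt b ω).A.2) ^ 2) := by
  unfold ReDoc.hv
  rw [re_back_self, re_aux_g7_back_y, re_aux_g7_back_b, re_back_A]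
  unfold rtIp rtSq reCor2
  simp only
  ring

theorem re_aux_g7_neg_fr {c w x : ℝ} (hc : 0 ≤ c) : |-(c * reFr w x)| ≤ c := by
  have h := re_aux_g7_fr01 w x
  rw [abs_neg, abs_of_nonneg (mul_nonneg hc h.1)]
  nlinarith [h.2]

/-- (rt-incidence-point): `W + θ V(Z)` is the position at `T_b` in the moving frame of `C`; `C'` knows it up to `ℓ_b / ℓ_i`
OWNER helper159 (leaf L-256-RE-G7), EST 133 lines -/
theorem re_q_inc (D : ReDoc) (hH : 0 < D.H) (i j n : ℕ) (ω : D.Row (i + n)) (c : Fin 4) :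
    |D.Ov (i + n) i j ω c - (rnW (D.Wv (i + n) i j ω) c + D.th (i + n) i ω * rnE (D.Zv (i + n) j ω) c)| ≤ rdLen (n * D.m) := by
  have hR := re_Rw_pos D hH j
  have hli := re_len_pos D i
  have hlb := re_len_pos D (i + n)
  have hq : D.len (i + n) / D.len i = rdLen (n * D.m) := by
    rw [re_len_add]
    field_simp
  have hq0 : 0 ≤ D.len (i + n) / D.len i := by positivity
  rw [re_aux_g7_Ov, re_aux_Zv D hH, ← hq]
  unfold ReDoc.Wv ReDoc.th rnW rnE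
  fin_cases c
  · simp only [Fin.zero_eta, Fin.isValue, Matrix.cons_val_zero]
    rw [zero_add, mul_one, sub_self, abs_zero]
    exact hq0
  · simp only [Fin.mk_one, Fin.isValue, Matrix.cons_val_one, Matrix.cons_val_zero]
    rw [re_aux_g7_back_b]
    simp only
    rw [re_aux_g7_inc1 hR hli hlb]
    exact re_aux_g7_neg_fr hq0
  · simp only [Fin.reduceFinMk, Matrix.cons_val]
    rw [re_aux_g7_back_b]
    simp only
    rw [re_aux_g7_inc1 hR hli hlb]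
    exact re_aux_g7_neg_fr hq0
  · simp only [Fin.reduceFinMk, Matrix.cons_val]
    rw [re_aux_g7_inc3 hR hli hlb (re_aux_g7_hv D (i + n) i j ω)]
    exact re_aux_g7_neg_fr hq0

theorem re_aux_g7_floor_pert {v : ℝ} {K lo hi : ℤ} (h1 : (lo : ℝ) ≤ v - K) (h2 : v - K < (hi : ℝ) + 1) :
    ⌊v⌋ - K ∈ Finset.Icc lo hi := by
  rw [Finset.mem_Icc]
  constructor
  · have : lo + K ≤ ⌊v⌋ := by
      rw [Int.le_floor]
      push_cast
      linarith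
    linarith
  · have : ⌊v⌋ < hi + 1 + K := by
      rw [Int.floor_lt]
      push_cast
      linarith
    linarith

/-- planar coordinates of `O` at the intermediate depth -/
theorem re_aux_g7_O1 {R li l' lb Δ Δ' M N x a : ℝ} (hR : 0 < R) (hl' : 0 < l') (hlb0 : 0 < lb) (hlb : lb ≤ l') (hM : 0 < M)
    (hli : li = l' * M) (hΔ : Δ = Δ' + N * l') (h0 : 0 ≤ Δ') (h1 : Δ' < l') (ki : ℝ) :
    -1 ≤ (lb * R * reCell (lb * R) x - Δ * (R * reCell R a) - li * R * ki) / (li * R) * M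
        - (reCell (l' * R) (x - Δ' * a) - N * reCell R a - M * ki) ∧
    (lb * R * reCell (lb * R) x - Δ * (R * reCell R a) - li * R * ki) / (li * R) * M
        - (reCell (l' * R) (x - Δ' * a) - N * reCell R a - M * ki) < 2 := by
  have c1 := re_aux_cor (w := lb * R) (by positivity) x
  have c2 := re_aux_cor hR a
  have c3 := re_aux_cor (w := l' * R) (by positivity) (x - Δ' * a)
  obtain ⟨kb, hkb⟩ : ∃ kb : ℝ, kb = reCell (lb * R) x := ⟨_, rfl⟩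
  obtain ⟨ka, hka⟩ : ∃ ka : ℝ, ka = reCell R a := ⟨_, rfl⟩
  obtain ⟨k', hk'⟩ : ∃ k' : ℝ, k' = reCell (l' * R) (x - Δ' * a) := ⟨_, rfl⟩
  rw [← hkb] at c1 ⊢
  rw [← hka] at c2 ⊢
  rw [← hk'] at c3 ⊢
  have e : (lb * R * kb - Δ * (R * ka) - li * R * ki) / (li * R) * M - (k' - N * ka - M * ki)
      = (-(x - lb * R * kb) + Δ' * (a - R * ka) + (x - Δ' * a - l' * R * k')) / (l' * R) := by
    rw [hli, hΔ]
    field_simp
    ring
  rw [e]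
  have b1 : lb * R ≤ l' * R := mul_le_mul_of_nonneg_right hlb hR.le
  have b2 : 0 ≤ Δ' * (a - R * ka) := mul_nonneg h0 c2.1
  have b3 : Δ' * (a - R * ka) ≤ l' * R := mul_le_mul h1.le c2.2.le c2.1 hl'.le
  constructor
  · rw [le_div_iff₀ (by positivity)]
    linarith [c1.2, c3.1]
  · rw [div_lt_iff₀ (by positivity)]
    linarith [c1.1, c3.2]

/-- the height of `O` at the intermediate depth -/
theorem re_aux_g7_O3 {R li l' lb Δ Δ' M N hb h' a1 a2 : ℝ} (hR : 0 < R) (hl' : 0 < l') (hlb0 : 0 < lb) (hlb : lb ≤ l')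
    (hM : 0 < M) (hli : li = l' * M) (hΔ : Δ = Δ' + N * l') (h0 : 0 ≤ Δ') (h1 : Δ' < l')
    (h : h' + Δ' * ((a1 - R * reCell R a1) ^ 2 + (a2 - R * reCell R a2) ^ 2)
      = hb + Δ' * ((R * reCell R a1) ^ 2 + (R * reCell R a2) ^ 2)) (ki : ℝ) :
    -1 ≤ (lb * R ^ 2 * reCell (lb * R ^ 2) hb + Δ * ((R * reCell R a1) ^ 2 + (R * reCell R a2) ^ 2) - li * R ^ 2 * ki)
          / (li * R ^ 2) * M
        - (reCell (l' * R ^ 2) h' + N * ((reCell R a1 : ℝ) ^ 2 + (reCell R a2 : ℝ) ^ 2) - M * ki) ∧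
    (lb * R ^ 2 * reCell (lb * R ^ 2) hb + Δ * ((R * reCell R a1) ^ 2 + (R * reCell R a2) ^ 2) - li * R ^ 2 * ki)
          / (li * R ^ 2) * M
        - (reCell (l' * R ^ 2) h' + N * ((reCell R a1 : ℝ) ^ 2 + (reCell R a2 : ℝ) ^ 2) - M * ki) < 3 := by
  have c1 := re_aux_cor (w := lb * R ^ 2) (by positivity) hb
  have c21 := re_aux_cor hR a1
  have c22 := re_aux_cor hR a2
  have c3 := re_aux_cor (w := l' * R ^ 2) (by positivity) h'
  obtain ⟨kb, hkb⟩ : ∃ kb : ℝ, kb = reCell (lb * R ^ 2) hb := ⟨_, rfl⟩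
  obtain ⟨k1, hk1⟩ : ∃ k1 : ℝ, k1 = reCell R a1 := ⟨_, rfl⟩
  obtain ⟨k2, hk2⟩ : ∃ k2 : ℝ, k2 = reCell R a2 := ⟨_, rfl⟩
  obtain ⟨k', hk'⟩ : ∃ k' : ℝ, k' = reCell (l' * R ^ 2) h' := ⟨_, rfl⟩
  rw [← hkb] at c1 ⊢
  rw [← hk1] at c21 h ⊢
  rw [← hk2] at c22 h ⊢
  rw [← hk'] at c3 ⊢
  have e : (lb * R ^ 2 * kb + Δ * ((R * k1) ^ 2 + (R * k2) ^ 2) - li * R ^ 2 * ki) / (li * R ^ 2) * M
        - (k' + N * (k1 ^ 2 + k2 ^ 2) - M * ki)
      = (-(hb - lb * R ^ 2 * kb) + (hb + Δ' * ((R * k1) ^ 2 + (R * k2) ^ 2) - h') + (h' - l' * R ^ 2 * k')) / (l' * R ^ 2) := by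
    rw [hli, hΔ]
    field_simp
    ring
  rw [e, ← h]
  have b1 : lb * R ^ 2 ≤ l' * R ^ 2 := mul_le_mul_of_nonneg_right hlb (by positivity)
  have s1 : (a1 - R * k1) ^ 2 ≤ R ^ 2 := pow_le_pow_left₀ c21.1 c21.2.le 2
  have s2 : (a2 - R * k2) ^ 2 ≤ R ^ 2 := pow_le_pow_left₀ c22.1 c22.2.le 2
  have b2 : 0 ≤ Δ' * ((a1 - R * k1) ^ 2 + (a2 - R * k2) ^ 2) := mul_nonneg h0 (by positivity)
  have b3 : Δ' * ((a1 - R * k1) ^ 2 + (a2 - R * k2) ^ 2) ≤ l' * (2 * R ^ 2) :=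
    mul_le_mul h1.le (by linarith) (by positivity) hl'.le
  constructor
  · rw [le_div_iff₀ (by positivity)]
    linarith [c1.2, c3.1]
  · rw [div_lt_iff₀ (by positivity)]
    linarith [c1.1, c3.2]

/-- the times of two ancestors differ by an integer multiple of the shorter length -/
theorem re_aux_g7_dt_int (D : ReDoc) (b i σ r : ℕ) (ω : D.Row b) :
    D.tm b ω - tmL (D.dp i) (D.anc b i ω) = (D.tm b ω - tmL (D.dp (i + r * σ)) (D.anc b (i + r * σ) ω))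
      + (((D.anc b (i + r * σ) ω : ℤ) - 2 ^ (D.m * σ * r) * (D.anc b i ω : ℤ) : ℤ) : ℝ) * D.len (i + r * σ) := by
  have hdp : D.dp (i + r * σ) = D.dp i + D.m * σ * r := by
    unfold ReDoc.dp
    ring
  unfold tmL ReDoc.len rdLen
  rw [hdp, inv_pow, pow_add]
  push_cast
  field_simp
  ring

theorem re_aux_g7_len_M (D : ReDoc) (i σ r : ℕ) : D.len i = D.len (i + r * σ) * 2 ^ (D.m * σ * r) := by
  rw [re_len_add]
  unfold rdLen
  have : r * σ * D.m = D.m * σ * r := by ring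
  rw [this, inv_pow]
  field_simp

/-- given `C`, the name `C(a + h, v)` determines `O_1` up to a bounded list
OWNER helper159 (leaf L-256-RE-G7), EST 133 lines -/
theorem re_det_O (D : ReDoc) (hH : 0 < D.H) (i j r σ n : ℕ) (hn : r * σ ≤ n) :
    ReDet (pair (D.nm (i + n) (i + r * σ) j) (D.nm (i + n) i j)) (D.Oc (i + n) i j (2 ^ (D.m * σ)) r) (2 ^ 8) := by
  obtain ⟨e, he⟩ : ∃ e, e = D.m * σ * r := ⟨_, rfl⟩
  have hR := re_Rw_pos D hH j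
  have hl' := re_len_pos D (i + r * σ)
  have hlb0 := re_len_pos D (i + n)
  have hib : i + r * σ ≤ i + n := Nat.add_le_add_left hn i
  have hlb : D.len (i + n) ≤ D.len (i + r * σ) := re_len_anti D hib
  have hM : (0 : ℝ) < 2 ^ e := by positivity
  have hli : D.len i = D.len (i + r * σ) * 2 ^ e := he ▸ re_aux_g7_len_M D i σ r
  refine ⟨fun x => ((Finset.Icc (-1 : ℤ) 2) ×ˢ ((Finset.Icc (-1 : ℤ) 2) ×ˢ (Finset.Icc (-1 : ℤ) 2))).image (fun y =>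
    ![(x.1.1 : ℤ) - 2 ^ e * (x.2.1 : ℤ),
      x.1.2.2.1.1 - ((x.1.1 : ℤ) - 2 ^ e * (x.2.1 : ℤ)) * x.2.2.1.1 - 2 ^ e * x.2.2.2.1.1 + y.1,
      x.1.2.2.1.2 - ((x.1.1 : ℤ) - 2 ^ e * (x.2.1 : ℤ)) * x.2.2.1.2 - 2 ^ e * x.2.2.2.1.2 + y.2.1,
      x.1.2.2.2 + ((x.1.1 : ℤ) - 2 ^ e * (x.2.1 : ℤ)) * (x.2.2.1.1 ^ 2 + x.2.2.1.2 ^ 2) - 2 ^ e * x.2.2.2.2 + y.2.2]),
    fun x => ?_, fun ω => ?_⟩
  · refine le_trans (Nat.cast_le.2 Finset.card_image_le) ?_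
    have h4 : (Finset.Icc (-1 : ℤ) 2).card = 4 := by decide
    rw [Finset.card_product, Finset.card_product, h4]
    norm_num
  · have hΔ := re_aux_g7_dt_int D (i + n) i σ r ω
    rw [← he] at hΔ
    obtain ⟨h0, h1⟩ := re_aux_g7_dt D hib ω
    obtain ⟨N, hN⟩ : ∃ N : ℤ, N = (D.anc (i + n) (i + r * σ) ω : ℤ) - 2 ^ e * (D.anc (i + n) i ω : ℤ) := ⟨_, rfl⟩
    rw [← hN] at hΔ
    have hO : ∀ c, D.Oc (i + n) i j (2 ^ (D.m * σ)) r ω c = ⌊D.Ov (i + n) i j ω c * 2 ^ e⌋ := by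
      intro c
      unfold ReDoc.Oc rnCell4 rnCell
      rw [re_aux_M_pow, he]
    have t0 : D.Oc (i + n) i j (2 ^ (D.m * σ)) r ω 0 = N := by
      have := re_tc_eq D (σ := σ) (k := r) hib ω
      rw [← he, ← hN] at this
      rw [← this, hO]
      unfold ReDoc.tc rnCell
      rw [re_aux_M_pow, he, re_aux_g7_Ov]
      rfl
    have q1 := re_aux_g7_O1 (x := (D.pt (i + n) ω).b.1) (a := (D.pt (i + n) ω).A.1) hR hl' hlb0 hlb hM hli hΔ h0 h1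
      (reCell (D.len i * D.Rw j) (D.back (i + n) i ω).b.1)
    have q2 := re_aux_g7_O1 (x := (D.pt (i + n) ω).b.2) (a := (D.pt (i + n) ω).A.2) hR hl' hlb0 hlb hM hli hΔ h0 h1
      (reCell (D.len i * D.Rw j) (D.back (i + n) i ω).b.2)
    have q3 := re_aux_g7_O3 hR hl' hlb0 hlb hM hli hΔ h0 h1 (re_aux_g7_hv D (i + n) (i + r * σ) j ω)
      (reCell (D.len i * D.Rw j ^ 2) (D.hv (i + n) i j ω))
    have p1 : ⌊D.Ov (i + n) i j ω 1 * 2 ^ e⌋ - (reCell (D.len (i + r * σ) * D.Rw j) (D.back (i + n) (i + r * σ) ω).b.1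
        - N * reCell (D.Rw j) (D.pt (i + n) ω).A.1 - 2 ^ e * reCell (D.len i * D.Rw j) (D.back (i + n) i ω).b.1)
        ∈ Finset.Icc (-1 : ℤ) 2 := by
      refine re_aux_g7_floor_pert ?_ ?_
      · rw [re_aux_g7_Ov, re_aux_g7_back_b D (i + n) (i + r * σ)]
        push_cast
        exact q1.1
      · rw [re_aux_g7_Ov, re_aux_g7_back_b D (i + n) (i + r * σ)]
        push_cast
        exact lt_trans q1.2 (by norm_num)
    have p2 : ⌊D.Ov (i + n) i j ω 2 * 2 ^ e⌋ - (reCell (D.len (i + r * σ) * D.Rw j) (D.back (i + n) (i + r * σ) ω).b.2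
        - N * reCell (D.Rw j) (D.pt (i + n) ω).A.2 - 2 ^ e * reCell (D.len i * D.Rw j) (D.back (i + n) i ω).b.2)
        ∈ Finset.Icc (-1 : ℤ) 2 := by
      refine re_aux_g7_floor_pert ?_ ?_
      · rw [re_aux_g7_Ov, re_aux_g7_back_b D (i + n) (i + r * σ)]
        push_cast
        exact q2.1
      · rw [re_aux_g7_Ov, re_aux_g7_back_b D (i + n) (i + r * σ)]
        push_cast
        exact lt_trans q2.2 (by norm_num)
    have p3 : ⌊D.Ov (i + n) i j ω 3 * 2 ^ e⌋ - (reCell (D.len (i + r * σ) * D.Rw j ^ 2) (D.hv (i + n) (i + r * σ) j ω)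
        + N * (reCell (D.Rw j) (D.pt (i + n) ω).A.1 ^ 2 + reCell (D.Rw j) (D.pt (i + n) ω).A.2 ^ 2)
        - 2 ^ e * reCell (D.len i * D.Rw j ^ 2) (D.hv (i + n) i j ω)) ∈ Finset.Icc (-1 : ℤ) 2 := by
      refine re_aux_g7_floor_pert ?_ ?_
      · rw [re_aux_g7_Ov]
        push_cast
        exact q3.1
      · rw [re_aux_g7_Ov]
        push_cast
        have := q3.2
        norm_num
        exact this
    refine Finset.mem_image.2 ⟨(_, _, _), Finset.mem_product.2 ⟨p1, Finset.mem_product.2 ⟨p2, p3⟩⟩, ?_⟩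
    funext c
    fin_cases c
    · rw [Fin.zero_eta, t0, hN]
      rfl
    · show _ = D.Oc (i + n) i j (2 ^ (D.m * σ)) r ω 1
      rw [hO, hN]
      exact add_sub_cancel _ _
    · show _ = D.Oc (i + n) i j (2 ^ (D.m * σ)) r ω 2
      rw [hO, hN]
      exact add_sub_cancel _ _
    · show _ = D.Oc (i + n) i j (2 ^ (D.m * σ)) r ω 3
      rw [hO, hN]
      exact add_sub_cancel _ _

/-! ## G8. the list of lem:rt-time -/

/-- two links of the correspondence, back-evaluated at the cut `i` -/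
theorem re_aux_g8_near (D : ReDoc) (hH : 0 < D.H) {Λ : ℝ} (hΛ : 1 ≤ Λ) {i a l b : ℕ} (hia : i ≤ a) (hal : a ≤ l) (hlb : l ≤ b)
    (ω0 : D.Row a) (ω1 : D.Row l) (ω2 : D.Row b) (h1 : D.Conn Λ a l ω0 ω1) (h2 : D.Conn Λ l b ω1 ω2) :
    D.anc b a ω2 = D.iv a ω0 ∧ D.anc b i ω2 = D.anc a i ω0 ∧
    ReNear (18 * Λ) (D.len i) (rdD D.H (D.dp b)) (D.back a i ω0) (D.back b i ω2) := by
  have hΛ0 : 0 ≤ Λ := le_trans zero_le_one hΛ
  have e1 : D.anc l a ω1 = D.iv a ω0 := h1.1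
  have e2 : D.anc b l ω2 = D.iv l ω1 := h2.1
  have e3 : D.anc b a ω2 = D.iv a ω0 := by
    rw [← re_anc_anc D hal hlb ω2, e2]
    exact e1
  have e4 : D.anc b i ω2 = D.anc a i ω0 := by
    rw [← re_anc_anc D hia (hal.trans hlb) ω2, e3]
    rfl
  refine ⟨e3, e4, ?_⟩
  have hdb := re_rdD_pos D hH b
  have hdl := re_rdD_pos D hH l
  have n1 := re_near_conn D hH hΛ hal ω0 ω1 h1
  have n2 := re_near_conn D hH hΛ hlb ω1 ω2 h2
  have n1' := re_near_mono n1 (by positivity) (re_len_pos D a).le hdl.le le_rfl le_rfl (re_rdD_mono D hH hlb)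
  have g1 := re_aux_g7_dt D hal ω1
  have hs : |tmL (D.dp a) (D.anc l a ω1) - D.tm l ω1| ≤ D.len a := by
    rw [abs_le]
    constructor <;> linarith [g1.1, g1.2]
  have n2' := re_near_flow n2 (by positivity) (re_len_pos D l).le hdb.le (re_len_anti D hal) hs
  have f2 : (D.back b l ω2).flow (tmL (D.dp a) (D.anc l a ω1) - D.tm l ω1) = D.back b a ω2 := by
    rw [re_back_back D a l b ω2, e3, e2, e1]
    rfl
  rw [f2] at n2'
  have n3 := re_near_trans n1' n2' (by positivity) (by positivity) (re_len_pos D a).le hdb.le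
  have g2 := re_aux_g7_dt D hia ω0
  have hs' : |tmL (D.dp i) (D.anc a i ω0) - D.tm a ω0| ≤ D.len i := by
    rw [abs_le]
    constructor <;> linarith [g2.1, g2.2]
  have n4 := re_near_flow n3 (by positivity) (re_len_pos D a).le hdb.le (re_len_anti D hia) hs'
  have f4 : (D.back b a ω2).flow (tmL (D.dp i) (D.anc a i ω0) - D.tm a ω0) = D.back b i ω2 := by
    rw [re_back_back D i a b ω2, e4, e3]
    rfl
  rw [f4] at n4
  have e18 : 2 * (3 * Λ + 2 * (3 * Λ)) = 18 * Λ := by ring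
  rw [e18] at n4
  exact n4

/-- `(C, Y#)` is a function of the general name -/
theorem re_aux_g8_fun (D : ReDoc) (hH : 0 < D.H) (b i j σ n : ℕ) (ω : D.Row b) (g : (ℤ × ℤ) × (ℤ × ℤ) × ℤ)
    (hg : g = reGn (D.len i) (D.Rw j) (D.Rw (j + n * σ)) (D.Rw (j + n * σ)) (D.back b i ω)) :
    (D.nm b i j ω).2 = ((g.1.1 / 2 ^ (D.m * σ * n), g.1.2 / 2 ^ (D.m * σ * n)),
      (g.2.1.1 / 2 ^ (D.m * σ * n), g.2.1.2 / 2 ^ (D.m * σ * n)), g.2.2 / 2 ^ (D.m * σ * n)) ∧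
    D.Zc b j (2 ^ (D.m * σ)) n ω = (g.1.1 - 2 ^ (D.m * σ * n) * (g.1.1 / 2 ^ (D.m * σ * n)),
      g.1.2 - 2 ^ (D.m * σ * n) * (g.1.2 / 2 ^ (D.m * σ * n))) ∧
    D.Wc b i j (2 ^ (D.m * σ)) n ω = (g.2.1.1 - 2 ^ (D.m * σ * n) * (g.2.1.1 / 2 ^ (D.m * σ * n)),
      g.2.1.2 - 2 ^ (D.m * σ * n) * (g.2.1.2 / 2 ^ (D.m * σ * n)), g.2.2 - 2 ^ (D.m * σ * n) * (g.2.2 / 2 ^ (D.m * σ * n))) := by
  have hR := re_Rw_pos D hH j
  have hl := re_len_pos D i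
  have e1 : D.len i * D.Rw j / 2 ^ (D.m * σ * n) = D.len i * D.Rw (j + n * σ) := by
    rw [← re_aux_Rw_div, mul_div_assoc]
  have e2 : D.len i * D.Rw j ^ 2 / 2 ^ (D.m * σ * n) = D.len i * D.Rw j * D.Rw (j + n * σ) := by
    rw [← re_aux_Rw_div]
    ring
  have eA : ∀ x, reCell (D.Rw j) x = reCell (D.Rw (j + n * σ)) x / 2 ^ (D.m * σ * n) := fun x => by
    rw [re_cell_div hR x (D.m * σ * n), re_aux_Rw_div]
  have eb : ∀ x, reCell (D.len i * D.Rw j) x = reCell (D.len i * D.Rw (j + n * σ)) x / 2 ^ (D.m * σ * n) := fun x => by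
    rw [re_cell_div (by positivity) x (D.m * σ * n), e1]
  have eh : ∀ x, reCell (D.len i * D.Rw j ^ 2) x = reCell (D.len i * D.Rw j * D.Rw (j + n * σ)) x / 2 ^ (D.m * σ * n) :=
    fun x => by rw [re_cell_div (by positivity) x (D.m * σ * n), e2]
  subst hg
  refine ⟨?_, ?_, ?_⟩
  · unfold ReDoc.nm reNm reGn reCell2
    simp only
    rw [eA, eA, eb, eb, eh]
  · rw [re_Zc_eq D hH]
    unfold ReDoc.an reGn reCell2
    simp only
    rw [eA, eA]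
    rfl
  · rw [re_Wc_eq D hH, eb, eb, eh]
    rfl

/-- **a row at the cut `a = i + k σ` reaches few values of `(θ_k, C, Y#)`** (08 l.826-831).
`re_near_conn` twice, `re_near_flow` to the common times `T_a`, `T_i`, `re_near_trans`:  `ReNear (18 Λ) ℓ_i d_b (D.back a i ω0) (D.back b i ω2)`;  `re_list` with `R = R_j`, `R1 = R2 = R_{j + K S} ≥ d_b`;  `(θ_k, C, Y#)` is a function of `(D.iv a ω0, reGn ...)` by G4.
OWNER helper159 (leaf L-256-RE-G8), EST 350 lines -/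
theorem re_time_list (D : ReDoc) (hH : 0 < D.H) {Λ : ℝ} (hΛ : 1 ≤ Λ) {i j l b σ k n : ℕ} (hal : i + k * σ ≤ l) (hlb : l ≤ b)
    (hv : 2 * (j + n * σ) + b ≤ D.q) (ω0 : D.Row (i + k * σ)) :
    ∃ Lst : Finset (ℤ × ReName × ((ℤ × ℤ) × (ℤ × ℤ × ℤ))), ((Lst.card : ℝ) ≤ 2 ^ 50 * Λ ^ 6) ∧
      ∀ (ω1 : D.Row l) (ω2 : D.Row b), D.Conn Λ (i + k * σ) l ω0 ω1 → D.Conn Λ l b ω1 ω2 →
        pair (D.tc b i (2 ^ (D.m * σ)) k)
          (pair (D.nm b i j) (pair (D.Zc b j (2 ^ (D.m * σ)) n) (D.Wc b i j (2 ^ (D.m * σ)) n))) ω2 ∈ Lst := by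
  have hΛ0 : 0 ≤ Λ := le_trans zero_le_one hΛ
  have hRn : D.Rw j = D.Rw (j + n * σ) * 2 ^ (D.m * σ * n) := by
    rw [← re_aux_Rw_div]
    field_simp
  obtain ⟨Lst₀, hc, hm⟩ := re_list (Λ := 18 * Λ) (l := D.len i) (R := D.Rw j) (R1 := D.Rw (j + n * σ))
    (R2 := D.Rw (j + n * σ)) (δ := rdD D.H (D.dp b)) (n := D.m * σ * n) (by linarith) (re_len_pos D i) (re_rdD_pos D hH b)
    (re_rdD_le D hH hv) le_rfl (re_Rw_anti D hH (Nat.le_add_right _ _)) hRn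
  obtain ⟨N, hN⟩ : ∃ N, N = D.m * σ * n := ⟨_, rfl⟩
  refine ⟨(Lst₀ (reGn (D.len i) (D.Rw j) (D.Rw (j + n * σ)) (D.Rw (j + n * σ)) (D.back (i + k * σ) i ω0))).image
    (fun g => ((D.iv (i + k * σ) ω0 : ℤ) - 2 ^ (D.m * σ * k) * (D.anc (i + k * σ) i ω0 : ℤ),
      (D.anc (i + k * σ) i ω0, ((g.1.1 / 2 ^ N, g.1.2 / 2 ^ N), (g.2.1.1 / 2 ^ N, g.2.1.2 / 2 ^ N), g.2.2 / 2 ^ N)),
      ((g.1.1 - 2 ^ N * (g.1.1 / 2 ^ N), g.1.2 - 2 ^ N * (g.1.2 / 2 ^ N)),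
        (g.2.1.1 - 2 ^ N * (g.2.1.1 / 2 ^ N), g.2.1.2 - 2 ^ N * (g.2.1.2 / 2 ^ N), g.2.2 - 2 ^ N * (g.2.2 / 2 ^ N))))), ?_, ?_⟩
  · refine le_trans (Nat.cast_le.2 Finset.card_image_le) ((hc _).trans ?_)
    have : (2 : ℝ) ^ 15 * (18 * Λ) ^ 6 = (2 ^ 15 * 18 ^ 6) * Λ ^ 6 := by ring
    rw [this]
    exact mul_le_mul_of_nonneg_right (by norm_num) (by positivity)
  · intro ω1 ω2 h1 h2
    obtain ⟨e3, e4, hn⟩ := re_aux_g8_near D hH hΛ (Nat.le_add_right i (k * σ)) hal hlb ω0 ω1 ω2 h1 h2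
    refine Finset.mem_image.2 ⟨_, hm _ _ hn, ?_⟩
    obtain ⟨f1, f2, f3⟩ := re_aux_g8_fun D hH b i j σ n ω2 _ rfl
    rw [← hN] at f1 f2 f3
    have ft := re_tc_eq D (σ := σ) (k := k) (hal.trans hlb) ω2
    rw [e3, e4] at ft
    simp only [FLaw.pair]
    rw [ft, f2, f3]
    refine Prod.ext rfl (Prod.ext ?_ rfl)
    refine Prod.ext e4.symm f1.symm

end Claimed.Agent.R256
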