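-- KEEP
import Claimed.Agent.R256.Re.Doc
import Claimed.Agent.R256.Re.ProfMain
import Claimed.Agent.R256.Rnd.Contract
import Claimed.Agent.R256.Gen.Contract
import Claimed.Agent.R256.Base.RndWav
import Claimed.Agent.R256.Base.RndCl
import Claimed.Agent.R256.Base.Cyl

/-!
# Row 256, unit RE = the Q-layer of sec. 8 (08-round-entropy.tex l.1-975): CONTRACT      (chief helper223, second architect helper159; prefix `re_`)

GOAL = R1(wav) of the round hub (helper207 #28284):   `¬ Rate (rndWav η) (100 η)` + P5, P6, P7   ⟹   `RnProf` for ALL parameters   (`re_prof_wave`, `re_hub_r1w` in `Re/Main.lean`).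
`Γ := (rndWav η).Gam` (masked class), `p0 d0` of `Gen/Contract.lean`.

ENTRY  (`ReEntry η`, signed by Rt = helper216):   `Gen 1`, `Loc 1` with the EXPLICIT correspondence `reCn` = (acc), thin exclusion `ReTE` (from P6, P7).
       analytic box (E3): `tri_env_dil` (Tri, helper213) or `Gwz/Env` (helper290), consumed only by block PLANE-B.
BLOCKS
  (II)   `re_prof`     `ReSrc ⟹ RnProf`     FINITE LAWS ONLY     architect helper159     `Re/Prof*.lean`     (stability, arrays, time, greedy slab removal, queries)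
  (I)    `re_src_main` `ReEntry + ReTE + RePL + RePlaneA + RePlaneB ⟹ ReSrc`     model level     architect helper223     `Re/Tow.lean` (defs), `Re/TowC.lean` (contract + glue), `Re/Tools.lean`
           TOW  towers: forward selection of peel levels, label selection (TE, PL), preflattening          (`gn_ext, gn_peel, gn_split, gn_ss1-3`)
           ATOM binning of the selected rows; fields mass, reg, lb*
           LOCS locality through a finite stack          RAR rarity (`gn_tail`, Hoelder)          TP contraction per interval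
           SLB  model half of lem:rt-slab-removal (`RePlaneA/B`, `gn_split`, `gn_tail`, `gn_prefix`)
  PL     `re_pl`       prop:rt-planck (round-Pl): labels much wider than the aperture lose a power          (jitter, lem:rt-test-volume, wave ≤ ray domination, P5)
  PLANE  `re_planeA` (tiny-cap), `re_planeB` (sec): ONE free step, NO LIMIT, no setup, exact inequalities          (lem:rt-spatial-readout, (L), (slice-reg), (tile), E3)
-/

set_option autoImplicit false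

namespace Claimed.Agent.R256

open MeasureTheory

/-! ## 0. The two halves -/

/-- **documents exist** for every mesh `q`, with arbitrarily small tolerance `t`, arbitrary order `N`, arbitrarily many bits per mesh step.   `ts` depends only on `(q, es)`. -/
def ReSrc (η p d : ℝ) (K : ℕ) : Prop :=
  ∀ (q : ℕ) (es : ℝ), 0 < es → ∃ ts : ℝ, 0 < ts ∧ ∀ (t N : ℝ) (m0 : ℕ), 0 < t →
    ∃ D : ReDoc, D.q = q ∧ m0 ≤ D.m ∧ D.Ok η p d t N K es ts

/-- **BLOCK (II)** (architect helper159).   `q = r^N`; query `(i, j, S = r^(N-k))`, measuring cut `b = i + 3 S`, base `2^((S/r) m)`. -/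
theorem re_prof (η Γ d : ℝ) (hη0 : 0 < η) (hη1 : η < 1) (hd0 : 0 < d) (hd1 : d ≤ 1) (hΓ : 0 < Γ) (hΓd : Γ ≤ d)
    (h : ReSrc η (1 + 2 * d - 2 * Γ) d 3) (r N k0 M0 : ℕ) (e τ es : ℝ) (hr : 2 ≤ r) (he : 0 < e) (hτ : 0 < τ) (hes : 0 < es) :
    RnProf r N k0 3 M0 4 d (1 + 3 * d - 2 * Γ) e τ es :=
  re_prof_main η Γ d hη0 hη1 hd0 hd1 hΓ hΓd h r N k0 M0 e τ es hr he hτ hes

/-! ## 1. ENTRY -/

/-- the correspondence (acc) between the phase point `x` of a row of the cut `(T, k)` and the phase point `x'` of a row of the cut `(T', k')`, enlargement `Λ` -/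
def reCn (H Λ T : ℝ) (k : ℕ) (T' : ℝ) (k' : ℕ) (x x' : RtRow) : Prop :=
  rtSq (x'.A - x.A) ≤ (Λ * rdD H k') ^ 2 ∧
  rtSq (x'.b - (x.flow (T' - T)).b) ≤ (Λ * rdQ H k) ^ 2 ∧
  |x'.y - (x.flow (T' - T)).y - 2 * rtIp x.A (x'.b - (x.flow (T' - T)).b)| ≤ Λ * H

/-- a test of the wave model as `RdTst` -/
def rwT {η : ℝ} {p : RdWvPar} (Q : (p.sys η).Tst) : RdTst := Q

/-- all stages end at least `h n` before the final depth -/
def Xp.GapEnd {P : PkSys} (E : Xp P) (h : ℝ) : Prop := ∀ σ ∈ E.st, (σ.k : ℝ) + h * E.n ≤ E.kf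

/-- **thin exclusion** (prop rt:thin-exclusion + thm:cylinder, finite form (TE) of report 837): experiments with a free last gap all of whose labels are thin lose a package free power -/
def ReTE (η : ℝ) : Prop :=
  ∀ τ h : ℝ, 0 < τ → 0 < h → ∃ c : ℝ, 0 < c ∧ ∀ C : ℕ, ∃ A n0 : ℕ, ∀ (p : RdWvPar) (E : Xp (p.sys η)), n0 ≤ E.n →
    (rndWav η).Cls C A p E → E.GapEnd h → (∀ l, (rwT (E.ts l)).f ≤ E.s ^ τ) → E.val ≤ 2 ^ (((rndWav η).Gam - c) * E.n)

/-- what RE takes from RT -/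
structure ReEntry (η : ℝ) : Prop where
  gen : (rndWav η).Gen 1
  loc : ∃ L : (rndWav η).Loc 1, ∀ (p : RdWvPar) (Λ T : ℝ) (k : ℕ) (T' : ℝ) (k' : ℕ) (x x' : RdWvPar.Ph),
    L.cn p Λ T k T' k' x x' ↔ reCn p.H Λ T k T' k' (RdWvPar.co T x) (RdWvPar.co T' x')
  te : (cylCl η).Rate (η / 2) → (cylHyb η).Rate (η / 2) → η / 2 < (rndWav η).Gam → ReTE η

/-! `re_entry : ReEntry η` is PROVED in `Re/XEntry.lean` from the exits X3, X4, X7 of `Rt/Contract.lean`. -/

/-! ## 2. PL -/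

/-- **(round-Pl)**, finite form: experiments with a free last gap all of whose labels are wider than `s^-τ d_ℓ` (and not thinner than `s^c`) lose a package free power -/
def RePL (η : ℝ) : Prop :=
  ∀ τ h : ℝ, 0 < τ → 0 < h → ∃ c : ℝ, 0 < c ∧ ∀ C : ℕ, ∃ A n0 : ℕ, ∀ (p : RdWvPar) (E : Xp (p.sys η)), n0 ≤ E.n →
    (rndWav η).Cls C A p E → E.GapEnd h →
    (∀ l, E.s ^ (-τ) * rdD p.H E.kf ≤ (rwT (E.ts l)).r ∧ E.s ^ c ≤ (rwT (E.ts l)).f) → E.val ≤ 2 ^ (((rndWav η).Gam - c) * E.n)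

/-! **BLOCK PL** (prop:rt-planck): `re_pk_pl (η γ) (hE : ReEntry η) (P5 : (rndCl η).Rate γ) (hγ : γ < Gam) : RePL η` in `Re/PlTop.lean` (architect helper236). -/

/-! ## 3. PLANE -/

/-- the angular spectrum `ξ / (2ρ)` of a state lies in `S` -/
def reAngIn (S : Set (ℝ × ℝ)) (G : Lp ℂ 2 (volume : Measure RdWvPar.Mo)) : Prop :=
  ∀ᵐ z ∂(volume : Measure RdWvPar.Mo), (G : RdWvPar.Mo → ℂ) z ≠ 0 → (2 * z.2)⁻¹ • z.1 ∈ S

/-- **one free step in the frame `φ`**: `Δ = s = 2^-n`, Planck parameter `H / (ℓ₀ r²) ∈ [Δ/Kp, Kp Δ]`, labels of angular width `≈ r`, not thin -/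
structure ReStep (η : ℝ) (p : RdWvPar) (E : Xp (p.sys η)) (bm : ℕ) (Kp : ℝ) (φ : RdFrm) : Prop where
  valid : E.Valid
  free : E.st = []
  gen : E.b0 ≤ bm ∧ E.bT ≤ bm
  spec : p.Spec E.b0 E.v
  Kp_ge : 1 ≤ Kp
  r_pos : 0 < φ.r
  H_lo : E.s / Kp ≤ p.H / (rdLen E.k0 * φ.r ^ 2)
  H_hi : p.H / (rdLen E.k0 * φ.r ^ 2) ≤ Kp * E.s
  lab : ∀ l, φ.r / Kp ≤ (rwT (E.ts l)).r ∧ (rwT (E.ts l)).r ≤ Kp * φ.r ∧ 1 / Kp ≤ (rwT (E.ts l)).f

/-- **(tiny-cap)**, waves: spectrum within `Kp √Δ` (frame units) of the centre of the frame -/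
def RePlaneA (η : ℝ) : Prop :=
  ∃ C0 : ℝ, ∀ bm : ℕ, ∃ C : ℝ, ∀ (p : RdWvPar) (E : Xp (p.sys η)) (Kp : ℝ) (φ : RdFrm), ReStep η p E bm Kp φ →
    reAngIn {A | rtSq (A - φ.As) ≤ (Kp * φ.r) ^ 2 * E.s} E.v → E.val ≤ C * Kp ^ C0

/-- **(sec)**, waves: spectrum within `Kp √Δ` of the bounded part of the section `d0 + α·Z + β|Z|² = 0`, `Z = (A - A_*)/r`, `|α|² + β² = 1`, discriminant `≥ P^-2` -/
def RePlaneB (η : ℝ) : Prop :=
  ∃ C0 : ℝ, ∀ (ν : ℝ) (bm : ℕ), 0 < ν → ∃ C : ℝ, ∀ (p : RdWvPar) (E : Xp (p.sys η)) (Kp Pp : ℝ) (φ : RdFrm) (d0 be : ℝ) (al : ℝ × ℝ),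
    ReStep η p E bm Kp φ → 2 ≤ Pp → rtSq al + be ^ 2 = 1 → Pp ^ (-2 : ℝ) ≤ rtSq al - 4 * be * d0 →
    reAngIn {A | rtSq (φ.r⁻¹ • (A - φ.As)) ≤ Kp ^ 2 ∧
      (d0 + rtIp al (φ.r⁻¹ • (A - φ.As)) + be * rtSq (φ.r⁻¹ • (A - φ.As))) ^ 2 ≤ Kp ^ 2 * E.s} E.v →
    E.val ≤ C * Kp ^ C0 * Pp ^ C0 * 2 ^ ((4 * η + ν) * E.n)

/-! **BLOCK PLANE-A**: `re_sp_planeA : RePlaneA η` in `Re/SpaMain.lean` (architect helper213).      **BLOCK PLANE-B**: `re_sc_planeB : RePlaneB η` in `Re/SecMain.lean` (architect helper290). -/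

/-! ## 4. The classical twin -/

/-! **R(cl)**: thm:round, classical half = `rc_main` of `Rc/Contract.lean` (chief helper106); consumed by `re_hub_rc` in `Re/Main.lean`. -/

end Claimed.Agent.R256
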