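-- KEEP
import Claimed.Agent.R256.Re.Contract

/-!
# Row 256, unit RE, block (I), file 1: PEEL SELECTIONS, TOWERS (model level) and their documents      (chief helper223; prefix `re`)      DEFINITIONS ONLY

* `RePs`          a PEEL SELECTION at one cut: generation, threshold `be`, finitely many labels (interval `lI u`, test `lQ u`, success portion `lR u`);   `P.S I` = the selected rows on the interval `I`.
* `P.Ok X k τ`    `P` is a selection at the depth `k` for the experiment `X` (all stages of `X` are before `k`, free continuation): successes of ONE peel level, good shapes (TE, PL), benchmarks (CE), certificate preserved.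
* `P.pre X k`     the PREFIX experiment of `X` read at the depth `k` on the successes.
* A TOWER `W : ReTw η p` = a FREE base experiment `W.E` (its labels are THE TERMINAL CERTIFICATE, never changed) + for every mesh cut `i` (depth `k0 + i m`) a peel selection `ps i` and a preflattening class `cl i` (a set of atoms), chosen in FORWARD order.
  The mask of the stage `i` on the interval `I` is the indicator of `W.S i I = (ps i).S I ∩ (rows whose atom lies in cl i)`.
* ATOMS `a : ℕ × ReFc` = (interval, fine cell).   `W.fc i`, `W.fp i` = fine cell (width `2^-B` in the units of the cut `i`, TILTED vertical coordinate) and its lower corner = the REPRESENTATIVE.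
* `W.Ex i`        the experiment with the stages `1..i` and FREE continuation (`Ex 0 = E`);   `W.pre i I` the state entering the stage `i` on the interval `I`
* `W.rm i I U`    raw selected mass of the rows `U`;   `W.rt i U` its sum over the intervals;   `W.am i a` mass of an atom;   `W.ats i` the charged atoms
* `W.doc : ReDoc` the document
* `W.Ok hg C A τ` the properties of the stages `1..hg`;   tolerance `2^(τ n)`, `n = E.n`, `q m ≤ n < q (m+1)`
-/

set_option autoImplicit false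

namespace Claimed.Agent.R256

open MeasureTheory
open scoped BigOperators
open Classical

/-- fine cells -/
abbrev ReFc : Type := (ℤ × ℤ) × (ℤ × ℤ) × ℤ

/-- a stage whose masks are indicators of row sets -/
noncomputable def reStg (η : ℝ) (p : RdWvPar) (k b : ℕ) (S : ℕ → Set RdWvPar.Ph) : Stg (p.sys η) :=
  ⟨k, b, fun I => (S I).indicator fun _ => 1⟩

/-! ## 1. Peel selections -/

/-- a peel selection at one cut -/
structure RePs where
  gb : ℕ
  be : ℝ
  nL : ℕ
  lI : ℕ → ℕ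
  lQ : ℕ → RdTst
  lR : ℕ → Set RdWvPar.Ph

namespace RePs

variable (P : RePs)

/-- the selected rows on the interval `I` -/
def S (I : ℕ) : Set RdWvPar.Ph := {x | ∃ u < P.nL, P.lI u = I ∧ x ∈ P.lR u}

variable {η : ℝ} {p : RdWvPar}

/-- the raw selected mass -/
noncomputable def raw (X : Xp (p.sys η)) (k : ℕ) : ℝ :=
  ∑ I ∈ ivs X.k0 X.i0 k, (p.sys η).ms (tmL k I) k P.gb (P.S I) (X.at' k I X.st)

/-- the prefix experiment read on the successes   (`Xp.pre` of `Gen/Ops.lean`: `gn_pre_valid`, `gn_pre_m`) -/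
noncomputable def pre (X : Xp (p.sys η)) (k : ℕ) : Xp (p.sys η) :=
  X.pre (k - X.k0) X.st P.gb (L' := P.nL) (fun u => P.lI u) (fun u => P.lQ u) (fun u => (P.lR u).indicator fun _ => 1)

/-- the experiment `X` with the selection inserted as its last stage -/
noncomputable def ins (X : Xp (p.sys η)) (k : ℕ) : Xp (p.sys η) := X.withSt (X.st ++ [reStg η p k P.gb P.S])

/-- **the properties of a peel selection**   (`Γ p0 d0` of `rndWav η`; tolerance `2^(τ n)`, `n = X.n`) -/
structure Ok (X : Xp (p.sys η)) (k : ℕ) (τ : ℝ) : Prop where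
  valid : X.Valid
  gb_le : ∀ bm, X.GenLe bm → P.gb ≤ bm + 1
  plat : ∀ I ∈ ivs X.k0 X.i0 k, X.at' k I X.st ∈ (p.sys η).Pl P.gb
  /-- the labels are successes at the threshold `be` -/
  lb : ∀ u < P.nL, P.lI u ∈ ivs X.k0 X.i0 k ∧ (p.sys η).ok (P.lQ u) k ∧ MeasurableSet (P.lR u) ∧
    P.lR u ⊆ (p.sys η).cell (P.lQ u) (tmL k (P.lI u)) k ∧
    P.be * (P.lQ u).wt η < (p.sys η).ms (tmL k (P.lI u)) k P.gb (P.lR u) (X.at' k (P.lI u) X.st)
  disj : ∀ u < P.nL, ∀ u' < P.nL, u ≠ u' → P.lI u = P.lI u' → Disjoint (P.lR u) (P.lR u')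
  /-- raw regularity `2 be` -/
  reg : ∀ I ∈ ivs X.k0 X.i0 k, ∀ Q : RdTst, (p.sys η).ok Q k →
    (p.sys η).ms (tmL k I) k P.gb ((p.sys η).cell Q (tmL k I) k ∩ P.S I) (X.at' k I X.st) ≤ 2 * P.be * Q.wt η
  /-- (round-Pl), `f = s^o(1)` -/
  shape : ∀ u < P.nL, (P.lQ u).r ≤ 2 ^ (τ * X.n) * rdD p.H k ∧ 2 ^ (-(τ * X.n)) ≤ (P.lQ u).f
  /-- (CE) -/
  be_lo : X.ka * (2 : ℝ) ^ (-((rndWav η).p0f * ((k - X.k0 : ℕ) : ℝ)) - τ * X.n) ≤ P.be
  be_hi : P.be ≤ X.ka * (2 : ℝ) ^ (-((rndWav η).p0f * ((k - X.k0 : ℕ) : ℝ)) + τ * X.n)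
  raw_lo : X.e * (2 : ℝ) ^ ((rndWav η).d0f * ((k - X.k0 : ℕ) : ℝ) - τ * X.n) ≤ P.raw X k
  raw_hi : P.raw X k ≤ X.e * (2 : ℝ) ^ ((rndWav η).d0f * ((k - X.k0 : ℕ) : ℝ) + τ * X.n)
  /-- the terminal certificate is preserved -/
  cert : 2 ^ (((rndWav η).Gam - τ) * X.n) ≤ (P.ins X k).val

end RePs

/-! ## 2. Towers -/

/-- the data of a tower -/
structure ReTw (η : ℝ) (p : RdWvPar) where
  E : Xp (p.sys η)
  q : ℕ
  m : ℕ
  B : ℕ
  ps : ℕ → RePs
  cl : ℕ → Set (ℕ × ReFc)
  Dn : ℕ → ℕ → ℝ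
  Gn : ℕ → ℕ → ℕ → ℝ

namespace ReTw

variable {η : ℝ} {p : RdWvPar} (W : ReTw η p)

/-- depth of the cut `i` -/
def dp (i : ℕ) : ℕ := W.E.k0 + i * W.m

/-- the angular unit -/
noncomputable def R0 : ℝ := rdD p.H (W.dp W.q)

/-- the width `R_j` -/
noncomputable def Rw (j : ℕ) : ℝ := W.R0 * rdLen (j * W.m)

/-- the fine cell of a phase point at the cut `i`;   the vertical coordinate is TILTED by the fine angular corner (so that no estimate sees the absolute size of `A`, `b`) -/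
noncomputable def fc (i : ℕ) (x : RtRow) : ReFc :=
  (reCell2 (W.R0 * rdLen W.B) x.A, reCell2 (rdLen (W.dp i) * W.R0 * rdLen W.B) x.b,
    reCell (rdLen (W.dp i) * W.R0 ^ 2 * rdLen W.B) (x.y - 2 * rtIp (reCor2 (W.R0 * rdLen W.B) x.A) x.b))

/-- the representative of a fine cell: lower corners, tilt undone -/
noncomputable def fp (i : ℕ) (c : ReFc) : RtRow :=
  ⟨((W.R0 * rdLen W.B) * c.1.1, (W.R0 * rdLen W.B) * c.1.2),
   ((rdLen (W.dp i) * W.R0 * rdLen W.B) * c.2.1.1, (rdLen (W.dp i) * W.R0 * rdLen W.B) * c.2.1.2),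
   (rdLen (W.dp i) * W.R0 ^ 2 * rdLen W.B) * c.2.2
     + 2 * rtIp ((W.R0 * rdLen W.B) * c.1.1, (W.R0 * rdLen W.B) * c.1.2)
        ((rdLen (W.dp i) * W.R0 * rdLen W.B) * c.2.1.1, (rdLen (W.dp i) * W.R0 * rdLen W.B) * c.2.1.2)⟩

/-- the rows of a fine cell -/
def fs (i : ℕ) (c : ReFc) : Set RdWvPar.Ph := {x | W.fc i (RdWvPar.co 0 x) = c}

/-- the rows, on the interval `I`, of a set of atoms -/
def rs (i : ℕ) (T : Set (ℕ × ReFc)) (I : ℕ) : Set RdWvPar.Ph := {x | (I, W.fc i (RdWvPar.co 0 x)) ∈ T}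

/-- the selected rows of the cut `i` -/
def S (i I : ℕ) : Set RdWvPar.Ph := (W.ps i).S I ∩ W.rs i (W.cl i) I

/-- the stage `i` -/
noncomputable def sg (i : ℕ) : Stg (p.sys η) := reStg η p (W.dp i) (W.ps i).gb (W.S i)

/-- the stages `1, .., i` -/
noncomputable def stk (i : ℕ) : List (Stg (p.sys η)) := (List.range i).map fun a => W.sg (a + 1)

/-- the stages `1, .., i`, free continuation -/
noncomputable def Ex (i : ℕ) : Xp (p.sys η) := W.E.withSt (W.stk i)

/-- the intervals of the cut `i` -/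
def iv (i : ℕ) : Finset ℕ := ivs W.E.k0 W.E.i0 (W.dp i)

/-- the state entering the stage `i` -/
noncomputable def pre (i I : ℕ) : (p.sys η).Kc := W.E.at' (W.dp i) I (W.stk (i - 1))

/-- raw selected mass -/
noncomputable def rm (i I : ℕ) (U : Set RdWvPar.Ph) : ℝ :=
  (p.sys η).ms (tmL (W.dp i) I) (W.dp i) (W.ps i).gb (W.S i I ∩ U) (W.pre i I)

/-- raw selected mass of a family of row sets -/
noncomputable def rt (i : ℕ) (U : ℕ → Set RdWvPar.Ph) : ℝ := ∑ I ∈ W.iv i, W.rm i I (U I)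

/-- the mass of an atom -/
noncomputable def am (i : ℕ) (a : ℕ × ReFc) : ℝ := W.rm i a.1 (W.fs i a.2)

/-- the charged atoms -/
def chg (i : ℕ) : Set (ℕ × ReFc) := {a | a.1 ∈ W.iv i ∧ 0 < W.am i a}

/-- the charged atoms as a finite set (junk `∅`) -/
noncomputable def ats (i : ℕ) : Finset (ℕ × ReFc) := if h : (W.chg i).Finite then h.toFinset else ∅

/-- the name `C(a, v)` of an atom of the cut `b` -/
noncomputable def nmT (b i j : ℕ) (a : ℕ × ReFc) : ReName :=
  (ancI (W.dp b) (W.dp i) a.1,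
    reNm (rdLen (W.dp i)) (W.Rw j) ((W.fp b a.2).flow (tmL (W.dp i) (ancI (W.dp b) (W.dp i) a.1) - tmL (W.dp b) a.1)))

/-- the angular name `A_w` of an atom of the cut `b` -/
noncomputable def anT (b w : ℕ) (a : ℕ × ReFc) : ℤ × ℤ := reCell2 (W.Rw w) (W.fp b a.2).A

/-- an observation of the atoms of the cut `i` is flat at the exponent `x` (mesh steps), tolerance `t` -/
def FlatT {α : Type} (i : ℕ) (X : ℕ × ReFc → α) (x t : ℝ) : Prop :=
  (((W.ats i).image X).card : ℝ) ≤ (2 : ℝ) ^ ((x + t) * W.m) ∧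
    ∀ v : α, ∑ a ∈ (W.ats i).filter (fun a => X a = v), W.am i a ≤ (2 : ℝ) ^ (-(x - t) * W.m) * ∑ a ∈ W.ats i, W.am i a

/-- **the document of a tower** -/
noncomputable def doc : ReDoc where
  q := W.q
  m := W.m
  k0 := W.E.k0
  H := p.H
  e := W.E.e
  ka := W.E.ka
  Row := fun i => {a : ℕ × ReFc // a ∈ W.ats i}
  fin := fun _ => inferInstance
  ms := fun i a => W.am i a.1
  iv := fun _ a => a.1.1
  pt := fun i a => W.fp i a.1.2
  Lb := fun i => Fin (W.ps i).nL
  finL := fun _ => inferInstance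
  lI := fun i u => (W.ps i).lI u
  lQ := fun i u => (W.ps i).lQ u
  Dn := W.Dn
  Gn := W.Gn

/-- the factor `2^(τ n)` -/
noncomputable def tn (τ : ℝ) : ℝ := (2 : ℝ) ^ (τ * W.E.n)

/-- the tower with new data at the cut `i` -/
noncomputable def upd (i : ℕ) (P : RePs) (c : Set (ℕ × ReFc)) (dn : ℕ → ℝ) (gn : ℕ → ℕ → ℝ) : ReTw η p :=
  { W with ps := Function.update W.ps i P, cl := Function.update W.cl i c, Dn := Function.update W.Dn i dn, Gn := Function.update W.Gn i gn }

/-- **the properties of the stages `1, .., hg` of a tower**   (`Γ p0 d0` of `rndWav η`) -/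
structure Ok (hg C A : ℕ) (τ : ℝ) : Prop where
  free : W.E.st = []
  n_lo : W.q * W.m ≤ W.E.n
  n_hi : W.E.n < W.q * (W.m + 1)
  m_pos : 0 < W.m
  hg_lt : hg < W.q
  /-- the fine scale is finer than everything -/
  B_ge : 16 * (W.q + 1) * (W.m + 1) ≤ W.B
  /-- all truncations are in the class and carry the certificate -/
  cls : ∀ i ≤ hg, (rndWav η).Cls C A p (W.Ex i)
  cert : ∀ i ≤ hg, 2 ^ (((rndWav η).Gam - τ) * W.E.n) ≤ (W.Ex i).val
  tw : W.E.tw ≤ W.E.e / W.E.ka * W.E.s ^ (-((rndWav η).p0f + (rndWav η).d0f) - τ)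
  /-- the peel selections, in forward order -/
  sel : ∀ i, 0 < i → i ≤ hg → (W.ps i).Ok (W.Ex (i - 1)) (W.dp i) τ
  /-- the preflattened rows keep the mass -/
  raw_lo : ∀ i, 0 < i → i ≤ hg → W.E.e * (2 : ℝ) ^ ((rndWav η).d0f * i * W.m) * W.tn (-τ) ≤ W.rt i fun _ => Set.univ
  /-- preflattening (tolerance in mesh steps: `τ (q+1)`) -/
  flatC : ∀ i j, i ≤ hg → RnVal W.q i j → W.FlatT i (W.nmT i i j) (W.Dn i j) (τ * (W.q + 1))
  flatG : ∀ i j w, i ≤ hg → RnVal W.q i w → j ≤ w →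
    W.FlatT i (fun a => (W.nmT i i j a, W.anT i w a)) (W.Gn i j w) (τ * (W.q + 1))

end ReTw

theorem re_tow_eqns_cite : True := by
  have := @reStg.eq_1
  have := @RePs.S.eq_1
  have := @RePs.raw.eq_1
  have := @RePs.pre.eq_1
  have := @RePs.ins.eq_1
  have := @ReTw.dp.eq_1
  have := @ReTw.R0.eq_1
  have := @ReTw.Rw.eq_1
  have := @ReTw.fc.eq_1
  have := @ReTw.fp.eq_1
  have := @ReTw.fs.eq_1
  have := @ReTw.rs.eq_1
  have := @ReTw.S.eq_1
  have := @ReTw.sg.eq_1
  have := @ReTw.stk.eq_1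
  have := @ReTw.Ex.eq_1
  have := @ReTw.iv.eq_1
  have := @ReTw.pre.eq_1
  have := @ReTw.rm.eq_1
  have := @ReTw.rt.eq_1
  have := @ReTw.am.eq_1
  have := @ReTw.chg.eq_1
  have := @ReTw.ats.eq_1
  have := @ReTw.nmT.eq_1
  have := @ReTw.anT.eq_1
  have := @ReTw.FlatT.eq_1
  have := @ReTw.doc.eq_1
  have := @ReTw.tn.eq_1
  have := @ReTw.upd.eq_1
  trivial

end Claimed.Agent.R256
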