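-- KEEP
import Claimed.Agent.R256.Re.Tow
import Claimed.Agent.R256.Rt.Wv1

/-!
# Row 256, unit RE, block (I), file 3: SHARED TOOLS      (chief helper223; prefix `re_`)      CONTRACT (every `sorry` is a leaf or belongs to the post named in its docstring)

  SPLIT   `re_split_sub`    `rd^{1/3}` is subadditive in the MASK of one stage (no plateau hypothesis)
  CHAIN   `re_cn_mono`, `re_cn_chain`     composition of two correspondences (acc)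
  LOCS    `re_locs`         locality through a finite stack
  SPEC    `re_spec_an`, `re_spec_syn`, `re_spec_tz`, `re_spec_band`     exact spectral supports
  CARD    `re_card`         polynomial number of labels, polynomial weights
-/

set_option autoImplicit false

namespace Claimed.Agent.R256

open MeasureTheory
open scoped BigOperators
open Classical

/-! ## SPLIT -/

/-- the readout with one stage `(k, b, M')` between `st1` and `st2`, as a function of the states behind that stage (cut at the final depth: no order of the depths is needed) -/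
theorem re_split_aux_rd {P : PkSys} (E : Xp P) (k b : ℕ) (st1 st2 : List (Stg P)) (M' : ℕ → P.X → ℝ) :
    (E.withSt (st1 ++ ⟨k, b, M'⟩ :: st2)).rd
      = E.rdc E.kf st2 (fun i => P.tz (tmL k (ancI E.kf k i)) k b (M' (ancI E.kf k i)) (Xp.run E.kf i st1 E.v)) := by
  unfold Xp.rd Xp.rdc
  refine Finset.sum_congr rfl fun l _ => ?_
  have : (E.withSt (st1 ++ ⟨k, b, M'⟩ :: st2)).fin (E.iv l)
      = Xp.run E.kf (E.iv l) st2 (P.tz (tmL k (ancI E.kf k (ancI E.kf E.kf (E.iv l)))) k b (M' (ancI E.kf k (ancI E.kf E.kf (E.iv l))))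
          (Xp.run E.kf (ancI E.kf E.kf (E.iv l)) st1 E.v)) := by
    show Xp.run E.kf (E.iv l) (st1 ++ ⟨k, b, M'⟩ :: st2) E.v = _
    rw [gn_run_append, gn_anc_self]
    rfl
  show P.en _ _ _ _ ((E.withSt (st1 ++ ⟨k, b, M'⟩ :: st2)).fin (E.iv l)) ^ (3 / 2 : ℝ) / _ = _
  rw [this]
  rfl

/-- `rd^{1/3}` is subadditive in the mask of one stage -/
theorem re_split_aux_sub {P : PkSys} (E : Xp P) (hE : E.Valid) (k b : ℕ) (st1 st2 : List (Stg P)) (h2 : StM st2) {ι : Type}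
    (J : Finset ι) (Mk : ι → ℕ → P.X → ℝ) (M0 : ℕ → P.X → ℝ) (hM : ∀ j ∈ J, ∀ i, IsMask (Mk j i)) (hM0 : ∀ i, IsMask (M0 i))
    (hsum : ∀ i x, ∑ j ∈ J, Mk j i x = M0 i x) :
    (E.withSt (st1 ++ ⟨k, b, M0⟩ :: st2)).rd ^ (1 / 3 : ℝ) ≤ ∑ j ∈ J, (E.withSt (st1 ++ ⟨k, b, Mk j⟩ :: st2)).rd ^ (1 / 3 : ℝ) := by
  simp_rw [re_split_aux_rd]
  have h3 : (fun i => P.tz (tmL k (ancI E.kf k i)) k b (M0 (ancI E.kf k i)) (Xp.run E.kf i st1 E.v))
      = fun i => ∑ j ∈ J, P.tz (tmL k (ancI E.kf k i)) k b (Mk j (ancI E.kf k i)) (Xp.run E.kf i st1 E.v) := by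
    funext i
    unfold PkSys.tz
    rw [← map_sum, gn_mulR_sum k J (fun j => Mk j (ancI E.kf k i)) (fun j hj => hM j hj _) (hM0 _) (hsum _)]
  rw [h3]
  exact gn_rdc_tri E hE E.kf st2 h2 J _

/-- **SPLIT-SUB** (post LOCRAR).   PLAN (60 l.): `Gen/Tri.lean`: `gn_rd_eq_rdc` at the cut `k` behind the new stage (`CutAt k (st1 ++ [σ]) st2`), states `Ψ_j I = tz .. (Mk j I) (at' k I st1)`;
`gn_mulR_sum` gives `tz .. (M0 I) ψ = Σ_j tz .. (Mk j I) ψ`; `gn_rdc_congr`, `gn_rdc_tri`. -/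
theorem re_split_sub {P : PkSys} (E : Xp P) (hE : E.Valid) (k b : ℕ) (st1 st2 : List (Stg P)) (hc : E.CutAt k st1 st2) {ι : Type}
    (J : Finset ι) (Mk : ι → ℕ → P.X → ℝ) (M0 : ℕ → P.X → ℝ) (hM : ∀ j ∈ J, ∀ i, IsMask (Mk j i)) (hM0 : ∀ i, IsMask (M0 i))
    (hsum : ∀ i x, ∑ j ∈ J, Mk j i x = M0 i x) :
    (E.withSt (st1 ++ ⟨k, b, M0⟩ :: st2)).rd ^ (1 / 3 : ℝ) ≤ ∑ j ∈ J, (E.withSt (st1 ++ ⟨k, b, Mk j⟩ :: st2)).rd ^ (1 / 3 : ℝ) := by
  exact re_split_aux_sub E hE k b st1 st2 (gn_cut_stm E hE hc).2 J Mk M0 hM hM0 hsum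

/-! ## CHAIN -/

theorem re_cn_ip {u v : ℝ × ℝ} {a b : ℝ} (ha : 0 ≤ a) (hb : 0 ≤ b) (hu : rtSq u ≤ a ^ 2) (hv : rtSq v ≤ b ^ 2) :
    |rtIp u v| ≤ a * b := by
  have h1 : rtIp u v ^ 2 ≤ rtSq u * rtSq v := by
    unfold rtIp rtSq
    nlinarith [sq_nonneg (u.1 * v.2 - u.2 * v.1)]
  have hu0 : 0 ≤ rtSq u := by unfold rtSq; positivity
  have hv0 : 0 ≤ rtSq v := by unfold rtSq; positivity
  have h2 : rtSq u * rtSq v ≤ a ^ 2 * b ^ 2 := mul_le_mul hu hv hv0 (by positivity)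
  refine abs_le_of_sq_le_sq ?_ (mul_nonneg ha hb)
  calc rtIp u v ^ 2 ≤ a ^ 2 * b ^ 2 := h1.trans h2
    _ = (a * b) ^ 2 := by ring

theorem re_cn_add {u v : ℝ × ℝ} {a b : ℝ} (ha : 0 ≤ a) (hb : 0 ≤ b) (hu : rtSq u ≤ a ^ 2) (hv : rtSq v ≤ b ^ 2) :
    rtSq (u + v) ≤ (a + b) ^ 2 := by
  have h := (abs_le.1 (re_cn_ip ha hb hu hv)).2
  have e : rtSq (u + v) = rtSq u + 2 * rtIp u v + rtSq v := by
    unfold rtSq rtIp
    simp only [Prod.fst_add, Prod.snd_add]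
    ring
  rw [e]
  nlinarith

theorem re_cn_smul (t : ℝ) (u : ℝ × ℝ) : rtSq (t • u) = t ^ 2 * rtSq u := by
  unfold rtSq
  simp only [Prod.smul_fst, Prod.smul_snd, smul_eq_mul]
  ring

theorem re_cn_dq {H : ℝ} (hH : 0 < H) (k : ℕ) :
    0 < rdD H k ∧ 0 < rdQ H k ∧ rdLen k * rdD H k = rdQ H k ∧ rdD H k * rdQ H k = H ∧ rdLen k * rdD H k ^ 2 = H := by
  have hl := rdLen_pos k
  have hd : 0 < rdD H k := Real.sqrt_pos.2 (div_pos hH hl)
  have hq : 0 < rdQ H k := Real.sqrt_pos.2 (mul_pos hH hl)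
  have hd2 : rdD H k ^ 2 = H / rdLen k := Real.sq_sqrt (div_pos hH hl).le
  have hq2 : rdQ H k ^ 2 = H * rdLen k := Real.sq_sqrt (mul_pos hH hl).le
  have e5 : rdLen k * rdD H k ^ 2 = H := by rw [hd2]; field_simp
  have e3 : rdLen k * rdD H k = rdQ H k := by
    have : (rdLen k * rdD H k) ^ 2 = rdQ H k ^ 2 := by
      rw [hq2, mul_pow, hd2]; field_simp
    exact (pow_left_inj₀ (mul_pos hl hd).le hq.le two_ne_zero).1 this
  refine ⟨hd, hq, e3, ?_, e5⟩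
  calc rdD H k * rdQ H k = rdLen k * rdD H k ^ 2 := by rw [← e3]; ring
    _ = H := e5

theorem re_cn_len_anti {k k' : ℕ} (h : k ≤ k') : rdLen k' ≤ rdLen k := by
  unfold rdLen
  exact pow_le_pow_of_le_one (by norm_num) (by norm_num) h

theorem re_cn_d_mono {H : ℝ} (hH : 0 < H) {k k' : ℕ} (h : k ≤ k') : rdD H k ≤ rdD H k' := by
  unfold rdD
  exact Real.sqrt_le_sqrt (div_le_div_of_nonneg_left hH.le (rdLen_pos k') (re_cn_len_anti h))

theorem re_cn_q_anti {H : ℝ} (hH : 0 < H) {k k' : ℕ} (h : k ≤ k') : rdQ H k' ≤ rdQ H k := by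
  unfold rdQ
  exact Real.sqrt_le_sqrt (mul_le_mul_of_nonneg_left (re_cn_len_anti h) hH.le)

theorem re_cn_mono {H Λ Λ' T : ℝ} {k : ℕ} {T' : ℝ} {k' : ℕ} {x x' : RtRow} (hH : 0 < H) (h0 : 0 ≤ Λ) (hΛ : Λ ≤ Λ')
    (h : reCn H Λ T k T' k' x x') : reCn H Λ' T k T' k' x x' := by
  obtain ⟨hd, -, -, -, -⟩ := re_cn_dq hH k'
  obtain ⟨-, hq, -, -, -⟩ := re_cn_dq hH k
  obtain ⟨h1, h2, h3⟩ := h
  refine ⟨h1.trans ?_, h2.trans ?_, h3.trans ?_⟩
  · exact pow_le_pow_left₀ (mul_nonneg h0 hd.le) (mul_le_mul_of_nonneg_right hΛ hd.le) 2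
  · exact pow_le_pow_left₀ (mul_nonneg h0 hq.le) (mul_le_mul_of_nonneg_right hΛ hq.le) 2
  · exact mul_le_mul_of_nonneg_right hΛ hH.le

/-- **CHAIN** (post LOCRAR).   With `u = b' - b - tA`, `u' = b'' - b' - t'A'`, `t = T' - T ≤ ℓ_k`, `t' = T'' - T' ≤ ℓ_k'`:
`b'' - b - (t+t')A = u' + u + t'(A' - A)`,   `Y'' = Y + Y' + t'|A' - A|² + 2 (A' - A)·u'`;   `ℓ d_ℓ = q_ℓ`, `ℓ d_ℓ² = d_ℓ q_ℓ = H`, `d_k' ≤ d_k''`, `q_k' ≤ q_k`.
So the three bounds are `(Λ+Λ') d_k''`, `(2Λ+Λ') q_k`, `(Λ+Λ'+Λ²+2ΛΛ') H`. -/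
theorem re_cn_chain {H Λ Λ' T : ℝ} {k : ℕ} {T' : ℝ} {k' : ℕ} {T'' : ℝ} {k'' : ℕ} {x x' x'' : RtRow} (hH : 0 < H) (hΛ : 1 ≤ Λ) (hΛ' : 1 ≤ Λ')
    (c1 : CutLe T k T' k') (c2 : CutLe T' k' T'' k'') (h1 : reCn H Λ T k T' k' x x') (h2 : reCn H Λ' T' k' T'' k'' x' x'') :
    reCn H ((Λ + Λ' + 1) ^ 2) T k T'' k'' x x'' := by
  obtain ⟨hk1, ht0, ht1⟩ := c1
  obtain ⟨hk2, ht0', ht1'⟩ := c2
  obtain ⟨a1, a2, a3⟩ := h1
  obtain ⟨b1, b2, b3⟩ := h2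
  obtain ⟨hd', hq', e3', e4', e5'⟩ := re_cn_dq hH k'
  obtain ⟨hd'', -, -, -, -⟩ := re_cn_dq hH k''
  obtain ⟨-, hq, -, -, -⟩ := re_cn_dq hH k
  have hdd : rdD H k' ≤ rdD H k'' := re_cn_d_mono hH hk2
  have hqq : rdQ H k' ≤ rdQ H k := re_cn_q_anti hH hk1
  have hΛ0 : 0 ≤ Λ := by linarith
  have hΛ0' : 0 ≤ Λ' := by linarith
  obtain ⟨t', ht'⟩ : ∃ y, y = T'' - T' := ⟨_, rfl⟩
  have ht'0 : 0 ≤ t' := by rw [ht']; linarith
  have ht'1 : t' ≤ rdLen k' := by rw [ht']; unfold rdLen; linarith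
  have hbig : Λ + Λ' ≤ (Λ + Λ' + 1) ^ 2 ∧ 2 * Λ + Λ' ≤ (Λ + Λ' + 1) ^ 2 ∧
      Λ + Λ' + Λ ^ 2 + 2 * Λ * Λ' ≤ (Λ + Λ' + 1) ^ 2 := by
    refine ⟨?_, ?_, ?_⟩ <;> nlinarith [mul_nonneg hΛ0 hΛ0', sq_nonneg Λ, sq_nonneg Λ']
  -- the vector `t' (A' - A)`
  have hs : rtSq (t' • (x'.A - x.A)) ≤ (Λ * rdQ H k') ^ 2 := by
    rw [re_cn_smul]
    have h0 : 0 ≤ rtSq (x'.A - x.A) := by unfold rtSq; positivity
    calc t' ^ 2 * rtSq (x'.A - x.A) ≤ rdLen k' ^ 2 * (Λ * rdD H k') ^ 2 :=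
          mul_le_mul (pow_le_pow_left₀ ht'0 ht'1 2) a1 h0 (by positivity)
      _ = (Λ * (rdLen k' * rdD H k')) ^ 2 := by ring
      _ = (Λ * rdQ H k') ^ 2 := by rw [e3']
  refine ⟨?_, ?_, ?_⟩
  · have e : x''.A - x.A = (x'.A - x.A) + (x''.A - x'.A) := by abel
    rw [e]
    refine (re_cn_add (mul_nonneg hΛ0 hd'.le) (mul_nonneg hΛ0' hd''.le) a1 b1).trans ?_
    refine pow_le_pow_left₀ (by positivity) ?_ 2
    calc Λ * rdD H k' + Λ' * rdD H k'' ≤ Λ * rdD H k'' + Λ' * rdD H k'' := by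
          have := mul_le_mul_of_nonneg_left hdd hΛ0
          linarith
      _ = (Λ + Λ') * rdD H k'' := by ring
      _ ≤ (Λ + Λ' + 1) ^ 2 * rdD H k'' := mul_le_mul_of_nonneg_right hbig.1 hd''.le
  · have e : x''.b - (x.flow (T'' - T)).b
        = ((x''.b - (x'.flow (T'' - T')).b) + (x'.b - (x.flow (T' - T)).b)) + t' • (x'.A - x.A) := by
      rw [ht']
      ext <;> simp only [RtRow.flow, Prod.fst_sub, Prod.fst_add, Prod.smul_fst, Prod.snd_sub, Prod.snd_add,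
        Prod.smul_snd, smul_eq_mul] <;> ring
    rw [e]
    refine (re_cn_add (by positivity) (mul_nonneg hΛ0 hq'.le)
      (re_cn_add (mul_nonneg hΛ0' hq'.le) (mul_nonneg hΛ0 hq.le) b2 a2) hs).trans ?_
    refine pow_le_pow_left₀ (by positivity) ?_ 2
    calc Λ' * rdQ H k' + Λ * rdQ H k + Λ * rdQ H k' ≤ Λ' * rdQ H k + Λ * rdQ H k + Λ * rdQ H k := by
          have := mul_le_mul_of_nonneg_left hqq hΛ0
          have := mul_le_mul_of_nonneg_left hqq hΛ0'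
          linarith
      _ = (2 * Λ + Λ') * rdQ H k := by ring
      _ ≤ (Λ + Λ' + 1) ^ 2 * rdQ H k := mul_le_mul_of_nonneg_right hbig.2.1 hq.le
  · have e : x''.y - (x.flow (T'' - T)).y - 2 * rtIp x.A (x''.b - (x.flow (T'' - T)).b)
        = (x'.y - (x.flow (T' - T)).y - 2 * rtIp x.A (x'.b - (x.flow (T' - T)).b))
          + (x''.y - (x'.flow (T'' - T')).y - 2 * rtIp x'.A (x''.b - (x'.flow (T'' - T')).b))
          + t' * rtSq (x'.A - x.A) + 2 * rtIp (x'.A - x.A) (x''.b - (x'.flow (T'' - T')).b) := by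
      rw [ht']
      simp only [RtRow.flow, rtIp, rtSq, Prod.fst_sub, Prod.fst_add, Prod.smul_fst, Prod.snd_sub, Prod.snd_add,
        Prod.smul_snd, smul_eq_mul]
      ring
    rw [e]
    have h0 : 0 ≤ rtSq (x'.A - x.A) := by unfold rtSq; positivity
    have c1 : t' * rtSq (x'.A - x.A) ≤ Λ ^ 2 * H := by
      calc t' * rtSq (x'.A - x.A) ≤ rdLen k' * (Λ * rdD H k') ^ 2 := mul_le_mul ht'1 a1 h0 (rdLen_pos k').le
        _ = Λ ^ 2 * (rdLen k' * rdD H k' ^ 2) := by ring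
        _ = Λ ^ 2 * H := by rw [e5']
    have c0 : 0 ≤ t' * rtSq (x'.A - x.A) := mul_nonneg ht'0 h0
    have c2 : |rtIp (x'.A - x.A) (x''.b - (x'.flow (T'' - T')).b)| ≤ Λ * Λ' * H := by
      refine (re_cn_ip (mul_nonneg hΛ0 hd'.le) (mul_nonneg hΛ0' hq'.le) a1 b2).trans (le_of_eq ?_)
      calc Λ * rdD H k' * (Λ' * rdQ H k') = Λ * Λ' * (rdD H k' * rdQ H k') := by ring
        _ = Λ * Λ' * H := by rw [e4']
    have c3 : (Λ + Λ' + Λ ^ 2 + 2 * Λ * Λ') * H ≤ (Λ + Λ' + 1) ^ 2 * H := mul_le_mul_of_nonneg_right hbig.2.2 hH.le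
    have d1 := abs_le.1 a3
    have d2 := abs_le.1 b3
    have d3 := abs_le.1 c2
    have c4 : (Λ + Λ' + Λ ^ 2 + 2 * Λ * Λ') * H = Λ * H + Λ' * H + Λ ^ 2 * H + 2 * (Λ * Λ' * H) := by ring
    rw [abs_le]
    constructor <;> linarith [d1.1, d1.2, d2.1, d2.2, d3.1, d3.2]

/-! ## LOCS -/

theorem re_locs_sqrt {m A Cl d d' nF : ℝ} (h : m ≤ (A * 2 ^ (Cl * d)) ^ 2 * nF ^ 2) (hd : 0 ≤ d) (hdd : d ≤ d') (hF : 0 ≤ nF) :
    Real.sqrt m ≤ |A| * 2 ^ (max Cl 0 * d') * nF := by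
  have e : (A * 2 ^ (Cl * d)) ^ 2 * nF ^ 2 = (A * 2 ^ (Cl * d) * nF) ^ 2 := by ring
  rw [e] at h
  refine (Real.sqrt_le_sqrt h).trans ?_
  rw [Real.sqrt_sq_eq_abs, abs_mul, abs_mul, abs_of_nonneg hF, abs_of_pos (gn_two_pos _)]
  refine mul_le_mul_of_nonneg_right (mul_le_mul_of_nonneg_left (gn_two_mono ?_) (abs_nonneg _)) hF
  calc Cl * d ≤ max Cl 0 * d := mul_le_mul_of_nonneg_right (le_max_left _ _) hd
    _ ≤ max Cl 0 * d' := mul_le_mul_of_nonneg_left hdd (le_max_right _ _)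

/-- a row function is the sum of its restrictions to a set and to the complement -/
theorem re_locs_split {P : PkSys} (k : ℕ) {U : Set P.X} (hU : MeasurableSet U) (G : Lp P.Fb 2 (P.rho k)) :
    G = P.mulR k (U.indicator fun _ => 1) G + P.mulR k (Uᶜ.indicator fun _ => 1) G := by
  have h := gn_mulR_sum k (Finset.univ : Finset Bool) (fun j => if j then U.indicator (fun _ => (1 : ℝ)) else Uᶜ.indicator fun _ => (1 : ℝ))
    (fun j _ => by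
      cases j
      · exact gn_mask_ind hU.compl
      · exact gn_mask_ind hU) (M := fun _ => 1) ⟨measurable_const, fun _ => ⟨zero_le_one, le_refl _⟩⟩
    (fun x => by
      rw [Fintype.sum_bool]
      by_cases hx : x ∈ U <;> simp [hx]) G
  rw [gn_mulR_one, Fintype.sum_bool] at h
  exact h.symm

/-- **operator part of LOCS**, abstract packet system -/
theorem re_locs_abs {P : PkSys} (hT : P.Tight) (bm : ℕ) (A Cl : ℝ)
    (cnL : ℝ → ℕ → ℝ → ℕ → P.X → P.X → Prop) (cnY : ℕ → ℝ → ℕ → ℝ → ℕ → P.X → P.X → Prop)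
    (ker : ∀ (T : ℝ) (k : ℕ) (T' : ℝ) (k' b b' : ℕ), CutLe T k T' k' → b ≤ bm → b' ≤ bm → ∀ S S' : Set P.X, MeasurableSet S → MeasurableSet S' →
      (∀ x ∈ S, ∀ x' ∈ S', ¬ cnL T k T' k' x x') → ∀ F : Lp P.Fb 2 (P.rho k),
      P.ms T' k' b' S' (ContinuousLinearMap.adjoint (P.An T k b) (P.mulR k (S.indicator fun _ => 1) F)) ≤ (A * 2 ^ (Cl * ((k' : ℝ) - k))) ^ 2 * ‖F‖ ^ 2)
    (base : ∀ j T k T' k' x x', cnL T k T' k' x x' → cnY j T k T' k' x x')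
    (nb : ∀ (j : ℕ) (T : ℝ) (k : ℕ) (Ts : ℝ) (ks : ℕ) (T' : ℝ) (k' : ℕ) (S : Set P.X), CutLe T k Ts ks → CutLe Ts ks T' k' →
      ∃ U : Set P.X, MeasurableSet U ∧ (∀ x ∈ S, ∀ y, cnL T k Ts ks x y → y ∈ U) ∧
        ∀ y ∈ U, ∀ x', cnY j Ts ks T' k' y x' → ∃ x ∈ S, cnY (j + 1) T k T' k' x x')
    (k' I' b' : ℕ) (hb' : b' ≤ bm) (S' : Set P.X) (hS' : MeasurableSet S') (st : List (Stg P)) :
    ∀ (K k b : ℕ), k ≤ k' → StOk k k' bm K st → b ≤ bm → ∀ S : Set P.X, MeasurableSet S →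
      (∀ x ∈ S, ∀ x' ∈ S', ¬ cnY K (tmL k (ancI k' k I')) k (tmL k' I') k' x x') →
      ∀ F : Lp P.Fb 2 (P.rho k),
        Real.sqrt (P.ms (tmL k' I') k' b' S' (Xp.run k' I' st
          (ContinuousLinearMap.adjoint (P.An (tmL k (ancI k' k I')) k b) (P.mulR k (S.indicator fun _ => 1) F))))
          ≤ ((st.length : ℝ) + 1) * (|A| * 2 ^ (max Cl 0 * ((k' : ℝ) - k))) * ‖F‖ := by
  induction st with
  | nil =>
    intro K k b hk _ hb S hS hno F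
    have h1 := ker _ k _ k' b b' (gn_cutle_anc hk I') hb hb' S S' hS hS' (fun x hx x' hx' hc => hno x hx x' hx' (base K _ _ _ _ _ _ hc)) F
    have hd : (0 : ℝ) ≤ (k' : ℝ) - k := by
      have : (k : ℝ) ≤ k' := by exact_mod_cast hk
      linarith
    have h2 := re_locs_sqrt h1 hd le_rfl (norm_nonneg F)
    simp only [List.length_nil, Nat.cast_zero, zero_add, one_mul]
    exact h2
  | cons σ l ih =>
    intro K k b hk hst hb S hS hno F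
    obtain ⟨K', rfl⟩ : ∃ K', K = K' + 1 := by
      have := hst.len
      rw [List.length_cons] at this
      exact ⟨K - 1, by omega⟩
    obtain ⟨hσ1, hσ2⟩ := hst.dep σ List.mem_cons_self
    have hpw := List.pairwise_cons.1 hst.mono
    have hl : StOk σ.k k' bm K' l :=
      { len := by
          have := hst.len
          rw [List.length_cons] at this
          omega
        dep := fun σ' h => ⟨hpw.1 σ' h, (hst.dep σ' (List.mem_cons_of_mem _ h)).2⟩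
        mono := hpw.2
        gen := fun σ' h => hst.gen σ' (List.mem_cons_of_mem _ h)
        msk := fun σ' h => hst.msk σ' (List.mem_cons_of_mem _ h) }
    have hlM : StM l := fun σ' h => hl.msk σ' h
    have hσb : σ.b ≤ bm := hst.gen σ List.mem_cons_self
    have hM : IsMask (σ.M (ancI k' σ.k I')) := hst.msk σ List.mem_cons_self _
    have c1 : CutLe (tmL k (ancI k' k I')) k (tmL σ.k (ancI k' σ.k I')) σ.k := by
      have := gn_cutle_anc hσ1 (ancI k' σ.k I')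
      rwa [gn_anc_anc hσ1 hσ2] at this
    have c2 : CutLe (tmL σ.k (ancI k' σ.k I')) σ.k (tmL k' I') k' := gn_cutle_anc hσ2 I'
    obtain ⟨U, hU, hU1, hU2⟩ := nb K' _ k _ σ.k _ k' S c1 c2
    obtain ⟨v, hv⟩ : ∃ v : P.Kc, v = ContinuousLinearMap.adjoint (P.An (tmL k (ancI k' k I')) k b) (P.mulR k (S.indicator fun _ => 1) F) := ⟨_, rfl⟩
    obtain ⟨G, hG⟩ : ∃ G : Lp P.Fb 2 (P.rho σ.k), G = P.mulR σ.k (σ.M (ancI k' σ.k I')) (P.An (tmL σ.k (ancI k' σ.k I')) σ.k σ.b v) := ⟨_, rfl⟩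
    have hvF : ‖v‖ ≤ ‖F‖ := by
      rw [hv]
      exact (gn_adj_norm_le hT _ _ _ _).trans (gn_mulR_norm_le k (gn_mask_ind hS) F)
    have hGF : ‖G‖ ≤ ‖F‖ := by
      rw [hG]
      exact (gn_mulR_norm_le _ hM _).trans ((hT.contr _ _ _ v).trans hvF)
    have erun : Xp.run k' I' (σ :: l) v
        = Xp.run k' I' l (ContinuousLinearMap.adjoint (P.An (tmL σ.k (ancI k' σ.k I')) σ.k σ.b) (P.mulR σ.k (U.indicator fun _ => 1) G))
          + Xp.run k' I' l (ContinuousLinearMap.adjoint (P.An (tmL σ.k (ancI k' σ.k I')) σ.k σ.b) (P.mulR σ.k (Uᶜ.indicator fun _ => 1) G)) := by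
      rw [← gn_run_add k' I' l hlM, ← map_add, ← re_locs_split σ.k hU G, hG]
      rfl
    rw [← hv, erun]
    have hk1 : (k : ℝ) ≤ σ.k := by exact_mod_cast hσ1
    have hk2 : (σ.k : ℝ) ≤ k' := by exact_mod_cast hσ2
    -- the far part
    have t2 : Real.sqrt (P.ms (tmL k' I') k' b' S' (Xp.run k' I' l (ContinuousLinearMap.adjoint (P.An (tmL σ.k (ancI k' σ.k I')) σ.k σ.b)
        (P.mulR σ.k (Uᶜ.indicator fun _ => 1) G)))) ≤ |A| * 2 ^ (max Cl 0 * ((k' : ℝ) - k)) * ‖F‖ := by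
      have a1 : P.ms (tmL k' I') k' b' S' (Xp.run k' I' l (ContinuousLinearMap.adjoint (P.An (tmL σ.k (ancI k' σ.k I')) σ.k σ.b)
          (P.mulR σ.k (Uᶜ.indicator fun _ => 1) G))) ≤ ‖P.mulR σ.k (Uᶜ.indicator fun _ => 1) G‖ ^ 2 := by
        refine (gn_ms_le hT _ _ _ hS' _).trans (pow_le_pow_left₀ (norm_nonneg _) ?_ 2)
        exact (gn_run_norm_le hT k' I' l hlM _).trans (gn_adj_norm_le hT _ _ _ _)
      have a2 : ‖P.mulR σ.k (Uᶜ.indicator fun _ => 1) G‖ ^ 2 ≤ P.ms (tmL σ.k (ancI k' σ.k I')) σ.k σ.b Uᶜ v := by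
        rw [gn_mulR_ind_normsq σ.k hU.compl, gn_ms_eq _ _ _ hU.compl, hG]
        exact gn_mulR_setInt_le σ.k hM hU.compl _
      have a3 := ker _ k _ σ.k b σ.b c1 hb hσb S Uᶜ hS hU.compl (fun x hx y hy hc => hy (hU1 x hx y hc)) F
      rw [← hv] at a3
      exact re_locs_sqrt (a1.trans (a2.trans a3)) (by linarith) (by linarith) (norm_nonneg F)
    -- the near part
    have t1 : Real.sqrt (P.ms (tmL k' I') k' b' S' (Xp.run k' I' l (ContinuousLinearMap.adjoint (P.An (tmL σ.k (ancI k' σ.k I')) σ.k σ.b)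
        (P.mulR σ.k (U.indicator fun _ => 1) G)))) ≤ ((l.length : ℝ) + 1) * (|A| * 2 ^ (max Cl 0 * ((k' : ℝ) - k))) * ‖F‖ := by
      have a1 := ih K' σ.k σ.b hσ2 hl hσb U hU (fun y hy x' hx' hc => by
        obtain ⟨x, hx, hc'⟩ := hU2 y hy x' hc
        exact hno x hx x' hx' hc') G
      refine a1.trans ?_
      have p1 : (0 : ℝ) ≤ (l.length : ℝ) + 1 := by positivity
      have p2 : (2 : ℝ) ^ (max Cl 0 * ((k' : ℝ) - σ.k)) ≤ 2 ^ (max Cl 0 * ((k' : ℝ) - k)) :=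
        gn_two_mono (mul_le_mul_of_nonneg_left (by linarith) (le_max_right _ _))
      have p3 := gn_two_pos (max Cl 0 * ((k' : ℝ) - k))
      exact mul_le_mul (mul_le_mul_of_nonneg_left (mul_le_mul_of_nonneg_left p2 (abs_nonneg _)) p1) hGF (norm_nonneg _)
        (mul_nonneg p1 (mul_nonneg (abs_nonneg _) p3.le))
    have tri := gn_en_tri (tmL k' I') k' b' (gn_mask_ind hS')
      (Xp.run k' I' l (ContinuousLinearMap.adjoint (P.An (tmL σ.k (ancI k' σ.k I')) σ.k σ.b) (P.mulR σ.k (U.indicator fun _ => 1) G)))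
      (Xp.run k' I' l (ContinuousLinearMap.adjoint (P.An (tmL σ.k (ancI k' σ.k I')) σ.k σ.b) (P.mulR σ.k (Uᶜ.indicator fun _ => 1) G)))
    refine le_trans tri ?_
    have t1' := t1
    have t2' := t2
    unfold PkSys.ms at t1' t2'
    rw [List.length_cons]
    push_cast
    calc _ ≤ ((l.length : ℝ) + 1) * (|A| * 2 ^ (max Cl 0 * ((k' : ℝ) - k))) * ‖F‖ + |A| * 2 ^ (max Cl 0 * ((k' : ℝ) - k)) * ‖F‖ := add_le_add t1' t2'
      _ = ((l.length : ℝ) + 1 + 1) * (|A| * 2 ^ (max Cl 0 * ((k' : ℝ) - k))) * ‖F‖ := by ring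

/-- the strict successors of one row form an open set -/
theorem re_locs_open (H Λ T : ℝ) (k : ℕ) (T' : ℝ) (k' : ℕ) (x : RtRow) :
    IsOpen {y : RdWvPar.Ph | rtSq (y.1 - x.A) < (Λ * rdD H k') ^ 2 ∧ rtSq (y.2.1 - (x.flow (T' - T)).b) < (Λ * rdQ H k) ^ 2 ∧
      |y.2.2 - (x.flow (T' - T)).y - 2 * rtIp x.A (y.2.1 - (x.flow (T' - T)).b)| < Λ * H} := by
  have h1 : IsOpen {y : RdWvPar.Ph | rtSq (y.1 - x.A) < (Λ * rdD H k') ^ 2} := by
    refine isOpen_lt ?_ continuous_const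
    unfold rtSq
    fun_prop
  have h2 : IsOpen {y : RdWvPar.Ph | rtSq (y.2.1 - (x.flow (T' - T)).b) < (Λ * rdQ H k) ^ 2} := by
    refine isOpen_lt ?_ continuous_const
    unfold rtSq
    fun_prop
  have h3 : IsOpen {y : RdWvPar.Ph | |y.2.2 - (x.flow (T' - T)).y - 2 * rtIp x.A (y.2.1 - (x.flow (T' - T)).b)| < Λ * H} := by
    refine isOpen_lt ?_ continuous_const
    unfold rtIp
    fun_prop
  exact h1.inter (h2.inter h3)

theorem re_locs_num {Λ : ℝ} (hΛ : 1 ≤ Λ) (j : ℕ) :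
    1 ≤ (9 * Λ) ^ (3 ^ (j + 1)) ∧ Λ ≤ (9 * Λ) ^ (3 ^ (j + 1)) ∧
      (2 * Λ + (9 * Λ) ^ (3 ^ (j + 1)) + 1) ^ 2 ≤ (9 * Λ) ^ (3 ^ (j + 1 + 1)) := by
  have h9 : (1 : ℝ) ≤ 9 * Λ := by linarith
  have hY : 9 * Λ ≤ (9 * Λ) ^ (3 ^ (j + 1)) := by
    calc 9 * Λ = (9 * Λ) ^ 1 := (pow_one _).symm
      _ ≤ (9 * Λ) ^ (3 ^ (j + 1)) := pow_le_pow_right₀ h9 (Nat.one_le_pow _ _ (by norm_num))
  have e : (9 * Λ) ^ (3 ^ (j + 1 + 1)) = ((9 * Λ) ^ (3 ^ (j + 1))) ^ 3 := by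
    rw [← pow_mul, pow_succ 3 (j + 1)]
  rw [e]
  obtain ⟨Y, hYd⟩ : ∃ Y : ℝ, Y = (9 * Λ) ^ (3 ^ (j + 1)) := ⟨_, rfl⟩
  rw [← hYd] at hY ⊢
  refine ⟨by linarith, by linarith, ?_⟩
  have a1 : 2 * Λ + Y + 1 ≤ 4 / 3 * Y := by linarith
  have a2 : (2 * Λ + Y + 1) ^ 2 ≤ (4 / 3 * Y) ^ 2 := pow_le_pow_left₀ (by linarith) a1 2
  have a3 : (9 : ℝ) ≤ Y := by linarith
  have a4 : (4 / 3 * Y) ^ 2 ≤ Y ^ 3 := by
    have : 0 ≤ Y ^ 2 * (Y - 16 / 9) := mul_nonneg (sq_nonneg _) (by linarith)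
    nlinarith
  exact a2.trans a4

/-- **geometric part of LOCS**: the open neighbourhood of the successors -/
theorem re_locs_nb {H Λ : ℝ} (hH : 0 < H) (hΛ : 1 ≤ Λ) (j : ℕ) (T : ℝ) (k : ℕ) (Ts : ℝ) (ks : ℕ) (T' : ℝ) (k' : ℕ) (S : Set RdWvPar.Ph)
    (c1 : CutLe T k Ts ks) (c2 : CutLe Ts ks T' k') :
    ∃ U : Set RdWvPar.Ph, MeasurableSet U ∧ (∀ x ∈ S, ∀ y, reCn H Λ T k Ts ks (RdWvPar.co T x) (RdWvPar.co Ts y) → y ∈ U) ∧
      ∀ y ∈ U, ∀ x', reCn H ((9 * Λ) ^ (3 ^ (j + 1))) Ts ks T' k' (RdWvPar.co Ts y) (RdWvPar.co T' x') →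
        ∃ x ∈ S, reCn H ((9 * Λ) ^ (3 ^ (j + 1 + 1))) T k T' k' (RdWvPar.co T x) (RdWvPar.co T' x') := by
  obtain ⟨hd, -, -, -, -⟩ := re_cn_dq hH ks
  obtain ⟨-, hq, -, -, -⟩ := re_cn_dq hH k
  obtain ⟨n1, n2, n3⟩ := re_locs_num hΛ j
  have hΛ0 : 0 < Λ := by linarith
  refine ⟨⋃ x ∈ S, {y : RdWvPar.Ph | rtSq (y.1 - (RdWvPar.co T x).A) < (2 * Λ * rdD H ks) ^ 2 ∧
      rtSq (y.2.1 - ((RdWvPar.co T x).flow (Ts - T)).b) < (2 * Λ * rdQ H k) ^ 2 ∧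
      |y.2.2 - ((RdWvPar.co T x).flow (Ts - T)).y - 2 * rtIp (RdWvPar.co T x).A (y.2.1 - ((RdWvPar.co T x).flow (Ts - T)).b)| < 2 * Λ * H},
    (isOpen_biUnion fun x _ => re_locs_open H (2 * Λ) T k Ts ks (RdWvPar.co T x)).measurableSet, ?_, ?_⟩
  · intro x hx y hc
    obtain ⟨a1, a2, a3⟩ := hc
    refine Set.mem_biUnion hx ⟨lt_of_le_of_lt a1 ?_, lt_of_le_of_lt a2 ?_, lt_of_le_of_lt a3 ?_⟩
    · exact pow_lt_pow_left₀ (by nlinarith [mul_pos hΛ0 hd]) (mul_pos hΛ0 hd).le two_ne_zero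
    · exact pow_lt_pow_left₀ (by nlinarith [mul_pos hΛ0 hq]) (mul_pos hΛ0 hq).le two_ne_zero
    · nlinarith [mul_pos hΛ0 hH]
  · intro y hy x' hc
    obtain ⟨x, hx, b1, b2, b3⟩ := Set.mem_iUnion₂.1 hy
    have h1 : reCn H (2 * Λ) T k Ts ks (RdWvPar.co T x) (RdWvPar.co Ts y) := ⟨b1.le, b2.le, b3.le⟩
    exact ⟨x, hx, re_cn_mono hH (by positivity) n3 (re_cn_chain hH (by linarith) n1 c1 c2 h1 hc)⟩

/-- **LOCS** (post LOCRAR): rows `S` of the cut `(T_I, k)`, synthesis, a stack of at most `K` stages along the branch of the interval `I'` of depth `k'`, analysis on the rows `S'`: negligible if `S`, `S'` are not connected at `(9Λ)^(3^(K+1))`.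
`c1` does not depend on the order `N`.
PLAN (400 l.): induction on the stack, `S`, `k`, `F` general.
`[]` : `L.ker` (`L` of `hE.loc`, `cn ↔ reCn`; `re_cn_mono`, `Λ ≤ (9Λ)^3`), `gn_cutle_anc`.
`σ :: l` : `T_σ = tmL σ.k (ancI k' σ.k I')`, `v = An^* 1_S F`, `G = σ.M · An_σ v`, `‖G‖ ≤ ‖F‖`.   `U := ⋃_{x ∈ S} {x' | the three STRICT inequalities of reCn at 2Λ}` is OPEN, hence measurable, contains all `Λ`-successors of `S`, and every point of `U` is a `2Λ`-successor.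
   `tz_σ v = An_σ^* (1_U G) + An_σ^* (1_{Uᶜ} G)`  (`gn_mulR_sum`, `gn_mulR_mulR`);   `‖1_{Uᶜ} G‖² ≤ ms Uᶜ v ≤` the bound of `L.ker`; the rest of the stack and the last analysis are contractions (`gn_run_norm_le`, `gn_ms_le`);
   `An_σ^* (1_U G)`: induction hypothesis for `(U, σ.k, l)` with `K - 1`; if `x_σ ∈ U`, `x' ∈ S'` were connected at `Y = (9Λ)^(3^K)` then `x ∈ S`, `x'` are connected at `(2Λ + Y + 1)² ≤ Y³` (`re_cn_chain`).
   `√ms` is subadditive (`gn_ms_tri_sum`, `gn_run_add`): the constants add up, `CN = (K+1) L.CN bm N`, `c1 = max L.Cl 0`. -/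
theorem re_locs (η : ℝ) (hη0 : 0 < η) (hη1 : η < 1) (hE : ReEntry η) (K bm : ℕ) :
    ∃ c1 : ℝ, ∀ N : ℕ, ∃ CN : ℝ, ∀ (p : RdWvPar) (Λ : ℝ), 1 ≤ Λ → ∀ (k k' I' b b' : ℕ) (st : List (Stg (p.sys η))), k ≤ k' →
      StOk k k' bm K st → b ≤ bm → b' ≤ bm → ∀ (S S' : Set RdWvPar.Ph), MeasurableSet S → MeasurableSet S' →
      (∀ x ∈ S, ∀ x' ∈ S', ¬ reCn p.H ((9 * Λ) ^ (3 ^ (K + 1))) (tmL k (ancI k' k I')) k (tmL k' I') k'
        (RdWvPar.co (tmL k (ancI k' k I')) x) (RdWvPar.co (tmL k' I') x')) →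
      ∀ F : Lp (p.sys η).Fb 2 ((p.sys η).rho k),
        (p.sys η).ms (tmL k' I') k' b' S' (Xp.run k' I' st
          (ContinuousLinearMap.adjoint ((p.sys η).An (tmL k (ancI k' k I')) k b) ((p.sys η).mulR k (S.indicator fun _ => 1) F)))
          ≤ (CN * Λ ^ (-(N : ℝ)) * 2 ^ (c1 * ((k' : ℝ) - k))) ^ 2 * ‖F‖ ^ 2 := by
  obtain ⟨L, hcn⟩ := hE.loc
  refine ⟨max L.Cl 0, fun N => ⟨((K : ℝ) + 1) * |L.CN bm N|, ?_⟩⟩
  intro p Λ hΛ k k' I' b b' st hk hst hb hb' S S' hS hS' hno F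
  have hT : (p.sys η).Tight := hE.gen.tight p p.ok
  have hΛ0 : 0 < Λ := by linarith
  have hmain := re_locs_abs (P := p.sys η) hT bm (L.CN bm N * Λ ^ (-(N : ℝ))) L.Cl
    (fun T k T' k' x x' => reCn p.H Λ T k T' k' (RdWvPar.co T x) (RdWvPar.co T' x'))
    (fun j T k T' k' x x' => reCn p.H ((9 * Λ) ^ (3 ^ (j + 1))) T k T' k' (RdWvPar.co T x) (RdWvPar.co T' x'))
    (fun T k T' k' b b' hc hb hb' S S' hS hS' hno F =>
      L.ker p p.ok bm N Λ hΛ T k T' k' b b' hc hb hb' S S' hS hS' (fun x hx x' hx' h => hno x hx x' hx' ((hcn p Λ T k T' k' x x').1 h)) F)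
    (fun j T k T' k' x x' h => re_cn_mono p.H_pos hΛ0.le (re_locs_num hΛ j).2.1 h)
    (fun j T k Ts ks T' k' S c1 c2 => re_locs_nb p.H_pos hΛ j T k Ts ks T' k' S c1 c2)
    k' I' b' hb' S' hS' st K k b hk hst hb S hS hno F
  have hp : 0 < Λ ^ (-(N : ℝ)) := Real.rpow_pos_of_pos hΛ0 _
  have h2 := gn_two_pos (max L.Cl 0 * ((k' : ℝ) - k))
  have hlen : ((st.length : ℝ) + 1) ≤ (K : ℝ) + 1 := by
    have : (st.length : ℝ) ≤ K := by exact_mod_cast hst.len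
    linarith
  have hB : ((st.length : ℝ) + 1) * (|L.CN bm N * Λ ^ (-(N : ℝ))| * 2 ^ (max L.Cl 0 * ((k' : ℝ) - k))) * ‖F‖
      ≤ ((K : ℝ) + 1) * |L.CN bm N| * Λ ^ (-(N : ℝ)) * 2 ^ (max L.Cl 0 * ((k' : ℝ) - k)) * ‖F‖ := by
    rw [abs_mul, abs_of_pos hp]
    have : 0 ≤ |L.CN bm N| * Λ ^ (-(N : ℝ)) * 2 ^ (max L.Cl 0 * ((k' : ℝ) - k)) * ‖F‖ := by positivity
    calc _ = ((st.length : ℝ) + 1) * (|L.CN bm N| * Λ ^ (-(N : ℝ)) * 2 ^ (max L.Cl 0 * ((k' : ℝ) - k)) * ‖F‖) := by ring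
      _ ≤ ((K : ℝ) + 1) * (|L.CN bm N| * Λ ^ (-(N : ℝ)) * 2 ^ (max L.Cl 0 * ((k' : ℝ) - k)) * ‖F‖) := mul_le_mul_of_nonneg_right hlen this
      _ = _ := by ring
  have h3 := (Real.sqrt_le_left (by positivity)).1 (hmain.trans hB)
  refine h3.trans (le_of_eq ?_)
  ring

/-! ## SPEC -/

/-- the closed `√2 d`-neighbourhood -/
def reNb (d : ℝ) (S : Set (ℝ × ℝ)) : Set (ℝ × ℝ) := {A | ∃ A' ∈ S, rtSq (A - A') ≤ 2 * d ^ 2}

theorem re_tools_eqns_cite : True := by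
  have := @reNb.eq_1
  trivial

/-- the packet vanishes when the direction of the momentum is `√2 d` away from the direction of the row -/
theorem re_spec_aux_pk (p : RdWvPar) (T : ℝ) (k b : ℕ) (x : RdWvPar.Ph) (q : RdWvPar.Mo)
    (h : 2 * rdD p.H k ^ 2 ≤ rtSq ((2 * q.2)⁻¹ • q.1 - x.1)) : p.pk T k b x q = 0 := by
  have hd : 0 < rdD p.H k := Real.sqrt_pos.2 (div_pos p.H_pos (rdLen_pos k))
  have h1 : rdPsi ((rdD p.H k)⁻¹ • ((2 * q.2)⁻¹ • q.1 - x.1)) = 0 := by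
    by_contra hne
    have h2 := rd_psi_supp hne
    have h3 : rtSq ((rdD p.H k)⁻¹ • ((2 * q.2)⁻¹ • q.1 - x.1)) = (rdD p.H k ^ 2)⁻¹ * rtSq ((2 * q.2)⁻¹ • q.1 - x.1) := by
      unfold rtSq
      simp only [Prod.smul_fst, Prod.smul_snd, smul_eq_mul]
      rw [mul_pow, mul_pow, inv_pow]
      ring
    rw [h3, inv_mul_lt_iff₀ (by positivity)] at h2
    linarith
  unfold RdWvPar.pk
  rw [h1]
  simp

theorem re_spec_aux_an (p : RdWvPar) (T : ℝ) (k b : ℕ) (S : Set (ℝ × ℝ)) (G : Lp ℂ 2 (volume : Measure RdWvPar.Mo)) (hG : reAngIn S G) :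
    ∀ᵐ x ∂(p.rw k), (p.an T k b G : RdWvPar.Ph → ℂ) x ≠ 0 → x.1 ∈ reNb (rdD p.H k) S := by
  filter_upwards [rt_w1_an_spec p T k b G] with x hx hne
  by_contra hn
  apply hne
  rw [hx]
  unfold RdWvPar.row
  refine integral_eq_zero_of_ae ?_
  filter_upwards [hG] with q hq
  by_cases h0 : (G : RdWvPar.Mo → ℂ) q = 0
  · simp [h0]
  · have h1 := hq h0
    have h2 : 2 * rdD p.H k ^ 2 ≤ rtSq ((2 * q.2)⁻¹ • q.1 - x.1) := by
      by_contra hc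
      apply hn
      refine ⟨_, h1, ?_⟩
      have e : rtSq (x.1 - (2 * q.2)⁻¹ • q.1) = rtSq ((2 * q.2)⁻¹ • q.1 - x.1) := by
        unfold rtSq
        simp only [Prod.fst_sub, Prod.snd_sub]
        ring
      rw [e]
      exact (not_le.1 hc).le
    rw [re_spec_aux_pk p T k b x q h2]
    simp

open scoped InnerProductSpace in
theorem re_spec_aux_syn (p : RdWvPar) (T : ℝ) (k b : ℕ) (S : Set (ℝ × ℝ)) (F : Lp ℂ 2 (p.rw k))
    (hF : ∀ᵐ x ∂(p.rw k), (F : RdWvPar.Ph → ℂ) x ≠ 0 → x.1 ∈ S) :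
    reAngIn (reNb (rdD p.H k) S) (ContinuousLinearMap.adjoint (p.an T k b) F) := by
  obtain ⟨V, hV⟩ : ∃ V : Lp ℂ 2 (volume : Measure RdWvPar.Mo), V = ContinuousLinearMap.adjoint (p.an T k b) F := ⟨_, rfl⟩
  rw [← hV]
  obtain ⟨O, hO⟩ : ∃ O : Set (ℝ × ℝ), O = ⋃ A' ∈ S, {A | rtSq (A - A') < 2 * rdD p.H k ^ 2} := ⟨_, rfl⟩
  have hOo : IsOpen O := by
    rw [hO]
    refine isOpen_biUnion fun A' _ => ?_
    have hc : Continuous fun A : ℝ × ℝ => rtSq (A - A') := by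
      unfold rtSq
      fun_prop
    exact isOpen_lt hc continuous_const
  obtain ⟨B, hB⟩ : ∃ B : Set RdWvPar.Mo, B = {q | (2 * q.2)⁻¹ • q.1 ∈ O}ᶜ := ⟨_, rfl⟩
  have hBm : MeasurableSet B := by
    rw [hB]
    have hm : Measurable fun q : RdWvPar.Mo => (2 * q.2)⁻¹ • q.1 := ((measurable_snd.const_mul (2 : ℝ)).inv).smul measurable_fst
    exact (hm hOo.measurableSet).compl
  obtain ⟨W, hW⟩ : ∃ W : Lp ℂ 2 (volume : Measure RdWvPar.Mo), (W : RdWvPar.Mo → ℂ) =ᵐ[volume] B.indicator (V : RdWvPar.Mo → ℂ) :=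
    ⟨((Lp.memLp V).indicator hBm).toLp _, MemLp.coeFn_toLp _⟩
  have h1 : ⟪F, p.an T k b W⟫_ℂ = 0 := by
    rw [L2.inner_def]
    refine integral_eq_zero_of_ae ?_
    filter_upwards [hF, rt_w1_an_spec p T k b W] with x hx hx2
    by_cases h0 : (F : RdWvPar.Ph → ℂ) x = 0
    · rw [h0]
      simp
    · have hS := hx h0
      have h3 : p.row T k b W x = 0 := by
        unfold RdWvPar.row
        refine integral_eq_zero_of_ae ?_
        filter_upwards [hW] with q hq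
        by_cases hqB : q ∈ B
        · have h2 : 2 * rdD p.H k ^ 2 ≤ rtSq ((2 * q.2)⁻¹ • q.1 - x.1) := by
            by_contra hc
            rw [hB] at hqB
            apply hqB
            show (2 * q.2)⁻¹ • q.1 ∈ O
            rw [hO]
            exact Set.mem_biUnion hS (not_le.1 hc)
          rw [re_spec_aux_pk p T k b x q h2]
          simp
        · rw [hq, Set.indicator_of_notMem hqB]
          simp
      rw [hx2, h3]
      simp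
  have h5 : ⟪V, W⟫_ℂ = 0 := by
    rw [hV, ContinuousLinearMap.adjoint_inner_left, h1]
  have h6 : ⟪W, W⟫_ℂ = ⟪V, W⟫_ℂ := by
    rw [L2.inner_def, L2.inner_def]
    refine integral_congr_ae ?_
    filter_upwards [hW] with q hq
    by_cases hqB : q ∈ B
    · rw [hq, Set.indicator_of_mem hqB]
    · rw [hq, Set.indicator_of_notMem hqB, inner_zero_right, inner_zero_right]
  have h7 : W = 0 := by
    rw [h5] at h6
    exact inner_self_eq_zero.1 h6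
  rw [h7] at hW
  filter_upwards [hW, Lp.coeFn_zero ℂ 2 (volume : Measure RdWvPar.Mo)] with q hq hz hne
  have hqB : q ∉ B := by
    intro hqB
    rw [Set.indicator_of_mem hqB, hz] at hq
    exact hne hq.symm
  have hqO : (2 * q.2)⁻¹ • q.1 ∈ O := by
    rw [hB] at hqB
    exact not_not.1 hqB
  rw [hO] at hqO
  obtain ⟨A', hA', hlt⟩ := Set.mem_iUnion₂.1 hqO
  exact ⟨A', hA', le_of_lt hlt⟩

/-- **SPEC-AN** (post SLB): the analysis of a state with angular spectrum in `S` vanishes at the rows whose direction is not within `√2 d_ℓ` of `S`.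
PLAN (120 l.): `RdWvPar.an`: junk value `0` is trivial; else `An G =ᵐ row T k β G`, `row = ∫ pk x q · G q`; `pk x q ≠ 0 ⟹ rdPsi0 ((ξ/2ρ - A)/d) ≠ 0 ⟹ rtSq (ξ/2ρ - A) < 2 d²` (`Real.smoothTransition.zero_of_nonpos`): the integrand vanishes a.e. -/
theorem re_spec_an (η : ℝ) (p : RdWvPar) (T : ℝ) (k b : ℕ) (S : Set (ℝ × ℝ)) (G : (p.sys η).Kc) (hG : reAngIn S G) :
    ∀ᵐ x ∂((p.sys η).rho k), ((p.sys η).An T k b G : RdWvPar.Ph → ℂ) x ≠ 0 → x.1 ∈ reNb (rdD p.H k) S := by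
  exact re_spec_aux_an p T k b S G hG

/-- **SPEC-SYN** (post SLB): the synthesis of a row function carried by the directions `S` has angular spectrum within `√2 d_ℓ` of `S`.
PLAN (180 l.): `O := ⋃_{A' ∈ S} {A | rtSq (A - A') < 2 d²}` is open, `R := {z | ξ/2ρ ∉ O}` is measurable; `G := 1_R · An^* F`; by `re_spec_an` for the spectrum set `Oᶜ`.. directly: `An G` vanishes a.e. at the rows with `x.1 ∈ S`;
`‖G‖² = ⟪An^* F, G⟫ = ⟪F, An G⟫ = 0`. -/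
theorem re_spec_syn (η : ℝ) (p : RdWvPar) (T : ℝ) (k b : ℕ) (S : Set (ℝ × ℝ)) (F : Lp (p.sys η).Fb 2 ((p.sys η).rho k))
    (hF : ∀ᵐ x ∂((p.sys η).rho k), (F : RdWvPar.Ph → ℂ) x ≠ 0 → x.1 ∈ S) :
    reAngIn (reNb (rdD p.H k) S) (ContinuousLinearMap.adjoint ((p.sys η).An T k b) F) := by
  exact re_spec_aux_syn p T k b S F hF

/-- **SPEC-TZ**: one stage broadens the angular spectrum by `2 √2 d_ℓ` -/
theorem re_spec_tz (η : ℝ) (p : RdWvPar) (T : ℝ) (k b : ℕ) (M : RdWvPar.Ph → ℝ) (hM : IsMask M) (S : Set (ℝ × ℝ)) (G : (p.sys η).Kc)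
    (hG : reAngIn S G) : reAngIn (reNb (rdD p.H k) (reNb (rdD p.H k) S)) ((p.sys η).tz T k b M G) := by
  unfold PkSys.tz
  refine re_spec_syn η p T k b (reNb (rdD p.H k) S) _ ?_
  have h1 := re_spec_an η p T k b S G hG
  unfold PkSys.mulR
  split_ifs with h
  · filter_upwards [h1, h.coeFn_toLp] with x hx hx2 hne
    apply hx
    intro h0
    apply hne
    rw [hx2, h0]
    simp
  · filter_upwards [Lp.coeFn_zero (p.sys η).Fb 2 ((p.sys η).rho k)] with x hx hne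
    exact absurd hx hne

/-- **SPEC-BAND**: a synthesis of generation `b` has its band spectrum in the plateau of generation `b + 1`.
PLAN (100 l.): as `re_spec_syn`; `rdChi b t ≠ 0 ⟹ 2^-(b+5) < t < 2^(b+5)`. -/
theorem re_spec_band (η : ℝ) (p : RdWvPar) (T : ℝ) (k b : ℕ) (F : Lp (p.sys η).Fb 2 ((p.sys η).rho k)) :
    p.Spec (b + 1) (ContinuousLinearMap.adjoint ((p.sys η).An T k b) F) := by
  exact rt_w1_syn_spec p T k b F

/-! ## CARD -/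

/-- (copy of `rt_in_floor_aux`, `Rt/Inst.lean`, which is not imported here) the weight floor of an admissible test -/
theorem re_card_aux_floor (η : ℝ) (h0 : 0 < η) (h1 : η < 1) (C A : ℕ) (p : RdWvPar) (E : Xp (p.sys η)) (hka : 0 < E.ka)
    (h : ∃ φ : RdFrm, RdSet (p.sys η) RdWvPar.co False C A E φ ∧
      E.s ^ (C : ℝ) ≤ p.H / (rdLen E.k0 * φ.r ^ 2) ∧ p.H / (rdLen E.k0 * φ.r ^ 2) ≤ E.s ^ (-(C : ℝ)))
    (k : ℕ) (Q : RdTst) (hk : E.k0 ≤ k) (hok : (Q.toT k).Adm 1 ∧ rdD p.H k ≤ Q.r * Q.f) :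
    E.s ^ ((3 * C : ℕ) : ℝ) * E.e ≤ E.ka * Q.wt η := by
  obtain ⟨φ, hs, hp, -⟩ := h
  obtain ⟨hadm, hd⟩ := hok
  have hH := p.H_pos
  have hr : 0 < φ.r := hs.r_pos
  have hQr : 0 < Q.r := hadm.r_pos
  have hQf : 0 < Q.f := hadm.f_pos
  have hQf1 : Q.f ≤ 1 := hadm.f_le
  have hσ : 0 < E.s ^ C := pow_pos (gn_s_pos E) C
  have e1 : E.s ^ ((3 * C : ℕ) : ℝ) = (E.s ^ C) ^ 3 := by rw [Real.rpow_natCast, mul_comm, pow_mul]
  have e2 : E.s ^ (C : ℝ) = E.s ^ C := Real.rpow_natCast _ _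
  have e3 : E.s ^ (-(C : ℝ)) = (E.s ^ C)⁻¹ := by rw [Real.rpow_neg (gn_s_pos E).le, Real.rpow_natCast]
  have hek := hs.ek_hi
  rw [e3] at hek
  rw [e2] at hp
  set σ := E.s ^ C with hσdef
  have k1 : σ * E.e ≤ E.ka * φ.r ^ 4 := by
    have := mul_le_mul_of_nonneg_left hek hσ.le
    rwa [← mul_assoc, mul_inv_cancel₀ hσ.ne', one_mul] at this
  have hℓ0 := rdLen_pos E.k0
  have hℓ := rdLen_pos k
  have k2 : σ * φ.r ^ 2 ≤ p.H / rdLen E.k0 := by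
    rw [le_div_iff₀ (by positivity)] at hp
    rw [le_div_iff₀ hℓ0]
    nlinarith
  have hℓle : rdLen k ≤ rdLen E.k0 := by
    unfold rdLen
    exact pow_le_pow_of_le_one (by norm_num) (by norm_num) hk
  have k3 : p.H / rdLen E.k0 ≤ p.H / rdLen k := div_le_div_of_nonneg_left hH.le hℓ hℓle
  have k4 : p.H / rdLen k ≤ (Q.r * Q.f) ^ 2 := by
    have : rdD p.H k ^ 2 = p.H / rdLen k := Real.sq_sqrt (div_pos hH hℓ).le
    rw [← this]
    exact pow_le_pow_left₀ (Real.sqrt_nonneg _) hd 2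
  have k5 : σ * φ.r ^ 2 ≤ (Q.r * Q.f) ^ 2 := k2.trans (k3.trans k4)
  have k6 : (σ * φ.r ^ 2) ^ 2 ≤ ((Q.r * Q.f) ^ 2) ^ 2 := pow_le_pow_left₀ (by positivity) k5 2
  have k7 : Q.f ^ 4 ≤ Q.f ^ (1 - η) := by
    have := Real.rpow_le_rpow_of_exponent_ge hQf hQf1 (by push_cast; linarith : 1 - η ≤ ((4 : ℕ) : ℝ))
    rwa [Real.rpow_natCast] at this
  have k8 : σ ^ 2 * φ.r ^ 4 ≤ Q.wt η := by
    unfold RdTst.wt
    calc σ ^ 2 * φ.r ^ 4 = (σ * φ.r ^ 2) ^ 2 := by ring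
      _ ≤ ((Q.r * Q.f) ^ 2) ^ 2 := k6
      _ = Q.r ^ 4 * Q.f ^ 4 := by ring
      _ ≤ Q.r ^ 4 * Q.f ^ (1 - η) := mul_le_mul_of_nonneg_left k7 (by positivity)
  rw [e1]
  calc σ ^ 3 * E.e = σ ^ 2 * (σ * E.e) := by ring
    _ ≤ σ ^ 2 * (E.ka * φ.r ^ 4) := mul_le_mul_of_nonneg_left k1 (by positivity)
    _ = E.ka * (σ ^ 2 * φ.r ^ 4) := by ring
    _ ≤ E.ka * Q.wt η := mul_le_mul_of_nonneg_left k8 hka.le

/-- additivity of the mass over a finite disjoint family -/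
theorem re_card_aux_add {P : PkSys} (T : ℝ) (k b : ℕ) (v : P.Kc) (J : Finset ℕ) (R : ℕ → Set P.X) (hm : ∀ u ∈ J, MeasurableSet (R u))
    (hd : ∀ u ∈ J, ∀ u' ∈ J, u ≠ u' → Disjoint (R u) (R u')) (S : Set P.X) (hS : S = ⋃ u ∈ J, R u) :
    ∑ u ∈ J, P.ms T k b (R u) v = P.ms T k b S v := by
  have hfin := gn_mu_finite (P := P) T k b v
  have hmS : MeasurableSet S := by
    rw [hS]
    exact Finset.measurableSet_biUnion _ hm
  rw [gn_ms_eq_mu _ _ _ hmS, hS, measureReal_biUnion_finset (fun u hu u' hu' hne => hd u hu u' hu' hne) hm]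
  exact Finset.sum_congr rfl fun u hu => gn_ms_eq_mu _ _ _ (hm u hu) _

/-- the masses of the labels add up to at most the raw mass of the selection -/
theorem re_card_aux_sum {η : ℝ} {p : RdWvPar} (X : Xp (p.sys η)) (P : RePs) (k : ℕ) (τ : ℝ) (hP : P.Ok X k τ) :
    ∑ u ∈ Finset.range P.nL, (p.sys η).ms (tmL k (P.lI u)) k P.gb (P.lR u) (X.at' k (P.lI u) X.st) ≤ P.raw X k := by
  unfold RePs.raw
  rw [← Finset.sum_fiberwise_of_maps_to (s := Finset.range P.nL) (t := ivs X.k0 X.i0 k) (g := P.lI)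
    (fun u hu => (hP.lb u (Finset.mem_range.1 hu)).1)]
  refine Finset.sum_le_sum fun I _ => ?_
  have hS : P.S I = ⋃ u ∈ (Finset.range P.nL).filter (fun u => P.lI u = I), P.lR u := by
    ext x
    simp only [RePs.S, Set.mem_ofPred_eq, Set.mem_iUnion, Finset.mem_filter, Finset.mem_range, exists_prop]
    constructor
    · rintro ⟨u, hu, hI, hx⟩
      exact ⟨u, ⟨hu, hI⟩, hx⟩
    · rintro ⟨u, ⟨hu, hI⟩, hx⟩
      exact ⟨u, hu, hI, hx⟩
  have hadd := re_card_aux_add (P := p.sys η) (tmL k I) k P.gb (X.at' k I X.st) ((Finset.range P.nL).filter (fun u => P.lI u = I)) P.lR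
    (fun u hu => (hP.lb u (Finset.mem_range.1 (Finset.mem_filter.1 hu).1)).2.2.1)
    (fun u hu u' hu' hne => hP.disj u (Finset.mem_range.1 (Finset.mem_filter.1 hu).1) u' (Finset.mem_range.1 (Finset.mem_filter.1 hu').1) hne
      ((Finset.mem_filter.1 hu).2.trans (Finset.mem_filter.1 hu').2.symm)) (P.S I) hS
  refine le_of_eq (Eq.trans (Finset.sum_congr rfl fun u hu => ?_) hadd)
  rw [(Finset.mem_filter.1 hu).2]

/-- **CARD** (leaf; used by FLAT and SLB): the labels of a peel selection have polynomial weights and there are polynomially many of them.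
PLAN (120 l.): `adm` of `rndWav` gives a frame `φ` with `e ≤ s^-C κ φ.r⁴` (`RdSet.ek_hi`) and `s^C φ.r² ≤ H/ℓ₀ = d_{k0}²`;   `w = r⁴ f^(1-η) ≥ (r f)⁴ ≥ d_k⁴ ≥ d_{k0}⁴ ≥ s^(2C) φ.r⁴` (`lb`: `ok` contains `d_k ≤ r f`, `f ≤ 1`).
`nL · min (be w) ≤ Σ be w < raw` (`lb`, `disj`; `gn_ms_iUnion`), `be ≥ κ 2^(-(3+τ) n)` (`be_lo`, `gn_p0f_le`), `raw ≤ e 2^((1+τ) n)` (`raw_hi`, `gn_d0f_le`). -/
theorem re_card (η : ℝ) (hη0 : 0 < η) (hη1 : η < 1) (hE : ReEntry η) (hΓ : 0 < (rndWav η).Gam) (C A : ℕ) (p : RdWvPar) (X : Xp (p.sys η))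
    (hX : (rndWav η).Cls C A p X) (P : RePs) (k : ℕ) (τ : ℝ) (hτ0 : 0 ≤ τ) (hτ : τ ≤ 1) (hk0 : X.k0 ≤ k) (hk : k ≤ X.kf) (hP : P.Ok X k τ) :
    (∀ u < P.nL, X.e ≤ 2 ^ ((3 * C : ℝ) * X.n) * (X.ka * (P.lQ u).wt η)) ∧ (P.nL : ℝ) ≤ 2 ^ ((3 * C + 8 : ℝ) * X.n) := by
  have hka : 0 < X.ka := hP.valid.ka_pos
  have he : 0 < X.e := hP.valid.e_pos
  have h1 : ∀ u < P.nL, X.e ≤ 2 ^ ((3 * C : ℝ) * X.n) * (X.ka * (P.lQ u).wt η) := by
    intro u hu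
    have h := re_card_aux_floor η hη0 hη1 C A p X hka hX.2.2.2.2 k (P.lQ u) hk0 (hP.lb u hu).2.1
    rw [gn_s_rpow] at h
    have h2 := mul_le_mul_of_nonneg_left h (Real.rpow_nonneg (by norm_num : (0 : ℝ) ≤ 2) ((3 * C : ℝ) * X.n))
    rw [← mul_assoc, ← Real.rpow_add (by norm_num)] at h2
    have e0 : (3 * C : ℝ) * X.n + -(((3 * C : ℕ) : ℝ) * X.n) = 0 := by push_cast; ring
    rwa [e0, Real.rpow_zero, one_mul] at h2
  refine ⟨h1, ?_⟩
  have hp0 : (rndWav η).p0f ≤ 3 := by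
    have := gn_p0f_le _ 1 hE.gen hΓ
    linarith
  have hd0 : (rndWav η).d0f ≤ 1 := (gn_d0f_le _ 1 hE.gen hΓ).2
  have hn0 : (0 : ℝ) ≤ (X.n : ℝ) := Nat.cast_nonneg _
  have hj0 : (0 : ℝ) ≤ ((k - X.k0 : ℕ) : ℝ) := Nat.cast_nonneg _
  have hjn : ((k - X.k0 : ℕ) : ℝ) ≤ X.n := by
    have : k - X.k0 ≤ X.n := by
      unfold Xp.kf at hk
      omega
    exact_mod_cast this
  have hbe : X.ka * 2 ^ (-(4 * (X.n : ℝ))) ≤ P.be := by
    refine le_trans (mul_le_mul_of_nonneg_left (Real.rpow_le_rpow_of_exponent_le one_le_two ?_) hka.le) hP.be_lo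
    nlinarith [mul_le_mul_of_nonneg_right hp0 hj0, mul_le_mul_of_nonneg_right hτ hn0]
  have hraw : P.raw X k ≤ X.e * 2 ^ (2 * (X.n : ℝ)) := by
    refine hP.raw_hi.trans (mul_le_mul_of_nonneg_left (Real.rpow_le_rpow_of_exponent_le one_le_two ?_) he.le)
    nlinarith [mul_le_mul_of_nonneg_right hd0 hj0, mul_le_mul_of_nonneg_right hτ hn0]
  have hterm : ∀ u ∈ Finset.range P.nL, 2 ^ (-((3 * C + 4 : ℝ) * X.n)) * X.e
      ≤ (p.sys η).ms (tmL k (P.lI u)) k P.gb (P.lR u) (X.at' k (P.lI u) X.st) := by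
    intro u hu
    have hu' := Finset.mem_range.1 hu
    refine le_trans ?_ (hP.lb u hu').2.2.2.2.le
    have hw : 0 ≤ (P.lQ u).wt η := by
      by_contra hneg
      push Not at hneg
      have := h1 u hu'
      have h3 : 2 ^ ((3 * C : ℝ) * X.n) * (X.ka * (P.lQ u).wt η) < 0 :=
        mul_neg_of_pos_of_neg (Real.rpow_pos_of_pos (by norm_num) _) (mul_neg_of_pos_of_neg hka hneg)
      linarith
    have e1 : (2 : ℝ) ^ (-((3 * C + 4 : ℝ) * X.n)) = 2 ^ (-(4 * (X.n : ℝ))) * 2 ^ (-((3 * C : ℝ) * X.n)) := by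
      rw [← Real.rpow_add (by norm_num)]
      congr 1
      ring
    have e2 : (2 : ℝ) ^ (-((3 * C : ℝ) * X.n)) * X.e ≤ X.ka * (P.lQ u).wt η := by
      have := mul_le_mul_of_nonneg_left (h1 u hu') (Real.rpow_nonneg (by norm_num : (0 : ℝ) ≤ 2) (-((3 * C : ℝ) * X.n)))
      rwa [← mul_assoc, ← Real.rpow_add (by norm_num), neg_add_cancel, Real.rpow_zero, one_mul] at this
    calc (2 : ℝ) ^ (-((3 * C + 4 : ℝ) * X.n)) * X.e = 2 ^ (-(4 * (X.n : ℝ))) * (2 ^ (-((3 * C : ℝ) * X.n)) * X.e) := by rw [e1]; ring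
      _ ≤ 2 ^ (-(4 * (X.n : ℝ))) * (X.ka * (P.lQ u).wt η) := mul_le_mul_of_nonneg_left e2 (Real.rpow_nonneg (by norm_num) _)
      _ = (X.ka * 2 ^ (-(4 * (X.n : ℝ)))) * (P.lQ u).wt η := by ring
      _ ≤ P.be * (P.lQ u).wt η := mul_le_mul_of_nonneg_right hbe hw
  have hsum := Finset.sum_le_sum hterm
  rw [Finset.sum_const, Finset.card_range, nsmul_eq_mul] at hsum
  have hall := hsum.trans ((re_card_aux_sum X P k τ hP).trans hraw)
  have hpos : (0 : ℝ) < 2 ^ ((3 * C + 4 : ℝ) * X.n) := Real.rpow_pos_of_pos (by norm_num) _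
  have h5 : (P.nL : ℝ) * X.e ≤ 2 ^ ((3 * C + 6 : ℝ) * X.n) * X.e := by
    have := mul_le_mul_of_nonneg_left hall hpos.le
    have e3 : (2 : ℝ) ^ ((3 * C + 4 : ℝ) * X.n) * ((P.nL : ℝ) * (2 ^ (-((3 * C + 4 : ℝ) * X.n)) * X.e)) = (P.nL : ℝ) * X.e := by
      rw [Real.rpow_neg (by norm_num)]
      field_simp
    have e4 : (2 : ℝ) ^ ((3 * C + 4 : ℝ) * X.n) * (X.e * 2 ^ (2 * (X.n : ℝ))) = 2 ^ ((3 * C + 6 : ℝ) * X.n) * X.e := by
      have : (2 : ℝ) ^ ((3 * C + 6 : ℝ) * X.n) = 2 ^ ((3 * C + 4 : ℝ) * X.n) * 2 ^ (2 * (X.n : ℝ)) := by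
        rw [← Real.rpow_add (by norm_num)]
        congr 1
        ring
      rw [this]
      ring
    rwa [e3, e4] at this
  refine (le_of_mul_le_mul_right h5 he).trans (Real.rpow_le_rpow_of_exponent_le one_le_two ?_)
  nlinarith

end Claimed.Agent.R256
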