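-- KEEP
import Claimed.Agent.R256.Re.Tools

/-!
# Row 256, unit RE, block (I), post PEELSEL, file 1: DEFINITIONS      (architect helper201; chief helper223; prefix `re_pe_`)

* `P.Lv X k`      the STRUCTURAL half of `RePs.Ok`: `P` is (a part of the successes of) ONE peel level of the states `X.at' k I X.st` at the generation `P.gb`, threshold `P.be`
* `rePsOf`        the peel selection of a finite family of labels `(fI a, fQ a, fR a)`, `a : ι`  (enumeration by `Fintype.equivFin`)
* `P.sub G`       the labels of `P` whose test satisfies `G`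
* `reGb X`        the generation of the new stage: (least bound of the generations of `X`) + 1
* `reThin`, `reWide`, `reGood`     the three classes of tests
* `RePrT`, `RePrW`                 the classes of experiments of `ReTE`, `RePL`
-/

set_option autoImplicit false

namespace Claimed.Agent.R256

open MeasureTheory
open scoped BigOperators
open Classical

/-- the structural half of `RePs.Ok` -/
structure RePs.Lv {η : ℝ} {p : RdWvPar} (P : RePs) (X : Xp (p.sys η)) (k : ℕ) : Prop where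
  plat : ∀ I ∈ ivs X.k0 X.i0 k, X.at' k I X.st ∈ (p.sys η).Pl P.gb
  lb : ∀ u < P.nL, P.lI u ∈ ivs X.k0 X.i0 k ∧ (p.sys η).ok (P.lQ u) k ∧ MeasurableSet (P.lR u) ∧
    P.lR u ⊆ (p.sys η).cell (P.lQ u) (tmL k (P.lI u)) k ∧
    P.be * (P.lQ u).wt η < (p.sys η).ms (tmL k (P.lI u)) k P.gb (P.lR u) (X.at' k (P.lI u) X.st)
  disj : ∀ u < P.nL, ∀ u' < P.nL, u ≠ u' → P.lI u = P.lI u' → Disjoint (P.lR u) (P.lR u')
  reg : ∀ I ∈ ivs X.k0 X.i0 k, ∀ Q : RdTst, (p.sys η).ok Q k →
    (p.sys η).ms (tmL k I) k P.gb ((p.sys η).cell Q (tmL k I) k ∩ P.S I) (X.at' k I X.st) ≤ 2 * P.be * Q.wt η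

/-- a junk test -/
def reTst0 : RdTst := ⟨1, 1, 0, 0, 0, rtLin⟩

/-- the peel selection of a finite family of labels -/
noncomputable def rePsOf {ι : Type} [Fintype ι] (gb : ℕ) (be : ℝ) (fI : ι → ℕ) (fQ : ι → RdTst) (fR : ι → Set RdWvPar.Ph) : RePs where
  gb := gb
  be := be
  nL := Fintype.card ι
  lI := fun u => if h : u < Fintype.card ι then fI ((Fintype.equivFin ι).symm ⟨u, h⟩) else 0
  lQ := fun u => if h : u < Fintype.card ι then fQ ((Fintype.equivFin ι).symm ⟨u, h⟩) else reTst0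
  lR := fun u => if h : u < Fintype.card ι then fR ((Fintype.equivFin ι).symm ⟨u, h⟩) else ∅

/-- the labels whose test satisfies `G` -/
noncomputable def RePs.sub (P : RePs) (G : RdTst → Prop) : RePs :=
  rePsOf (ι := {u : Fin P.nL // G (P.lQ u)}) P.gb P.be (fun u => P.lI u.1) (fun u => P.lQ u.1) (fun u => P.lR u.1)

/-- the generation of the new stage -/
noncomputable def reGb {P : PkSys} (X : Xp P) : ℕ := sInf {bm | X.GenLe bm} + 1

/-- thin tests: `f ≤ t` -/
def reThin (t : ℝ) (Q : RdTst) : Prop := Q.f ≤ t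

/-- wide tests: not thin, `r > R` -/
def reWide (t R : ℝ) (Q : RdTst) : Prop := t < Q.f ∧ R < Q.r

/-- good tests -/
def reGood (t R : ℝ) (Q : RdTst) : Prop := t < Q.f ∧ Q.r ≤ R

/-- the three classes -/
def reCls3 (t R : ℝ) (c : Fin 3) (Q : RdTst) : Prop :=
  if c = 0 then reThin t Q else if c = 1 then reWide t R Q else reGood t R Q

/-- the class of experiments of `ReTE` -/
def RePrT (η θ h : ℝ) (p : RdWvPar) (E : Xp (p.sys η)) : Prop := E.GapEnd h ∧ ∀ l, (rwT (E.ts l)).f ≤ E.s ^ θ

/-- the class of experiments of `RePL` -/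
def RePrW (η τ c h : ℝ) (p : RdWvPar) (E : Xp (p.sys η)) : Prop :=
  E.GapEnd h ∧ ∀ l, E.s ^ (-τ) * rdD p.H E.kf ≤ (rwT (E.ts l)).r ∧ E.s ^ c ≤ (rwT (E.ts l)).f

theorem re_pe_eqns_cite : True := by
  have := @reTst0.eq_1
  have := @rePsOf.eq_1
  have := @RePs.sub.eq_1
  have := @reGb.eq_1
  have := @reThin.eq_1
  have := @reWide.eq_1
  have := @reGood.eq_1
  have := @reCls3.eq_1
  have := @RePrT.eq_1
  have := @RePrW.eq_1
  trivial

end Claimed.Agent.R256
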