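-- KEEP
import Claimed.Agent.R256.Re.PeelDefs

/-!
# Row 256, unit RE, block (I), post PEELSEL, file 2: STRUCTURE OF PEEL SELECTIONS, basics (the leaves are in `Re/PeelA1.lean` .. `Re/PeelA4.lean`)      (architect helper201; prefix `re_pe_`)

Paper free, no analysis: finite enumerations, indicators, `Gen/Bas{A,B,C}.lean`, `Gen/Cons.lean`, `Gen/Tri.lean`.      `M = p.sys η`, `ψ_I = X.at' k I X.st`, `σ = reStg η p k P.gb P.S`, `P.ins X k = X.withSt (X.st ++ [σ])`.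
  OF     `re_pe_of_*`      the labels of `rePsOf`
  SUB    `re_pe_sub_*`     the labels of `P.sub G`; `Lv` passes to `P.sub G`; the three classes partition `P.S I`
  LVL    `re_pe_lvlAt`     `P.Lv X k ⟹ (P.ins X k).LvlAt X.st σ [] P.be`
  PRE    `re_pe_pre_valid`, `re_pe_pre_m`, `re_pe_pre_tm`      the prefix experiment read on the successes
  RAW    `re_pe_raw`       `P.raw X k = (P.ins X k).raw X.st σ`
  OFLVL  `re_pe_of_lvl`    a peel level of `gn_dec` is a peel selection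
  CONG   `re_pe_congr`     the readout sees the masks of a stage only on the intervals below the root
  GB     `re_pe_gb_*`      the generation `reGb X`
-/

set_option autoImplicit false

namespace Claimed.Agent.R256

open MeasureTheory
open scoped BigOperators
open Classical

/-! ## OF -/

section Of

variable {ι : Type} [Fintype ι] (gb : ℕ) (be : ℝ) (fI : ι → ℕ) (fQ : ι → RdTst) (fR : ι → Set RdWvPar.Ph)

theorem re_pe_of_lab (u : ℕ) (h : u < (rePsOf gb be fI fQ fR).nL) :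
    (rePsOf gb be fI fQ fR).lI u = fI ((Fintype.equivFin ι).symm ⟨u, h⟩) ∧ (rePsOf gb be fI fQ fR).lQ u = fQ ((Fintype.equivFin ι).symm ⟨u, h⟩) ∧
      (rePsOf gb be fI fQ fR).lR u = fR ((Fintype.equivFin ι).symm ⟨u, h⟩) :=
  ⟨dif_pos h, dif_pos h, dif_pos h⟩

/-- every member of the family is a label -/
theorem re_pe_of_surj (a : ι) : ∃ u, ∃ h : u < (rePsOf gb be fI fQ fR).nL, (Fintype.equivFin ι).symm ⟨u, h⟩ = a :=
  ⟨(Fintype.equivFin ι a).1, (Fintype.equivFin ι a).2, by simp⟩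

theorem re_pe_of_S (I : ℕ) : (rePsOf gb be fI fQ fR).S I = {x | ∃ a, fI a = I ∧ x ∈ fR a} := by
  ext x
  constructor
  · rintro ⟨u, hu, h1, h2⟩
    obtain ⟨e1, -, e3⟩ := re_pe_of_lab gb be fI fQ fR u hu
    exact ⟨_, e1 ▸ h1, e3 ▸ h2⟩
  · rintro ⟨a, h1, h2⟩
    obtain ⟨u, hu, rfl⟩ := re_pe_of_surj gb be fI fQ fR a
    obtain ⟨e1, -, e3⟩ := re_pe_of_lab gb be fI fQ fR u hu
    exact ⟨u, hu, e1.trans h1, e3 ▸ h2⟩

end Of

/-! ## SUB -/

theorem re_pe_sub_gb (P : RePs) (G : RdTst → Prop) : (P.sub G).gb = P.gb ∧ (P.sub G).be = P.be := ⟨rfl, rfl⟩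

/-- every label of `P.sub G` is a label of `P` whose test satisfies `G`; different labels come from different labels -/
theorem re_pe_sub_lab (P : RePs) (G : RdTst → Prop) : ∃ e : ℕ → ℕ, (∀ u < (P.sub G).nL, e u < P.nL ∧ G (P.lQ (e u)) ∧
    (P.sub G).lI u = P.lI (e u) ∧ (P.sub G).lQ u = P.lQ (e u) ∧ (P.sub G).lR u = P.lR (e u)) ∧
    ∀ u < (P.sub G).nL, ∀ u' < (P.sub G).nL, u ≠ u' → e u ≠ e u' := by
  refine ⟨fun u => if h : u < (P.sub G).nL then (((Fintype.equivFin {u : Fin P.nL // G (P.lQ u)}).symm ⟨u, h⟩).1 : ℕ) else 0, ?_, ?_⟩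
  · intro u hu
    obtain ⟨e1, e2, e3⟩ := re_pe_of_lab (ι := {u : Fin P.nL // G (P.lQ u)}) P.gb P.be (fun u => P.lI u.1) (fun u => P.lQ u.1) (fun u => P.lR u.1) u hu
    simp only [dif_pos hu]
    exact ⟨((Fintype.equivFin {u : Fin P.nL // G (P.lQ u)}).symm ⟨u, hu⟩).1.2, ((Fintype.equivFin {u : Fin P.nL // G (P.lQ u)}).symm ⟨u, hu⟩).2, e1, e2, e3⟩
  · intro u hu u' hu' hne heq
    simp only [dif_pos hu, dif_pos hu'] at heq
    have h1 := (Fintype.equivFin {u : Fin P.nL // G (P.lQ u)}).symm.injective (Subtype.ext (Fin.ext heq))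
    exact hne (congrArg Fin.val h1)

theorem re_pe_sub_S (P : RePs) (G : RdTst → Prop) (I : ℕ) : (P.sub G).S I = {x | ∃ u < P.nL, G (P.lQ u) ∧ P.lI u = I ∧ x ∈ P.lR u} := by
  unfold RePs.sub
  rw [re_pe_of_S]
  ext x
  constructor
  · rintro ⟨a, h1, h2⟩
    exact ⟨a.1, a.1.2, a.2, h1, h2⟩
  · rintro ⟨u, hu, hG, h1, h2⟩
    exact ⟨⟨⟨u, hu⟩, hG⟩, h1, h2⟩

variable {η : ℝ} {p : RdWvPar}

/-- the selected rows are measurable -/
theorem re_pe_S_meas (P : RePs) (h : ∀ u < P.nL, MeasurableSet (P.lR u)) (I : ℕ) : MeasurableSet (P.S I) := by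
  have e : P.S I = ⋃ u ∈ (Finset.range P.nL).filter (fun u => P.lI u = I), P.lR u := by
    ext x
    simp only [RePs.S, Set.mem_ofPred_eq, Finset.mem_filter, Finset.mem_range, Set.mem_iUnion, exists_prop]
    constructor
    · rintro ⟨u, h1, h2, h3⟩
      exact ⟨u, ⟨h1, h2⟩, h3⟩
    · rintro ⟨u, ⟨h1, h2⟩, h3⟩
      exact ⟨u, h1, h2, h3⟩
  rw [e]
  refine Finset.measurableSet_biUnion _ fun u hu => h u ?_
  exact Finset.mem_range.1 (Finset.mem_filter.1 hu).1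

/-- no rows are selected outside the intervals below the root -/
theorem re_pe_S_empty (P : RePs) (X : Xp (p.sys η)) (k : ℕ) (h : P.Lv X k) {I : ℕ} (hI : I ∉ ivs X.k0 X.i0 k) : P.S I = ∅ := by
  ext x
  simp only [RePs.S, Set.mem_ofPred_eq, Set.mem_empty_iff_false, iff_false]
  rintro ⟨u, hu, h1, -⟩
  exact hI (h1 ▸ (h.lb u hu).1)

/-- the cut of `X` at the depth `k` behind all stages -/
theorem re_pe_cut (X : Xp (p.sys η)) (k : ℕ) (hst : ∀ σ ∈ X.st, σ.k ≤ k) (h0 : X.k0 ≤ k) (h1 : k ≤ X.kf) : X.CutAt k X.st [] :=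
  ⟨(List.append_nil _).symm, hst, fun _ h => absurd h (List.not_mem_nil), h0, h1⟩

/-- `P.pre X k` is a prefix of `X` in the sense of `Gen/Ops.lean` -/
theorem re_pe_pre_eq (P : RePs) (X : Xp (p.sys η)) (k : ℕ) :
    P.pre X k = X.pre (k - X.k0) X.st P.gb (L' := P.nL) (fun u => P.lI u) (fun u => P.lQ u) (fun u => (P.lR u).indicator fun _ => 1) := rfl

theorem re_pe_gb_le {P : PkSys} (X : Xp P) (bm : ℕ) (h : X.GenLe bm) : reGb X ≤ bm + 1 :=
  Nat.succ_le_succ (Nat.sInf_le h)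


/-! ## INS -/

/-- `P.ins X k` is an inserted row projection in the sense of `Gen/Ins.lean` -/
theorem re_pe_ins_eq (P : RePs) (X : Xp (p.sys η)) (k : ℕ) : P.ins X k = X.ins k P.gb X.st [] (fun I => (P.S I).indicator fun _ => 1) := rfl

theorem re_pe_mask (P : RePs) (h : ∀ u < P.nL, MeasurableSet (P.lR u)) (I : ℕ) : IsMask ((P.S I).indicator fun _ => (1 : ℝ)) :=
  gn_mask_ind (re_pe_S_meas P h I)

theorem re_pe_ins_valid (P : RePs) (X : Xp (p.sys η)) (hX : X.Valid) (k : ℕ) (hst : ∀ σ ∈ X.st, σ.k ≤ k) (h0 : X.k0 ≤ k) (h1 : k ≤ X.kf) (h : P.Lv X k) :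
    (P.ins X k).Valid :=
  gn_ins_valid X hX (re_pe_cut X k hst h0 h1) P.gb (re_pe_mask P fun u hu => (h.lb u hu).2.2.1)

theorem re_pe_ins_cls (hE : ReEntry η) {C A : ℕ} (P : RePs) (X : Xp (p.sys η)) (hX : (rndWav η).Cls C A p X) (k : ℕ) (hst : ∀ σ ∈ X.st, σ.k ≤ k) (h0 : X.k0 ≤ k)
    (h1 : k ≤ X.kf) (h : P.Lv X k) (hb : P.gb ≤ C + 1) : (rndWav η).Cls (C + 1) A p (P.ins X k) :=
  gn_ins_cls (rndWav η) 1 hE.gen hX (re_pe_cut X k hst h0 h1) hb (re_pe_mask P fun u hu => (h.lb u hu).2.2.1)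

/-! ## PIGEON -/

/-- **PIGEON** -/
theorem re_pe_pigeon {ι : Type} (J : Finset ι) (hJ : J.Nonempty) (x : ℝ) (hx : 0 ≤ x) (r : ι → ℝ) (hr : ∀ j, 0 ≤ r j)
    (h : x ^ (1 / 3 : ℝ) ≤ ∑ j ∈ J, r j ^ (1 / 3 : ℝ)) : ∃ j ∈ J, x ≤ (J.card : ℝ) ^ 3 * r j := by
  obtain ⟨j, hj, hmax⟩ := Finset.exists_max_image J r hJ
  refine ⟨j, hj, ?_⟩
  have h1 : ∑ i ∈ J, r i ^ (1 / 3 : ℝ) ≤ J.card * r j ^ (1 / 3 : ℝ) := by
    have := Finset.sum_le_card_nsmul J (fun i => r i ^ (1 / 3 : ℝ)) (r j ^ (1 / 3 : ℝ))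
      (fun i hi => Real.rpow_le_rpow (hr i) (hmax i hi) (by norm_num))
    simpa [nsmul_eq_mul] using this
  have h2 : x ^ (1 / 3 : ℝ) ≤ J.card * r j ^ (1 / 3 : ℝ) := h.trans h1
  have h3 : (x ^ (1 / 3 : ℝ)) ^ 3 ≤ (J.card * r j ^ (1 / 3 : ℝ)) ^ 3 := pow_le_pow_left₀ (Real.rpow_nonneg hx _) h2 3
  have e : ∀ y : ℝ, 0 ≤ y → (y ^ (1 / 3 : ℝ)) ^ 3 = y := by
    intro y hy
    rw [← Real.rpow_natCast, ← Real.rpow_mul hy]
    norm_num
  rw [e x hx, mul_pow, e _ (hr j)] at h3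
  exact h3

/-- `val` of an experiment with another stack -/
theorem re_pe_val_withSt {P : PkSys} (X : Xp P) (st' : List (Stg P)) :
    (X.withSt st').val = 2 ^ ((X.n : ℝ) / 2) / (X.e * Real.sqrt X.ka) * (X.withSt st').rd := rfl

end Claimed.Agent.R256
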