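-- KEEP
import Claimed.Agent.R256.Re.PeelA

/-!
# Row 256, unit RE, post PEELSEL, LEAF A2: LVL, RAW, CONG, GB      (architect helper201; prefix `re_pe_`)

Paper free.   Tools: `Re/PeelA.lean`, `Gen/Ops.lean` (`IsLvl`, `Xp.LvlAt`, `Xp.raw`), `Gen/Bas{A,B,C}.lean`, `Gen/Tri.lean`.
-/

set_option autoImplicit false

namespace Claimed.Agent.R256

open MeasureTheory
open scoped BigOperators
open Classical

variable {η : ℝ} {p : RdWvPar}

/-- **LVL**.   PLAN: `cut`: `List.mem_singleton`.   `lvl`: `S = P.S i`; `suc`: index type `{u : Fin P.nL // P.lI u = i}`, enumerated by `Fintype.equivFin`. -/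
theorem re_pe_lvlAt (P : RePs) (X : Xp (p.sys η)) (k : ℕ) (hst : ∀ σ ∈ X.st, σ.k ≤ k) (h0 : X.k0 ≤ k) (h1 : k ≤ X.kf) (h : P.Lv X k) :
    (P.ins X k).LvlAt X.st (reStg η p k P.gb P.S) [] P.be := by
  refine ⟨⟨rfl, hst, ?_, h0, h1⟩, h.plat, ?_⟩
  · intro σ hσ
    rw [List.mem_singleton] at hσ
    rw [hσ]
  · intro i hi
    refine ⟨P.S i, ⟨re_pe_S_meas P (fun u hu => (h.lb u hu).2.2.1) i, h.reg i hi, ?_⟩, rfl⟩
    obtain ⟨e, -⟩ : ∃ e : {u : Fin P.nL // P.lI u = i} ≃ Fin (Fintype.card {u : Fin P.nL // P.lI u = i}), True := ⟨Fintype.equivFin _, trivial⟩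
    refine ⟨Fintype.card {u : Fin P.nL // P.lI u = i}, fun a => P.lQ (e.symm a).1, fun a => P.lR (e.symm a).1, ?_, ?_, ?_, ?_⟩
    · intro a
      have hl := h.lb (e.symm a).1 (e.symm a).1.2
      have hi' : P.lI (e.symm a).1 = i := (e.symm a).2
      rw [hi'] at hl
      exact ⟨hl.2.1, hl.2.2.1, hl.2.2.2.1⟩
    · intro a a' hne
      refine h.disj _ (e.symm a).1.2 _ (e.symm a').1.2 ?_ ((e.symm a).2.trans (e.symm a').2.symm)
      intro hh
      exact hne (e.symm.injective (Subtype.ext (Fin.ext hh)))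
    · refine Set.ext fun x => ⟨?_, ?_⟩
      · rintro ⟨u, hu, h1, h2⟩
        refine Set.mem_iUnion.2 ⟨e ⟨⟨u, hu⟩, h1⟩, ?_⟩
        rw [Equiv.symm_apply_apply]
        exact h2
      · intro hx
        obtain ⟨a, ha⟩ := Set.mem_iUnion.1 hx
        exact ⟨(e.symm a).1, (e.symm a).1.2, (e.symm a).2, ha⟩
    · intro a
      have hl := h.lb (e.symm a).1 (e.symm a).1.2
      have hi' : P.lI (e.symm a).1 = i := (e.symm a).2
      rw [hi'] at hl
      exact hl.2.2.2.2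

theorem re_pe_raw_sq {α : Type} (S : Set α) : (fun x => (S.indicator (fun _ => (1 : ℝ)) x) ^ 2) = S.indicator fun _ => (1 : ℝ) := by
  ext x
  by_cases hx : x ∈ S <;> simp [hx]

/-- **RAW**.   PLAN: `(1_S)^2 = 1_S` pointwise; `Xp.raw`, `RePs.raw`, `PkSys.ms` unfold; `(P.ins X k).at' = X.at'` by `rfl`. -/
theorem re_pe_raw (P : RePs) (X : Xp (p.sys η)) (k : ℕ) : (P.ins X k).raw X.st (reStg η p k P.gb P.S) = P.raw X k := by
  unfold Xp.raw RePs.raw PkSys.ms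
  refine Finset.sum_congr rfl fun i _ => ?_
  have h1 : (fun x => (reStg η p k P.gb P.S).M i x ^ 2) = (P.S i).indicator fun _ => (1 : ℝ) := re_pe_raw_sq (P.S i)
  rw [h1]
  rfl

/-- **CONG**: the readout sees the masks of a stage only on the intervals below the root.
PLAN: `gn_rd_eq_rdc` for both experiments at the cut `CutAt k (st1 ++ [σ]) st2`; `rdc` does not see the stack of the experiment (`rfl`); `gn_rdc_congr`: for `i ∈ ivs` the states `at' k i (st1 ++ [σ])` agree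
(`gn_run_append`, `Xp.run`, `gn_anc_self`). -/
theorem re_pe_congr {P : PkSys} (E : Xp P) (hE : E.Valid) (k b : ℕ) (st1 st2 : List (Stg P)) (hc : E.CutAt k st1 st2) (M M' : ℕ → P.X → ℝ)
    (h : ∀ i ∈ ivs E.k0 E.i0 k, M i = M' i) : (E.withSt (st1 ++ ⟨k, b, M⟩ :: st2)).rd = (E.withSt (st1 ++ ⟨k, b, M'⟩ :: st2)).rd := by
  have hcut : ∀ N : ℕ → P.X → ℝ, (E.withSt (st1 ++ ⟨k, b, N⟩ :: st2)).CutAt k (st1 ++ [⟨k, b, N⟩]) st2 := by
    intro N
    refine ⟨?_, ?_, hc.2.2.1, hc.2.2.2.1, hc.2.2.2.2⟩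
    · show st1 ++ ⟨k, b, N⟩ :: st2 = (st1 ++ [⟨k, b, N⟩]) ++ st2
      simp
    · intro σ hσ
      rw [List.mem_append, List.mem_singleton] at hσ
      rcases hσ with hσ | hσ
      · exact hc.2.1 σ hσ
      · rw [hσ]
  have e1 : ∀ (s : List (Stg P)) (Ψ : ℕ → P.Kc), (E.withSt s).rdc k st2 Ψ = E.rdc k st2 Ψ := fun _ _ => rfl
  have e2 : ∀ (s s' : List (Stg P)) (i : ℕ), (E.withSt s).at' k i s' = Xp.run k i s' E.v := fun _ _ _ => rfl
  rw [gn_rd_eq_rdc _ (hcut M), gn_rd_eq_rdc _ (hcut M'), e1, e1]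
  refine gn_rdc_congr E hE hc.2.2.2.1 hc.2.2.2.2 st2 ?_
  intro i hi
  rw [e2, e2, gn_run_append, gn_run_append]
  simp only [Xp.run, gn_anc_self]
  rw [h i hi]

/-- the states at a cut lie in the plateau class `reGb X`.   PLAN: `bm = sInf ..` satisfies `X.GenLe bm` (`Nat.sInf_mem ⟨C, hg⟩`); `gn_pl_mono` (`b0 ≤ bm`), `gn_run_pl`. -/
theorem re_pe_gb_pl {P : PkSys} (hT : P.Tight) (X : Xp P) (hX : X.Valid) (C : ℕ) (hg : X.GenLe C) (k I : ℕ) : X.at' k I X.st ∈ P.Pl (reGb X) := by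
  have hbm : X.GenLe (sInf {bm | X.GenLe bm}) := Nat.sInf_mem (s := {bm | X.GenLe bm}) ⟨C, hg⟩
  exact gn_run_pl hT k I _ X.st hbm.2.2 (gn_pl_mono hT hbm.1 hX.plat)

end Claimed.Agent.R256
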