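-- KEEP
import Claimed.Agent.R256.Base.RndWav
import Claimed.Agent.R256.Gen.Contract

/-!
# Row 256, unit RE, block PL (08-round-entropy.tex l.57-215), file 1: THE TILTED GRID            (architect helper236; prefix `re_pk_`, defs `rePk..`, `RePk..`)
PAPER FREE.   All countings of the block ("a label meets boundedly many cubes", "a cube receives from boundedly many boxes", "jitter moves a ray into a neighbouring cube") are ONE lemma, `re_pk_idx`.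
* `rePkIx R k p`     the index `(α, β, j) ∈ ℤ² × ℤ² × ℤ` of the row `p = (A, b, y)` in the grid of angular width `R` at length `ℓ = 2^-k`:   `α = ⌊A/R⌋`, `β = ⌊b/(ℓR)⌋`, `j = ⌊(y - 2Rα·b)/(ℓR²)⌋`   (the tilt is that of the corner `Rα`).      The fibres are a PARTITION of the rows.
* `rePkFr R k d`     the frame of the cell `d`: width `2R`, centre = the corner of the cell;   `re_pk_cell_box`: cell `d` ⊆ `(rePkFr R k d).box k 1`.      `rePkTs R k d` the same as a round test.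
* `RePkNear R l K p p'`   `|A'-A| ≤ KR`, `|b'-b| ≤ KℓR`, `|y'-y-2A·(b'-b)| ≤ KℓR²`.
* `rePkSh c d`       the sheared translation of indices, `rePkNb N` the cube `[-N,N]^5` of offsets.       `re_pk_idx`: near rows have indices related by `rePkSh c`, `c ∈ rePkNb (8K+8)`.
* `re_pk_tr`         the transfer of `ℓ^{3/2}` sums along `rePkSh`.
-/

set_option autoImplicit false

namespace Claimed.Agent.R256

open MeasureTheory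

/-- grid indices `(α, β, j)` -/
abbrev RePkIx : Type := (ℤ × ℤ) × (ℤ × ℤ) × ℤ

/-- the index of a row in the tilted grid of angular width `R` at length `2^-k` -/
noncomputable def rePkIx (R : ℝ) (k : ℕ) (p : RtRow) : RePkIx :=
  ((⌊p.A.1 / R⌋, ⌊p.A.2 / R⌋), (⌊p.b.1 / (rdLen k * R)⌋, ⌊p.b.2 / (rdLen k * R)⌋),
    ⌊(p.y - 2 * R * ((⌊p.A.1 / R⌋ : ℝ) * p.b.1 + (⌊p.A.2 / R⌋ : ℝ) * p.b.2)) / (rdLen k * R ^ 2)⌋)

/-- the frame of a cell: width `2R`, centre at the corner -/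
noncomputable def rePkFr (R : ℝ) (k : ℕ) (d : RePkIx) : RdFrm :=
  ⟨2 * R, ((d.1.1 : ℝ) * R, (d.1.2 : ℝ) * R), ((d.2.1.1 : ℝ) * (rdLen k * R), (d.2.1.2 : ℝ) * (rdLen k * R)),
    rdLen k * R ^ 2 * ((d.2.2 : ℝ) + 2 * ((d.1.1 : ℝ) * d.2.1.1 + (d.1.2 : ℝ) * d.2.1.2))⟩

/-- the round test of a cell -/
noncomputable def rePkTs (R : ℝ) (k : ℕ) (d : RePkIx) : RdTst :=
  ⟨(rePkFr R k d).r, 1, (rePkFr R k d).As, (rePkFr R k d).bs, (rePkFr R k d).ys, rtLin⟩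

/-- closeness of two rows at angular width `R`, length `l` -/
def RePkNear (R l K : ℝ) (p p' : RtRow) : Prop :=
  rtSq (p'.A - p.A) ≤ (K * R) ^ 2 ∧ rtSq (p'.b - p.b) ≤ (K * (l * R)) ^ 2 ∧ |p'.y - p.y - 2 * rtIp p.A (p'.b - p.b)| ≤ K * (l * R ^ 2)

/-- the sheared translation of indices by the offset `c` -/
def rePkSh (c d : RePkIx) : RePkIx :=
  (d.1 + c.1, d.2.1 + c.2.1, d.2.2 - 2 * (c.1.1 * (d.2.1.1 + c.2.1.1) + c.1.2 * (d.2.1.2 + c.2.1.2)) + c.2.2)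

/-- the offsets of size `≤ N` -/
noncomputable def rePkNb (N : ℕ) : Finset RePkIx :=
  (Finset.Icc (-(N : ℤ)) N ×ˢ Finset.Icc (-(N : ℤ)) N) ×ˢ (Finset.Icc (-(N : ℤ)) N ×ˢ Finset.Icc (-(N : ℤ)) N) ×ˢ Finset.Icc (-(N : ℤ)) N

/-- the wave rows in the cell `d` -/
def rePkCell (R : ℝ) (k : ℕ) (d : RePkIx) : Set RdWvPar.Ph := {x | rePkIx R k (RdWvPar.co 0 x) = d}

/-- the wave rows whose ray lies in the cell `d` after the time `t` -/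
def rePkRay (R : ℝ) (k : ℕ) (t : ℝ) (d : RePkIx) : Set RdWvPar.Ph := {x | rePkIx R k ((RdWvPar.co 0 x).flow t) = d}

theorem re_pk_grid_eqns_cite : True := by
  have := @rePkIx.eq_1
  have := @rePkFr.eq_1
  have := @rePkTs.eq_1
  have := @RePkNear.eq_1
  have := @rePkSh.eq_1
  have := @rePkNb.eq_1
  have := @rePkCell.eq_1
  have := @rePkRay.eq_1
  trivial

/-! ## the leaves -/

/-- **L-256-RE-PK-FLOOR**.   PLAN: `Int.floor_le`, `Int.lt_floor_add_one`, cast to `ℝ`, `abs_le`, `linarith`, back with `Int.cast_le` / `exact_mod_cast`. -/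
theorem re_pk_floor {u u' : ℝ} {K : ℕ} (h : |u' - u| ≤ K) : |⌊u'⌋ - ⌊u⌋| ≤ (K : ℤ) + 1 := by
  obtain ⟨h1, h2⟩ := abs_le.mp h
  have a1 := Int.floor_le u
  have a2 := Int.lt_floor_add_one u
  have b1 := Int.floor_le u'
  have b2 := Int.lt_floor_add_one u'
  rw [abs_le]
  constructor
  · have h3 : ((⌊u⌋ : ℤ) : ℝ) < ((⌊u'⌋ + 1 + K : ℤ) : ℝ) := by push_cast; linarith
    have h4 : ⌊u⌋ < ⌊u'⌋ + 1 + K := by exact_mod_cast h3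
    omega
  · have h3 : ((⌊u'⌋ : ℤ) : ℝ) < ((⌊u⌋ + 1 + K : ℤ) : ℝ) := by push_cast; linarith
    have h4 : ⌊u'⌋ < ⌊u⌋ + 1 + K := by exact_mod_cast h3
    omega

/-- `re_pk_idx` in normalised variables -/
theorem re_pk_idx_aux (K : ℕ) (x1 x2 x1' x2' w1 w2 w1' w2' Y Y' : ℝ) (hx1 : |x1' - x1| ≤ K) (hx2 : |x2' - x2| ≤ K)
    (hw1 : |w1' - w1| ≤ K) (hw2 : |w2' - w2| ≤ K) (hT : |Y' - Y - 2 * (x1 * (w1' - w1) + x2 * (w2' - w2))| ≤ K) :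
    |⌊Y' - 2 * ((⌊x1'⌋ : ℝ) * w1' + (⌊x2'⌋ : ℝ) * w2')⌋ + 2 * ((⌊x1'⌋ - ⌊x1⌋) * ⌊w1'⌋ + (⌊x2'⌋ - ⌊x2⌋) * ⌊w2'⌋)
      - ⌊Y - 2 * ((⌊x1⌋ : ℝ) * w1 + (⌊x2⌋ : ℝ) * w2)⌋| ≤ 9 * (K : ℤ) + 5 := by
  have ha1 := re_pk_floor hx1
  have ha2 := re_pk_floor hx2
  have ha1R : |((⌊x1'⌋ : ℝ) - ⌊x1⌋)| ≤ (K : ℝ) + 1 := by exact_mod_cast ha1
  have ha2R : |((⌊x2'⌋ : ℝ) - ⌊x2⌋)| ≤ (K : ℝ) + 1 := by exact_mod_cast ha2
  have hK0 : (0 : ℝ) ≤ K := Nat.cast_nonneg K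
  have frac : ∀ u : ℝ, |u - ⌊u⌋| ≤ 1 := by
    intro u
    have a1 := Int.floor_le u
    have a2 := Int.lt_floor_add_one u
    rw [abs_le]; constructor <;> linarith
  have e : ⌊Y' - 2 * ((⌊x1'⌋ : ℝ) * w1' + (⌊x2'⌋ : ℝ) * w2')⌋ + 2 * ((⌊x1'⌋ - ⌊x1⌋) * ⌊w1'⌋ + (⌊x2'⌋ - ⌊x2⌋) * ⌊w2'⌋)
      = ⌊Y' - 2 * ((⌊x1'⌋ : ℝ) * w1' + (⌊x2'⌋ : ℝ) * w2')
          + ((2 * ((⌊x1'⌋ - ⌊x1⌋) * ⌊w1'⌋ + (⌊x2'⌋ - ⌊x2⌋) * ⌊w2'⌋) : ℤ) : ℝ)⌋ := by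
    rw [Int.floor_add_intCast]
  rw [e]
  have hmain : |(Y' - 2 * ((⌊x1'⌋ : ℝ) * w1' + (⌊x2'⌋ : ℝ) * w2')
          + ((2 * ((⌊x1'⌋ - ⌊x1⌋) * ⌊w1'⌋ + (⌊x2'⌋ - ⌊x2⌋) * ⌊w2'⌋) : ℤ) : ℝ))
        - (Y - 2 * ((⌊x1⌋ : ℝ) * w1 + (⌊x2⌋ : ℝ) * w2))| ≤ ((9 * K + 4 : ℕ) : ℝ) := by
    have e2 : (Y' - 2 * ((⌊x1'⌋ : ℝ) * w1' + (⌊x2'⌋ : ℝ) * w2')
          + ((2 * ((⌊x1'⌋ - ⌊x1⌋) * ⌊w1'⌋ + (⌊x2'⌋ - ⌊x2⌋) * ⌊w2'⌋) : ℤ) : ℝ))
        - (Y - 2 * ((⌊x1⌋ : ℝ) * w1 + (⌊x2⌋ : ℝ) * w2))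
        = (Y' - Y - 2 * (x1 * (w1' - w1) + x2 * (w2' - w2)))
          + 2 * ((x1 - ⌊x1⌋) * (w1' - w1)) + 2 * ((x2 - ⌊x2⌋) * (w2' - w2))
          - 2 * (((⌊x1'⌋ : ℝ) - ⌊x1⌋) * (w1' - ⌊w1'⌋)) - 2 * (((⌊x2'⌋ : ℝ) - ⌊x2⌋) * (w2' - ⌊w2'⌋)) := by
      push_cast; ring
    rw [e2]
    have p1 : |(x1 - ⌊x1⌋) * (w1' - w1)| ≤ 1 * K := by
      rw [abs_mul]; exact mul_le_mul (frac x1) hw1 (abs_nonneg _) zero_le_one
    have p2 : |(x2 - ⌊x2⌋) * (w2' - w2)| ≤ 1 * K := by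
      rw [abs_mul]; exact mul_le_mul (frac x2) hw2 (abs_nonneg _) zero_le_one
    have p3 : |((⌊x1'⌋ : ℝ) - ⌊x1⌋) * (w1' - ⌊w1'⌋)| ≤ ((K : ℝ) + 1) * 1 := by
      rw [abs_mul]; exact mul_le_mul ha1R (frac w1') (abs_nonneg _) (by linarith)
    have p4 : |((⌊x2'⌋ : ℝ) - ⌊x2⌋) * (w2' - ⌊w2'⌋)| ≤ ((K : ℝ) + 1) * 1 := by
      rw [abs_mul]; exact mul_le_mul ha2R (frac w2') (abs_nonneg _) (by linarith)
    obtain ⟨t1, t2⟩ := abs_le.mp hT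
    obtain ⟨q1, q1'⟩ := abs_le.mp p1
    obtain ⟨q2, q2'⟩ := abs_le.mp p2
    obtain ⟨q3, q3'⟩ := abs_le.mp p3
    obtain ⟨q4, q4'⟩ := abs_le.mp p4
    push_cast
    rw [abs_le]; constructor <;> linarith
  have := re_pk_floor hmain
  push_cast at this ⊢
  linarith

/-- **L-256-RE-PK-IDX** (THE counting lemma).   PLAN: put `α = ⌊A/R⌋`, `a = α' - α`, `β' = ⌊b'/(ℓR)⌋`, `U = (y - 2Rα·b)/(ℓR²)`.   Coordinates: `|A'_i/R - A_i/R| ≤ K` (from `rtSq ≤ (KR)²`), `re_pk_floor`: `|a_i| ≤ K+1`; the same for `b`.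
Identity:   `U' + 2a·β' - U = [y'-y-2A·(b'-b)]/(ℓR²) + 2(A/R-α)·(b'-b)/(ℓR) - 2a·(b'/(ℓR) - β')`,   absolute value `≤ K + 4K + 4(K+1)` (`0 ≤ A_i/R-α_i < 1`, `0 ≤ b'_i/(ℓR)-β'_i < 1`).
`⌊U'⌋ + 2a·β' = ⌊U' + 2a·β'⌋` (`Int.floor_add_intCast`), `re_pk_floor` with `9K+4`.   The offset is `c = (a, β'-β, ⌊U'⌋ + 2a·β' - ⌊U⌋)`. -/
theorem re_pk_idx (R : ℝ) (hR : 0 < R) (k K : ℕ) (p p' : RtRow) (h : RePkNear R (rdLen k) K p p') :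
    ∃ c ∈ rePkNb (9 * K + 9), rePkIx R k p' = rePkSh c (rePkIx R k p) := by
  obtain ⟨h1, h2, h3⟩ := h
  have hl := rdLen_pos k
  obtain ⟨l, hldef⟩ : ∃ l : ℝ, l = rdLen k := ⟨_, rfl⟩
  rw [← hldef] at h2 h3 hl
  have hlR : 0 < l * R := mul_pos hl hR
  have hlR2 : 0 < l * R ^ 2 := by positivity
  have hK0 : (0 : ℝ) ≤ K := Nat.cast_nonneg K
  have comp : ∀ (u : ℝ × ℝ) (B : ℝ), 0 ≤ B → rtSq u ≤ B ^ 2 → |u.1| ≤ B ∧ |u.2| ≤ B := by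
    intro u B hB hu
    unfold rtSq at hu
    exact ⟨abs_le_of_sq_le_sq (by nlinarith [sq_nonneg u.2]) hB, abs_le_of_sq_le_sq (by nlinarith [sq_nonneg u.1]) hB⟩
  obtain ⟨hA1, hA2⟩ := comp _ _ (by positivity) h1
  obtain ⟨hb1, hb2⟩ := comp _ _ (by positivity) h2
  simp only [Prod.fst_sub, Prod.snd_sub] at hA1 hA2 hb1 hb2
  have hx1 : |p'.A.1 / R - p.A.1 / R| ≤ K := by
    rw [← sub_div, abs_div, abs_of_pos hR, div_le_iff₀ hR]; exact hA1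
  have hx2 : |p'.A.2 / R - p.A.2 / R| ≤ K := by
    rw [← sub_div, abs_div, abs_of_pos hR, div_le_iff₀ hR]; exact hA2
  have hw1 : |p'.b.1 / (l * R) - p.b.1 / (l * R)| ≤ K := by
    rw [← sub_div, abs_div, abs_of_pos hlR, div_le_iff₀ hlR]; exact hb1
  have hw2 : |p'.b.2 / (l * R) - p.b.2 / (l * R)| ≤ K := by
    rw [← sub_div, abs_div, abs_of_pos hlR, div_le_iff₀ hlR]; exact hb2
  have hT : |p'.y / (l * R ^ 2) - p.y / (l * R ^ 2) - 2 * (p.A.1 / R * (p'.b.1 / (l * R) - p.b.1 / (l * R))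
      + p.A.2 / R * (p'.b.2 / (l * R) - p.b.2 / (l * R)))| ≤ (K : ℝ) := by
    have e : p'.y / (l * R ^ 2) - p.y / (l * R ^ 2) - 2 * (p.A.1 / R * (p'.b.1 / (l * R) - p.b.1 / (l * R))
      + p.A.2 / R * (p'.b.2 / (l * R) - p.b.2 / (l * R))) = (p'.y - p.y - 2 * rtIp p.A (p'.b - p.b)) / (l * R ^ 2) := by
      simp only [rtIp, Prod.fst_sub, Prod.snd_sub]
      field_simp
    rw [e, abs_div, abs_of_pos hlR2, div_le_iff₀ hlR2]; exact h3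
  have h5 := re_pk_idx_aux K _ _ _ _ _ _ _ _ _ _ hx1 hx2 hw1 hw2 hT
  have ha1 := re_pk_floor hx1
  have ha2 := re_pk_floor hx2
  have hβ1 := re_pk_floor hw1
  have hβ2 := re_pk_floor hw2
  have eU : ∀ q : RtRow, (q.y - 2 * R * ((⌊q.A.1 / R⌋ : ℝ) * q.b.1 + (⌊q.A.2 / R⌋ : ℝ) * q.b.2)) / (l * R ^ 2)
      = q.y / (l * R ^ 2) - 2 * ((⌊q.A.1 / R⌋ : ℝ) * (q.b.1 / (l * R)) + (⌊q.A.2 / R⌋ : ℝ) * (q.b.2 / (l * R))) := by
    intro q; field_simp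
  have mem : ∀ (n : ℤ) (M : ℤ), |n| ≤ M → M ≤ ((9 * K + 9 : ℕ) : ℤ) → n ∈ Finset.Icc (-((9 * K + 9 : ℕ) : ℤ)) ((9 * K + 9 : ℕ) : ℤ) := by
    intro n M hn hM
    obtain ⟨n1, n2⟩ := abs_le.mp hn
    exact Finset.mem_Icc.mpr ⟨by linarith, by linarith⟩
  refine ⟨((⌊p'.A.1 / R⌋ - ⌊p.A.1 / R⌋, ⌊p'.A.2 / R⌋ - ⌊p.A.2 / R⌋),
    (⌊p'.b.1 / (l * R)⌋ - ⌊p.b.1 / (l * R)⌋, ⌊p'.b.2 / (l * R)⌋ - ⌊p.b.2 / (l * R)⌋),
    ⌊p'.y / (l * R ^ 2) - 2 * ((⌊p'.A.1 / R⌋ : ℝ) * (p'.b.1 / (l * R)) + (⌊p'.A.2 / R⌋ : ℝ) * (p'.b.2 / (l * R)))⌋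
      + 2 * ((⌊p'.A.1 / R⌋ - ⌊p.A.1 / R⌋) * ⌊p'.b.1 / (l * R)⌋ + (⌊p'.A.2 / R⌋ - ⌊p.A.2 / R⌋) * ⌊p'.b.2 / (l * R)⌋)
      - ⌊p.y / (l * R ^ 2) - 2 * ((⌊p.A.1 / R⌋ : ℝ) * (p.b.1 / (l * R)) + (⌊p.A.2 / R⌋ : ℝ) * (p.b.2 / (l * R)))⌋), ?_, ?_⟩
  · unfold rePkNb
    simp only [Finset.mem_product]
    refine ⟨⟨mem _ _ ha1 (by push_cast; linarith), mem _ _ ha2 (by push_cast; linarith)⟩,
      ⟨mem _ _ hβ1 (by push_cast; linarith), mem _ _ hβ2 (by push_cast; linarith)⟩, mem _ _ h5 (by push_cast; linarith)⟩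
  · unfold rePkIx rePkSh
    rw [← hldef, eU p, eU p']
    refine Prod.ext (Prod.ext ?_ ?_) (Prod.ext (Prod.ext ?_ ?_) ?_)
    · simp
    · simp
    · simp
    · simp
    · simp only []
      ring

/-- **L-256-RE-PK-SYMM**.   PLAN: `y-y'-2A'·(b-b') = -(y'-y-2A·(b'-b)) + 2(A'-A)·(b'-b)`, `rtIp_abs_le`; `rtSq (-u) = rtSq u`. -/
theorem re_pk_near_symm {R l K : ℝ} (hR : 0 < R) (hl : 0 < l) (hK : 0 ≤ K) {p p' : RtRow} (h : RePkNear R l K p p') : RePkNear R l (K + 2 * K ^ 2) p' p := by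
  obtain ⟨h1, h2, h3⟩ := h
  have hKK : K ≤ K + 2 * K ^ 2 := by nlinarith [sq_nonneg K]
  have hlR : 0 < l * R := mul_pos hl hR
  have s1 : rtSq (p.A - p'.A) = rtSq (p'.A - p.A) := by
    simp only [rtSq, Prod.fst_sub, Prod.snd_sub]; ring
  have s2 : rtSq (p.b - p'.b) = rtSq (p'.b - p.b) := by
    simp only [rtSq, Prod.fst_sub, Prod.snd_sub]; ring
  refine ⟨?_, ?_, ?_⟩
  · rw [s1]; refine h1.trans ?_
    gcongr
  · rw [s2]; refine h2.trans ?_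
    gcongr
  · have e : p.y - p'.y - 2 * rtIp p'.A (p.b - p'.b)
        = -(p'.y - p.y - 2 * rtIp p.A (p'.b - p.b)) + 2 * rtIp (p'.A - p.A) (p'.b - p.b) := by
      simp only [rtIp, Prod.fst_sub, Prod.snd_sub]; ring
    have h4 := rtIp_abs_le (mul_nonneg hK hR.le) (mul_nonneg hK hlR.le) h1 h2
    rw [e]
    calc |-(p'.y - p.y - 2 * rtIp p.A (p'.b - p.b)) + 2 * rtIp (p'.A - p.A) (p'.b - p.b)|
        ≤ |-(p'.y - p.y - 2 * rtIp p.A (p'.b - p.b))| + |2 * rtIp (p'.A - p.A) (p'.b - p.b)| := abs_add_le _ _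
      _ = |p'.y - p.y - 2 * rtIp p.A (p'.b - p.b)| + 2 * |rtIp (p'.A - p.A) (p'.b - p.b)| := by
          rw [abs_neg, abs_mul, abs_of_pos (by norm_num : (0:ℝ) < 2)]
      _ ≤ K * (l * R ^ 2) + 2 * (K * R * (K * (l * R))) := by gcongr
      _ = (K + 2 * K ^ 2) * (l * R ^ 2) := by ring

theorem re_pk_near_mono {R l K K' : ℝ} (hR : 0 < R) (hl : 0 < l) (hK : 0 ≤ K) (hKK : K ≤ K') {p p' : RtRow} (h : RePkNear R l K p p') : RePkNear R l K' p p' := by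
  obtain ⟨h1, h2, h3⟩ := h
  refine ⟨h1.trans ?_, h2.trans ?_, h3.trans ?_⟩
  · gcongr
  · gcongr
  · gcongr

/-- the shear is injective -/
theorem re_pk_sh_inj (c : RePkIx) : Function.Injective (rePkSh c) := by
  intro d d' h
  simp only [rePkSh, Prod.mk.injEq] at h
  obtain ⟨h1, h2, h3⟩ := h
  have e1 : d.1 = d'.1 := add_right_cancel h1
  have e2 : d.2.1 = d'.2.1 := add_right_cancel h2
  have e3 : d.2.2 = d'.2.2 := by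
    rw [e2] at h3
    linarith
  exact Prod.ext e1 (Prod.ext e2 e3)

/-- **L-256-RE-PK-CELLBOX**: a cell lies in the round box of its frame.   PLAN: unfold `RdFrm.box, RdFrm.toT, rtRound, RtTest.box, RtTest.x, RtTest.z, RtTest.V, rePkFr, rePkIx`; with `h` the three normalised coordinates are
`(frac(b/(ℓR)))/2`, `frac(U)/4`, `frac(A/R)/2` (`Int.floor_le`, `Int.lt_floor_add_one`; `field_simp`). -/
theorem re_pk_cell_box (R : ℝ) (hR : 0 < R) (k : ℕ) (d : RePkIx) (p : RtRow) (h : rePkIx R k p = d) : p ∈ (rePkFr R k d).box k 1 := by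
  subst h
  have hl := rdLen_pos k
  obtain ⟨l, hldef⟩ : ∃ l : ℝ, l = rdLen k := ⟨_, rfl⟩
  have hlR : 0 < l * R := by rw [hldef]; exact mul_pos hl hR
  have hl0 : 0 < l := by rw [hldef]; exact hl
  have hlR2 : 0 < l * R ^ 2 := by positivity
  have fr : ∀ (u c c2 : ℝ), 0 < c → c2 = 2 * c → 0 ≤ c2⁻¹ * (u - (⌊u / c⌋ : ℝ) * c) ∧ c2⁻¹ * (u - (⌊u / c⌋ : ℝ) * c) ≤ 1 / 2 := by
    intro u c c2 hc hc2
    have a1 := Int.floor_le (u / c)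
    have a2 := Int.lt_floor_add_one (u / c)
    rw [le_div_iff₀ hc] at a1
    rw [div_lt_iff₀ hc] at a2
    have hc20 : 0 < c2 := by rw [hc2]; linarith
    constructor
    · exact mul_nonneg (inv_nonneg.mpr hc20.le) (by linarith)
    · rw [inv_mul_le_iff₀ hc20, hc2]; linarith
  have sq2 : ∀ a b : ℝ, 0 ≤ a → a ≤ 1 / 2 → 0 ≤ b → b ≤ 1 / 2 → a ^ 2 + b ^ 2 ≤ 1 ^ 2 := by
    intro a b a0 a1 b0 b1; nlinarith
  unfold RdFrm.box RdFrm.toT rtRound RtTest.box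
  rw [← hldef]
  refine ⟨?_, ?_, ?_⟩
  · simp only [RtTest.x, rePkFr, rePkIx, rtSq, Prod.fst_sub, Prod.snd_sub, smul_eq_mul, Prod.smul_fst, Prod.smul_snd]
    rw [← hldef]
    obtain ⟨a0, a1⟩ := fr p.b.1 (l * R) (l * (2 * R)) hlR (by ring)
    obtain ⟨b0, b1⟩ := fr p.b.2 (l * R) (l * (2 * R)) hlR (by ring)
    exact sq2 _ _ a0 a1 b0 b1
  · simp only [RtTest.z, rePkFr, rePkIx, rtIp, Prod.fst_sub, Prod.snd_sub]
    rw [← hldef]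
    obtain ⟨U, hU⟩ : ∃ U : ℝ, U = (p.y - 2 * R * ((⌊p.A.1 / R⌋ : ℝ) * p.b.1 + (⌊p.A.2 / R⌋ : ℝ) * p.b.2)) / (l * R ^ 2) := ⟨_, rfl⟩
    rw [← hU]
    have a1 := Int.floor_le U
    have a2 := Int.lt_floor_add_one U
    have hy : p.y = U * (l * R ^ 2) + 2 * R * ((⌊p.A.1 / R⌋ : ℝ) * p.b.1 + (⌊p.A.2 / R⌋ : ℝ) * p.b.2) := by
      rw [hU]; field_simp; ring
    have e : (p.y - l * R ^ 2 * ((⌊U⌋ : ℝ) + 2 * ((⌊p.A.1 / R⌋ : ℝ) * (⌊p.b.1 / (l * R)⌋ : ℝ) + (⌊p.A.2 / R⌋ : ℝ) * (⌊p.b.2 / (l * R)⌋ : ℝ)))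
        - 2 * ((⌊p.A.1 / R⌋ : ℝ) * R * (p.b.1 - (⌊p.b.1 / (l * R)⌋ : ℝ) * (l * R)) + (⌊p.A.2 / R⌋ : ℝ) * R * (p.b.2 - (⌊p.b.2 / (l * R)⌋ : ℝ) * (l * R))))
        / (l * (2 * R) ^ 2) = (U - ⌊U⌋) / 4 := by
      rw [hy]; field_simp; ring
    rw [e, abs_le]; constructor <;> linarith
  · simp only [RtTest.V, rePkFr, rePkIx, rtSq, Prod.fst_sub, Prod.snd_sub, smul_eq_mul, Prod.smul_fst, Prod.smul_snd]
    obtain ⟨a0, a1⟩ := fr p.A.1 R (2 * R) hR rfl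
    obtain ⟨b0, b1⟩ := fr p.A.2 R (2 * R) hR rfl
    exact sq2 _ _ a0 a1 b0 b1

/-- the round test of a cell: admissible, rows = box, weight `16 R⁴` -/
theorem re_pk_ts_adm (R : ℝ) (hR : 0 < R) (k : ℕ) (d : RePkIx) : ((rePkTs R k d).toT k).Adm 1 :=
  rt_round_adm (rdLen_pos k) (by show 0 < 2 * R; positivity) _ _ _

theorem re_pk_ts_rows (R : ℝ) (k : ℕ) (d : RePkIx) : (rePkTs R k d).rows k = (rePkFr R k d).box k 1 :=
  rt_round_set _ _ _ _ _ zero_le_one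

theorem re_pk_ts_wt (R : ℝ) (k : ℕ) (d : RePkIx) (η : ℝ) : (rePkTs R k d).wt η = 16 * R ^ 4 := by
  show (2 * R) ^ 4 * (1 : ℝ) ^ (1 - η) = _
  rw [Real.one_rpow]
  ring

/-- **L-256-RE-PK-BOXNEAR**: two rows of one test of width `≤ 2R` are near.   PLAN: `|A'-A| ≤ 2r`, `|b'-b| ≤ 2ℓr` (triangle inequality for `rtSq`: `rtSq (u+v) ≤ 2 rtSq u + 2 rtSq v`),
`y'-y-2A·(b'-b) = (z'-z) ℓr² - 2(A-A_*)·(b'-b)`, `≤ 2ℓr² + 4ℓr² ≤ 24 ℓR²`. -/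
theorem re_pk_box_near (R : ℝ) (hR : 0 < R) (τ : RtTest) (hl : 0 < τ.l) (hr : 0 < τ.r) (hrR : τ.r ≤ 2 * R) (p p' : RtRow) (h : p ∈ τ.box 1) (h' : p' ∈ τ.box 1) :
    RePkNear R τ.l 24 p p' := by
  obtain ⟨hx, hz, hV⟩ := h
  obtain ⟨hx', hz', hV'⟩ := h'
  have hlr : 0 < τ.l * τ.r := mul_pos hl hr
  have hlr2 : 0 < τ.l * τ.r ^ 2 := by positivity
  have sc : ∀ (c : ℝ) (u : ℝ × ℝ), 0 < c → rtSq (c⁻¹ • u) ≤ 1 ^ 2 → rtSq u ≤ c ^ 2 := by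
    intro c u hc hu
    have e : rtSq (c⁻¹ • u) = rtSq u / c ^ 2 := by
      simp only [rtSq, Prod.smul_fst, Prod.smul_snd, smul_eq_mul]; field_simp
    rw [e, div_le_iff₀ (by positivity)] at hu
    linarith
  have tri : ∀ u v : ℝ × ℝ, rtSq (u - v) ≤ 2 * rtSq u + 2 * rtSq v := by
    intro u v
    simp only [rtSq, Prod.fst_sub, Prod.snd_sub]
    nlinarith [sq_nonneg (u.1 + v.1), sq_nonneg (u.2 + v.2)]
  have A1 := sc _ _ hr hV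
  have A2 := sc _ _ hr hV'
  have B1 := sc _ _ hlr hx
  have B2 := sc _ _ hlr hx'
  have hAA : rtSq (p'.A - p.A) ≤ (2 * τ.r) ^ 2 := by
    have e : p'.A - p.A = (p'.A - τ.As) - (p.A - τ.As) := by abel
    rw [e]; refine (tri _ _).trans ?_
    nlinarith
  have hbb : rtSq (p'.b - p.b) ≤ (2 * (τ.l * τ.r)) ^ 2 := by
    have e : p'.b - p.b = (p'.b - τ.bs) - (p.b - τ.bs) := by abel
    rw [e]; refine (tri _ _).trans ?_
    nlinarith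
  have hlR : 0 < τ.l * R := mul_pos hl hR
  refine ⟨hAA.trans ?_, hbb.trans ?_, ?_⟩
  · refine pow_le_pow_left₀ (by positivity) ?_ 2
    linarith
  · refine pow_le_pow_left₀ (by positivity) ?_ 2
    have : τ.l * τ.r ≤ τ.l * (2 * R) := mul_le_mul_of_nonneg_left hrR hl.le
    nlinarith
  · have e : p'.y - p.y - 2 * rtIp p.A (p'.b - p.b)
        = (τ.z p' - τ.z p) * (τ.l * τ.r ^ 2) - 2 * rtIp (p.A - τ.As) (p'.b - p.b) := by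
      simp only [RtTest.z, rtIp, Prod.fst_sub, Prod.snd_sub]; field_simp; ring
    have h4 := rtIp_abs_le hr.le (by positivity : 0 ≤ 2 * (τ.l * τ.r)) A1 hbb
    have hzz : |τ.z p' - τ.z p| ≤ 2 := by
      refine (abs_sub _ _).trans ?_; linarith
    have hr2 : τ.r ^ 2 ≤ 4 * R ^ 2 := by nlinarith
    rw [e]
    calc |(τ.z p' - τ.z p) * (τ.l * τ.r ^ 2) - 2 * rtIp (p.A - τ.As) (p'.b - p.b)|
        ≤ |(τ.z p' - τ.z p) * (τ.l * τ.r ^ 2)| + |2 * rtIp (p.A - τ.As) (p'.b - p.b)| := abs_sub _ _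
      _ = |τ.z p' - τ.z p| * (τ.l * τ.r ^ 2) + 2 * |rtIp (p.A - τ.As) (p'.b - p.b)| := by
          rw [abs_mul (τ.z p' - τ.z p), abs_of_pos hlr2, abs_mul 2, abs_of_pos (by norm_num : (0:ℝ) < 2)]
      _ ≤ 2 * (τ.l * τ.r ^ 2) + 2 * (τ.r * (2 * (τ.l * τ.r))) := by gcongr
      _ = 6 * (τ.l * τ.r ^ 2) := by ring
      _ ≤ 6 * (τ.l * (4 * R ^ 2)) := by gcongr
      _ = 24 * (τ.l * R ^ 2) := by ring

/-- **L-256-RE-PK-ROOTGEO**: two rays that meet in one final cell start near each other at the root scale.   PLAN: `ℓ_f = rdLen (k0+n) ≤ ℓ₀`.   With `p_t = p.flow t`: `|A'-A|² ≤ 2R²`, `b'-b = (b'_t-b_t) - t(A'-A)`,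
`y'-y-2A·(b'-b) = [y'_t-y_t-2Rα·(b'_t-b_t)] - 2(A-Rα)·(b'_t-b_t) - t|A'-A|²`, `≤ ℓ_f R² + 4ℓ_f R² + 2ℓ₀R²`. -/
theorem re_pk_root_geo (R : ℝ) (hR : 0 < R) (k0 n : ℕ) (t : ℝ) (ht0 : 0 ≤ t) (ht1 : t ≤ rdLen k0) (p p' : RtRow)
    (h : rePkIx R (k0 + n) (p'.flow t) = rePkIx R (k0 + n) (p.flow t)) : RePkNear R (rdLen k0) 8 p p' := by
  have hl0 := rdLen_pos k0
  have hlf := rdLen_pos (k0 + n)
  have hle : rdLen (k0 + n) ≤ rdLen k0 := by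
    unfold rdLen
    exact pow_le_pow_of_le_one (by norm_num) (by norm_num) (by omega)
  obtain ⟨l0, hl0d⟩ : ∃ l : ℝ, l = rdLen k0 := ⟨_, rfl⟩
  obtain ⟨lf, hlfd⟩ : ∃ l : ℝ, l = rdLen (k0 + n) := ⟨_, rfl⟩
  unfold rePkIx at h
  rw [← hlfd] at h hlf hle
  rw [← hl0d] at hl0 hle ht1 ⊢
  simp only [RtRow.flow, Prod.mk.injEq, Prod.fst_add, Prod.snd_add, Prod.smul_fst, Prod.smul_snd, smul_eq_mul] at h
  obtain ⟨⟨hα1, hα2⟩, ⟨hβ1, hβ2⟩, hj⟩ := h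
  rw [hα1, hα2] at hj
  have hlfR : 0 < lf * R := mul_pos hlf hR
  have hlfR2 : 0 < lf * R ^ 2 := by positivity
  have fl : ∀ (u u' c : ℝ), 0 < c → ⌊u' / c⌋ = ⌊u / c⌋ → |u' - u| ≤ c := by
    intro u u' c hc he
    have a1 := Int.floor_le (u / c)
    have a2 := Int.lt_floor_add_one (u / c)
    have b1 := Int.floor_le (u' / c)
    have b2 := Int.lt_floor_add_one (u' / c)
    rw [he] at b1 b2
    rw [le_div_iff₀ hc] at a1 b1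
    rw [div_lt_iff₀ hc] at a2 b2
    rw [abs_le]; constructor <;> linarith
  have dA1 := fl _ _ _ hR hα1
  have dA2 := fl _ _ _ hR hα2
  have dB1 := fl _ _ _ hlfR hβ1
  have dB2 := fl _ _ _ hlfR hβ2
  have dU := fl _ _ _ hlfR2 hj
  -- fractional parts of A
  have fA : ∀ u : ℝ, |u - R * (⌊u / R⌋ : ℝ)| ≤ R := by
    intro u
    have a1 := Int.floor_le (u / R)
    have a2 := Int.lt_floor_add_one (u / R)
    rw [le_div_iff₀ hR] at a1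
    rw [div_lt_iff₀ hR] at a2
    rw [abs_le]; constructor <;> linarith
  have fA1 := fA p.A.1
  have fA2 := fA p.A.2
  obtain ⟨a1, ha1⟩ : ∃ a : ℝ, a = p'.A.1 - p.A.1 := ⟨_, rfl⟩
  obtain ⟨a2, ha2⟩ : ∃ a : ℝ, a = p'.A.2 - p.A.2 := ⟨_, rfl⟩
  obtain ⟨e1, he1⟩ : ∃ a : ℝ, a = p'.b.1 + t * p'.A.1 - (p.b.1 + t * p.A.1) := ⟨_, rfl⟩
  obtain ⟨e2, he2⟩ : ∃ a : ℝ, a = p'.b.2 + t * p'.A.2 - (p.b.2 + t * p.A.2) := ⟨_, rfl⟩
  rw [← ha1] at dA1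
  rw [← ha2] at dA2
  rw [← he1] at dB1
  rw [← he2] at dB2
  have sqle : ∀ x B : ℝ, |x| ≤ B → x ^ 2 ≤ B ^ 2 := fun x B hx => by
    rw [← sq_abs x]; exact pow_le_pow_left₀ (abs_nonneg _) hx 2
  have hl0R : 0 < l0 * R := mul_pos hl0 hR
  refine ⟨?_, ?_, ?_⟩
  · simp only [rtSq, Prod.fst_sub, Prod.snd_sub]
    rw [← ha1, ← ha2]
    have := sqle _ _ dA1
    have := sqle _ _ dA2
    nlinarith
  · simp only [rtSq, Prod.fst_sub, Prod.snd_sub]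
    have b1 : |p'.b.1 - p.b.1| ≤ 2 * (l0 * R) := by
      have e : p'.b.1 - p.b.1 = e1 - t * a1 := by rw [he1, ha1]; ring
      rw [e]
      have h1 : |t * a1| ≤ l0 * R := by
        rw [abs_mul, abs_of_nonneg ht0]; exact mul_le_mul ht1 dA1 (abs_nonneg _) hl0.le
      have h2 : lf * R ≤ l0 * R := mul_le_mul_of_nonneg_right hle hR.le
      refine (abs_sub _ _).trans ?_; linarith
    have b2 : |p'.b.2 - p.b.2| ≤ 2 * (l0 * R) := by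
      have e : p'.b.2 - p.b.2 = e2 - t * a2 := by rw [he2, ha2]; ring
      rw [e]
      have h1 : |t * a2| ≤ l0 * R := by
        rw [abs_mul, abs_of_nonneg ht0]; exact mul_le_mul ht1 dA2 (abs_nonneg _) hl0.le
      have h2 : lf * R ≤ l0 * R := mul_le_mul_of_nonneg_right hle hR.le
      refine (abs_sub _ _).trans ?_; linarith
    have := sqle _ _ b1
    have := sqle _ _ b2
    nlinarith
  · have e : p'.y - p.y - 2 * rtIp p.A (p'.b - p.b)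
        = ((p'.y + t * rtSq p'.A - 2 * R * ((⌊p.A.1 / R⌋ : ℝ) * (p'.b.1 + t * p'.A.1) + (⌊p.A.2 / R⌋ : ℝ) * (p'.b.2 + t * p'.A.2)))
            - (p.y + t * rtSq p.A - 2 * R * ((⌊p.A.1 / R⌋ : ℝ) * (p.b.1 + t * p.A.1) + (⌊p.A.2 / R⌋ : ℝ) * (p.b.2 + t * p.A.2))))
          - 2 * ((p.A.1 - R * (⌊p.A.1 / R⌋ : ℝ)) * e1) - 2 * ((p.A.2 - R * (⌊p.A.2 / R⌋ : ℝ)) * e2)
          - t * (a1 ^ 2 + a2 ^ 2) := by
      rw [he1, he2, ha1, ha2]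
      simp only [rtIp, rtSq, Prod.fst_sub, Prod.snd_sub]; ring
    have m1 : |(p.A.1 - R * (⌊p.A.1 / R⌋ : ℝ)) * e1| ≤ R * (lf * R) := by
      rw [abs_mul]; exact mul_le_mul fA1 dB1 (abs_nonneg _) hR.le
    have m2 : |(p.A.2 - R * (⌊p.A.2 / R⌋ : ℝ)) * e2| ≤ R * (lf * R) := by
      rw [abs_mul]; exact mul_le_mul fA2 dB2 (abs_nonneg _) hR.le
    have m3 : |t * (a1 ^ 2 + a2 ^ 2)| ≤ l0 * (2 * R ^ 2) := by
      rw [abs_mul, abs_of_nonneg ht0, abs_of_nonneg (by positivity)]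
      have := sqle _ _ dA1
      have := sqle _ _ dA2
      exact mul_le_mul ht1 (by linarith) (by positivity) hl0.le
    have hlfl0 : lf * R ^ 2 ≤ l0 * R ^ 2 := mul_le_mul_of_nonneg_right hle (by positivity)
    rw [e]
    obtain ⟨u1, u2⟩ := abs_le.mp dU
    obtain ⟨v1, v2⟩ := abs_le.mp m1
    obtain ⟨w1, w2⟩ := abs_le.mp m2
    obtain ⟨x1, x2⟩ := abs_le.mp m3
    have r1 : R * (lf * R) = lf * R ^ 2 := by ring
    rw [r1] at v1 v2 w1 w2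
    rw [abs_le]; constructor <;> linarith

/-- **L-256-RE-PK-MEAS**.   PLAN: the set is `{x | f₁ x = d.1.1} ∩ ..` for five measurable `ℤ`-valued functions (`Int.measurable_floor.comp`, `measurableSet_eq_fun` or preimage of a singleton); the arguments of the floors are
measurable: `fun_prop` after `simp only [RdWvPar.co, RtRow.flow, rtSq]`; the casts `((⌊·⌋ : ℤ) : ℝ)` are measurable (`measurable_from_top.comp` / `Measurable.intCast`). -/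
theorem re_pk_ray_meas (R : ℝ) (k : ℕ) (t : ℝ) (d : RePkIx) : MeasurableSet (rePkRay R k t d) := by
  have hcast : Measurable fun n : ℤ => (n : ℝ) := measurable_from_top
  have hmeas : Measurable fun x : RdWvPar.Ph => rePkIx R k ((RdWvPar.co 0 x).flow t) := by
    unfold rePkIx
    simp only [RdWvPar.co, RtRow.flow, rtSq, Prod.fst_add, Prod.snd_add, Prod.smul_fst, Prod.smul_snd, smul_eq_mul]
    have mA1 : Measurable fun x : RdWvPar.Ph => x.1.1 := by fun_prop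
    have mA2 : Measurable fun x : RdWvPar.Ph => x.1.2 := by fun_prop
    have mb1 : Measurable fun x : RdWvPar.Ph => x.2.1.1 + t * x.1.1 := by fun_prop
    have mb2 : Measurable fun x : RdWvPar.Ph => x.2.1.2 + t * x.1.2 := by fun_prop
    have my : Measurable fun x : RdWvPar.Ph => x.2.2 + t * (x.1.1 ^ 2 + x.1.2 ^ 2) := by fun_prop
    have f1 : Measurable fun x : RdWvPar.Ph => ⌊x.1.1 / R⌋ := (mA1.div_const R).floor
    have f2 : Measurable fun x : RdWvPar.Ph => ⌊x.1.2 / R⌋ := (mA2.div_const R).floor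
    refine Measurable.prodMk (f1.prodMk f2) (Measurable.prodMk
      ((mb1.div_const _).floor.prodMk (mb2.div_const _).floor) ?_)
    exact ((my.sub (((hcast.comp f1).mul mb1).add ((hcast.comp f2).mul mb2) |>.const_mul (2 * R))).div_const _).floor
  exact hmeas (measurableSet_singleton d)

theorem re_pk_cell_eq_ray (R : ℝ) (k : ℕ) (d : RePkIx) : rePkCell R k d = rePkRay R k 0 d := by
  ext x
  simp [rePkCell, rePkRay, RtRow.flow]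

theorem re_pk_cell_meas (R : ℝ) (k : ℕ) (d : RePkIx) : MeasurableSet (rePkCell R k d) := by
  rw [re_pk_cell_eq_ray]
  exact re_pk_ray_meas R k 0 d

/-- **L-256-RE-PK-PM**: power mean and superadditivity for the exponent `3/2`.   PLAN: `Real.rpow_sum_le_const_mul_sum_rpow_of_nonneg` (`p = 3/2`); second: `x^(3/2) = x * x^(1/2) ≤ x * (Σ x)^(1/2)`. -/
theorem re_pk_pm {ι : Type} (J : Finset ι) (x : ι → ℝ) (hx : ∀ j ∈ J, 0 ≤ x j) :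
    (∑ j ∈ J, x j) ^ (3 / 2 : ℝ) ≤ (J.card : ℝ) ^ (1 / 2 : ℝ) * ∑ j ∈ J, x j ^ (3 / 2 : ℝ) ∧ ∑ j ∈ J, x j ^ (3 / 2 : ℝ) ≤ (∑ j ∈ J, x j) ^ (3 / 2 : ℝ) := by
  constructor
  · have h := Real.rpow_sum_le_const_mul_sum_rpow_of_nonneg J (p := (3 / 2 : ℝ)) (by norm_num) hx
    have e : (3 / 2 : ℝ) - 1 = 1 / 2 := by norm_num
    rw [e] at h
    exact h
  · have hS : 0 ≤ ∑ j ∈ J, x j := Finset.sum_nonneg hx
    have e : ∀ y : ℝ, 0 ≤ y → y ^ (3 / 2 : ℝ) = y * y ^ (1 / 2 : ℝ) := by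
      intro y hy
      rcases hy.eq_or_lt with h0 | h0
      · rw [← h0, Real.zero_rpow (by norm_num), zero_mul]
      · have : (3 / 2 : ℝ) = 1 + 1 / 2 := by norm_num
        rw [this, Real.rpow_add h0, Real.rpow_one]
    rw [e _ hS, Finset.sum_mul]
    refine Finset.sum_le_sum fun j hj => ?_
    rw [e _ (hx j hj)]
    refine mul_le_mul_of_nonneg_left ?_ (hx j hj)
    exact Real.rpow_le_rpow (hx j hj) (Finset.single_le_sum hx hj) (by norm_num)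

/-- **L-256-RE-PK-TR**: transfer of `ℓ^{3/2}` sums.   PLAN: `re_pk_pm`; exchange the sums; for fixed `c`, `Σ_{d ∈ D} b (sh c d)^(3/2) = Σ_{d' ∈ D.image (sh c)} b d'^(3/2)` (`Finset.sum_image`, `re_pk_sh_inj`) `≤ Σ_{image₂}`
(`Finset.sum_le_sum_of_subset_of_nonneg`, `Finset.mem_image₂_of_mem`);   `card^(1/2) * card = card^(3/2)`. -/
theorem re_pk_tr (N D : Finset RePkIx) (a b : RePkIx → ℝ) (ha : ∀ d, 0 ≤ a d) (hb : ∀ d, 0 ≤ b d) (h : ∀ d ∈ D, a d ≤ ∑ c ∈ N, b (rePkSh c d)) :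
    ∑ d ∈ D, a d ^ (3 / 2 : ℝ) ≤ (N.card : ℝ) ^ (3 / 2 : ℝ) * ∑ d ∈ Finset.image₂ rePkSh N D, b d ^ (3 / 2 : ℝ) := by
  classical
  have h1 : ∀ d ∈ D, a d ^ (3 / 2 : ℝ) ≤ (N.card : ℝ) ^ (1 / 2 : ℝ) * ∑ c ∈ N, b (rePkSh c d) ^ (3 / 2 : ℝ) := by
    intro d hd
    calc a d ^ (3 / 2 : ℝ) ≤ (∑ c ∈ N, b (rePkSh c d)) ^ (3 / 2 : ℝ) := Real.rpow_le_rpow (ha d) (h d hd) (by norm_num)
      _ ≤ _ := (re_pk_pm N (fun c => b (rePkSh c d)) fun c _ => hb _).1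
  have h2 : ∀ c ∈ N, ∑ d ∈ D, b (rePkSh c d) ^ (3 / 2 : ℝ) ≤ ∑ d ∈ Finset.image₂ rePkSh N D, b d ^ (3 / 2 : ℝ) := by
    intro c hc
    rw [← Finset.sum_image (f := fun d => b d ^ (3 / 2 : ℝ)) (g := rePkSh c) (s := D) fun x _ y _ hxy => re_pk_sh_inj c hxy]
    refine Finset.sum_le_sum_of_subset_of_nonneg ?_ fun d _ _ => Real.rpow_nonneg (hb d) _
    intro d hd
    obtain ⟨d0, hd0, rfl⟩ := Finset.mem_image.1 hd
    exact Finset.mem_image₂_of_mem hc hd0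
  have hc : (N.card : ℝ) ^ (3 / 2 : ℝ) = (N.card : ℝ) ^ (1 / 2 : ℝ) * N.card := by
    rcases (Nat.cast_nonneg N.card : (0 : ℝ) ≤ N.card).eq_or_lt with h0 | h0
    · rw [← h0, Real.zero_rpow (by norm_num), mul_zero]
    · have : (3 / 2 : ℝ) = 1 / 2 + 1 := by norm_num
      rw [this, Real.rpow_add h0, Real.rpow_one]
  calc ∑ d ∈ D, a d ^ (3 / 2 : ℝ) ≤ ∑ d ∈ D, (N.card : ℝ) ^ (1 / 2 : ℝ) * ∑ c ∈ N, b (rePkSh c d) ^ (3 / 2 : ℝ) := Finset.sum_le_sum h1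
    _ = (N.card : ℝ) ^ (1 / 2 : ℝ) * ∑ c ∈ N, ∑ d ∈ D, b (rePkSh c d) ^ (3 / 2 : ℝ) := by
        rw [← Finset.mul_sum, Finset.sum_comm]
    _ ≤ (N.card : ℝ) ^ (1 / 2 : ℝ) * ∑ _c ∈ N, ∑ d ∈ Finset.image₂ rePkSh N D, b d ^ (3 / 2 : ℝ) := by
        refine mul_le_mul_of_nonneg_left (Finset.sum_le_sum h2) (Real.rpow_nonneg (Nat.cast_nonneg _) _)
    _ = _ := by
        rw [Finset.sum_const, nsmul_eq_mul, hc, mul_assoc]

end Claimed.Agent.R256
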