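-- KEEP
import Claimed.Agent.R256.Base.RndGeo

/-!
# Row 256, unit RE, block PL, file 2: THE VOLUME OF A CLASSICAL ROUND TEST  (lem:rt-test-volume, 08-round-entropy.tex l.66-118)            (architect helper236; prefix `re_pk_`)
PAPER FREE (plans below are complete).   Everything in the NORMALISED coordinates `c = (x, V, z) ∈ ℝ² × ℝ² × ℝ` of a frame (`RdFrm.nc`), in which a test is an `RtTest` of length `1`.
* `rePkRow c`          the point `c` as a row `(A, b, y) = (V, x, z)`.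
* `rePkNt φ k Q`       the test `Q` (at length `2^-k`) in the coordinates of the frame `φ`: length `1`, width `Q.r/φ.r`, centre `= nc` of the centre, same `f`, same polynomial.      `re_pk_nt`: `p ∈ Q.rows k ↔ rePkRow (φ.nc k p) ∈ (rePkNt φ k Q).set 1`.
* `re_pk_vol`          `vol {‖c‖ ≤ 3, c ∈ test} ≤ C min(r⁶, r) f`.
* `re_pk_quot`         `min(r⁶, r) f ≤ ϑ^η r⁴ f^(1-η)` if `r f ≤ ϑ ≤ 1`.
-/

set_option autoImplicit false

namespace Claimed.Agent.R256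

open MeasureTheory
open scoped ENNReal

/-- normalised coordinates `(x, V, z)` -/
abbrev RePkC : Type := (ℝ × ℝ) × (ℝ × ℝ) × ℝ

/-- a point of normalised coordinates as a row -/
def rePkRow (c : RePkC) : RtRow := ⟨c.2.1, c.1, c.2.2⟩

/-- a test in the coordinates of a frame -/
noncomputable def rePkNt (φ : RdFrm) (k : ℕ) (Q : RdTst) : RtTest :=
  ⟨1, Q.r / φ.r, Q.f, φ.r⁻¹ • (Q.As - φ.As), (rdLen k * φ.r)⁻¹ • (Q.bs - φ.bs),
    (Q.ys - φ.ys - 2 * rtIp φ.As (Q.bs - φ.bs)) / (rdLen k * φ.r ^ 2), Q.n⟩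

theorem re_pk_vol_eqns_cite : True := by
  have := @rePkRow.eq_1
  have := @rePkNt.eq_1
  trivial

/-- **L-256-RE-PK-NT**.   PLAN: the three normalised coordinates agree: `(Q.toT k).x p = (rePkNt φ k Q).x (rePkRow (φ.nc k p))`, the same for `V`, `z` (unfold `RdTst.toT, RdFrm.nc, RdFrm.toT, rtRound, RtTest.x, RtTest.V, RtTest.z, rtIp`;
`Prod.ext`; `field_simp; ring`, with `rdLen_pos k`, `hφ`, `hQ`);   then `RdTst.rows, RtTest.set, RtTest.box, RtTest.Fv, RtTest.Gv` are functions of these three, of `f` and of `n`. -/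
theorem re_pk_nt (φ : RdFrm) (hφ : 0 < φ.r) (k : ℕ) (Q : RdTst) (hQ : 0 < Q.r) (p : RtRow) :
    p ∈ Q.rows k ↔ rePkRow (φ.nc k p) ∈ (rePkNt φ k Q).set 1 := by
  have hl := rdLen_pos k
  have hx : (rePkNt φ k Q).x (rePkRow (φ.nc k p)) = (Q.toT k).x p := by
    ext <;>
    · simp only [RdTst.toT, RdFrm.nc, RdFrm.toT, rtRound, RtTest.x, rePkNt, rePkRow, Prod.smul_fst, Prod.smul_snd, Prod.fst_sub, Prod.snd_sub, smul_eq_mul]
      field_simp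
      ring
  have hV : (rePkNt φ k Q).V (rePkRow (φ.nc k p)) = (Q.toT k).V p := by
    ext <;>
    · simp only [RdTst.toT, RdFrm.nc, RdFrm.toT, rtRound, RtTest.V, rePkNt, rePkRow, Prod.smul_fst, Prod.smul_snd, Prod.fst_sub, Prod.snd_sub, smul_eq_mul]
      field_simp
      ring
  have hz : (rePkNt φ k Q).z (rePkRow (φ.nc k p)) = (Q.toT k).z p := by
    simp only [RdTst.toT, RdFrm.nc, RdFrm.toT, rtRound, RtTest.z, RtTest.x, RtTest.V, rePkNt, rePkRow, rtIp, Prod.smul_fst, Prod.smul_snd, Prod.fst_sub, Prod.snd_sub, smul_eq_mul]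
    field_simp
    ring
  unfold RdTst.rows RtTest.set RtTest.box RtTest.Fv RtTest.Gv
  simp only [Set.mem_ofPred_eq, hx, hV, hz]
  exact Iff.rfl

theorem re_pk_nt_adm (φ : RdFrm) (hφ : 0 < φ.r) (k : ℕ) (Q : RdTst) (hQ : (Q.toT k).Adm 1) : (rePkNt φ k Q).Adm 1 :=
  ⟨one_pos, div_pos hQ.r_pos hφ, hQ.f_pos, hQ.f_le, hQ.disc, hQ.bd⟩

/-- one monotone piece has small diameter -/
theorem re_pk_v1_piece (c a be f lam : ℝ) (hl : 0 < lam) (S : Set ℝ)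
    (hS : ∀ t ∈ S, |c + a * t + be * t ^ 2| ≤ f ∧ lam ≤ a + 2 * be * t) : volume S ≤ ENNReal.ofReal (2 * f / lam) := by
  refine (Real.volume_le_diam S).trans (Metric.ediam_le ?_)
  have key : ∀ t₁ ∈ S, ∀ t₂ ∈ S, t₁ ≤ t₂ → t₂ - t₁ ≤ 2 * f / lam := by
    intro t₁ h₁ t₂ h₂ h
    obtain ⟨q1, d1⟩ := hS t₁ h₁
    obtain ⟨q2, d2⟩ := hS t₂ h₂
    rw [le_div_iff₀ hl]
    have e : (c + a * t₂ + be * t₂ ^ 2) - (c + a * t₁ + be * t₁ ^ 2) = (t₂ - t₁) * (((a + 2 * be * t₁) + (a + 2 * be * t₂)) / 2) := by ring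
    have h3 : (t₂ - t₁) * lam ≤ (t₂ - t₁) * (((a + 2 * be * t₁) + (a + 2 * be * t₂)) / 2) :=
      mul_le_mul_of_nonneg_left (by linarith) (by linarith)
    have := (abs_le.mp q1).1
    have := (abs_le.mp q2).2
    linarith
  intro x hx y hy
  rw [edist_dist]
  apply ENNReal.ofReal_le_ofReal
  rw [Real.dist_eq]
  rcases le_total x y with h | h
  · rw [abs_sub_comm, abs_of_nonneg (by linarith)]
    exact key x hx y hy h
  · rw [abs_of_nonneg (by linarith)]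
    exact key y hy x hx h

/-- **L-256-RE-PK-V1** (one variable).   PLAN: the set is `S₊ ∪ S₋`, `S₊ = {|q| ≤ f, lam ≤ q'}`, `S₋ = {|q| ≤ f, q' ≤ -lam}`.   For `t₁ ≤ t₂` in `S₊`:   `q t₂ - q t₁ = (t₂ - t₁)(q' t₁ + q' t₂)/2 ≥ lam (t₂ - t₁)` (`ring`/`nlinarith`), and `≤ 2f`:
`S₊` has diameter `≤ 2f/lam`;   `Real.volume_le_diam`, `EMetric.diam_le` / `Metric.ediam_le_of_forall_dist_le`.   The same for `S₋`.   `measure_union_le`. -/
theorem re_pk_v1 (c a be f lam : ℝ) (hf : 0 ≤ f) (hl : 0 < lam) :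
    volume {t : ℝ | |c + a * t + be * t ^ 2| ≤ f ∧ lam ≤ |a + 2 * be * t|} ≤ ENNReal.ofReal (4 * f / lam) := by
  have hsub : {t : ℝ | |c + a * t + be * t ^ 2| ≤ f ∧ lam ≤ |a + 2 * be * t|}
      ⊆ {t : ℝ | |c + a * t + be * t ^ 2| ≤ f ∧ lam ≤ a + 2 * be * t} ∪ {t : ℝ | |c + a * t + be * t ^ 2| ≤ f ∧ lam ≤ -(a + 2 * be * t)} := by
    intro t ht
    rcases le_abs.mp ht.2 with h | h
    · exact Or.inl ⟨ht.1, h⟩
    · exact Or.inr ⟨ht.1, h⟩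
  refine (measure_mono hsub).trans ((measure_union_le _ _).trans ?_)
  have h1 := re_pk_v1_piece c a be f lam hl {t : ℝ | |c + a * t + be * t ^ 2| ≤ f ∧ lam ≤ a + 2 * be * t} (fun t ht => ht)
  have h2 := re_pk_v1_piece (-c) (-a) (-be) f lam hl {t : ℝ | |c + a * t + be * t ^ 2| ≤ f ∧ lam ≤ -(a + 2 * be * t)} (fun t ht => by
    refine ⟨?_, ?_⟩
    · have e : -c + -a * t + -be * t ^ 2 = -(c + a * t + be * t ^ 2) := by ring
      rw [e, abs_neg]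
      exact ht.1
    · have := ht.2
      linarith)
  refine (add_le_add h1 h2).trans (le_of_eq ?_)
  rw [← ENNReal.ofReal_add (by positivity) (by positivity)]
  congr 1
  ring

theorem re_pk_v_and {α : Type} [MeasurableSpace α] {p q : α → Prop} (hp : MeasurableSet {a | p a}) (hq : MeasurableSet {a | q a}) :
    MeasurableSet {a | p a ∧ q a} := hp.inter hq

theorem re_pk_v_le {α : Type} [MeasurableSpace α] {f g : α → ℝ} (hf : Measurable f) (hg : Measurable g) : MeasurableSet {a | f a ≤ g a} :=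
  measurableSet_le hf hg

/-- the interval -/
theorem re_pk_v_int (c w : ℝ) : volume {y : ℝ | |y - c| ≤ w} = ENNReal.ofReal (2 * w) := by
  have e : {y : ℝ | |y - c| ≤ w} = Metric.closedBall c w := by
    ext y
    simp only [Set.mem_ofPred_eq, Metric.mem_closedBall, Real.dist_eq]
  rw [e, Real.volume_closedBall]

/-- a set over the base `A` (first factor) with small sections -/
theorem re_pk_v_fib {α β : Type} [MeasurableSpace α] [MeasurableSpace β] (μ : Measure α) (ν : Measure β) [SFinite ν]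
    (S : Set (α × β)) (hS : MeasurableSet S) (A : Set α) (hA : MeasurableSet A) (c : ℝ≥0∞)
    (h1 : ∀ p ∈ S, p.1 ∈ A) (h2 : ∀ a, ν (Prod.mk a ⁻¹' S) ≤ c) : (μ.prod ν) S ≤ μ A * c := by
  rw [Measure.prod_apply hS]
  calc ∫⁻ a, ν (Prod.mk a ⁻¹' S) ∂μ ≤ ∫⁻ a, A.indicator (fun _ => c) a ∂μ := by
        apply lintegral_mono
        intro a
        by_cases ha : a ∈ A
        · simp only [Set.indicator_of_mem ha]
          exact h2 a
        · have e : Prod.mk a ⁻¹' S = ∅ := by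
            ext b
            simp only [Set.mem_preimage, Set.mem_empty_iff_false, iff_false]
            exact fun hb => ha (h1 _ hb)
          simp only [e, measure_empty, zero_le]
    _ = μ A * c := by rw [lintegral_indicator_const hA, mul_comm]

/-- a set over the base `B` (second factor) with small sections -/
theorem re_pk_v_fib' {α β : Type} [MeasurableSpace α] [MeasurableSpace β] (μ : Measure α) (ν : Measure β) [SFinite μ] [SFinite ν]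
    (S : Set (α × β)) (hS : MeasurableSet S) (B : Set β) (hB : MeasurableSet B) (c : ℝ≥0∞)
    (h1 : ∀ p ∈ S, p.2 ∈ B) (h2 : ∀ b, μ ((fun a => (a, b)) ⁻¹' S) ≤ c) : (μ.prod ν) S ≤ ν B * c := by
  rw [Measure.prod_apply_symm hS]
  calc ∫⁻ b, μ ((fun a => (a, b)) ⁻¹' S) ∂ν ≤ ∫⁻ b, B.indicator (fun _ => c) b ∂ν := by
        apply lintegral_mono
        intro b
        by_cases hb : b ∈ B
        · simp only [Set.indicator_of_mem hb]
          exact h2 b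
        · have e : (fun a => (a, b)) ⁻¹' S = ∅ := by
            ext a
            simp only [Set.mem_preimage, Set.mem_empty_iff_false, iff_false]
            exact fun ha => hb (h1 _ ha)
          simp only [e, measure_empty, zero_le]
    _ = ν B * c := by rw [lintegral_indicator_const hB, mul_comm]

/-- the square -/
theorem re_pk_v_sq (x0 : ℝ × ℝ) (r : ℝ) (hr : 0 ≤ r) :
    MeasurableSet {x : ℝ × ℝ | |x.1 - x0.1| ≤ r ∧ |x.2 - x0.2| ≤ r} ∧ volume {x : ℝ × ℝ | |x.1 - x0.1| ≤ r ∧ |x.2 - x0.2| ≤ r} = ENNReal.ofReal (4 * r ^ 2) := by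
  refine ⟨?_, ?_⟩
  · refine re_pk_v_and (re_pk_v_le ?_ measurable_const) (re_pk_v_le ?_ measurable_const) <;> fun_prop
  · have e : {x : ℝ × ℝ | |x.1 - x0.1| ≤ r ∧ |x.2 - x0.2| ≤ r} = {y : ℝ | |y - x0.1| ≤ r} ×ˢ {y : ℝ | |y - x0.2| ≤ r} := by
      ext x
      simp only [Set.mem_ofPred_eq, Set.mem_prod]
    rw [e, Measure.volume_eq_prod, Measure.prod_prod, re_pk_v_int, re_pk_v_int, ← ENNReal.ofReal_mul (by positivity)]
    congr 1
    ring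

/-- **L-256-RE-PK-V2** (two variables).   PLAN: `2 lam² ≤ g₁² + g₂²` gives `lam ≤ |g₁|` or `lam ≤ |g₂|`: the set is contained in `S₁ ∪ S₂`.   `S₁ = {|V.2 - W.2| ≤ L, |q| ≤ f, lam ≤ |a.1 + 2 be V.1|}` is measurable (closed: `fun_prop`);
`Measure.volume_eq_prod`, `Measure.prod_apply_symm` (slices at fixed `V.2`): the slice is empty unless `|V.2 - W.2| ≤ L`, else it is the set of `re_pk_v1` with `c := c + a.2 V.2 + be V.2²`, `a := a.1`;
`lintegral` of `1_{[W.2-L, W.2+L]} * ofReal (4f/lam)` `= 2L * 4f/lam`.   The same for `S₂` with `Measure.prod_apply`. -/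
theorem re_pk_v2 (c be f lam L : ℝ) (a W : ℝ × ℝ) (hf : 0 ≤ f) (hl : 0 < lam) (hL : 0 ≤ L) :
    volume {V : ℝ × ℝ | |V.1 - W.1| ≤ L ∧ |V.2 - W.2| ≤ L ∧ |c + rtIp a V + be * rtSq V| ≤ f ∧ 2 * lam ^ 2 ≤ rtSq (a + (2 * be) • V)}
      ≤ ENNReal.ofReal (16 * L * f / lam) := by
  have hsub : {V : ℝ × ℝ | |V.1 - W.1| ≤ L ∧ |V.2 - W.2| ≤ L ∧ |c + rtIp a V + be * rtSq V| ≤ f ∧ 2 * lam ^ 2 ≤ rtSq (a + (2 * be) • V)}
      ⊆ {V : ℝ × ℝ | |V.2 - W.2| ≤ L ∧ |c + rtIp a V + be * rtSq V| ≤ f ∧ lam ≤ |a.1 + 2 * be * V.1|}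
        ∪ {V : ℝ × ℝ | |V.1 - W.1| ≤ L ∧ |c + rtIp a V + be * rtSq V| ≤ f ∧ lam ≤ |a.2 + 2 * be * V.2|} := by
    intro V hV
    obtain ⟨h1, h2, h3, h4⟩ := hV
    simp only [rtSq, Prod.fst_add, Prod.snd_add, Prod.smul_fst, Prod.smul_snd, smul_eq_mul] at h4
    by_cases h : lam ≤ |a.1 + 2 * be * V.1|
    · exact Or.inl ⟨h2, h3, h⟩
    · refine Or.inr ⟨h1, h3, ?_⟩
      rw [not_le] at h
      by_contra h'
      rw [not_le] at h'
      have e1 : (a.1 + 2 * be * V.1) ^ 2 < lam ^ 2 := by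
        rw [← sq_abs]
        exact pow_lt_pow_left₀ h (abs_nonneg _) (by norm_num)
      have e2 : (a.2 + 2 * be * V.2) ^ 2 < lam ^ 2 := by
        rw [← sq_abs]
        exact pow_lt_pow_left₀ h' (abs_nonneg _) (by norm_num)
      linarith
  refine (measure_mono hsub).trans ((measure_union_le _ _).trans ?_)
  have hm1 : MeasurableSet {V : ℝ × ℝ | |V.2 - W.2| ≤ L ∧ |c + rtIp a V + be * rtSq V| ≤ f ∧ lam ≤ |a.1 + 2 * be * V.1|} := by
    unfold rtIp rtSq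
    refine re_pk_v_and (re_pk_v_le ?_ measurable_const) (re_pk_v_and (re_pk_v_le ?_ measurable_const) (re_pk_v_le measurable_const ?_)) <;> fun_prop
  have hm2 : MeasurableSet {V : ℝ × ℝ | |V.1 - W.1| ≤ L ∧ |c + rtIp a V + be * rtSq V| ≤ f ∧ lam ≤ |a.2 + 2 * be * V.2|} := by
    unfold rtIp rtSq
    refine re_pk_v_and (re_pk_v_le ?_ measurable_const) (re_pk_v_and (re_pk_v_le ?_ measurable_const) (re_pk_v_le measurable_const ?_)) <;> fun_prop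
  have hI : ∀ w : ℝ, MeasurableSet {y : ℝ | |y - w| ≤ L} := fun w => re_pk_v_le (by fun_prop) measurable_const
  have k1 := re_pk_v_fib' (volume : Measure ℝ) (volume : Measure ℝ) _ hm1 {y : ℝ | |y - W.2| ≤ L} (hI _) (ENNReal.ofReal (4 * f / lam)) (fun p hp => hp.1) (by
    intro b
    refine (measure_mono ?_).trans (re_pk_v1 (c + a.2 * b + be * b ^ 2) a.1 be f lam hf hl)
    intro t ht
    obtain ⟨-, h2, h3⟩ := ht
    refine ⟨?_, h3⟩
    simp only [rtIp, rtSq] at h2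
    refine le_of_eq_of_le (congrArg _ ?_) h2
    ring)
  have k2 := re_pk_v_fib (volume : Measure ℝ) (volume : Measure ℝ) _ hm2 {y : ℝ | |y - W.1| ≤ L} (hI _) (ENNReal.ofReal (4 * f / lam)) (fun p hp => hp.1) (by
    intro b
    refine (measure_mono ?_).trans (re_pk_v1 (c + a.1 * b + be * b ^ 2) a.2 be f lam hf hl)
    intro t ht
    obtain ⟨-, h2, h3⟩ := ht
    refine ⟨?_, h3⟩
    simp only [rtIp, rtSq] at h2
    refine le_of_eq_of_le (congrArg _ ?_) h2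
    ring)
  rw [Measure.volume_eq_prod]
  refine (add_le_add k1 k2).trans (le_of_eq ?_)
  rw [re_pk_v_int, re_pk_v_int, ← ENNReal.ofReal_mul (by positivity), ← ENNReal.ofReal_add (by positivity) (by positivity)]
  congr 1
  ring

/-- **L-256-RE-PK-V3** (slicing in the middle variable).   PLAN: `volume = volume.prod (volume.prod volume)`;   `Measure.prod_apply hS`, inner `Measure.prod_apply_symm`:   `vol S = ∫⁻ x, ∫⁻ z, vol {V | (x,V,z) ∈ S}`,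
the integrand is `≤ a * 1_B (x,z)`;   `lintegral_const_mul`, `lintegral_indicator`, `Measure.prod_apply hB` backwards. -/
theorem re_pk_v3 (S : Set RePkC) (hS : MeasurableSet S) (B : Set ((ℝ × ℝ) × ℝ)) (hB : MeasurableSet B) (a : ℝ≥0∞)
    (hSB : ∀ c ∈ S, (c.1, c.2.2) ∈ B) (ha : ∀ (x : ℝ × ℝ) (z : ℝ), volume {V : ℝ × ℝ | ((x, V, z) : RePkC) ∈ S} ≤ a) :
    volume S ≤ a * volume B := by
  rw [Measure.volume_eq_prod (ℝ × ℝ) ((ℝ × ℝ) × ℝ), Measure.volume_eq_prod (ℝ × ℝ) ℝ, Measure.prod_apply hS, Measure.prod_apply hB,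
    ← lintegral_const_mul _ (measurable_measure_prodMk_left hB)]
  apply lintegral_mono
  intro x
  have h1 := re_pk_v_fib' (volume : Measure (ℝ × ℝ)) (volume : Measure ℝ) (Prod.mk x ⁻¹' S) (measurable_prodMk_left hS) (Prod.mk x ⁻¹' B) (measurable_prodMk_left hB) a
    (fun p hp => hSB _ hp) (fun z => ha x z)
  rw [mul_comm] at h1
  exact h1

/-- **L-256-RE-PK-V4** (the position box of a test).   PLAN: closed, hence measurable;   `Measure.prod_apply`: the slice at `x` is empty unless `|x.i - x0.i| ≤ r`, else an interval of length `2r²` (`Real.volume_Icc`, after rewriting `|z - w| ≤ r²` as `z ∈ Icc`);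
the `x`-square has volume `(2r)²` (`Measure.prod_prod` or `Real.volume_Icc_prod`). -/
theorem re_pk_v4 (r z0 : ℝ) (hr : 0 ≤ r) (x0 V0 : ℝ × ℝ) :
    volume {w : (ℝ × ℝ) × ℝ | |w.1.1 - x0.1| ≤ r ∧ |w.1.2 - x0.2| ≤ r ∧ |w.2 - z0 - 2 * rtIp V0 (w.1 - x0)| ≤ r ^ 2} ≤ ENNReal.ofReal (8 * r ^ 4) := by
  have hm : MeasurableSet {w : (ℝ × ℝ) × ℝ | |w.1.1 - x0.1| ≤ r ∧ |w.1.2 - x0.2| ≤ r ∧ |w.2 - z0 - 2 * rtIp V0 (w.1 - x0)| ≤ r ^ 2} := by
    unfold rtIp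
    refine re_pk_v_and (re_pk_v_le ?_ measurable_const) (re_pk_v_and (re_pk_v_le ?_ measurable_const) (re_pk_v_le ?_ measurable_const)) <;> fun_prop
  have k := re_pk_v_fib (volume : Measure (ℝ × ℝ)) (volume : Measure ℝ) _ hm _ (re_pk_v_sq x0 r hr).1 (ENNReal.ofReal (2 * r ^ 2)) (fun p hp => ⟨hp.1, hp.2.1⟩) (by
    intro x
    rw [← re_pk_v_int (z0 + 2 * rtIp V0 (x - x0)) (r ^ 2)]
    apply measure_mono
    intro z hz
    refine le_of_eq_of_le (congrArg _ ?_) hz.2.2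
    ring)
  rw [Measure.volume_eq_prod (ℝ × ℝ) ℝ]
  refine k.trans (le_of_eq ?_)
  rw [(re_pk_v_sq x0 r hr).2, ← ENNReal.ofReal_mul (by positivity)]
  congr 1
  ring

/-- the set whose volume is estimated -/
def rePkVS (τ : RtTest) : Set RePkC := {c | ‖c‖ ≤ 3 ∧ rePkRow c ∈ τ.set 1}

theorem re_pk_vs_eqns_cite : True := by
  have := @rePkVS.eq_1
  trivial

/-- **L-256-RE-PK-VM**.   PLAN: closed: intersection of preimages of closed sets under continuous maps; unfold `rePkVS, rePkRow, RtTest.set, RtTest.box, RtTest.Fv, RtTest.Gv, RtTest.x, RtTest.z, RtTest.V, RtPoly.F, RtPoly.G, rtIp, rtSq`, write the set as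
`{c | ..} ∩ {c | ..} ∩ ..`, `isClosed_le (by fun_prop) (by fun_prop)`. -/
theorem re_pk_vs_meas (τ : RtTest) : MeasurableSet (rePkVS τ) := by
  unfold rePkVS rePkRow RtTest.set RtTest.box RtTest.Fv RtTest.Gv RtTest.x RtTest.z RtTest.V RtPoly.F RtPoly.G rtIp rtSq
  simp only [Set.mem_ofPred_eq]
  refine re_pk_v_and (re_pk_v_le ?_ measurable_const) (re_pk_v_and (re_pk_v_and (re_pk_v_le ?_ measurable_const) (re_pk_v_and (re_pk_v_le ?_ measurable_const) (re_pk_v_le ?_ measurable_const)))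
    (re_pk_v_and (re_pk_v_le ?_ measurable_const) (re_pk_v_le ?_ measurable_const))) <;> fun_prop

/-- `G` as a polynomial in the unnormalised velocity -/
theorem re_pk_va_alg (n : RtPoly) (r : ℝ) (hr : 0 < r) (As V xQ : ℝ × ℝ) (zQ : ℝ) :
    n.G 0 xQ zQ (r⁻¹ • (V - As)) = (n.d + n.k * zQ - r⁻¹ * rtIp As (n.al - (2 * n.k) • xQ) + n.be / r ^ 2 * rtSq As)
      + rtIp (r⁻¹ • (n.al - (2 * n.k) • xQ) - (2 * (n.be / r ^ 2)) • As) V + n.be / r ^ 2 * rtSq V := by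
  simp only [RtPoly.G, rtSq, rtIp, Prod.fst_sub, Prod.snd_sub, Prod.smul_fst, Prod.smul_snd, smul_eq_mul]
  field_simp
  ring

theorem re_pk_va_alg2 (n : RtPoly) (r : ℝ) (hr : 0 < r) (As V xQ : ℝ × ℝ) :
    rtSq ((r⁻¹ • (n.al - (2 * n.k) • xQ) - (2 * (n.be / r ^ 2)) • As) + (2 * (n.be / r ^ 2)) • V) = rtSq (n.g 0 xQ (r⁻¹ • (V - As))) / r ^ 2 := by
  simp only [RtPoly.g, rtSq, Prod.fst_sub, Prod.snd_sub, Prod.fst_add, Prod.snd_add, Prod.smul_fst, Prod.smul_snd, smul_eq_mul]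
  field_simp
  ring

theorem re_pk_va_disc (n : RtPoly) (hd : n.disc = 1) (hb : n.Bd (100 * 1)) (f : ℝ) (hf : f ≤ 1 / 1600) (x : ℝ × ℝ) (z : ℝ) (V : ℝ × ℝ)
    (hF : |n.F 0 x z| ≤ 1 * f) (hG : |n.G 0 x z V| ≤ 1 * f) : 1 / 2 ≤ rtSq (n.g 0 x V) := by
  rw [rt_disc_identity n 0 x z V, hd, mul_zero, add_zero]
  obtain ⟨-, -, -, hbe, hk⟩ := hb
  rw [one_mul] at hF hG
  rw [mul_one] at hbe hk
  have h1 : |n.be * n.G 0 x z V| ≤ 100 * f := by
    rw [abs_mul]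
    exact mul_le_mul hbe hG (abs_nonneg _) (by norm_num)
  have h2 : |n.k * n.F 0 x z| ≤ 100 * f := by
    rw [abs_mul]
    exact mul_le_mul hk hF (abs_nonneg _) (by norm_num)
  have := (abs_le.mp h1).1
  have := (abs_le.mp h2).2
  linarith

/-- **L-256-RE-PK-VA** (thin tests, the angular slice).   For fixed `(x, z)` the slice of `rePkVS τ` lies in a square of half side `L` around `W`  (`(W, L) = (τ.As, τ.r)` or `(0, 3)`).
PLAN: on the slice `G` is the polynomial `c + a·V + be |V|²` in `V` with `be = τ.n.be / r²`, `a = r⁻¹ • (α - 2k x_Q) - (2 be) • τ.As`, and `a + 2 be V = r⁻¹ • g`, `g = τ.n.g 0 x_Q V_Q`;   `rt_disc_identity` at `u = 0` with `disc = 1`, `|β|, |k| ≤ 100`,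
`|F|, |G| ≤ f ≤ 1/1600`:   `rtSq g ≥ 1/2`, i.e. `2 lam² ≤ rtSq (a + 2 be V)` with `lam = 1/(2r)`;   `re_pk_v2`:   `≤ 16 L f * 2r`. -/
theorem re_pk_va (τ : RtTest) (hτ : τ.Adm 1) (hl : τ.l = 1) (hf : τ.f ≤ 1 / 1600) (x : ℝ × ℝ) (z L : ℝ) (W : ℝ × ℝ) (hL : 0 ≤ L)
    (hW : ∀ V : ℝ × ℝ, ((x, V, z) : RePkC) ∈ rePkVS τ → |V.1 - W.1| ≤ L ∧ |V.2 - W.2| ≤ L) :
    volume {V : ℝ × ℝ | ((x, V, z) : RePkC) ∈ rePkVS τ} ≤ ENNReal.ofReal (32 * L * τ.r * τ.f) := by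
  have hr := hτ.r_pos
  have key := re_pk_v2 (τ.n.d + τ.n.k * ((z - τ.ys - 2 * rtIp τ.As (x - τ.bs)) / (τ.l * τ.r ^ 2)) - τ.r⁻¹ * rtIp τ.As (τ.n.al - (2 * τ.n.k) • ((τ.l * τ.r)⁻¹ • (x - τ.bs))) + τ.n.be / τ.r ^ 2 * rtSq τ.As)
    (τ.n.be / τ.r ^ 2) τ.f (1 / (2 * τ.r)) L (τ.r⁻¹ • (τ.n.al - (2 * τ.n.k) • ((τ.l * τ.r)⁻¹ • (x - τ.bs))) - (2 * (τ.n.be / τ.r ^ 2)) • τ.As) W hτ.f_pos.le (by positivity) hL
  have e : 16 * L * τ.f / (1 / (2 * τ.r)) = 32 * L * τ.r * τ.f := by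
    field_simp
    ring
  rw [e] at key
  refine (measure_mono ?_).trans key
  intro V hV
  obtain ⟨h1, h2⟩ := hW V hV
  obtain ⟨-, -, hF, hG⟩ := hV
  have hF' : |τ.n.F 0 ((τ.l * τ.r)⁻¹ • (x - τ.bs)) ((z - τ.ys - 2 * rtIp τ.As (x - τ.bs)) / (τ.l * τ.r ^ 2))| ≤ 1 * τ.f := hF
  have hG' : |τ.n.G 0 ((τ.l * τ.r)⁻¹ • (x - τ.bs)) ((z - τ.ys - 2 * rtIp τ.As (x - τ.bs)) / (τ.l * τ.r ^ 2)) (τ.r⁻¹ • (V - τ.As))| ≤ 1 * τ.f := hG
  refine ⟨h1, h2, ?_, ?_⟩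
  · rw [← re_pk_va_alg τ.n τ.r hr]
    rwa [one_mul] at hG'
  · rw [re_pk_va_alg2 τ.n τ.r hr]
    have h3 := re_pk_va_disc τ.n hτ.disc hτ.bd τ.f hf _ _ _ hF' hG'
    rw [le_div_iff₀ (by positivity)]
    have e2 : 2 * (1 / (2 * τ.r)) ^ 2 * τ.r ^ 2 = 1 / 2 := by
      field_simp
    rw [e2]
    exact h3

theorem re_pk_v_comp (s : ℝ) (hs : 0 < s) (u : ℝ × ℝ) (h : rtSq (s⁻¹ • u) ≤ 1 ^ 2) : |u.1| ≤ s ∧ |u.2| ≤ s := by
  have e : rtSq (s⁻¹ • u) = (u.1 ^ 2 + u.2 ^ 2) / s ^ 2 := by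
    simp only [rtSq, Prod.smul_fst, Prod.smul_snd, smul_eq_mul]
    field_simp
  rw [e, div_le_iff₀ (by positivity)] at h
  constructor
  · apply abs_le_of_sq_le_sq _ hs.le
    nlinarith [sq_nonneg u.2]
  · apply abs_le_of_sq_le_sq _ hs.le
    nlinarith [sq_nonneg u.1]

/-- what membership says coordinate by coordinate -/
theorem re_pk_vs_mem (τ : RtTest) (hr : 0 < τ.r) (hl : τ.l = 1) (c : RePkC) (hc : c ∈ rePkVS τ) :
    ((|c.1.1 - 0| ≤ 3 ∧ |c.1.2 - 0| ≤ 3) ∧ (|c.2.1.1 - 0| ≤ 3 ∧ |c.2.1.2 - 0| ≤ 3) ∧ |c.2.2 - 0| ≤ 3) ∧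
    (|c.1.1 - τ.bs.1| ≤ τ.r ∧ |c.1.2 - τ.bs.2| ≤ τ.r ∧ |c.2.2 - τ.ys - 2 * rtIp τ.As (c.1 - τ.bs)| ≤ τ.r ^ 2) ∧
    (|c.2.1.1 - τ.As.1| ≤ τ.r ∧ |c.2.1.2 - τ.As.2| ≤ τ.r) := by
  obtain ⟨hn, ⟨hx, hz, hV⟩, -, -⟩ := hc
  refine ⟨?_, ?_, ?_⟩
  · simp only [sub_zero]
    have h1 : ‖c.1‖ ≤ 3 := (norm_fst_le c).trans hn
    have h2 : ‖c.2‖ ≤ 3 := (norm_snd_le c).trans hn
    have h3 : ‖c.2.1‖ ≤ 3 := (norm_fst_le c.2).trans h2
    exact ⟨⟨(norm_fst_le c.1).trans h1, (norm_snd_le c.1).trans h1⟩, ⟨(norm_fst_le c.2.1).trans h3, (norm_snd_le c.2.1).trans h3⟩, (norm_snd_le c.2).trans h2⟩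
  · have hx' : rtSq ((τ.l * τ.r)⁻¹ • (c.1 - τ.bs)) ≤ 1 ^ 2 := hx
    have hz' : |(c.2.2 - τ.ys - 2 * rtIp τ.As (c.1 - τ.bs)) / (τ.l * τ.r ^ 2)| ≤ 1 := hz
    rw [hl, one_mul] at hx' hz'
    obtain ⟨a1, a2⟩ := re_pk_v_comp τ.r hr _ hx'
    refine ⟨a1, a2, ?_⟩
    rw [abs_div, abs_of_pos (by positivity : 0 < τ.r ^ 2), div_le_one (by positivity)] at hz'
    exact hz'
  · have hV' : rtSq (τ.r⁻¹ • (c.2.1 - τ.As)) ≤ 1 ^ 2 := hV
    exact re_pk_v_comp τ.r hr _ hV'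

/-- the cube of half side `3` in `(x, z)` -/
theorem re_pk_v_cube : MeasurableSet {w : (ℝ × ℝ) × ℝ | (|w.1.1 - 0| ≤ 3 ∧ |w.1.2 - 0| ≤ 3) ∧ |w.2 - 0| ≤ 3} ∧
    volume {w : (ℝ × ℝ) × ℝ | (|w.1.1 - 0| ≤ 3 ∧ |w.1.2 - 0| ≤ 3) ∧ |w.2 - 0| ≤ 3} ≤ ENNReal.ofReal 216 := by
  have hm : MeasurableSet {w : (ℝ × ℝ) × ℝ | (|w.1.1 - 0| ≤ 3 ∧ |w.1.2 - 0| ≤ 3) ∧ |w.2 - 0| ≤ 3} := by
    refine re_pk_v_and (re_pk_v_and (re_pk_v_le ?_ measurable_const) (re_pk_v_le ?_ measurable_const)) (re_pk_v_le ?_ measurable_const) <;> fun_prop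
  refine ⟨hm, ?_⟩
  have k := re_pk_v_fib (volume : Measure (ℝ × ℝ)) (volume : Measure ℝ) _ hm _ (re_pk_v_sq (0, 0) 3 (by norm_num)).1 (ENNReal.ofReal (2 * 3)) (fun p hp => hp.1) (by
    intro x
    rw [← re_pk_v_int 0 3]
    apply measure_mono
    intro z hz
    exact hz.2)
  rw [Measure.volume_eq_prod (ℝ × ℝ) ℝ]
  refine k.trans (le_of_eq ?_)
  rw [(re_pk_v_sq (0, 0) 3 (by norm_num)).2, ← ENNReal.ofReal_mul (by positivity)]
  congr 1
  norm_num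

/-- the position box is measurable -/
theorem re_pk_v4_meas (r z0 : ℝ) (x0 V0 : ℝ × ℝ) :
    MeasurableSet {w : (ℝ × ℝ) × ℝ | |w.1.1 - x0.1| ≤ r ∧ |w.1.2 - x0.2| ≤ r ∧ |w.2 - z0 - 2 * rtIp V0 (w.1 - x0)| ≤ r ^ 2} := by
  unfold rtIp
  refine re_pk_v_and (re_pk_v_le ?_ measurable_const) (re_pk_v_and (re_pk_v_le ?_ measurable_const) (re_pk_v_le ?_ measurable_const)) <;> fun_prop

/-- **L-256-RE-PK-VT** (thin tests).   PLAN: twice `re_pk_v3` + `re_pk_va`.   (i) `B` = the set of `re_pk_v4` (`r := τ.r`, centre of `τ`), `(W, L) = (τ.As, τ.r)`:   `≤ 32 r² f * 8 r⁴`.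
(ii) `B = {‖w‖ ≤ 3}` (volume `6³`: `closedBall`, `Real.volume_closedBall`, `Measure.prod_prod`; or `⊆ Icc`-product), `(W, L) = (0, 3)`:   `≤ 96 r f * 216`. -/
theorem re_pk_vt (τ : RtTest) (hτ : τ.Adm 1) (hl : τ.l = 1) (hf : τ.f ≤ 1 / 1600) :
    volume (rePkVS τ) ≤ ENNReal.ofReal (20736 * min (τ.r ^ 6) τ.r * τ.f) := by
  have hr := hτ.r_pos
  have hf0 := hτ.f_pos
  have k1 := re_pk_v3 (rePkVS τ) (re_pk_vs_meas τ) _ (re_pk_v4_meas τ.r τ.ys τ.bs τ.As) (ENNReal.ofReal (32 * τ.r * τ.r * τ.f))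
    (fun c hc => (re_pk_vs_mem τ hr hl c hc).2.1)
    (fun x z => re_pk_va τ hτ hl hf x z τ.r τ.As hr.le (fun V hV => (re_pk_vs_mem τ hr hl _ hV).2.2))
  have k2 := re_pk_v3 (rePkVS τ) (re_pk_vs_meas τ) _ re_pk_v_cube.1 (ENNReal.ofReal (32 * 3 * τ.r * τ.f))
    (fun c hc => ⟨(re_pk_vs_mem τ hr hl c hc).1.1, (re_pk_vs_mem τ hr hl c hc).1.2.2⟩)
    (fun x z => re_pk_va τ hτ hl hf x z 3 (0, 0) (by norm_num) (fun V hV => (re_pk_vs_mem τ hr hl _ hV).1.2.1))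
  have k1' : volume (rePkVS τ) ≤ ENNReal.ofReal (256 * τ.r ^ 6 * τ.f) := by
    refine k1.trans ((mul_le_mul_right (re_pk_v4 τ.r τ.ys hr.le τ.bs τ.As) _).trans (le_of_eq ?_))
    rw [← ENNReal.ofReal_mul (by positivity)]
    congr 1
    ring
  have k2' : volume (rePkVS τ) ≤ ENNReal.ofReal (20736 * τ.r * τ.f) := by
    refine k2.trans ((mul_le_mul_right re_pk_v_cube.2 _).trans (le_of_eq ?_))
    rw [← ENNReal.ofReal_mul (by positivity)]
    congr 1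
    ring
  rcases le_total (τ.r ^ 6) τ.r with h | h
  · rw [min_eq_left h]
    refine k1'.trans (ENNReal.ofReal_le_ofReal ?_)
    have : 0 ≤ τ.r ^ 6 * τ.f := by positivity
    nlinarith
  · rw [min_eq_right h]
    exact k2'

/-- **L-256-RE-PK-VF** (fat tests: crude volume).   PLAN: `rePkVS τ ⊆ {‖c‖ ≤ 3}` of volume `6⁵ = 7776`;   `rePkVS τ ⊆ {|V.i - As.i| ≤ r} × (set of re_pk_v4)`, volume `≤ 4r² * 8r⁴` (`re_pk_v3` with `a = ofReal (4r²)`);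
`min(7776, 32 r⁶) ≤ 7776 min(1, r⁶) ≤ 7776 min(r⁶, r)` (cases `r ≤ 1`, `1 ≤ r`);   `1 ≤ 1600 f`. -/
theorem re_pk_vf (τ : RtTest) (hτ : τ.Adm 1) (hl : τ.l = 1) (hf : 1 / 1600 ≤ τ.f) :
    volume (rePkVS τ) ≤ ENNReal.ofReal (12441600 * min (τ.r ^ 6) τ.r * τ.f) := by
  have hr := hτ.r_pos
  have hf0 := hτ.f_pos
  have k1 := re_pk_v3 (rePkVS τ) (re_pk_vs_meas τ) _ (re_pk_v4_meas τ.r τ.ys τ.bs τ.As) (ENNReal.ofReal (4 * τ.r ^ 2))
    (fun c hc => (re_pk_vs_mem τ hr hl c hc).2.1)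
    (fun x z => by
      rw [← (re_pk_v_sq τ.As τ.r hr.le).2]
      exact measure_mono (fun V hV => (re_pk_vs_mem τ hr hl _ hV).2.2))
  have k2 := re_pk_v3 (rePkVS τ) (re_pk_vs_meas τ) _ re_pk_v_cube.1 (ENNReal.ofReal (4 * 3 ^ 2))
    (fun c hc => ⟨(re_pk_vs_mem τ hr hl c hc).1.1, (re_pk_vs_mem τ hr hl c hc).1.2.2⟩)
    (fun x z => by
      rw [← (re_pk_v_sq (0, 0) 3 (by norm_num)).2]
      exact measure_mono (fun V hV => (re_pk_vs_mem τ hr hl _ hV).1.2.1))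
  have k1' : volume (rePkVS τ) ≤ ENNReal.ofReal (32 * τ.r ^ 6) := by
    refine k1.trans ((mul_le_mul_right (re_pk_v4 τ.r τ.ys hr.le τ.bs τ.As) _).trans (le_of_eq ?_))
    rw [← ENNReal.ofReal_mul (by positivity)]
    congr 1
    ring
  have k2' : volume (rePkVS τ) ≤ ENNReal.ofReal 7776 := by
    refine k2.trans ((mul_le_mul_right re_pk_v_cube.2 _).trans (le_of_eq ?_))
    rw [← ENNReal.ofReal_mul (by positivity)]
    congr 1
    norm_num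
  rcases le_total τ.r 1 with h | h
  · have h6 : τ.r ^ 6 ≤ τ.r := by
      calc τ.r ^ 6 ≤ τ.r ^ 1 := pow_le_pow_of_le_one hr.le h (by norm_num)
        _ = τ.r := pow_one _
    rw [min_eq_left h6]
    refine k1'.trans (ENNReal.ofReal_le_ofReal ?_)
    have : 0 ≤ τ.r ^ 6 := by positivity
    nlinarith
  · have h6 : τ.r ≤ τ.r ^ 6 := by
      calc τ.r = τ.r ^ 1 := (pow_one _).symm
        _ ≤ τ.r ^ 6 := pow_le_pow_right₀ h (by norm_num)
    rw [min_eq_right h6]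
    refine k2'.trans (ENNReal.ofReal_le_ofReal ?_)
    nlinarith

/-- **lem:rt-test-volume**, normalised -/
theorem re_pk_vol (τ : RtTest) (hτ : τ.Adm 1) (hl : τ.l = 1) :
    volume (rePkVS τ) ≤ ENNReal.ofReal (12441600 * min (τ.r ^ 6) τ.r * τ.f) := by
  rcases le_total τ.f (1 / 1600) with hf | hf
  · refine (re_pk_vt τ hτ hl hf).trans (ENNReal.ofReal_le_ofReal ?_)
    have h1 : 0 ≤ min (τ.r ^ 6) τ.r * τ.f := mul_nonneg (le_min (pow_nonneg hτ.r_pos.le 6) hτ.r_pos.le) hτ.f_pos.le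
    nlinarith
  · exact re_pk_vf τ hτ hl hf

/-- **L-256-RE-PK-QUOT** (the three cases of l.176-180, in two).   PLAN: `f = f^(1-η) * f^η` (`Real.rpow_add`).   Case `r ≤ 1`: `min ≤ r⁶ = r⁴ r²`, `r² ≤ r^η` (`Real.rpow_le_rpow_of_exponent_ge`), `r^η f^η = (r f)^η ≤ ϑ^η`.
Case `1 ≤ r`: `min ≤ r ≤ r⁴`, `f^η ≤ (r f)^η ≤ ϑ^η`. -/
theorem re_pk_quot (η r f th : ℝ) (hη0 : 0 < η) (hη1 : η < 1) (hr : 0 < r) (hf0 : 0 < f) (hf1 : f ≤ 1) (hth : r * f ≤ th) (hth1 : th ≤ 1) :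
    min (r ^ 6) r * f ≤ th ^ η * (r ^ 4 * f ^ (1 - η)) := by
  have hff : f = f ^ (1 - η) * f ^ η := by
    rw [← Real.rpow_add hf0, sub_add_cancel, Real.rpow_one]
  have hrf : (r * f) ^ η ≤ th ^ η := Real.rpow_le_rpow (by positivity) hth hη0.le
  have h1 : 0 < f ^ (1 - η) := Real.rpow_pos_of_pos hf0 _
  have h2 : 0 < f ^ η := Real.rpow_pos_of_pos hf0 _
  rcases le_total r 1 with h | h
  · have h3 : r ^ 2 ≤ r ^ η := by
      rw [← Real.rpow_natCast r 2]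
      exact Real.rpow_le_rpow_of_exponent_ge hr h (by push_cast; linarith)
    calc min (r ^ 6) r * f ≤ r ^ 6 * f := mul_le_mul_of_nonneg_right (min_le_left _ _) hf0.le
      _ = r ^ 4 * f ^ (1 - η) * (r ^ 2 * f ^ η) := by
        conv_lhs => rw [hff]
        ring
      _ ≤ r ^ 4 * f ^ (1 - η) * (r ^ η * f ^ η) := by gcongr
      _ = r ^ 4 * f ^ (1 - η) * (r * f) ^ η := by rw [Real.mul_rpow hr.le hf0.le]
      _ ≤ r ^ 4 * f ^ (1 - η) * th ^ η := by gcongr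
      _ = _ := by ring
  · have h3 : r ≤ r ^ 4 := by
      calc r = r ^ 1 := (pow_one r).symm
        _ ≤ r ^ 4 := pow_le_pow_right₀ h (by norm_num)
    have h4 : f ^ η ≤ (r * f) ^ η := Real.rpow_le_rpow hf0.le (by nlinarith) hη0.le
    calc min (r ^ 6) r * f ≤ r * f := mul_le_mul_of_nonneg_right (min_le_right _ _) hf0.le
      _ = r * f ^ (1 - η) * f ^ η := by
        conv_lhs => rw [hff]
        ring
      _ ≤ r ^ 4 * f ^ (1 - η) * th ^ η := by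
        have := h4.trans hrf
        gcongr
      _ = _ := by ring

end Claimed.Agent.R256
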