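-- KEEP
import Claimed.Agent.R256.Re.PlGrid
import Claimed.Agent.R256.Re.PlVol
import Claimed.Agent.R256.Base.RndCl

/-!
# Row 256, unit RE, block PL, file 3: THE JITTERED CLASSICAL EXPERIMENT  (08-round-entropy.tex l.146-186)            (architect helper236; prefix `re_pk_`)
PAPER FREE.   INPUT: a finite measure `ν` on the wave rows `Ph = (A, b, y)` (it will be the raw row energy of ONE root box), a frame `φ` at the root cut `(T0, k0)` with `ν` supported in `φ.box k0 1`.
* `rePkSig φ k j`      the symmetry with parameters `j = (ũ, ã, ṽ)` IN FRAME UNITS;   in the coordinates of the frame it is `(x, V, z) ↦ (x+ũ, V+ã, z+ṽ+2ã·(x+ũ))`   (`re_pk_sig_nc`).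
* `rePkPull φ k j Q`   the pulled back test: same `r, f, n`, moved centre;   `rePkSig φ k j p ∈ Q.rows k ↔ p ∈ (rePkPull φ k j Q).rows k`   EXACTLY (`re_pk_pull`).
* `rePkLam δ`          the normalised Lebesgue measure on the cube `‖j‖ ≤ δ`.
* `rePkPar ν φ k0 T0 δ`   the classical parameter: particles `(x, j)`, measure `ν × rePkLam δ`, phase point at the time `T0` `= rePkSig φ k0 j x`   (`re_pk_co`).      State: the constant `1`.
* `rePkXp ..`          the experiment: root `(k0, i0)`, budget `ν(univ)`, regularity `κ`, free, labels = (final interval `i`, cell `d ∈ D` of the grid `(R, k0+n)`), fraction = indicator of the cell (a PARTITION), test = `rePkTs`.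
-/

set_option autoImplicit false

namespace Claimed.Agent.R256

open MeasureTheory
open scoped ENNReal

/-- the jitter symmetry of the frame `φ` at length `2^-k`, parameters `j = (ũ, ã, ṽ)` in frame units -/
noncomputable def rePkSig (φ : RdFrm) (k : ℕ) (j : RePkC) (p : RtRow) : RtRow :=
  ⟨p.A + φ.r • j.2.1, p.b + (rdLen k * φ.r) • j.1,
    p.y + rdLen k * φ.r ^ 2 * j.2.2 + 2 * φ.r * rtIp j.2.1 (p.b + (rdLen k * φ.r) • j.1 - φ.bs) + 2 * (rdLen k * φ.r) * rtIp φ.As j.1⟩

/-- the same in normalised coordinates -/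
def rePkSigN (j c : RePkC) : RePkC := (c.1 + j.1, c.2.1 + j.2.1, c.2.2 + j.2.2 + 2 * rtIp j.2.1 (c.1 + j.1))

/-- the pulled back test -/
noncomputable def rePkPull (φ : RdFrm) (k : ℕ) (j : RePkC) (Q : RdTst) : RdTst :=
  ⟨Q.r, Q.f, Q.As - φ.r • j.2.1, Q.bs - (rdLen k * φ.r) • j.1,
    Q.ys - rdLen k * φ.r ^ 2 * j.2.2 - 2 * (rdLen k * φ.r) * rtIp φ.As j.1 + 2 * φ.r * rtIp j.2.1 (φ.bs - Q.bs), Q.n⟩

/-- normalised Lebesgue measure on the cube of half side `δ` -/
noncomputable def rePkLam (δ : ℝ) : Measure RePkC :=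
  ENNReal.ofReal (((2 * δ) ^ 5)⁻¹) • (volume : Measure RePkC).restrict (Metric.closedBall 0 δ)

/-- the particles -/
abbrev RePkOm : Type := RdWvPar.Ph × RePkC

/-- velocity of a particle -/
noncomputable def rePkA (φ : RdFrm) (ω : RePkOm) : ℝ × ℝ := ω.1.1 + φ.r • ω.2.2.1

/-- position at the time `T0` -/
noncomputable def rePkB (φ : RdFrm) (k : ℕ) (ω : RePkOm) : ℝ × ℝ := ω.1.2.1 + (rdLen k * φ.r) • ω.2.1

/-- height at the time `T0` -/
noncomputable def rePkY (φ : RdFrm) (k : ℕ) (ω : RePkOm) : ℝ :=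
  ω.1.2.2 + rdLen k * φ.r ^ 2 * ω.2.2.2 + 2 * φ.r * rtIp ω.2.2.1 (ω.1.2.1 + (rdLen k * φ.r) • ω.2.1 - φ.bs) + 2 * (rdLen k * φ.r) * rtIp φ.As ω.2.1

theorem re_pk_mA (φ : RdFrm) : Measurable (rePkA φ) := by
  unfold rePkA
  fun_prop

theorem re_pk_mB (φ : RdFrm) (k : ℕ) : Measurable (rePkB φ k) := by
  unfold rePkB
  fun_prop

theorem re_pk_mY (φ : RdFrm) (k : ℕ) : Measurable (rePkY φ k) := by
  unfold rePkY rtIp
  fun_prop

instance re_pk_lam_fin (δ : ℝ) : IsFiniteMeasure (rePkLam δ) := by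
  unfold rePkLam
  have : IsFiniteMeasure ((volume : Measure RePkC).restrict (Metric.closedBall 0 δ)) :=
    ⟨by rw [Measure.restrict_apply_univ]; exact (isCompact_closedBall _ _).measure_lt_top⟩
  exact Measure.smul_finite _ ENNReal.ofReal_ne_top

/-- the classical parameter -/
noncomputable def rePkPar (ν : Measure RdWvPar.Ph) [IsFiniteMeasure ν] (φ : RdFrm) (k0 : ℕ) (T0 δ : ℝ) : RdClPar where
  Om := RePkOm
  m := ν.prod (rePkLam δ)
  Fb := ℂ
  A := rePkA φ
  B := fun ω => rePkB φ k0 ω + (-T0) • rePkA φ ω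
  Y := fun ω => rePkY φ k0 ω + (-T0) * rtSq (rePkA φ ω)
  sf := inferInstance
  mA := re_pk_mA φ
  mB := by
    have h1 := re_pk_mB φ k0
    have h2 := re_pk_mA φ
    fun_prop
  mY := by
    have h := re_pk_mA φ
    have h2 : Measurable fun ω => rtSq (rePkA φ ω) := by
      unfold rtSq
      fun_prop
    exact (re_pk_mY φ k0).add (h2.const_mul _)

/-- the state: the constant `1` -/
noncomputable def rePkSt (ν : Measure RdWvPar.Ph) [IsFiniteMeasure ν] (δ : ℝ) : Lp ℂ 2 (ν.prod (rePkLam δ)) :=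
  (memLp_const (1 : ℂ)).toLp _

/-- the labels: (final interval, cell) -/
noncomputable def rePkLb (k0 i0 n : ℕ) (D : Finset RePkIx) : Finset (ℕ × RePkIx) := ivs k0 i0 (k0 + n) ×ˢ D

/-- the enumeration of the labels -/
noncomputable def rePkEn (k0 i0 n : ℕ) (D : Finset RePkIx) (l : Fin (rePkLb k0 i0 n D).card) : ℕ × RePkIx :=
  ((rePkLb k0 i0 n D).equivFin.symm l).1

/-- the jittered classical experiment -/
noncomputable def rePkXp (η : ℝ) (ν : Measure RdWvPar.Ph) [IsFiniteMeasure ν] (φ : RdFrm) (k0 i0 n : ℕ) (δ κ R : ℝ) (D : Finset RePkIx) :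
    Xp ((rePkPar ν φ k0 (tmL k0 i0) δ).sys η) where
  k0 := k0
  i0 := i0
  n := n
  v := rePkSt ν δ
  e := ν.real Set.univ
  ka := κ
  b0 := 0
  st := []
  bT := 0
  L := (rePkLb k0 i0 n D).card
  iv := fun l => (rePkEn k0 i0 n D l).1
  ts := fun l => rePkTs R (k0 + n) (rePkEn k0 i0 n D l).2
  th := fun l => Set.indicator {ω | rePkIx R (k0 + n) ((rePkPar ν φ k0 (tmL k0 i0) δ).co (tmL (k0 + n) (rePkEn k0 i0 n D l).1) ω) = (rePkEn k0 i0 n D l).2} fun _ => 1

theorem re_pk_jit_eqns_cite : True := by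
  have := @rePkSig.eq_1
  have := @rePkSigN.eq_1
  have := @rePkPull.eq_1
  have := @rePkLam.eq_1
  have := @rePkA.eq_1
  have := @rePkB.eq_1
  have := @rePkY.eq_1
  have := @rePkPar.eq_1
  have := @rePkSt.eq_1
  have := @rePkLb.eq_1
  have := @rePkEn.eq_1
  have := @rePkXp.eq_1
  trivial

end Claimed.Agent.R256
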