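-- KEEP
import Claimed.Agent.R256.Re.PlJit

/-!
# Row 256, unit RE, block PL, file 4: THE JITTER, leaves            (architect helper236; prefix `re_pk_`)
PAPER FREE.   Algebra of the symmetry (`re_pk_sig_nc`, `re_pk_pull`, `re_pk_co`, `re_pk_jit_near`), the jitter measure (`re_pk_lam_*`, `re_pk_sigN_vol`), and the three facts on `ν × λ_δ`:
`re_pk_dens` (density `(2δ)^-5 ν(univ)` in frame coordinates), `re_pk_reg_hi` (tests above the uncertainty threshold: exact pull back), `re_pk_reg_lo` (tests below: volume lemma).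
Statements FROZEN; auxiliary lemmas directly above your theorem, prefix `re_pk_`; edit only your block.
-/

set_option autoImplicit false

namespace Claimed.Agent.R256

open MeasureTheory
open scoped ENNReal

/-- **L-256-RE-PK-SIGNC**.   PLAN: unfold `RdFrm.nc, RdFrm.toT, rtRound, RtTest.x, RtTest.V, RtTest.z, rePkSig, rePkSigN, rtIp`; `Prod.ext` three times; `field_simp; ring` (`rdLen_pos k`, `hφ`). -/
theorem re_pk_sig_nc (φ : RdFrm) (hφ : 0 < φ.r) (k : ℕ) (j : RePkC) (p : RtRow) : φ.nc k (rePkSig φ k j p) = rePkSigN j (φ.nc k p) := by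
  have hl' : rdLen k ≠ 0 := (rdLen_pos k).ne'
  have hr : φ.r ≠ 0 := hφ.ne'
  simp only [RdFrm.nc, RdFrm.toT, rtRound, RtTest.x, RtTest.V, RtTest.z, rePkSig, rePkSigN, rtIp]
  refine Prod.ext (Prod.ext ?_ ?_) (Prod.ext (Prod.ext ?_ ?_) ?_)
  · simp only [Prod.smul_fst, Prod.fst_sub, Prod.fst_add, smul_eq_mul]
    field_simp
    ring
  · simp only [Prod.smul_snd, Prod.snd_sub, Prod.snd_add, smul_eq_mul]
    field_simp
    ring
  · simp only [Prod.smul_fst, Prod.fst_sub, Prod.fst_add, smul_eq_mul]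
    field_simp
    ring
  · simp only [Prod.smul_snd, Prod.snd_sub, Prod.snd_add, smul_eq_mul]
    field_simp
    ring
  · simp only [Prod.smul_fst, Prod.fst_sub, Prod.fst_add, Prod.smul_snd, Prod.snd_sub, Prod.snd_add, smul_eq_mul]
    field_simp
    ring

/-- **L-256-RE-PK-PULL** (the symmetries preserve the tests EXACTLY, l.160-168).   PLAN: the three normalised coordinates agree: `(Q.toT k).x (rePkSig φ k j p) = ((rePkPull φ k j Q).toT k).x p`, the same for `V`, `z`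
(unfold; the numerators are equal by `ring` after `simp only [rtIp, Prod.fst_add, ..]`; NO division has to be cancelled: `congr 1`);   `rows, set, box, Fv, Gv` depend only on them, on `f` and on `n`. -/
theorem re_pk_pull (φ : RdFrm) (k : ℕ) (j : RePkC) (Q : RdTst) (p : RtRow) : rePkSig φ k j p ∈ Q.rows k ↔ p ∈ (rePkPull φ k j Q).rows k := by
  have hx : (Q.toT k).x (rePkSig φ k j p) = ((rePkPull φ k j Q).toT k).x p := by
    simp only [RdTst.toT, RtTest.x, rePkSig, rePkPull]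
    congr 1
    abel
  have hV : (Q.toT k).V (rePkSig φ k j p) = ((rePkPull φ k j Q).toT k).V p := by
    simp only [RdTst.toT, RtTest.V, rePkSig, rePkPull]
    congr 1
    abel
  have hz : (Q.toT k).z (rePkSig φ k j p) = ((rePkPull φ k j Q).toT k).z p := by
    simp only [RdTst.toT, RtTest.z, rePkSig, rePkPull]
    congr 1
    simp only [rtIp, Prod.smul_fst, Prod.fst_sub, Prod.fst_add, Prod.smul_snd, Prod.snd_sub, Prod.snd_add, smul_eq_mul]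
    ring
  have hf : ((rePkPull φ k j Q).toT k).f = (Q.toT k).f := rfl
  have hn : ((rePkPull φ k j Q).toT k).n = (Q.toT k).n := rfl
  simp only [RdTst.rows, RtTest.set, RtTest.box, RtTest.Fv, RtTest.Gv, Set.mem_ofPred_eq, hx, hV, hz, hf, hn]

theorem re_pk_pull_adm (φ : RdFrm) (k : ℕ) (j : RePkC) (Q : RdTst) (h : (Q.toT k).Adm 1) : ((rePkPull φ k j Q).toT k).Adm 1 :=
  ⟨h.l_pos, h.r_pos, h.f_pos, h.f_le, h.disc, h.bd⟩

theorem re_pk_pull_wt (φ : RdFrm) (k : ℕ) (j : RePkC) (Q : RdTst) (η : ℝ) : (rePkPull φ k j Q).wt η = Q.wt η := rfl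

/-- the phase point of a particle -/
theorem re_pk_co (ν : Measure RdWvPar.Ph) [IsFiniteMeasure ν] (φ : RdFrm) (k0 : ℕ) (T0 δ T : ℝ) (ω : RePkOm) :
    (rePkPar ν φ k0 T0 δ).co T ω = (rePkSig φ k0 ω.2 (RdWvPar.co 0 ω.1)).flow (T - T0) := by
  apply RtRow.ext
  · rfl
  · show (rePkB φ k0 ω + (-T0) • rePkA φ ω) + T • rePkA φ ω = rePkB φ k0 ω + (T - T0) • rePkA φ ω
    rw [add_assoc, ← add_smul]
    congr 2
    ring
  · show (rePkY φ k0 ω + (-T0) * rtSq (rePkA φ ω)) + T * rtSq (rePkA φ ω) = rePkY φ k0 ω + (T - T0) * rtSq (rePkA φ ω)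
    ring

theorem re_pk_l1 {x1 x2 W : ℝ} (hW : 0 ≤ W) (h : x1 ^ 2 + x2 ^ 2 ≤ W ^ 2) : |x1| + |x2| ≤ 3 / 2 * W := by
  have h1 : (|x1| + |x2|) ^ 2 ≤ (3 / 2 * W) ^ 2 := by
    have e1 := sq_abs x1
    have e2 := sq_abs x2
    nlinarith [sq_nonneg (|x1| - |x2|), sq_nonneg W]
  exact (pow_le_pow_iff_left₀ (by positivity) (by positivity) two_ne_zero).1 h1

theorem re_pk_ip_l1 {a1 a2 w1 w2 δ : ℝ} (h1 : |a1| ≤ δ) (h2 : |a2| ≤ δ) : |a1 * w1 + a2 * w2| ≤ δ * (|w1| + |w2|) := by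
  calc |a1 * w1 + a2 * w2| ≤ |a1 * w1| + |a2 * w2| := abs_add_le _ _
    _ = |a1| * |w1| + |a2| * |w2| := by rw [abs_mul, abs_mul]
    _ ≤ δ * |w1| + δ * |w2| := by gcongr
    _ = _ := by ring

theorem re_pk_jit_num (R l0 s δ t v a1 a2 u1 u2 w1 w2 c1 c2 : ℝ) (hR : 0 < R) (hl0 : 0 < l0) (hδ0 : 0 < δ) (hδ : 32 * δ ≤ s) (hs1 : s ≤ 1)
    (ht0 : 0 ≤ t) (ht1 : t ≤ l0) (hv : |v| ≤ δ) (ha1 : |a1| ≤ δ) (ha2 : |a2| ≤ δ) (hu1 : |u1| ≤ δ) (hu2 : |u2| ≤ δ)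
    (hw : w1 ^ 2 + w2 ^ 2 ≤ (2 * l0 * R) ^ 2) (hc : c1 ^ 2 + c2 ^ 2 ≤ (2 * R) ^ 2) :
    |l0 * (2 * R) ^ 2 * v + 2 * (2 * R) * (a1 * (w1 + l0 * (2 * R) * u1) + a2 * (w2 + l0 * (2 * R) * u2))
      - 2 * (l0 * (2 * R)) * (c1 * u1 + c2 * u2) + t * ((2 * R * a1) ^ 2 + (2 * R * a2) ^ 2)| ≤ s * l0 * R ^ 2 := by
  have hB : 0 < l0 * R ^ 2 := by positivity
  have hδ1 : δ ≤ 1 / 32 := by linarith
  have hw1 := re_pk_l1 (by positivity) hw
  have hc1 := re_pk_l1 (by positivity) hc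
  have T1 : |l0 * (2 * R) ^ 2 * v| ≤ 4 * (l0 * R ^ 2) * δ := by
    rw [abs_mul, abs_of_pos (by positivity : 0 < l0 * (2 * R) ^ 2)]
    calc l0 * (2 * R) ^ 2 * |v| ≤ l0 * (2 * R) ^ 2 * δ := mul_le_mul_of_nonneg_left hv (by positivity)
      _ = 4 * (l0 * R ^ 2) * δ := by ring
  have T2 : |2 * (2 * R) * (a1 * w1 + a2 * w2)| ≤ 12 * (l0 * R ^ 2) * δ := by
    rw [abs_mul, abs_of_pos (by positivity : 0 < 2 * (2 * R))]
    have := re_pk_ip_l1 (w1 := w1) (w2 := w2) ha1 ha2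
    have h2 : δ * (|w1| + |w2|) ≤ δ * (3 / 2 * (2 * l0 * R)) := mul_le_mul_of_nonneg_left hw1 hδ0.le
    calc 2 * (2 * R) * |a1 * w1 + a2 * w2| ≤ 2 * (2 * R) * (δ * (3 / 2 * (2 * l0 * R))) :=
          mul_le_mul_of_nonneg_left (this.trans h2) (by positivity)
      _ = 12 * (l0 * R ^ 2) * δ := by ring
  have hδδ : δ * δ ≤ δ / 32 := by nlinarith
  have T3 : |2 * (2 * R) * (l0 * (2 * R)) * (a1 * u1 + a2 * u2)| ≤ 1 / 2 * (l0 * R ^ 2) * δ := by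
    rw [abs_mul, abs_of_pos (by positivity : 0 < 2 * (2 * R) * (l0 * (2 * R)))]
    have := re_pk_ip_l1 (w1 := u1) (w2 := u2) ha1 ha2
    have h2 : δ * (|u1| + |u2|) ≤ δ * (δ + δ) := mul_le_mul_of_nonneg_left (add_le_add hu1 hu2) hδ0.le
    calc 2 * (2 * R) * (l0 * (2 * R)) * |a1 * u1 + a2 * u2| ≤ 2 * (2 * R) * (l0 * (2 * R)) * (δ * (δ + δ)) :=
          mul_le_mul_of_nonneg_left (this.trans h2) (by positivity)
      _ = 16 * (l0 * R ^ 2) * (δ * δ) := by ring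
      _ ≤ 16 * (l0 * R ^ 2) * (δ / 32) := mul_le_mul_of_nonneg_left hδδ (by positivity)
      _ = 1 / 2 * (l0 * R ^ 2) * δ := by ring
  have T4 : |2 * (l0 * (2 * R)) * (c1 * u1 + c2 * u2)| ≤ 12 * (l0 * R ^ 2) * δ := by
    rw [abs_mul, abs_of_pos (by positivity : 0 < 2 * (l0 * (2 * R)))]
    have := re_pk_ip_l1 (w1 := c1) (w2 := c2) hu1 hu2
    have h2 : δ * (|c1| + |c2|) ≤ δ * (3 / 2 * (2 * R)) := mul_le_mul_of_nonneg_left hc1 hδ0.le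
    have e : c1 * u1 + c2 * u2 = u1 * c1 + u2 * c2 := by ring
    rw [e]
    calc 2 * (l0 * (2 * R)) * |u1 * c1 + u2 * c2| ≤ 2 * (l0 * (2 * R)) * (δ * (3 / 2 * (2 * R))) :=
          mul_le_mul_of_nonneg_left (this.trans h2) (by positivity)
      _ = 12 * (l0 * R ^ 2) * δ := by ring
  have hsq : ∀ a : ℝ, |a| ≤ δ → a ^ 2 ≤ δ * δ := by
    intro a ha
    rw [← sq_abs a]
    nlinarith [abs_nonneg a]
  have T5 : |t * ((2 * R * a1) ^ 2 + (2 * R * a2) ^ 2)| ≤ 1 / 4 * (l0 * R ^ 2) * δ := by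
    rw [abs_of_nonneg (by positivity)]
    have h1 := hsq a1 ha1
    have h2 := hsq a2 ha2
    calc t * ((2 * R * a1) ^ 2 + (2 * R * a2) ^ 2) = t * (4 * R ^ 2 * (a1 ^ 2 + a2 ^ 2)) := by ring
      _ ≤ l0 * (4 * R ^ 2 * (δ / 32 + δ / 32)) := by
          apply mul_le_mul ht1 _ (by positivity) hl0.le
          apply mul_le_mul_of_nonneg_left _ (by positivity)
          linarith
      _ = 1 / 4 * (l0 * R ^ 2) * δ := by ring
  have e : l0 * (2 * R) ^ 2 * v + 2 * (2 * R) * (a1 * (w1 + l0 * (2 * R) * u1) + a2 * (w2 + l0 * (2 * R) * u2))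
      - 2 * (l0 * (2 * R)) * (c1 * u1 + c2 * u2) + t * ((2 * R * a1) ^ 2 + (2 * R * a2) ^ 2)
      = l0 * (2 * R) ^ 2 * v + 2 * (2 * R) * (a1 * w1 + a2 * w2) + 2 * (2 * R) * (l0 * (2 * R)) * (a1 * u1 + a2 * u2)
        - 2 * (l0 * (2 * R)) * (c1 * u1 + c2 * u2) + t * ((2 * R * a1) ^ 2 + (2 * R * a2) ^ 2) := by ring
  rw [e]
  have hfin : 32 * δ * (l0 * R ^ 2) ≤ s * (l0 * R ^ 2) := mul_le_mul_of_nonneg_right hδ hB.le
  have hpos : 0 ≤ (l0 * R ^ 2) * δ := by positivity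
  rw [abs_le] at T1 T2 T3 T4 T5 ⊢
  obtain ⟨a1l, a1u⟩ := T1
  obtain ⟨a2l, a2u⟩ := T2
  obtain ⟨a3l, a3u⟩ := T3
  obtain ⟨a4l, a4u⟩ := T4
  obtain ⟨a5l, a5u⟩ := T5
  constructor <;> linarith

theorem re_pk_j_coord (j : RePkC) (δ : ℝ) (hj : ‖j‖ ≤ δ) : |j.1.1| ≤ δ ∧ |j.1.2| ≤ δ ∧ |j.2.1.1| ≤ δ ∧ |j.2.1.2| ≤ δ ∧ |j.2.2| ≤ δ := by
  have hj1 : ‖j.1‖ ≤ δ := (norm_fst_le j).trans hj
  have hj2 : ‖j.2‖ ≤ δ := (norm_snd_le j).trans hj
  have hj21 : ‖j.2.1‖ ≤ δ := (norm_fst_le j.2).trans hj2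
  exact ⟨(norm_fst_le j.1).trans hj1, (norm_snd_le j.1).trans hj1, (norm_fst_le j.2.1).trans hj21, (norm_snd_le j.2.1).trans hj21,
    (norm_snd_le j.2).trans hj2⟩

theorem re_pk_box_coord (φ : RdFrm) (hφ : 0 < φ.r) (k : ℕ) (p : RtRow) (hp : p ∈ φ.box k 1) :
    (p.b.1 - φ.bs.1) ^ 2 + (p.b.2 - φ.bs.2) ^ 2 ≤ (rdLen k * φ.r) ^ 2 ∧ (p.A.1 - φ.As.1) ^ 2 + (p.A.2 - φ.As.2) ^ 2 ≤ φ.r ^ 2 := by
  have hl := rdLen_pos k
  obtain ⟨hx, -, hV⟩ := hp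
  simp only [RdFrm.toT, rtRound, RtTest.x, RtTest.V, rtSq, Prod.smul_fst, Prod.smul_snd, Prod.fst_sub, Prod.snd_sub, smul_eq_mul] at hx hV
  constructor
  · calc (p.b.1 - φ.bs.1) ^ 2 + (p.b.2 - φ.bs.2) ^ 2
        = (rdLen k * φ.r) ^ 2 * (((rdLen k * φ.r)⁻¹ * (p.b.1 - φ.bs.1)) ^ 2 + ((rdLen k * φ.r)⁻¹ * (p.b.2 - φ.bs.2)) ^ 2) := by
          field_simp
      _ ≤ (rdLen k * φ.r) ^ 2 * 1 ^ 2 := mul_le_mul_of_nonneg_left hx (by positivity)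
      _ = (rdLen k * φ.r) ^ 2 := by ring
  · calc (p.A.1 - φ.As.1) ^ 2 + (p.A.2 - φ.As.2) ^ 2
        = φ.r ^ 2 * ((φ.r⁻¹ * (p.A.1 - φ.As.1)) ^ 2 + (φ.r⁻¹ * (p.A.2 - φ.As.2)) ^ 2) := by
          field_simp
      _ ≤ φ.r ^ 2 * 1 ^ 2 := mul_le_mul_of_nonneg_left hV (by positivity)
      _ = φ.r ^ 2 := by ring

/-- **L-256-RE-PK-JITNEAR** (jitter moves a ray by much less than a final cell, l.190-192).   `φ.r = 2R`, `a = 2Rã`, `u = 2ℓ₀Rũ`, `v = 4ℓ₀R²ṽ`, all five parameters `≤ δ` in absolute value (`‖j‖ ≤ δ` is the sup norm: `Prod.norm_def`, `max_le_iff`), `ℓ_f = s ℓ₀`, `s = 2⁻¹^n` (`rdLen, pow_add`).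
PLAN: `A'-A = a`, `rtSq a ≤ 8R²δ²`;   `b'_t-b_t = u + ta`, coordinates `≤ 4ℓ₀Rδ`;   `y'_t-y_t-2A·(b'_t-b_t) = v + 2a·(b+u-b_*) - 2(A-A_*)·u + t|a|²`, `≤ (4 + 12 + 12 + 1) δ ℓ₀R² ≤ 32 δ ℓ₀ R²`
(`|b-b_*| ≤ 2ℓ₀R`, `|A-A_*| ≤ 2R` from the box; `rtIp_abs_le`). -/
theorem re_pk_jit_near (R : ℝ) (hR : 0 < R) (φ : RdFrm) (hφ : φ.r = 2 * R) (k0 n : ℕ) (δ t : ℝ) (hδ0 : 0 < δ) (hδ : 32 * δ ≤ (2 : ℝ)⁻¹ ^ n) (ht0 : 0 ≤ t) (ht1 : t ≤ rdLen k0)
    (j : RePkC) (hj : ‖j‖ ≤ δ) (p : RtRow) (hp : p ∈ φ.box k0 1) : RePkNear R (rdLen (k0 + n)) 1 (p.flow t) ((rePkSig φ k0 j p).flow t) := by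
  have hl0 := rdLen_pos k0
  have hs1 : (2 : ℝ)⁻¹ ^ n ≤ 1 := pow_le_one₀ (by norm_num) (by norm_num)
  have hlf : rdLen (k0 + n) = (2 : ℝ)⁻¹ ^ n * rdLen k0 := by
    unfold rdLen
    rw [pow_add]
    ring
  have hδ1 : δ ≤ 1 / 32 := by linarith
  obtain ⟨hu1, hu2, ha1, ha2, hv⟩ := re_pk_j_coord j δ hj
  obtain ⟨hw, hc⟩ := re_pk_box_coord φ (by rw [hφ]; positivity) k0 p hp
  rw [hφ] at hw hc
  have hsq : ∀ a : ℝ, |a| ≤ δ → a ^ 2 ≤ δ * δ := by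
    intro a ha
    rw [← sq_abs a]
    nlinarith [abs_nonneg a]
  have hδδ : δ * δ ≤ 1 / 1024 := by nlinarith
  refine ⟨?_, ?_, ?_⟩
  · have e : rtSq (((rePkSig φ k0 j p).flow t).A - (p.flow t).A) = 4 * R ^ 2 * (j.2.1.1 ^ 2 + j.2.1.2 ^ 2) := by
      simp only [RtRow.flow, rePkSig, rtSq, Prod.fst_sub, Prod.snd_sub, Prod.fst_add, Prod.snd_add, Prod.smul_fst, Prod.smul_snd, smul_eq_mul, hφ]
      ring
    rw [e]
    have h1 := hsq _ ha1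
    have h2 := hsq _ ha2
    have hR2 : 0 < R ^ 2 := by positivity
    nlinarith
  · have e : rtSq (((rePkSig φ k0 j p).flow t).b - (p.flow t).b)
        = (rdLen k0 * (2 * R) * j.1.1 + t * (2 * R * j.2.1.1)) ^ 2 + (rdLen k0 * (2 * R) * j.1.2 + t * (2 * R * j.2.1.2)) ^ 2 := by
      simp only [RtRow.flow, rePkSig, rtSq, Prod.fst_sub, Prod.snd_sub, Prod.fst_add, Prod.snd_add, Prod.smul_fst, Prod.smul_snd, smul_eq_mul, hφ]
      ring
    rw [e, hlf]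
    have hb : ∀ u a : ℝ, |u| ≤ δ → |a| ≤ δ → (rdLen k0 * (2 * R) * u + t * (2 * R * a)) ^ 2 ≤ (4 * rdLen k0 * R * δ) ^ 2 := by
      intro u a hu ha
      apply sq_le_sq'
      · have h1 : -(rdLen k0 * (2 * R) * δ) ≤ rdLen k0 * (2 * R) * u := by
          have := mul_le_mul_of_nonneg_left (neg_le_of_abs_le hu) (by positivity : 0 ≤ rdLen k0 * (2 * R))
          linarith
        have h2 : -(rdLen k0 * (2 * R * δ)) ≤ t * (2 * R * a) := by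
          have h3 : |t * (2 * R * a)| ≤ rdLen k0 * (2 * R * δ) := by
            rw [abs_mul, abs_of_nonneg ht0, abs_mul, abs_of_pos (by positivity : 0 < 2 * R)]
            exact mul_le_mul ht1 (mul_le_mul_of_nonneg_left ha (by positivity)) (by positivity) hl0.le
          exact neg_le_of_abs_le h3
        linarith
      · have h1 : rdLen k0 * (2 * R) * u ≤ rdLen k0 * (2 * R) * δ :=
          mul_le_mul_of_nonneg_left (le_of_abs_le hu) (by positivity : 0 ≤ rdLen k0 * (2 * R))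
        have h2 : t * (2 * R * a) ≤ rdLen k0 * (2 * R * δ) := by
          have h3 : |t * (2 * R * a)| ≤ rdLen k0 * (2 * R * δ) := by
            rw [abs_mul, abs_of_nonneg ht0, abs_mul, abs_of_pos (by positivity : 0 < 2 * R)]
            exact mul_le_mul ht1 (mul_le_mul_of_nonneg_left ha (by positivity)) (by positivity) hl0.le
          exact le_of_abs_le h3
        linarith
    have h1 := hb _ _ hu1 ha1
    have h2 := hb _ _ hu2 ha2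
    have h3 : (32 * δ) ^ 2 ≤ ((2 : ℝ)⁻¹ ^ n) ^ 2 := pow_le_pow_left₀ (by positivity) hδ 2
    have h4 : 0 < (rdLen k0 * R) ^ 2 := by positivity
    calc _ ≤ (4 * rdLen k0 * R * δ) ^ 2 + (4 * rdLen k0 * R * δ) ^ 2 := add_le_add h1 h2
      _ = (rdLen k0 * R) ^ 2 * (32 * δ ^ 2) := by ring
      _ ≤ (rdLen k0 * R) ^ 2 * ((2 : ℝ)⁻¹ ^ n) ^ 2 := by
          apply mul_le_mul_of_nonneg_left _ h4.le
          nlinarith [sq_nonneg δ]
      _ = (1 * ((2 : ℝ)⁻¹ ^ n * rdLen k0 * R)) ^ 2 := by ring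
  · have key := re_pk_jit_num R (rdLen k0) ((2 : ℝ)⁻¹ ^ n) δ t j.2.2 j.2.1.1 j.2.1.2 j.1.1 j.1.2 (p.b.1 - φ.bs.1) (p.b.2 - φ.bs.2)
      (p.A.1 - φ.As.1) (p.A.2 - φ.As.2) hR hl0 hδ0 hδ hs1 ht0 ht1 hv ha1 ha2 hu1 hu2 (by convert hw using 1; ring) hc
    rw [hlf]
    have e : ((rePkSig φ k0 j p).flow t).y - (p.flow t).y - 2 * rtIp (p.flow t).A (((rePkSig φ k0 j p).flow t).b - (p.flow t).b)
        = rdLen k0 * (2 * R) ^ 2 * j.2.2 + 2 * (2 * R) * (j.2.1.1 * ((p.b.1 - φ.bs.1) + rdLen k0 * (2 * R) * j.1.1) + j.2.1.2 * ((p.b.2 - φ.bs.2) + rdLen k0 * (2 * R) * j.1.2))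
          - 2 * (rdLen k0 * (2 * R)) * ((p.A.1 - φ.As.1) * j.1.1 + (p.A.2 - φ.As.2) * j.1.2) + t * ((2 * R * j.2.1.1) ^ 2 + (2 * R * j.2.1.2) ^ 2) := by
      simp only [RtRow.flow, rePkSig, rtSq, rtIp, Prod.fst_sub, Prod.snd_sub, Prod.fst_add, Prod.snd_add, Prod.smul_fst, Prod.smul_snd, smul_eq_mul, hφ]
      ring
    rw [e]
    refine key.trans (le_of_eq ?_)
    ring

/-- **L-256-RE-PK-JITBOX**: the jittered points stay in the cube `‖c‖ ≤ 3` of frame coordinates.   PLAN: `re_pk_sig_nc`; `|x_i| ≤ 1`, `|V_i| ≤ 1`, `|z| ≤ 1` from the box (`rtSq ≤ 1`); `|z + ṽ + 2ã·(x+ũ)| ≤ 1 + δ + 4δ(1+δ) ≤ 3`. -/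
theorem re_pk_jit_box (φ : RdFrm) (hφ : 0 < φ.r) (k : ℕ) (δ : ℝ) (hδ1 : δ ≤ 1 / 4) (j : RePkC) (hj : ‖j‖ ≤ δ) (p : RtRow) (hp : p ∈ φ.box k 1) :
    ‖φ.nc k (rePkSig φ k j p)‖ ≤ 3 := by
  rw [re_pk_sig_nc φ hφ]
  obtain ⟨hu1, hu2, ha1, ha2, hv⟩ := re_pk_j_coord j δ hj
  have hδ0 : 0 ≤ δ := (norm_nonneg j).trans hj
  obtain ⟨hx, hz, hV⟩ := hp
  have hc : ∀ w : ℝ × ℝ, rtSq w ≤ 1 ^ 2 → |w.1| ≤ 1 ∧ |w.2| ≤ 1 := by
    intro w hw
    unfold rtSq at hw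
    constructor
    · rw [← sq_le_one_iff_abs_le_one]
      nlinarith [sq_nonneg w.2]
    · rw [← sq_le_one_iff_abs_le_one]
      nlinarith [sq_nonneg w.1]
  obtain ⟨hx1, hx2⟩ := hc _ hx
  obtain ⟨hV1, hV2⟩ := hc _ hV
  have hs : ∀ a b : ℝ, |a| ≤ 1 → |b| ≤ δ → |a + b| ≤ 1 + δ := fun a b ha hb => (abs_add_le a b).trans (add_le_add ha hb)
  simp only [rePkSigN, RdFrm.nc, Prod.norm_def, Real.norm_eq_abs, max_le_iff, Prod.fst_add, Prod.snd_add]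
  refine ⟨⟨?_, ?_⟩, ⟨?_, ?_⟩, ?_⟩
  · linarith [hs _ _ hx1 hu1]
  · linarith [hs _ _ hx2 hu2]
  · linarith [hs _ _ hV1 ha1]
  · linarith [hs _ _ hV2 ha2]
  · have h1 : |rtIp j.2.1 ((φ.toT k).x p + j.1)| ≤ δ * ((1 + δ) + (1 + δ)) := by
      unfold rtIp
      refine (re_pk_ip_l1 ha1 ha2).trans (mul_le_mul_of_nonneg_left (add_le_add (hs _ _ hx1 hu1) (hs _ _ hx2 hu2)) hδ0)
    have h2 : |(φ.toT k).z p + j.2.2 + 2 * rtIp j.2.1 ((φ.toT k).x p + j.1)| ≤ 1 + δ + 2 * (δ * ((1 + δ) + (1 + δ))) := by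
      refine (abs_add_le _ _).trans (add_le_add (hs _ _ hz hv) ?_)
      rw [abs_mul, abs_of_pos (by norm_num : (0 : ℝ) < 2)]
      linarith
    nlinarith

theorem re_pk_lam_ball (δ : ℝ) (hδ : 0 < δ) : volume (Metric.closedBall (0 : RePkC) δ) = ENNReal.ofReal ((2 * δ) ^ 5) := by
  have e : Metric.closedBall (0 : RePkC) δ = (Metric.closedBall (0 : ℝ) δ ×ˢ Metric.closedBall (0 : ℝ) δ) ×ˢ
      ((Metric.closedBall (0 : ℝ) δ ×ˢ Metric.closedBall (0 : ℝ) δ) ×ˢ Metric.closedBall (0 : ℝ) δ) := by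
    rw [closedBall_prod_same, closedBall_prod_same, closedBall_prod_same]
    rfl
  have h2 : (0 : ℝ) ≤ 2 * δ := by positivity
  rw [e, Measure.volume_eq_prod, Measure.prod_prod, Measure.volume_eq_prod, Measure.prod_prod, Measure.volume_eq_prod, Measure.prod_prod,
    Measure.volume_eq_prod, Measure.prod_prod, Real.volume_closedBall, ← ENNReal.ofReal_mul h2, ← ENNReal.ofReal_mul (by positivity),
    ← ENNReal.ofReal_mul (by positivity)]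
  congr 1
  ring

/-- **L-256-RE-PK-LAM**.   PLAN: `volume (closedBall (0 : RePkC) δ) = ofReal ((2δ)^5)`: `closedBall_prod_same` (three times), `Measure.volume_eq_prod`, `Measure.prod_prod`, `Real.volume_closedBall`, `ENNReal.ofReal_mul`.
Then `rePkLam δ univ = ofReal ((2δ)^5)⁻¹ * ofReal ((2δ)^5) = 1` (`ENNReal.ofReal_mul`, `inv_mul_cancel₀`). -/
theorem re_pk_lam_prob (δ : ℝ) (hδ : 0 < δ) : IsProbabilityMeasure (rePkLam δ) := by
  constructor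
  unfold rePkLam
  rw [Measure.smul_apply, smul_eq_mul, Measure.restrict_apply_univ, re_pk_lam_ball δ hδ, ← ENNReal.ofReal_mul (by positivity),
    inv_mul_cancel₀ (by positivity), ENNReal.ofReal_one]

theorem re_pk_lam_le (δ : ℝ) (S : Set RePkC) : rePkLam δ S ≤ ENNReal.ofReal (((2 * δ) ^ 5)⁻¹) * volume S := by
  unfold rePkLam
  rw [Measure.smul_apply, smul_eq_mul]
  exact mul_le_mul_right (Measure.restrict_apply_le _ _) _

theorem re_pk_lam_supp (δ : ℝ) : rePkLam δ {j | ¬ ‖j‖ ≤ δ} = 0 := by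
  unfold rePkLam
  rw [Measure.smul_apply, smul_eq_mul]
  have h : ((volume : Measure RePkC).restrict (Metric.closedBall 0 δ)) {j | ¬ ‖j‖ ≤ δ} = 0 := by
    rw [Measure.restrict_apply' Metric.isClosed_closedBall.measurableSet]
    have : {j : RePkC | ¬ ‖j‖ ≤ δ} ∩ Metric.closedBall 0 δ = ∅ := by
      ext j
      simp
    rw [this, measure_empty]
  rw [h, mul_zero]

theorem re_pk_sigN_in (c : RePkC) (u : ℝ × ℝ) :
    MeasurePreserving (fun p : (ℝ × ℝ) × ℝ => (c.2.1 + p.1, c.2.2 + p.2 + 2 * rtIp p.1 (c.1 + u))) (volume : Measure ((ℝ × ℝ) × ℝ)) volume := by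
  have h1 : MeasurePreserving (fun a : ℝ × ℝ => c.2.1 + a) (volume : Measure (ℝ × ℝ)) volume := measurePreserving_add_left _ _
  have hm : Measurable (Function.uncurry fun (a : ℝ × ℝ) (v : ℝ) => c.2.2 + v + 2 * rtIp a (c.1 + u)) := by
    unfold Function.uncurry rtIp
    fun_prop
  refine MeasurePreserving.skew_product (μc := (volume : Measure ℝ)) (μd := (volume : Measure ℝ)) h1 hm (Filter.Eventually.of_forall fun a => ?_)
  have e : (fun v : ℝ => c.2.2 + v + 2 * rtIp a (c.1 + u)) = fun v => (c.2.2 + 2 * rtIp a (c.1 + u)) + v := by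
    funext v
    ring
  rw [e]
  exact map_add_left_eq_self _ _

theorem re_pk_sigN_mp (c : RePkC) : MeasurePreserving (fun j : RePkC => rePkSigN j c) (volume : Measure RePkC) volume := by
  have h1 : MeasurePreserving (fun a : ℝ × ℝ => c.1 + a) (volume : Measure (ℝ × ℝ)) volume := measurePreserving_add_left _ _
  have hm : Measurable (Function.uncurry fun (u : ℝ × ℝ) (p : (ℝ × ℝ) × ℝ) => ((c.2.1 + p.1, c.2.2 + p.2 + 2 * rtIp p.1 (c.1 + u)) : (ℝ × ℝ) × ℝ)) := by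
    unfold Function.uncurry rtIp
    fun_prop
  exact MeasurePreserving.skew_product (μc := (volume : Measure ((ℝ × ℝ) × ℝ))) (μd := (volume : Measure ((ℝ × ℝ) × ℝ))) h1 hm
    (Filter.Eventually.of_forall fun u => (re_pk_sigN_in c u).map_eq)

/-- **L-256-RE-PK-SHEAR** (the map from the parameters to the new phase point has Jacobian one, l.155-157).   PLAN: `j ↦ rePkSigN j c` is measure preserving: `volume = volume.prod (volume.prod volume)`;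
`MeasurePreserving.skew_product` twice: outer `ũ ↦ c.1 + ũ` (`measurePreserving_add_left`), fibre map `(ã, ṽ) ↦ (c.2.1 + ã, c.2.2 + ṽ + 2ã·(c.1+ũ))`, itself a skew product of `ã ↦ c.2.1 + ã` and the translation `ṽ ↦ (c.2.2 + 2ã·(..)) + ṽ`
(`map_add_left_eq_self`);   then `MeasurePreserving.measure_preimage` (`hS.nullMeasurableSet`). -/
theorem re_pk_sigN_vol (c : RePkC) (S : Set RePkC) (hS : MeasurableSet S) : volume {j : RePkC | rePkSigN j c ∈ S} = volume S :=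
  (re_pk_sigN_mp c).measure_preimage hS.nullMeasurableSet

/-- measurability of the frame coordinates of the jittered point.   PLAN: unfold everything (`RdFrm.nc, RdFrm.toT, rtRound, RtTest.x, RtTest.V, RtTest.z, rePkSig, RdWvPar.co, rtIp`), `fun_prop`. -/
theorem re_pk_nc_meas (φ : RdFrm) (k : ℕ) : Measurable fun ω : RePkOm => φ.nc k (rePkSig φ k ω.2 (RdWvPar.co 0 ω.1)) := by
  unfold RdFrm.nc RdFrm.toT rtRound RtTest.x RtTest.V RtTest.z rePkSig RdWvPar.co rtIp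
  fun_prop

/-- a test is a measurable condition on measurable coordinates -/
theorem re_pk_set_meas {Ω : Type*} [MeasurableSpace Ω] (n : RtPoly) (M f : ℝ) (X V : Ω → ℝ × ℝ) (Z : Ω → ℝ) (hX : Measurable X) (hV : Measurable V) (hZ : Measurable Z) :
    MeasurableSet {ω | (rtSq (X ω) ≤ M ^ 2 ∧ |Z ω| ≤ M ∧ rtSq (V ω) ≤ M ^ 2) ∧ |n.F 0 (X ω) (Z ω)| ≤ M * f ∧ |n.G 0 (X ω) (Z ω) (V ω)| ≤ M * f} := by
  have h1 : Measurable fun ω => rtSq (X ω) := by unfold rtSq; fun_prop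
  have h2 : Measurable fun ω => |Z ω| := by fun_prop
  have h3 : Measurable fun ω => rtSq (V ω) := by unfold rtSq; fun_prop
  have h4 : Measurable fun ω => |n.F 0 (X ω) (Z ω)| := by unfold RtPoly.F rtSq rtIp; fun_prop
  have h5 : Measurable fun ω => |n.G 0 (X ω) (Z ω) (V ω)| := by unfold RtPoly.G rtSq rtIp; fun_prop
  exact (((measurableSet_le h1 measurable_const).inter ((measurableSet_le h2 measurable_const).inter (measurableSet_le h3 measurable_const)))).inter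
    ((measurableSet_le h4 measurable_const).inter (measurableSet_le h5 measurable_const))

/-- **L-256-RE-PK-ROWSM**.   PLAN: the set is closed: as in `re_pk_vs_meas`, all conditions are `|continuous| ≤ const` / `continuous ≤ const`; unfold `RdTst.rows, RdTst.toT, RtTest.set, RtTest.box, ..`; `isClosed_le`, `IsClosed.inter`, `fun_prop`. -/
theorem re_pk_rows_meas (φ : RdFrm) (k : ℕ) (Q : RdTst) : MeasurableSet {ω : RePkOm | rePkSig φ k ω.2 (RdWvPar.co 0 ω.1) ∈ Q.rows k} := by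
  have hX : Measurable fun ω : RePkOm => (Q.toT k).x (rePkSig φ k ω.2 (RdWvPar.co 0 ω.1)) := by
    unfold RtTest.x rePkSig RdWvPar.co
    fun_prop
  have hV : Measurable fun ω : RePkOm => (Q.toT k).V (rePkSig φ k ω.2 (RdWvPar.co 0 ω.1)) := by
    unfold RtTest.V rePkSig RdWvPar.co
    fun_prop
  have hZ : Measurable fun ω : RePkOm => (Q.toT k).z (rePkSig φ k ω.2 (RdWvPar.co 0 ω.1)) := by
    unfold RtTest.z rePkSig RdWvPar.co rtIp
    fun_prop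
  exact re_pk_set_meas (Q.toT k).n 1 (Q.toT k).f _ _ _ hX hV hZ

/-- **L-256-RE-PK-DENS** (jittered density, l.157-159).   PLAN: `Measure.prod_apply` (measurable by `re_pk_nc_meas`): `= ∫⁻ x, λ_δ {j | nc (σ_j x) ∈ S} dν`;   `re_pk_sig_nc`, `re_pk_lam_le`, `re_pk_sigN_vol`: the integrand is `≤ ofReal ((2δ)^5)⁻¹ * vol S`;
`lintegral_const`. -/
theorem re_pk_dens (ν : Measure RdWvPar.Ph) [IsFiniteMeasure ν] (φ : RdFrm) (hφ : 0 < φ.r) (k : ℕ) (δ : ℝ) (S : Set RePkC) (hS : MeasurableSet S) :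
    (ν.prod (rePkLam δ)) {ω : RePkOm | φ.nc k (rePkSig φ k ω.2 (RdWvPar.co 0 ω.1)) ∈ S} ≤ ν Set.univ * (ENNReal.ofReal (((2 * δ) ^ 5)⁻¹) * volume S) := by
  have hm : MeasurableSet {ω : RePkOm | φ.nc k (rePkSig φ k ω.2 (RdWvPar.co 0 ω.1)) ∈ S} := re_pk_nc_meas φ k hS
  rw [Measure.prod_apply hm]
  calc ∫⁻ x, rePkLam δ (Prod.mk x ⁻¹' {ω : RePkOm | φ.nc k (rePkSig φ k ω.2 (RdWvPar.co 0 ω.1)) ∈ S}) ∂ν
      ≤ ∫⁻ _x, ENNReal.ofReal (((2 * δ) ^ 5)⁻¹) * volume S ∂ν := by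
        refine lintegral_mono fun x => ?_
        have e : Prod.mk x ⁻¹' {ω : RePkOm | φ.nc k (rePkSig φ k ω.2 (RdWvPar.co 0 ω.1)) ∈ S} = {j : RePkC | rePkSigN j (φ.nc k (RdWvPar.co 0 x)) ∈ S} := by
          ext j
          show φ.nc k (rePkSig φ k j (RdWvPar.co 0 x)) ∈ S ↔ _
          rw [re_pk_sig_nc φ hφ]
          rfl
        rw [e]
        refine (re_pk_lam_le δ _).trans ?_
        rw [re_pk_sigN_vol _ S hS]
    _ = ν Set.univ * (ENNReal.ofReal (((2 * δ) ^ 5)⁻¹) * volume S) := by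
        rw [lintegral_const, mul_comm]

/-- **L-256-RE-PK-REGHI** (averaging preserves the regularity, l.168-170).   PLAN: `Measure.prod_apply_symm` (`re_pk_rows_meas`): `= ∫⁻ j, ν {x | σ_j x ∈ Q.rows k} dλ_δ`;   `re_pk_pull`, `hreg` for `rePkPull φ k j Q` (`re_pk_pull_adm`; `r, f, wt` unchanged by `rfl`):
the integrand is `≤ ofReal (κ wt)`;   `λ_δ` is a probability measure (`re_pk_lam_prob`).   Pass between `ν.real` and `ν` by `measureReal_def`, `ENNReal.ofReal_toReal`, `ENNReal.toReal_le_of_le_ofReal`. -/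
theorem re_pk_reg_hi (ν : Measure RdWvPar.Ph) [IsFiniteMeasure ν] (φ : RdFrm) (k : ℕ) (δ η κ th : ℝ) (hδ : 0 < δ)
    (hreg : ∀ Q : RdTst, (Q.toT k).Adm 1 → th ≤ Q.r * Q.f → ν.real {x | RdWvPar.co 0 x ∈ Q.rows k} ≤ κ * Q.wt η)
    (Q : RdTst) (hQ : (Q.toT k).Adm 1) (hth : th ≤ Q.r * Q.f) :
    (ν.prod (rePkLam δ)).real {ω : RePkOm | rePkSig φ k ω.2 (RdWvPar.co 0 ω.1) ∈ Q.rows k} ≤ κ * Q.wt η := by
  have := re_pk_lam_prob δ hδ
  have h0 : 0 ≤ κ * Q.wt η := measureReal_nonneg.trans (hreg Q hQ hth)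
  rw [measureReal_def]
  refine ENNReal.toReal_le_of_le_ofReal h0 ?_
  rw [Measure.prod_apply_symm (re_pk_rows_meas φ k Q)]
  have hj : ∀ j : RePkC, ν ((fun x => ((x, j) : RePkOm)) ⁻¹' {ω : RePkOm | rePkSig φ k ω.2 (RdWvPar.co 0 ω.1) ∈ Q.rows k}) ≤ ENNReal.ofReal (κ * Q.wt η) := by
    intro j
    have e : (fun x => ((x, j) : RePkOm)) ⁻¹' {ω : RePkOm | rePkSig φ k ω.2 (RdWvPar.co 0 ω.1) ∈ Q.rows k}
        = {x | RdWvPar.co 0 x ∈ (rePkPull φ k j Q).rows k} := by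
      ext x
      exact re_pk_pull φ k j Q (RdWvPar.co 0 x)
    rw [e, ← ofReal_measureReal]
    exact ENNReal.ofReal_le_ofReal (hreg (rePkPull φ k j Q) (re_pk_pull_adm φ k j Q hQ) hth)
  calc ∫⁻ j, ν ((fun x => ((x, j) : RePkOm)) ⁻¹' {ω : RePkOm | rePkSig φ k ω.2 (RdWvPar.co 0 ω.1) ∈ Q.rows k}) ∂(rePkLam δ)
      ≤ ∫⁻ _ : RePkC, ENNReal.ofReal (κ * Q.wt η) ∂(rePkLam δ) := lintegral_mono hj
    _ = ENNReal.ofReal (κ * Q.wt η) := by rw [lintegral_const, measure_univ, mul_one]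

/-- **L-256-RE-PK-REGLO** (tests below the uncertainty threshold, l.170-183).   PLAN: for `ν × λ_δ`-a.e. `ω`: `ω.1` in the box (`hsupp`), `‖ω.2‖ ≤ δ` (`re_pk_lam_supp`) (`Measure.prod` null sets: `Measure.measure_prod_null`, or `ae_prod..`), hence `‖nc‖ ≤ 3` (`re_pk_jit_box`);
with `re_pk_nt`:   the set is a.e. contained in `{ω | nc (σ ω) ∈ rePkVS (rePkNt φ k Q)}`;   `re_pk_dens` (`re_pk_vs_meas`), `re_pk_vol` (`re_pk_nt_adm`), `re_pk_quot` with `r = Q.r/φ.r`, `th := th/φ.r`: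
`≤ ν(univ) (2δ)^-5 * 12441600 * (th/φ.r)^η * (Q.r/φ.r)⁴ f^(1-η)`, and `(Q.r/φ.r)⁴ f^(1-η) = Q.wt η / φ.r⁴`;   `hnum`. -/
theorem re_pk_reg_lo (ν : Measure RdWvPar.Ph) [IsFiniteMeasure ν] (φ : RdFrm) (hφ : 0 < φ.r) (k : ℕ) (δ η κ th : ℝ) (hδ0 : 0 < δ) (hδ1 : δ ≤ 1 / 4) (hη0 : 0 < η) (hη1 : η < 1)
    (hsupp : ν {x | RdWvPar.co 0 x ∉ φ.box k 1} = 0) (hth : th ≤ φ.r)
    (hnum : 12441600 * (ν.real Set.univ * ((2 * δ) ^ 5)⁻¹ * (th / φ.r) ^ η) ≤ κ * φ.r ^ 4)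
    (Q : RdTst) (hQ : (Q.toT k).Adm 1) (hlo : Q.r * Q.f ≤ th) :
    (ν.prod (rePkLam δ)).real {ω : RePkOm | rePkSig φ k ω.2 (RdWvPar.co 0 ω.1) ∈ Q.rows k} ≤ κ * Q.wt η := by
  have hQr : 0 < Q.r := hQ.r_pos
  have hQf : 0 < Q.f := hQ.f_pos
  have hQf1 : Q.f ≤ 1 := hQ.f_le
  have hth0 : 0 < th := lt_of_lt_of_le (mul_pos hQr hQf) hlo
  have hν0 : 0 ≤ ν.real Set.univ := measureReal_nonneg
  have hd5 : 0 < ((2 * δ) ^ 5)⁻¹ := by positivity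
  have htp : 0 ≤ (th / φ.r) ^ η := Real.rpow_nonneg (div_pos hth0 hφ).le _
  have hr4 : 0 < φ.r ^ 4 := by positivity
  have hκ : 0 ≤ κ := by
    have h0 : 0 ≤ κ * φ.r ^ 4 := le_trans (by positivity) hnum
    exact nonneg_of_mul_nonneg_left h0 hr4
  have hwt0 : 0 ≤ Q.wt η := by
    unfold RdTst.wt
    exact mul_nonneg (by positivity) (Real.rpow_nonneg hQf.le _)
  -- the real inequality
  have hquot := re_pk_quot η (Q.r / φ.r) Q.f (th / φ.r) hη0 hη1 (div_pos hQr hφ) hQf hQf1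
    (by rw [div_mul_eq_mul_div]; exact div_le_div_of_nonneg_right hlo hφ.le) ((div_le_one hφ).2 hth)
  have hwt : (Q.r / φ.r) ^ 4 * Q.f ^ (1 - η) = Q.wt η / φ.r ^ 4 := by
    unfold RdTst.wt
    rw [div_pow]
    ring
  have hreal : ν.real Set.univ * (((2 * δ) ^ 5)⁻¹ * (12441600 * min ((Q.r / φ.r) ^ 6) (Q.r / φ.r) * Q.f)) ≤ κ * Q.wt η := by
    have h1 : ν.real Set.univ * (((2 * δ) ^ 5)⁻¹ * (12441600 * min ((Q.r / φ.r) ^ 6) (Q.r / φ.r) * Q.f))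
        = 12441600 * (ν.real Set.univ * ((2 * δ) ^ 5)⁻¹) * (min ((Q.r / φ.r) ^ 6) (Q.r / φ.r) * Q.f) := by ring
    rw [h1]
    calc 12441600 * (ν.real Set.univ * ((2 * δ) ^ 5)⁻¹) * (min ((Q.r / φ.r) ^ 6) (Q.r / φ.r) * Q.f)
        ≤ 12441600 * (ν.real Set.univ * ((2 * δ) ^ 5)⁻¹) * ((th / φ.r) ^ η * ((Q.r / φ.r) ^ 4 * Q.f ^ (1 - η))) :=
          mul_le_mul_of_nonneg_left hquot (by positivity)
      _ = (12441600 * (ν.real Set.univ * ((2 * δ) ^ 5)⁻¹ * (th / φ.r) ^ η)) * (Q.wt η / φ.r ^ 4) := by rw [hwt]; ring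
      _ ≤ (κ * φ.r ^ 4) * (Q.wt η / φ.r ^ 4) := mul_le_mul_of_nonneg_right hnum (div_nonneg hwt0 hr4.le)
      _ = κ * Q.wt η := by field_simp
  -- the measure inequality
  set μ := ν.prod (rePkLam δ) with hμ
  have hN1 : μ {ω : RePkOm | RdWvPar.co 0 ω.1 ∉ φ.box k 1} = 0 := by
    have : {ω : RePkOm | RdWvPar.co 0 ω.1 ∉ φ.box k 1} = {x | RdWvPar.co 0 x ∉ φ.box k 1} ×ˢ (Set.univ : Set RePkC) := by
      ext ω
      simp
    rw [this, hμ, Measure.prod_prod, hsupp, zero_mul]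
  have hN2 : μ {ω : RePkOm | ¬ ‖ω.2‖ ≤ δ} = 0 := by
    have : {ω : RePkOm | ¬ ‖ω.2‖ ≤ δ} = (Set.univ : Set RdWvPar.Ph) ×ˢ {j : RePkC | ¬ ‖j‖ ≤ δ} := by
      ext ω
      simp
    rw [this, hμ, Measure.prod_prod, re_pk_lam_supp, mul_zero]
  have hsub : {ω : RePkOm | rePkSig φ k ω.2 (RdWvPar.co 0 ω.1) ∈ Q.rows k}
      ⊆ ({ω : RePkOm | φ.nc k (rePkSig φ k ω.2 (RdWvPar.co 0 ω.1)) ∈ rePkVS (rePkNt φ k Q)} ∪ {ω : RePkOm | RdWvPar.co 0 ω.1 ∉ φ.box k 1})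
        ∪ {ω : RePkOm | ¬ ‖ω.2‖ ≤ δ} := by
    intro ω hω
    by_cases h2 : ‖ω.2‖ ≤ δ
    · by_cases h1 : RdWvPar.co 0 ω.1 ∈ φ.box k 1
      · left; left
        exact ⟨re_pk_jit_box φ hφ k δ hδ1 ω.2 h2 _ h1, (re_pk_nt φ hφ k Q hQr _).1 hω⟩
      · left; right
        exact h1
    · right
      exact h2
  have hm : μ {ω : RePkOm | rePkSig φ k ω.2 (RdWvPar.co 0 ω.1) ∈ Q.rows k} ≤ ENNReal.ofReal (κ * Q.wt η) := by
    calc μ {ω : RePkOm | rePkSig φ k ω.2 (RdWvPar.co 0 ω.1) ∈ Q.rows k}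
        ≤ μ (({ω : RePkOm | φ.nc k (rePkSig φ k ω.2 (RdWvPar.co 0 ω.1)) ∈ rePkVS (rePkNt φ k Q)} ∪ {ω : RePkOm | RdWvPar.co 0 ω.1 ∉ φ.box k 1})
        ∪ {ω : RePkOm | ¬ ‖ω.2‖ ≤ δ}) := measure_mono hsub
      _ ≤ μ {ω : RePkOm | φ.nc k (rePkSig φ k ω.2 (RdWvPar.co 0 ω.1)) ∈ rePkVS (rePkNt φ k Q)} + 0 + 0 := by
          refine (measure_union_le _ _).trans ?_
          rw [hN2]
          refine add_le_add_left ?_ _
          refine (measure_union_le _ _).trans ?_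
          rw [hN1]
      _ = μ {ω : RePkOm | φ.nc k (rePkSig φ k ω.2 (RdWvPar.co 0 ω.1)) ∈ rePkVS (rePkNt φ k Q)} := by simp
      _ ≤ ν Set.univ * (ENNReal.ofReal (((2 * δ) ^ 5)⁻¹) * volume (rePkVS (rePkNt φ k Q))) :=
          re_pk_dens ν φ hφ k δ _ (re_pk_vs_meas _)
      _ ≤ ν Set.univ * (ENNReal.ofReal (((2 * δ) ^ 5)⁻¹) * ENNReal.ofReal (12441600 * min ((Q.r / φ.r) ^ 6) (Q.r / φ.r) * Q.f)) := by
          gcongr
          exact re_pk_vol (rePkNt φ k Q) (re_pk_nt_adm φ hφ k Q hQ) rfl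
      _ = ENNReal.ofReal (ν.real Set.univ * (((2 * δ) ^ 5)⁻¹ * (12441600 * min ((Q.r / φ.r) ^ 6) (Q.r / φ.r) * Q.f))) := by
          rw [ENNReal.ofReal_mul hν0, ENNReal.ofReal_mul hd5.le, ofReal_measureReal]
      _ ≤ ENNReal.ofReal (κ * Q.wt η) := ENNReal.ofReal_le_ofReal hreal
  exact ENNReal.toReal_le_of_le_ofReal (mul_nonneg hκ hwt0) hm

/-- **L-256-RE-PK-MS**: the row energies of the constant state.   PLAN: unfold `PkSys.ms, PkSys.en`; in the classical system `An = id`, `rho = ν × λ_δ` (`rfl` / `show`);   `rePkSt =ᵐ 1` (`MemLp.coeFn_toLp`), `integral_congr_ae`;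
`∫ 1_S * 1 = (ν × λ_δ).real S` (`integral_indicator_one` / `integral_indicator`, `setIntegral_const`). -/
theorem re_pk_ms (η : ℝ) (ν : Measure RdWvPar.Ph) [IsFiniteMeasure ν] (φ : RdFrm) (k0 : ℕ) (T0 δ T : ℝ) (k b : ℕ) (S : Set RePkOm) (hS : MeasurableSet S) :
    ((rePkPar ν φ k0 T0 δ).sys η).ms T k b S (rePkSt ν δ) = (ν.prod (rePkLam δ)).real S := by
  show ∫ x, (S.indicator (fun _ => (1 : ℝ)) x) * ‖((rePkSt ν δ : Lp ℂ 2 (ν.prod (rePkLam δ))) : RePkOm → ℂ) x‖ ^ 2 ∂(ν.prod (rePkLam δ)) = _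
  have h : ((rePkSt ν δ : Lp ℂ 2 (ν.prod (rePkLam δ))) : RePkOm → ℂ) =ᵐ[ν.prod (rePkLam δ)] fun _ => (1 : ℂ) := MemLp.coeFn_toLp _
  rw [integral_congr_ae (g := S.indicator (fun _ => (1 : ℝ))) (h.mono (fun x hx => by simp [hx]))]
  exact integral_indicator_one hS

/-- the grid index is a measurable function of measurable coordinates -/
theorem re_pk_ix_meas {Ω : Type*} [MeasurableSpace Ω] (R : ℝ) (k : ℕ) (A B : Ω → ℝ × ℝ) (Y : Ω → ℝ) (hA : Measurable A) (hB : Measurable B) (hY : Measurable Y) :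
    Measurable fun ω => rePkIx R k ⟨A ω, B ω, Y ω⟩ := by
  have a1 : Measurable fun ω => ⌊(A ω).1 / R⌋ := Int.measurable_floor.comp (by fun_prop)
  have a2 : Measurable fun ω => ⌊(A ω).2 / R⌋ := Int.measurable_floor.comp (by fun_prop)
  have b1 : Measurable fun ω => ⌊(B ω).1 / (rdLen k * R)⌋ := Int.measurable_floor.comp (by fun_prop)
  have b2 : Measurable fun ω => ⌊(B ω).2 / (rdLen k * R)⌋ := Int.measurable_floor.comp (by fun_prop)
  have c1 : Measurable fun ω => ((⌊(A ω).1 / R⌋ : ℤ) : ℝ) := measurable_from_top.comp a1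
  have c2 : Measurable fun ω => ((⌊(A ω).2 / R⌋ : ℤ) : ℝ) := measurable_from_top.comp a2
  have y1 : Measurable fun ω => ⌊(Y ω - 2 * R * (((⌊(A ω).1 / R⌋ : ℤ) : ℝ) * (B ω).1 + ((⌊(A ω).2 / R⌋ : ℤ) : ℝ) * (B ω).2)) / (rdLen k * R ^ 2)⌋ :=
    Int.measurable_floor.comp (by fun_prop)
  exact (a1.prodMk a2).prodMk ((b1.prodMk b2).prodMk y1)

/-- **L-256-RE-PK-OMM**: the cells of the particles are measurable.   PLAN: `re_pk_co`; as `re_pk_ray_meas` (five floors of measurable functions of `ω`). -/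
theorem re_pk_om_meas (ν : Measure RdWvPar.Ph) [IsFiniteMeasure ν] (φ : RdFrm) (k0 : ℕ) (T0 δ T R : ℝ) (k : ℕ) (d : RePkIx) :
    MeasurableSet {ω : RePkOm | rePkIx R k ((rePkPar ν φ k0 T0 δ).co T ω) = d} := by
  have hA := (rePkPar ν φ k0 T0 δ).mA
  have hB := (rePkPar ν φ k0 T0 δ).mB
  have hY := (rePkPar ν φ k0 T0 δ).mY
  have hB' : Measurable fun ω => (rePkPar ν φ k0 T0 δ).B ω + T • (rePkPar ν φ k0 T0 δ).A ω := by fun_prop
  have hY' : Measurable fun ω => (rePkPar ν φ k0 T0 δ).Y ω + T * rtSq ((rePkPar ν φ k0 T0 δ).A ω) := by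
    unfold rtSq
    fun_prop
  exact (re_pk_ix_meas R k _ _ _ hA hB' hY') (measurableSet_singleton d)

end Claimed.Agent.R256
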