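-- KEEP
import Claimed.Agent.R256.Re.PlJitA

/-!
# Row 256, unit RE, block PL, file 5: THE CLASSICAL BOUND FOR ONE ROOT BOX            (architect helper236; prefix `re_pk_`)
PAPER FREE.   EXIT `re_pk_cl`: for a finite measure `ν` on the wave rows, supported in ONE cell `g` of the root grid `(R, k0)`, `κ`-regular on the tests of uncertainty width `≥ ϑ`, `ϑ ≤ s^(12/η) R`, of mass `≥ s^B κ R⁴`:
      `Σ_i Σ_{d ∈ D} ν(rays in the cell d at the time T_i)^{3/2} ≤ C0 R² 2^((γ+ε-1/2) n) ν(univ) √κ`.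
The experiment is `rePkXp η ν (rePkFr R k0 g) k0 i0 n δ κ R D'`, `δ = s² = 4⁻¹^n`, `D' = image₂ rePkSh (rePkNb 18) D`.
-/

set_option autoImplicit false

namespace Claimed.Agent.R256

open MeasureTheory
open scoped ENNReal

/-- the hypotheses on `(ν, g)` -/
structure RePkHyp (η : ℝ) (ν : Measure RdWvPar.Ph) (R : ℝ) (k0 n : ℕ) (g : RePkIx) (κ th : ℝ) (B : ℕ) : Prop where
  R_pos : 0 < R
  ka_pos : 0 < κ
  th_pos : 0 < th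
  supp : ν (rePkCell R k0 g)ᶜ = 0
  reg : ∀ Q : RdTst, (Q.toT k0).Adm 1 → th ≤ Q.r * Q.f → ν.real {x | RdWvPar.co 0 x ∈ Q.rows k0} ≤ κ * Q.wt η
  th_le : th ≤ ((2 : ℝ)⁻¹ ^ n) ^ (12 / η) * R
  mass : ((2 : ℝ)⁻¹ ^ n) ^ B * (κ * R ^ 4) ≤ ν.real Set.univ

theorem re_pk_s_rpow_le_one {η : ℝ} (hη0 : 0 < η) (n : ℕ) : ((2 : ℝ)⁻¹ ^ n) ^ (12 / η) ≤ 1 := by
  have h0 : (0 : ℝ) ≤ (2 : ℝ)⁻¹ ^ n := by positivity
  have h1 : (2 : ℝ)⁻¹ ^ n ≤ 1 := pow_le_one₀ (by norm_num) (by norm_num)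
  exact Real.rpow_le_one h0 h1 (by positivity)

/-- **L-256-RE-PK-MASS**: the mass of a box.   PLAN: `ν.real univ = ν.real (cell g)` (`supp`), cell `⊆ {x | co 0 x ∈ (rePkTs R k0 g).rows k0}` (`re_pk_cell_box`, `re_pk_ts_rows`), `reg` for `rePkTs R k0 g` (`re_pk_ts_adm`; `th ≤ 2R * 1` from `th_le`: `(2⁻¹^n)^(12/η) ≤ 1`),
`re_pk_ts_wt`.   Positivity from `mass`. -/
theorem re_pk_mass {η : ℝ} (hη0 : 0 < η) {ν : Measure RdWvPar.Ph} [IsFiniteMeasure ν] {R : ℝ} {k0 n : ℕ} {g : RePkIx} {κ th : ℝ} {B : ℕ} (h : RePkHyp η ν R k0 n g κ th B) :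
    0 < ν.real Set.univ ∧ ν.real Set.univ ≤ 16 * (κ * R ^ 4) := by
  have hR := h.R_pos
  have hκ := h.ka_pos
  constructor
  · refine lt_of_lt_of_le ?_ h.mass
    positivity
  · have hsub : rePkCell R k0 g ⊆ {x | RdWvPar.co 0 x ∈ (rePkTs R k0 g).rows k0} := by
      intro x hx
      show RdWvPar.co 0 x ∈ (rePkTs R k0 g).rows k0
      rw [re_pk_ts_rows]
      exact re_pk_cell_box R hR k0 g _ hx
    have hth : th ≤ (rePkTs R k0 g).r * (rePkTs R k0 g).f := by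
      show th ≤ 2 * R * 1
      have h1 := re_pk_s_rpow_le_one hη0 n
      have h2 : ((2 : ℝ)⁻¹ ^ n) ^ (12 / η) * R ≤ 1 * R := mul_le_mul_of_nonneg_right h1 hR.le
      have h3 := h.th_le
      linarith
    have hreg := h.reg (rePkTs R k0 g) (re_pk_ts_adm R hR k0 g) hth
    rw [re_pk_ts_wt] at hreg
    have hle : ν.real Set.univ ≤ ν.real {x | RdWvPar.co 0 x ∈ (rePkTs R k0 g).rows k0} := by
      have e1 : ν Set.univ ≤ ν {x | RdWvPar.co 0 x ∈ (rePkTs R k0 g).rows k0} := by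
        calc ν Set.univ ≤ ν (rePkCell R k0 g ∪ (rePkCell R k0 g)ᶜ) := by rw [Set.union_compl_self]
          _ ≤ ν (rePkCell R k0 g) + ν (rePkCell R k0 g)ᶜ := measure_union_le _ _
          _ = ν (rePkCell R k0 g) := by rw [h.supp, add_zero]
          _ ≤ _ := measure_mono hsub
      exact ENNReal.toReal_mono (measure_ne_top _ _) e1
    calc ν.real Set.univ ≤ κ * (16 * R ^ 4) := hle.trans hreg
      _ = 16 * (κ * R ^ 4) := by ring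

/-- **L-256-RE-PK-NUM**: the numerical condition of `re_pk_reg_lo`, `δ = 4⁻¹^n`, `φ.r = 2R`.   PLAN: `re_pk_mass`; `((2δ)^5)⁻¹ = 4^(5n)/32`; `(th/(2R))^η ≤ ((2⁻¹^n)^(12/η))^η = 2⁻¹^(12 n)` (`Real.rpow_le_rpow`, `← Real.rpow_mul`, `div_mul_cancel₀`);
`4^(5n) 2⁻¹^(12n) = 4⁻¹^n ≤ 4⁻¹^10`;   `12441600 * 16 / 32 / 4^10 ≤ 16`. -/
theorem re_pk_num {η : ℝ} (hη0 : 0 < η) {ν : Measure RdWvPar.Ph} [IsFiniteMeasure ν] {R : ℝ} {k0 n : ℕ} {g : RePkIx} {κ th : ℝ} {B : ℕ} (h : RePkHyp η ν R k0 n g κ th B) (hn : 10 ≤ n) :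
    12441600 * (ν.real Set.univ * ((2 * (4 : ℝ)⁻¹ ^ n) ^ 5)⁻¹ * (th / (2 * R)) ^ η) ≤ κ * (2 * R) ^ 4 := by
  have hR := h.R_pos
  have hκ := h.ka_pos
  have hth := h.th_pos
  obtain ⟨hm0, hm1⟩ := re_pk_mass hη0 h
  set s : ℝ := (2 : ℝ)⁻¹ ^ n with hs
  have hs0 : 0 < s := by positivity
  have e4 : (4 : ℝ)⁻¹ ^ n = s ^ 2 := by
    rw [hs, ← pow_mul, mul_comm, pow_mul]
    norm_num
  have hs2 : s ^ 2 ≤ (4 : ℝ)⁻¹ ^ 10 := by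
    rw [← e4]
    exact pow_le_pow_of_le_one (by norm_num) (by norm_num) hn
  have hq : (th / (2 * R)) ^ η ≤ s ^ 12 := by
    have h1 : th / (2 * R) ≤ s ^ (12 / η) := by
      rw [div_le_iff₀ (by positivity)]
      have h2 : th ≤ s ^ (12 / η) * R := h.th_le
      have h3 : 0 ≤ s ^ (12 / η) * R := by positivity
      linarith
    have h4 : (th / (2 * R)) ^ η ≤ (s ^ (12 / η)) ^ η := Real.rpow_le_rpow (by positivity) h1 hη0.le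
    have h5 : (s ^ (12 / η)) ^ η = s ^ 12 := by
      rw [← Real.rpow_mul hs0.le, div_mul_cancel₀ _ hη0.ne']
      exact_mod_cast Real.rpow_natCast s 12
    rw [h5] at h4
    exact h4
  have hq0 : 0 ≤ (th / (2 * R)) ^ η := by positivity
  rw [e4]
  have hinv : ((2 * s ^ 2) ^ 5)⁻¹ * s ^ 12 = s ^ 2 / 32 := by
    field_simp
    ring
  have hi0 : 0 ≤ ((2 * s ^ 2) ^ 5)⁻¹ := by positivity
  have hKR : 0 < κ * R ^ 4 := by positivity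
  calc 12441600 * (ν.real Set.univ * ((2 * s ^ 2) ^ 5)⁻¹ * (th / (2 * R)) ^ η)
      ≤ 12441600 * (16 * (κ * R ^ 4) * ((2 * s ^ 2) ^ 5)⁻¹ * s ^ 12) := by gcongr
    _ = 12441600 * (16 * (κ * R ^ 4)) * (((2 * s ^ 2) ^ 5)⁻¹ * s ^ 12) := by ring
    _ = 12441600 * (16 * (κ * R ^ 4)) * (s ^ 2 / 32) := by rw [hinv]
    _ ≤ 12441600 * (16 * (κ * R ^ 4)) * ((4 : ℝ)⁻¹ ^ 10 / 32) := by gcongr
    _ ≤ κ * (2 * R) ^ 4 := by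
      have : κ * (2 * R) ^ 4 = 16 * (κ * R ^ 4) := by ring
      rw [this]
      norm_num
      nlinarith [hKR]

theorem re_pk_hyp_supp {η : ℝ} {ν : Measure RdWvPar.Ph} {R : ℝ} {k0 n : ℕ} {g : RePkIx} {κ th : ℝ} {B : ℕ} (h : RePkHyp η ν R k0 n g κ th B) :
    ν {x | RdWvPar.co 0 x ∉ (rePkFr R k0 g).box k0 1} = 0 := by
  have hsub : {x | RdWvPar.co 0 x ∉ (rePkFr R k0 g).box k0 1} ⊆ (rePkCell R k0 g)ᶜ := by
    intro x hx hc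
    exact hx (re_pk_cell_box R h.R_pos k0 g _ hc)
  exact measure_mono_null hsub h.supp

theorem re_pk_hyp_th {η : ℝ} (hη0 : 0 < η) {ν : Measure RdWvPar.Ph} {R : ℝ} {k0 n : ℕ} {g : RePkIx} {κ th : ℝ} {B : ℕ} (h : RePkHyp η ν R k0 n g κ th B) : th ≤ R := by
  refine h.th_le.trans ?_
  have h1 : ((2 : ℝ)⁻¹ ^ n) ^ (12 / η) ≤ 1 :=
    Real.rpow_le_one (by positivity) (pow_le_one₀ (by norm_num) (by norm_num)) (by positivity)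
  have := h.R_pos
  nlinarith

/-- the regularity of the jittered measure for ALL admissible tests -/
theorem re_pk_reg {η : ℝ} (hη0 : 0 < η) (hη1 : η < 1) {ν : Measure RdWvPar.Ph} [IsFiniteMeasure ν] {R : ℝ} {k0 n : ℕ} {g : RePkIx} {κ th : ℝ} {B : ℕ} (h : RePkHyp η ν R k0 n g κ th B) (hn : 10 ≤ n)
    (Q : RdTst) (hQ : (Q.toT k0).Adm 1) :
    (ν.prod (rePkLam ((4 : ℝ)⁻¹ ^ n))).real {ω : RePkOm | rePkSig (rePkFr R k0 g) k0 ω.2 (RdWvPar.co 0 ω.1) ∈ Q.rows k0} ≤ κ * Q.wt η := by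
  have hδ0 : (0 : ℝ) < (4 : ℝ)⁻¹ ^ n := by positivity
  rcases le_total th (Q.r * Q.f) with hth | hth
  · exact re_pk_reg_hi ν _ k0 _ η κ th hδ0 h.reg Q hQ hth
  · have hδ1 : (4 : ℝ)⁻¹ ^ n ≤ 1 / 4 := by
      calc (4 : ℝ)⁻¹ ^ n ≤ (4 : ℝ)⁻¹ ^ 1 := pow_le_pow_of_le_one (by norm_num) (by norm_num) (by omega)
        _ = 1 / 4 := by norm_num
    have hR := h.R_pos
    have hφ : 0 < (rePkFr R k0 g).r := by show 0 < 2 * R; positivity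
    refine re_pk_reg_lo ν _ hφ k0 _ η κ th hδ0 hδ1 hη0 hη1 (re_pk_hyp_supp h) ?_ (re_pk_num hη0 h hn) Q hQ hth
    show th ≤ 2 * R
    have := re_pk_hyp_th hη0 h
    linarith

theorem re_pk_flow_zero (p : RtRow) : p.flow 0 = p := by
  apply RtRow.ext
  · rfl
  · show p.b + (0 : ℝ) • p.A = p.b
    rw [zero_smul, add_zero]
  · show p.y + 0 * rtSq p.A = p.y
    rw [zero_mul, add_zero]

theorem re_pk_en_inj (k0 i0 n : ℕ) (D : Finset RePkIx) : Function.Injective (rePkEn k0 i0 n D) :=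
  fun _ _ e => (rePkLb k0 i0 n D).equivFin.symm.injective (Subtype.ext e)

theorem re_pk_en_mem (k0 i0 n : ℕ) (D : Finset RePkIx) (l : Fin (rePkLb k0 i0 n D).card) :
    (rePkEn k0 i0 n D l).1 ∈ ivs k0 i0 (k0 + n) ∧ (rePkEn k0 i0 n D l).2 ∈ D :=
  Finset.mem_product.1 ((rePkLb k0 i0 n D).equivFin.symm l).2

theorem re_pk_st_norm (ν : Measure RdWvPar.Ph) [IsFiniteMeasure ν] (δ : ℝ) (hδ : 0 < δ) : ‖rePkSt ν δ‖ ^ 2 = ν.real Set.univ := by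
  have hp := re_pk_lam_prob δ hδ
  rw [gn_norm_sq]
  have hae : (fun x => ‖(rePkSt ν δ : RePkOm → ℂ) x‖ ^ 2) =ᵐ[ν.prod (rePkLam δ)] fun _ => (1 : ℝ) := by
    filter_upwards [MemLp.coeFn_toLp (memLp_const (1 : ℂ) : MemLp (fun _ : RePkOm => (1 : ℂ)) 2 (ν.prod (rePkLam δ)))] with x hx
    have hx' : (rePkSt ν δ : RePkOm → ℂ) x = 1 := hx
    rw [hx']
    norm_num
  rw [integral_congr_ae hae, integral_const, smul_eq_mul, mul_one, measureReal_def, measureReal_def, ← Set.univ_prod_univ,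
    Measure.prod_prod, (measure_univ : rePkLam δ Set.univ = 1), mul_one]

theorem re_pk_valid_reg {η : ℝ} (hη0 : 0 < η) (hη1 : η < 1) {ν : Measure RdWvPar.Ph} [IsFiniteMeasure ν] {R : ℝ} {k0 n : ℕ} {g : RePkIx} {κ th : ℝ} {B : ℕ}
    (h : RePkHyp η ν R k0 n g κ th B) (hn : 10 ≤ n) (i0 : ℕ) (Q : RdTst) (hQ : (Q.toT k0).Adm 1) :
    ((rePkPar ν (rePkFr R k0 g) k0 (tmL k0 i0) ((4 : ℝ)⁻¹ ^ n)).sys η).ms (tmL k0 i0) k0 0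
      {ω : RePkOm | (rePkPar ν (rePkFr R k0 g) k0 (tmL k0 i0) ((4 : ℝ)⁻¹ ^ n)).co (tmL k0 i0) ω ∈ Q.rows k0} (rePkSt ν ((4 : ℝ)⁻¹ ^ n)) ≤ κ * Q.wt η := by
  have hset : {ω : RePkOm | (rePkPar ν (rePkFr R k0 g) k0 (tmL k0 i0) ((4 : ℝ)⁻¹ ^ n)).co (tmL k0 i0) ω ∈ Q.rows k0}
      = {ω : RePkOm | rePkSig (rePkFr R k0 g) k0 ω.2 (RdWvPar.co 0 ω.1) ∈ Q.rows k0} := by
    ext ω
    show (rePkPar ν (rePkFr R k0 g) k0 (tmL k0 i0) ((4 : ℝ)⁻¹ ^ n)).co (tmL k0 i0) ω ∈ Q.rows k0 ↔ _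
    rw [re_pk_co, sub_self, re_pk_flow_zero]
    rfl
  have hmeas : MeasurableSet {ω : RePkOm | (rePkPar ν (rePkFr R k0 g) k0 (tmL k0 i0) ((4 : ℝ)⁻¹ ^ n)).co (tmL k0 i0) ω ∈ Q.rows k0} := by
    rw [hset]
    exact re_pk_rows_meas _ k0 Q
  refine (re_pk_ms η ν _ k0 _ _ _ k0 0 _ hmeas).le.trans ?_
  rw [hset]
  exact re_pk_reg hη0 hη1 h hn Q hQ

theorem re_pk_valid_sum (ν : Measure RdWvPar.Ph) [IsFiniteMeasure ν] (φ : RdFrm) (k0 i0 n : ℕ) (δ R : ℝ) (D : Finset RePkIx) (i : ℕ) (x : RePkOm) :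
    ∑ l : Fin (rePkLb k0 i0 n D).card, (if (rePkEn k0 i0 n D l).1 = i then
      Set.indicator {ω : RePkOm | rePkIx R (k0 + n) ((rePkPar ν φ k0 (tmL k0 i0) δ).co (tmL (k0 + n) (rePkEn k0 i0 n D l).1) ω)
        = (rePkEn k0 i0 n D l).2} (fun _ => (1 : ℝ)) x else 0) ≤ 1 := by
  set a : ℕ × RePkIx := (i, rePkIx R (k0 + n) ((rePkPar ν φ k0 (tmL k0 i0) δ).co (tmL (k0 + n) i) x)) with ha
  have hle : ∀ l : Fin (rePkLb k0 i0 n D).card,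
      (if (rePkEn k0 i0 n D l).1 = i then
        Set.indicator {ω : RePkOm | rePkIx R (k0 + n) ((rePkPar ν φ k0 (tmL k0 i0) δ).co (tmL (k0 + n) (rePkEn k0 i0 n D l).1) ω)
          = (rePkEn k0 i0 n D l).2} (fun _ => (1 : ℝ)) x else 0)
        ≤ if rePkEn k0 i0 n D l = a then 1 else 0 := by
    intro l
    by_cases h1 : (rePkEn k0 i0 n D l).1 = i
    · rw [if_pos h1]
      by_cases h2 : x ∈ {ω : RePkOm | rePkIx R (k0 + n) ((rePkPar ν φ k0 (tmL k0 i0) δ).co (tmL (k0 + n) (rePkEn k0 i0 n D l).1) ω)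
          = (rePkEn k0 i0 n D l).2}
      · rw [Set.indicator_of_mem h2]
        have h3 : rePkIx R (k0 + n) ((rePkPar ν φ k0 (tmL k0 i0) δ).co (tmL (k0 + n) (rePkEn k0 i0 n D l).1) x)
          = (rePkEn k0 i0 n D l).2 := h2
        rw [h1] at h3
        rw [if_pos (Prod.ext h1 h3.symm)]
      · rw [Set.indicator_of_notMem h2]
        split_ifs <;> norm_num
    · rw [if_neg h1]
      split_ifs <;> norm_num
  calc _ ≤ ∑ l : Fin (rePkLb k0 i0 n D).card, (if rePkEn k0 i0 n D l = a then (1 : ℝ) else 0) := Finset.sum_le_sum (fun l _ => hle l)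
    _ = ((Finset.univ.filter (fun l : Fin (rePkLb k0 i0 n D).card => rePkEn k0 i0 n D l = a)).card : ℝ) := Finset.sum_boole _ _
    _ ≤ 1 := by
      have : (Finset.univ.filter (fun l : Fin (rePkLb k0 i0 n D).card => rePkEn k0 i0 n D l = a)).card ≤ 1 :=
        Finset.card_le_one.2 (fun l hl l' hl' => re_pk_en_inj k0 i0 n D
          (by rw [(Finset.mem_filter.1 hl).2, (Finset.mem_filter.1 hl').2]))
      exact_mod_cast this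

/-- **L-256-RE-PK-VALID**.   PLAN, field by field (`E = rePkXp ..`, everything reduces by `rfl`/`show` to the data of the definition): `e_pos` (`re_pk_mass`), `ka_pos`;
`budget`: `‖rePkSt‖² = (ν × λ).real univ = ν.real univ` (`gn_norm_sq` or `Lp.norm_toLp`/`re_pk_ms` with `S = univ` + `gn_en_one`; `re_pk_lam_prob`, `measureReal_prod`..);   `plat`: `An = id`, `fun _ _ => rfl`;
`reg`: `re_pk_ms` (cell measurable: `re_pk_rows_meas` after rewriting the cell with `re_pk_co`, `T - T = 0`, `flow 0 = id`), `re_pk_reg`;   `st_*`: the stack is empty (`by simp`/`List.not_mem_nil`);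
`iv_in`: `(gn_mem_ivs ..).1`, the label lies in `rePkLb = ivs ×ˢ D` (`Finset.mem_product`, `Subtype.property`);   `ts_ok`: `re_pk_ts_adm`;   `w_pos`: `re_pk_ts_wt`;   `th_meas`: `re_pk_om_meas`, `Measurable.indicator`;   `th_nn`: `Set.indicator_nonneg`;
`th_supp`: `re_pk_cell_box`, `re_pk_ts_rows`;   `th_sum`: the summand is `1` only if `rePkEn l = (i, index of ω at T_i)`, and `rePkEn` is injective (`Equiv.injective`, `Subtype.ext`): `Finset.sum_le_one`-type argument (`Finset.sum_ite_eq`, or card of a subsingleton filter). -/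
theorem re_pk_valid {η : ℝ} (hη0 : 0 < η) (hη1 : η < 1) {ν : Measure RdWvPar.Ph} [IsFiniteMeasure ν] {R : ℝ} {k0 n : ℕ} {g : RePkIx} {κ th : ℝ} {B : ℕ} (h : RePkHyp η ν R k0 n g κ th B) (hn : 10 ≤ n)
    (i0 : ℕ) (D : Finset RePkIx) : (rePkXp η ν (rePkFr R k0 g) k0 i0 n ((4 : ℝ)⁻¹ ^ n) κ R D).Valid := by
  have hR := h.R_pos
  have hδ0 : (0 : ℝ) < (4 : ℝ)⁻¹ ^ n := by positivity
  refine ⟨(re_pk_mass hη0 h).1, h.ka_pos, (re_pk_st_norm ν _ hδ0).le, fun _ _ => rfl, ?_,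
    fun _ hσ => absurd hσ (List.not_mem_nil), List.Pairwise.nil, fun _ hσ => absurd hσ (List.not_mem_nil),
    fun _ hσ => absurd hσ (List.not_mem_nil), ?_, ?_, ?_, ?_, ?_, ?_, ?_⟩
  · -- reg
    exact fun Q hQ => re_pk_valid_reg hη0 hη1 h hn i0 Q hQ
  · -- iv_in
    intro l
    exact (gn_mem_ivs k0 i0 (k0 + n) _).1 (re_pk_en_mem k0 i0 n D l).1
  · -- ts_ok
    intro l
    exact re_pk_ts_adm R hR (k0 + n) _
  · -- w_pos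
    intro l
    show 0 < (rePkTs R (k0 + n) (rePkEn k0 i0 n D l).2).wt η
    rw [re_pk_ts_wt]
    positivity
  · -- th_meas
    intro l
    exact measurable_const.indicator (re_pk_om_meas ν _ k0 _ _ _ R (k0 + n) _)
  · -- th_nn
    intro l x
    exact Set.indicator_nonneg (fun _ _ => zero_le_one) x
  · -- th_supp
    intro l x hx
    have hx' : x ∈ ({ω : RePkOm | rePkIx R (k0 + n) ((rePkPar ν (rePkFr R k0 g) k0 (tmL k0 i0) ((4 : ℝ)⁻¹ ^ n)).co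
        (tmL (k0 + n) (rePkEn k0 i0 n D l).1) ω) = (rePkEn k0 i0 n D l).2} : Set RePkOm) :=
      Set.mem_of_indicator_ne_zero (f := fun _ : RePkOm => (1 : ℝ)) hx
    show (rePkPar ν (rePkFr R k0 g) k0 (tmL k0 i0) ((4 : ℝ)⁻¹ ^ n)).co (tmL (k0 + n) (rePkEn k0 i0 n D l).1) x
      ∈ (rePkTs R (k0 + n) (rePkEn k0 i0 n D l).2).rows (k0 + n)
    rw [re_pk_ts_rows]
    exact re_pk_cell_box R hR (k0 + n) _ _ hx'
  · -- th_sum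
    exact fun i x => re_pk_valid_sum ν _ k0 i0 n _ R D i x

/-- the phase point of a particle at the root time -/
theorem re_pk_pset_co (ν : Measure RdWvPar.Ph) [IsFiniteMeasure ν] (φ : RdFrm) (k0 : ℕ) (T0 δ : ℝ) (ω : RePkOm) :
    (rePkPar ν φ k0 T0 δ).co T0 ω = rePkSig φ k0 ω.2 (RdWvPar.co 0 ω.1) := by
  rw [re_pk_co, sub_self]
  simp [RtRow.flow]

/-- numerics of the package: `s^(B+10)` -/
theorem re_pk_pset_num (n B : ℕ) (hn : 10 ≤ n) :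
    0 < (2 : ℝ)⁻¹ ^ n ∧ (2 : ℝ)⁻¹ ^ n ≤ 1 ∧ ((2 : ℝ)⁻¹ ^ n) ^ (((B + 10 : ℕ) : ℝ)) * 16 ≤ ((2 : ℝ)⁻¹ ^ n) ^ B ∧
      5 ≤ ((2 : ℝ)⁻¹ ^ n) ^ (-(((B + 10 : ℕ) : ℝ))) ∧ ((2 * (4 : ℝ)⁻¹ ^ n) ^ 5)⁻¹ ≤ ((2 : ℝ)⁻¹ ^ n) ^ (-(((B + 10 : ℕ) : ℝ))) := by
  have hs0 : 0 < (2 : ℝ)⁻¹ ^ n := by positivity
  have hs1 : (2 : ℝ)⁻¹ ^ n ≤ 1 := pow_le_one₀ (by norm_num) (by norm_num)
  have hsh : (2 : ℝ)⁻¹ ^ n ≤ 2⁻¹ := by
    calc (2 : ℝ)⁻¹ ^ n ≤ (2 : ℝ)⁻¹ ^ 1 := pow_le_pow_of_le_one (by norm_num) (by norm_num) (by omega)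
      _ = 2⁻¹ := pow_one _
  have h10 : ((2 : ℝ)⁻¹ ^ n) ^ 10 ≤ 1 / 1024 := by
    calc ((2 : ℝ)⁻¹ ^ n) ^ 10 ≤ (2⁻¹ : ℝ) ^ 10 := pow_le_pow_left₀ hs0.le hsh 10
      _ = 1 / 1024 := by norm_num
  have hB0 : 0 < ((2 : ℝ)⁻¹ ^ n) ^ B := by positivity
  have hB1 : ((2 : ℝ)⁻¹ ^ n) ^ B ≤ 1 := pow_le_one₀ hs0.le hs1
  have hC : ((2 : ℝ)⁻¹ ^ n) ^ (B + 10) = ((2 : ℝ)⁻¹ ^ n) ^ B * ((2 : ℝ)⁻¹ ^ n) ^ 10 := pow_add _ _ _
  have hC0 : 0 < ((2 : ℝ)⁻¹ ^ n) ^ (B + 10) := by positivity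
  have h100 : 0 < ((2 : ℝ)⁻¹ ^ n) ^ 10 := by positivity
  have hneg : ((2 : ℝ)⁻¹ ^ n) ^ (-(((B + 10 : ℕ) : ℝ))) = (((2 : ℝ)⁻¹ ^ n) ^ (B + 10))⁻¹ := by
    rw [Real.rpow_neg hs0.le, Real.rpow_natCast]
  refine ⟨hs0, hs1, ?_, ?_, ?_⟩
  · rw [Real.rpow_natCast, hC]
    nlinarith
  · rw [hneg, le_inv_comm₀ (by norm_num) hC0, hC]
    nlinarith
  · rw [hneg]
    apply inv_anti₀ hC0
    have e : (2 * (4 : ℝ)⁻¹ ^ n) ^ 5 = 32 * ((2 : ℝ)⁻¹ ^ n) ^ 10 := by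
      have : (4 : ℝ)⁻¹ = (2 : ℝ)⁻¹ ^ 2 := by norm_num
      rw [this, mul_pow, ← pow_mul, ← pow_mul, ← pow_mul]
      congr 1
      · norm_num
      · congr 1; ring
    rw [e, hC]
    nlinarith

/-- the exceptional set is null -/
theorem re_pk_pset_null {η : ℝ} {ν : Measure RdWvPar.Ph} [IsFiniteMeasure ν] {R : ℝ} {k0 n : ℕ} {g : RePkIx} {κ th : ℝ} {B : ℕ} (h : RePkHyp η ν R k0 n g κ th B)
    (δ M : ℝ) (hδ1 : δ ≤ 1 / 4) (hM : 5 ≤ M) :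
    (ν.prod (rePkLam δ)) {ω : RePkOm | rePkSig (rePkFr R k0 g) k0 ω.2 (RdWvPar.co 0 ω.1) ∉ (rePkFr R k0 g).box k0 M} = 0 := by
  have hφ : 0 < (rePkFr R k0 g).r := by
    show 0 < 2 * R
    have := h.R_pos
    positivity
  have h1 : (ν.prod (rePkLam δ)) ((rePkCell R k0 g)ᶜ ×ˢ (Set.univ : Set RePkC)) = 0 := by
    rw [Measure.prod_prod, h.supp, zero_mul]
  have h2 : (ν.prod (rePkLam δ)) ((Set.univ : Set RdWvPar.Ph) ×ˢ {j : RePkC | ¬ ‖j‖ ≤ δ}) = 0 := by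
    rw [Measure.prod_prod, re_pk_lam_supp, mul_zero]
  refine measure_mono_null ?_ (measure_union_null h1 h2)
  intro ω hω
  by_contra hcon
  simp only [Set.mem_union, Set.mem_prod, Set.mem_compl_iff, Set.mem_univ, and_true, true_and, Set.mem_ofPred_eq, not_or, not_not] at hcon
  obtain ⟨c1, c2⟩ := hcon
  apply hω
  have hbox := re_pk_cell_box R h.R_pos k0 g _ c1
  have h3 := re_pk_jit_box (rePkFr R k0 g) hφ k0 δ hδ1 ω.2 c2 _ hbox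
  rw [Prod.norm_def, Prod.norm_def, Prod.norm_def, Prod.norm_def] at h3
  simp only [max_le_iff, Real.norm_eq_abs] at h3
  obtain ⟨⟨x1, x2⟩, ⟨v1, v2⟩, z1⟩ := h3
  have sq : ∀ a : ℝ, |a| ≤ 3 → a ^ 2 ≤ 9 := by
    intro a ha
    have := abs_le.1 ha
    nlinarith
  have hM2 : (25 : ℝ) ≤ M ^ 2 := by nlinarith
  refine ⟨?_, ?_, ?_⟩
  · have e1 := sq _ x1
    have e2 := sq _ x2
    show ((rePkFr R k0 g).nc k0 _).1.1 ^ 2 + ((rePkFr R k0 g).nc k0 _).1.2 ^ 2 ≤ M ^ 2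
    linarith
  · exact z1.trans (by linarith)
  · have e1 := sq _ v1
    have e2 := sq _ v2
    show ((rePkFr R k0 g).nc k0 _).2.1.1 ^ 2 + ((rePkFr R k0 g).nc k0 _).2.1.2 ^ 2 ≤ M ^ 2
    linarith

/-- the exceptional set is measurable -/
theorem re_pk_pset_meas (φ : RdFrm) (k : ℕ) (M : ℝ) : MeasurableSet {ω : RePkOm | rePkSig φ k ω.2 (RdWvPar.co 0 ω.1) ∉ φ.box k M} := by
  have hm := re_pk_nc_meas φ k
  have hS : MeasurableSet {c : RePkC | rtSq c.1 ≤ M ^ 2 ∧ |c.2.2| ≤ M ∧ rtSq c.2.1 ≤ M ^ 2} := by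
    have h1 : MeasurableSet {c : RePkC | c.1.1 ^ 2 + c.1.2 ^ 2 ≤ M ^ 2} := measurableSet_le (by fun_prop) measurable_const
    have h2 : MeasurableSet {c : RePkC | |c.2.2| ≤ M} := measurableSet_le (by fun_prop) measurable_const
    have h3 : MeasurableSet {c : RePkC | c.2.1.1 ^ 2 + c.2.1.2 ^ 2 ≤ M ^ 2} := measurableSet_le (by fun_prop) measurable_const
    exact h1.inter (h2.inter h3)
  exact (hm hS).compl

/-- **L-256-RE-PK-SET**: the polynomial setup, package `B + 10`.   `s = E.s = 2⁻¹^n`, `φ = rePkFr R k0 g`, `φ.r = 2R`.   PLAN: `r_pos`;   `ek_lo`: `s^(B+10) * 16 ≤ s^B` and `mass`;   `ek_hi`: `re_pk_mass`, `1 ≤ s^-(B+10)`;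
`supp`: `re_pk_ms`; a.e. `‖nc‖ ≤ 3` (as in `re_pk_reg_lo`: `re_pk_jit_box`, `re_pk_lam_supp`, `supp` + `re_pk_cell_box`), hence the point lies in `φ.box k0 5 ⊆ φ.box k0 (s^-(B+10))` (`rtSq ≤ 18 ≤ 25`; `5 ≤ 2^10 ≤ s^-(B+10)`);   `tail`: the same set has energy `0`;
`dens`: `re_pk_ms`, `re_pk_dens`, `((2δ)^5)⁻¹ = 4^(5n)/32 ≤ s^-(B+10)`; `ENNReal.ofReal_mul`, `ofReal_measureReal`. -/
theorem re_pk_set {η : ℝ} (hη0 : 0 < η) (hη1 : η < 1) {ν : Measure RdWvPar.Ph} [IsFiniteMeasure ν] {R : ℝ} {k0 n : ℕ} {g : RePkIx} {κ th : ℝ} {B : ℕ} (h : RePkHyp η ν R k0 n g κ th B) (hn : 10 ≤ n)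
    (i0 A : ℕ) (D : Finset RePkIx) :
    RdSet ((rePkPar ν (rePkFr R k0 g) k0 (tmL k0 i0) ((4 : ℝ)⁻¹ ^ n)).sys η) (rePkPar ν (rePkFr R k0 g) k0 (tmL k0 i0) ((4 : ℝ)⁻¹ ^ n)).co True (B + 10) A
      (rePkXp η ν (rePkFr R k0 g) k0 i0 n ((4 : ℝ)⁻¹ ^ n) κ R D) (rePkFr R k0 g) := by
  obtain ⟨hs0, hs1, n1, n2, n3⟩ := re_pk_pset_num n B hn
  obtain ⟨m0, m1⟩ := re_pk_mass hη0 h
  have hR := h.R_pos
  have hκ := h.ka_pos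
  have hφ : 0 < (rePkFr R k0 g).r := by
    show 0 < 2 * R
    positivity
  have hκR : 0 < κ * R ^ 4 := by positivity
  have hδ1 : (4 : ℝ)⁻¹ ^ n ≤ 1 / 4 := by
    calc (4 : ℝ)⁻¹ ^ n ≤ (4 : ℝ)⁻¹ ^ 1 := pow_le_pow_of_le_one (by norm_num) (by norm_num) (by omega)
      _ = 1 / 4 := by norm_num
  have key : ∀ S S' : Set RePkOm, S = S' → MeasurableSet S' →
      ((rePkPar ν (rePkFr R k0 g) k0 (tmL k0 i0) ((4 : ℝ)⁻¹ ^ n)).sys η).ms (tmL k0 i0) k0 0 S (rePkSt ν ((4 : ℝ)⁻¹ ^ n))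
        = (ν.prod (rePkLam ((4 : ℝ)⁻¹ ^ n))).real S' := by
    intro S S' e hm
    subst e
    exact re_pk_ms η ν _ k0 _ _ _ k0 0 _ hm
  have hset : {x : RePkOm | (rePkPar ν (rePkFr R k0 g) k0 (tmL k0 i0) ((4 : ℝ)⁻¹ ^ n)).co (tmL k0 i0) x ∉ (rePkFr R k0 g).box k0 (((2 : ℝ)⁻¹ ^ n) ^ (-(((B + 10 : ℕ) : ℝ))))}
      = {ω : RePkOm | rePkSig (rePkFr R k0 g) k0 ω.2 (RdWvPar.co 0 ω.1) ∉ (rePkFr R k0 g).box k0 (((2 : ℝ)⁻¹ ^ n) ^ (-(((B + 10 : ℕ) : ℝ))))} := by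
    ext ω
    simp only [Set.mem_ofPred_eq]
    rw [re_pk_pset_co]
  have hzero : ((rePkPar ν (rePkFr R k0 g) k0 (tmL k0 i0) ((4 : ℝ)⁻¹ ^ n)).sys η).ms (tmL k0 i0) k0 0
      {x : RePkOm | (rePkPar ν (rePkFr R k0 g) k0 (tmL k0 i0) ((4 : ℝ)⁻¹ ^ n)).co (tmL k0 i0) x ∉ (rePkFr R k0 g).box k0 (((2 : ℝ)⁻¹ ^ n) ^ (-(((B + 10 : ℕ) : ℝ))))}
      (rePkSt ν ((4 : ℝ)⁻¹ ^ n)) = 0 := by
    refine (key _ _ hset (re_pk_pset_meas _ _ _)).trans ?_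
    rw [measureReal_def, re_pk_pset_null h _ _ hδ1 n2]
    rfl
  refine ⟨hφ, ?_, ?_, ?_, fun _ => hzero, ?_⟩
  · show ((2 : ℝ)⁻¹ ^ n) ^ (((B + 10 : ℕ) : ℝ)) * (κ * (2 * R) ^ 4) ≤ ν.real Set.univ
    refine le_trans ?_ h.mass
    have e : ((2 : ℝ)⁻¹ ^ n) ^ (((B + 10 : ℕ) : ℝ)) * (κ * (2 * R) ^ 4) = (((2 : ℝ)⁻¹ ^ n) ^ (((B + 10 : ℕ) : ℝ)) * 16) * (κ * R ^ 4) := by ring
    rw [e]
    exact mul_le_mul_of_nonneg_right n1 hκR.le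
  · show ν.real Set.univ ≤ ((2 : ℝ)⁻¹ ^ n) ^ (-(((B + 10 : ℕ) : ℝ))) * (κ * (2 * R) ^ 4)
    have e : κ * (2 * R) ^ 4 = 16 * (κ * R ^ 4) := by ring
    rw [e]
    nlinarith
  · refine hzero.le.trans ?_
    show 0 ≤ ((2 : ℝ)⁻¹ ^ n) ^ (A : ℝ) * ν.real Set.univ
    positivity
  · intro _ S hS
    show ENNReal.ofReal (((rePkPar ν (rePkFr R k0 g) k0 (tmL k0 i0) ((4 : ℝ)⁻¹ ^ n)).sys η).ms (tmL k0 i0) k0 0
      {x : RePkOm | (rePkFr R k0 g).nc k0 ((rePkPar ν (rePkFr R k0 g) k0 (tmL k0 i0) ((4 : ℝ)⁻¹ ^ n)).co (tmL k0 i0) x) ∈ S} (rePkSt ν ((4 : ℝ)⁻¹ ^ n)))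
      ≤ ENNReal.ofReal (((2 : ℝ)⁻¹ ^ n) ^ (-(((B + 10 : ℕ) : ℝ))) * ν.real Set.univ) * volume S
    have hset2 : {x : RePkOm | (rePkFr R k0 g).nc k0 ((rePkPar ν (rePkFr R k0 g) k0 (tmL k0 i0) ((4 : ℝ)⁻¹ ^ n)).co (tmL k0 i0) x) ∈ S}
        = {ω : RePkOm | (rePkFr R k0 g).nc k0 (rePkSig (rePkFr R k0 g) k0 ω.2 (RdWvPar.co 0 ω.1)) ∈ S} := by
      ext ω
      simp only [Set.mem_ofPred_eq]
      rw [re_pk_pset_co]
    refine (le_of_eq (congrArg ENNReal.ofReal (key _ _ hset2 (re_pk_nc_meas _ _ hS)))).trans ?_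
    rw [ofReal_measureReal]
    refine (re_pk_dens ν _ hφ k0 _ S hS).trans ?_
    rw [← mul_assoc]
    refine mul_le_mul_left ?_ _
    rw [← ofReal_measureReal (μ := ν) (s := Set.univ), ← ENNReal.ofReal_mul measureReal_nonneg]
    apply ENNReal.ofReal_le_ofReal
    rw [mul_comm]
    exact mul_le_mul_of_nonneg_right n3 measureReal_nonneg

/-- the experiment belongs to the classical class -/
theorem re_pk_cls {η : ℝ} (hη0 : 0 < η) (hη1 : η < 1) {ν : Measure RdWvPar.Ph} [IsFiniteMeasure ν] {R : ℝ} {k0 n : ℕ} {g : RePkIx} {κ th : ℝ} {B : ℕ} (h : RePkHyp η ν R k0 n g κ th B) (hn : 10 ≤ n)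
    (i0 A : ℕ) (D : Finset RePkIx) :
    (rndCl η).Cls (B + 10) A (rePkPar ν (rePkFr R k0 g) k0 (tmL k0 i0) ((4 : ℝ)⁻¹ ^ n)) (rePkXp η ν (rePkFr R k0 g) k0 i0 n ((4 : ℝ)⁻¹ ^ n) κ R D) :=
  ⟨RdClPar.ok _, re_pk_valid hη0 hη1 h hn i0 D, Nat.zero_le _, ⟨Nat.zero_le _, Nat.zero_le _, fun _ hσ => absurd hσ (List.not_mem_nil)⟩,
    ⟨rePkFr R k0 g, re_pk_set hη0 hη1 h hn i0 A D⟩⟩

/-- **L-256-RE-PK-RD**: the readout of the experiment.   PLAN: `rd = Σ_l m l^(3/2)/√(w l)`; `w l = 16 R⁴` (`re_pk_ts_wt`), `√(16 R⁴) = 4R²`;   `m l = ms ..` by definition (`fin = v`: the stack is empty), `re_pk_ms` (`re_pk_om_meas`);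
reindex: `Σ_l f (rePkEn l) = Σ_{a ∈ rePkLb} f a` (`Equiv.sum_comp (rePkLb ..).equivFin.symm`, `Finset.sum_coe_sort`), `Finset.sum_product`. -/
theorem re_pk_rd (η : ℝ) (ν : Measure RdWvPar.Ph) [IsFiniteMeasure ν] (φ : RdFrm) (k0 i0 n : ℕ) (δ κ R : ℝ) (hR : 0 < R) (D : Finset RePkIx) :
    (rePkXp η ν φ k0 i0 n δ κ R D).rd = (4 * R ^ 2)⁻¹ * ∑ i ∈ ivs k0 i0 (k0 + n), ∑ d ∈ D,
      (ν.prod (rePkLam δ)).real {ω : RePkOm | rePkIx R (k0 + n) ((rePkPar ν φ k0 (tmL k0 i0) δ).co (tmL (k0 + n) i) ω) = d} ^ (3 / 2 : ℝ) := by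
  set F : ℕ × RePkIx → ℝ := fun a => (ν.prod (rePkLam δ)).real
    {ω : RePkOm | rePkIx R (k0 + n) ((rePkPar ν φ k0 (tmL k0 i0) δ).co (tmL (k0 + n) a.1) ω) = a.2} ^ (3 / 2 : ℝ) with hF
  have hsq : Real.sqrt (16 * R ^ 4) = 4 * R ^ 2 := by
    rw [show (16 : ℝ) * R ^ 4 = (4 * R ^ 2) ^ 2 by ring]
    exact Real.sqrt_sq (by positivity)
  have hterm : ∀ l : Fin (rePkLb k0 i0 n D).card,
      (rePkXp η ν φ k0 i0 n δ κ R D).m l ^ (3 / 2 : ℝ) / Real.sqrt ((rePkXp η ν φ k0 i0 n δ κ R D).w l)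
        = (4 * R ^ 2)⁻¹ * F (rePkEn k0 i0 n D l) := by
    intro l
    have hw : (rePkXp η ν φ k0 i0 n δ κ R D).w l = 16 * R ^ 4 := re_pk_ts_wt R (k0 + n) _ η
    have hm : (rePkXp η ν φ k0 i0 n δ κ R D).m l = (ν.prod (rePkLam δ)).real
        {ω : RePkOm | rePkIx R (k0 + n) ((rePkPar ν φ k0 (tmL k0 i0) δ).co (tmL (k0 + n) (rePkEn k0 i0 n D l).1) ω) = (rePkEn k0 i0 n D l).2} :=
      re_pk_ms η ν φ k0 (tmL k0 i0) δ (tmL (k0 + n) (rePkEn k0 i0 n D l).1) (k0 + n) 0 _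
        (re_pk_om_meas ν φ k0 (tmL k0 i0) δ _ R (k0 + n) _)
    rw [hw, hm, hsq, div_eq_inv_mul]
  have hsum : ∑ l, F (rePkEn k0 i0 n D l) = ∑ a ∈ rePkLb k0 i0 n D, F a := by
    rw [← Finset.sum_coe_sort (rePkLb k0 i0 n D) F]
    exact Equiv.sum_comp (rePkLb k0 i0 n D).equivFin.symm (fun a => F a.1)
  have hrd : (rePkXp η ν φ k0 i0 n δ κ R D).rd = ∑ l : Fin (rePkLb k0 i0 n D).card,
      (rePkXp η ν φ k0 i0 n δ κ R D).m l ^ (3 / 2 : ℝ) / Real.sqrt ((rePkXp η ν φ k0 i0 n δ κ R D).w l) := rfl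
  rw [hrd, Finset.sum_congr rfl (fun l _ => hterm l), ← Finset.mul_sum, hsum]
  congr 1
  exact Finset.sum_product _ _ _

/-- **L-256-RE-PK-READ** (all jittered copies of a ray belong to a neighbouring cell, l.190-193).   PLAN: `ν.real (Ray d) = (ν × λ).real (Ray d ×ˢ univ)` (`λ` probability);   for a.e. `ω` (box, `‖ω.2‖ ≤ δ`) with `ω.1 ∈ Ray d`:
`re_pk_co`, `re_pk_jit_near` (`t = T_i - T_0 ∈ [0, ℓ₀]` by `gn_cutle_anc` + `gn_mem_ivs`; `32 * 4⁻¹^n ≤ 2⁻¹^n` for `n ≥ 5`), `re_pk_idx` with `K = 1`: the index of `co T_i ω` is `rePkSh c d`, `c ∈ rePkNb 18`;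
so `Ray d ×ˢ univ` is a.e. contained in the finite union; `measure_mono_ae`-type bound and `measureReal_biUnion_finset_le`. -/
theorem re_pk_read {η : ℝ} {ν : Measure RdWvPar.Ph} [IsFiniteMeasure ν] {R : ℝ} {k0 n : ℕ} {g : RePkIx} {κ th : ℝ} {B : ℕ} (h : RePkHyp η ν R k0 n g κ th B) (hn : 10 ≤ n)
    (i0 i : ℕ) (hi : i ∈ ivs k0 i0 (k0 + n)) (d : RePkIx) :
    ν.real (rePkRay R (k0 + n) (tmL (k0 + n) i - tmL k0 i0) d) ≤ ∑ c ∈ rePkNb 18,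
      (ν.prod (rePkLam ((4 : ℝ)⁻¹ ^ n))).real {ω : RePkOm | rePkIx R (k0 + n) ((rePkPar ν (rePkFr R k0 g) k0 (tmL k0 i0) ((4 : ℝ)⁻¹ ^ n)).co (tmL (k0 + n) i) ω) = rePkSh c d} := by
  -- (a hypothesis `c ∈ rePkNb 18` with the NUMERAL makes `whnf` evaluate the finset: generalise it)
  generalize hN : (18 : ℕ) = N
  have hR := h.R_pos
  have hδ0 : (0 : ℝ) < (4 : ℝ)⁻¹ ^ n := by positivity
  haveI := re_pk_lam_prob _ hδ0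
  -- the time
  obtain ⟨-, ht0, ht1⟩ : CutLe (tmL k0 i0) k0 (tmL (k0 + n) i) (k0 + n) := by
    have := gn_cutle_anc (Nat.le_add_right k0 n) i
    rwa [(gn_mem_ivs k0 i0 (k0 + n) i).1 hi] at this
  have ht0' : 0 ≤ tmL (k0 + n) i - tmL k0 i0 := by linarith
  have ht1' : tmL (k0 + n) i - tmL k0 i0 ≤ rdLen k0 := by unfold rdLen; linarith
  -- the size of the jitter
  have hδ : 32 * (4 : ℝ)⁻¹ ^ n ≤ (2 : ℝ)⁻¹ ^ n := by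
    have e : (4 : ℝ)⁻¹ ^ n = (2 : ℝ)⁻¹ ^ n * (2 : ℝ)⁻¹ ^ n := by rw [← mul_pow]; norm_num
    have h5 : (2 : ℝ)⁻¹ ^ n ≤ (2 : ℝ)⁻¹ ^ 5 := pow_le_pow_of_le_one (by norm_num) (by norm_num) (by omega)
    have hp : (0 : ℝ) < (2 : ℝ)⁻¹ ^ n := by positivity
    rw [e]
    have h6 : (2 : ℝ)⁻¹ ^ 5 = 1 / 32 := by norm_num
    nlinarith
  -- the exceptional set
  have hbad : (ν.prod (rePkLam ((4 : ℝ)⁻¹ ^ n))) ((rePkCell R k0 g)ᶜ ×ˢ Set.univ ∪ Set.univ ×ˢ {j | ¬ ‖j‖ ≤ (4 : ℝ)⁻¹ ^ n}) = 0 := by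
    refine measure_union_null ?_ ?_
    · rw [Measure.prod_prod, h.supp, zero_mul]
    · rw [Measure.prod_prod, re_pk_lam_supp, mul_zero]
  -- the inclusion
  have hsub : rePkRay R (k0 + n) (tmL (k0 + n) i - tmL k0 i0) d ×ˢ (Set.univ : Set RePkC) ⊆
      (⋃ c ∈ rePkNb N, {ω : RePkOm | rePkIx R (k0 + n) ((rePkPar ν (rePkFr R k0 g) k0 (tmL k0 i0) ((4 : ℝ)⁻¹ ^ n)).co (tmL (k0 + n) i) ω) = rePkSh c d}) ∪
        ((rePkCell R k0 g)ᶜ ×ˢ Set.univ ∪ Set.univ ×ˢ {j | ¬ ‖j‖ ≤ (4 : ℝ)⁻¹ ^ n}) := by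
    rintro ω ⟨hω, -⟩
    by_cases h1 : ω.1 ∈ rePkCell R k0 g
    · by_cases h2 : ‖ω.2‖ ≤ (4 : ℝ)⁻¹ ^ n
      · left
        have hbox := re_pk_cell_box R hR k0 g (RdWvPar.co 0 ω.1) h1
        have hnear := re_pk_jit_near R hR (rePkFr R k0 g) rfl k0 n _ _ hδ0 hδ ht0' ht1' ω.2 h2 _ hbox
        obtain ⟨K, hK⟩ : ∃ K : ℕ, K = 1 := ⟨1, rfl⟩
        obtain ⟨c, hc, hidx⟩ := re_pk_idx R hR (k0 + n) K _ _ (by rw [hK]; simpa using hnear)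
        have e18 : 9 * K + 9 = N := by rw [hK, ← hN]
        rw [e18] at hc
        refine Set.mem_iUnion₂.2 ⟨c, hc, ?_⟩
        show rePkIx R (k0 + n) ((rePkPar ν (rePkFr R k0 g) k0 (tmL k0 i0) ((4 : ℝ)⁻¹ ^ n)).co (tmL (k0 + n) i) ω) = rePkSh c d
        rw [re_pk_co, hidx]
        congr 1
      · right; right
        exact ⟨trivial, h2⟩
    · right; left
      exact ⟨h1, trivial⟩
  have e1 : ν.real (rePkRay R (k0 + n) (tmL (k0 + n) i - tmL k0 i0) d)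
      = (ν.prod (rePkLam ((4 : ℝ)⁻¹ ^ n))).real (rePkRay R (k0 + n) (tmL (k0 + n) i - tmL k0 i0) d ×ˢ (Set.univ : Set RePkC)) := by
    rw [measureReal_def, measureReal_def, Measure.prod_prod, measure_univ, mul_one]
  rw [e1]
  calc (ν.prod (rePkLam ((4 : ℝ)⁻¹ ^ n))).real (rePkRay R (k0 + n) (tmL (k0 + n) i - tmL k0 i0) d ×ˢ (Set.univ : Set RePkC))
      ≤ (ν.prod (rePkLam ((4 : ℝ)⁻¹ ^ n))).real ((⋃ c ∈ rePkNb N, {ω : RePkOm | rePkIx R (k0 + n) ((rePkPar ν (rePkFr R k0 g) k0 (tmL k0 i0) ((4 : ℝ)⁻¹ ^ n)).co (tmL (k0 + n) i) ω) = rePkSh c d}) ∪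
        ((rePkCell R k0 g)ᶜ ×ˢ Set.univ ∪ Set.univ ×ˢ {j | ¬ ‖j‖ ≤ (4 : ℝ)⁻¹ ^ n})) := measureReal_mono hsub
    _ ≤ (ν.prod (rePkLam ((4 : ℝ)⁻¹ ^ n))).real (⋃ c ∈ rePkNb N, {ω : RePkOm | rePkIx R (k0 + n) ((rePkPar ν (rePkFr R k0 g) k0 (tmL k0 i0) ((4 : ℝ)⁻¹ ^ n)).co (tmL (k0 + n) i) ω) = rePkSh c d}) +
        (ν.prod (rePkLam ((4 : ℝ)⁻¹ ^ n))).real ((rePkCell R k0 g)ᶜ ×ˢ Set.univ ∪ Set.univ ×ˢ {j | ¬ ‖j‖ ≤ (4 : ℝ)⁻¹ ^ n}) := measureReal_union_le _ _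
    _ = (ν.prod (rePkLam ((4 : ℝ)⁻¹ ^ n))).real (⋃ c ∈ rePkNb N, {ω : RePkOm | rePkIx R (k0 + n) ((rePkPar ν (rePkFr R k0 g) k0 (tmL k0 i0) ((4 : ℝ)⁻¹ ^ n)).co (tmL (k0 + n) i) ω) = rePkSh c d}) := by
        rw [measureReal_def _ ((rePkCell R k0 g)ᶜ ×ˢ Set.univ ∪ Set.univ ×ˢ {j | ¬ ‖j‖ ≤ (4 : ℝ)⁻¹ ^ n}), hbad]; simp
    _ ≤ _ := measureReal_biUnion_finset_le _ _

/-- **EXIT of the classical half** -/
theorem re_pk_cl (η γ : ℝ) (hη0 : 0 < η) (hη1 : η < 1) (P5 : (rndCl η).Rate γ) (ε : ℝ) (hε : 0 < ε) (B : ℕ) :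
    ∃ n0 : ℕ, ∀ (ν : Measure RdWvPar.Ph) [IsFiniteMeasure ν] (k0 i0 n : ℕ) (R κ th : ℝ) (g : RePkIx) (D : Finset RePkIx), n0 ≤ n → RePkHyp η ν R k0 n g κ th B →
      ∑ i ∈ ivs k0 i0 (k0 + n), ∑ d ∈ D, ν.real (rePkRay R (k0 + n) (tmL (k0 + n) i - tmL k0 i0) d) ^ (3 / 2 : ℝ)
        ≤ 4 * ((rePkNb 18).card : ℝ) ^ (3 / 2 : ℝ) * R ^ 2 * 2 ^ ((γ + ε - 1 / 2) * n) * (ν.real Set.univ * Real.sqrt κ) := by
  obtain ⟨A, n0, H⟩ := P5 (B + 10) ε hε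
  refine ⟨max n0 10, fun ν _ k0 i0 n R κ th g D hn h => ?_⟩
  have hn10 : 10 ≤ n := (le_max_right _ _).trans hn
  have hn0 : n0 ≤ n := (le_max_left _ _).trans hn
  have hR := h.R_pos
  obtain ⟨D', hD'⟩ : ∃ D', D' = Finset.image₂ rePkSh (rePkNb 18) D := ⟨_, rfl⟩
  have hcls := re_pk_cls hη0 hη1 h hn10 i0 A D'
  have hval : (rePkXp η ν (rePkFr R k0 g) k0 i0 n ((4 : ℝ)⁻¹ ^ n) κ R D').val ≤ 2 ^ ((γ + ε) * n) := H _ _ hn0 hcls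
  have hrd := re_pk_rd η ν (rePkFr R k0 g) k0 i0 n ((4 : ℝ)⁻¹ ^ n) κ R hR D'
  have hrv := gn_rd_of_val _ hcls.2.1
  have hrv' : (rePkXp η ν (rePkFr R k0 g) k0 i0 n ((4 : ℝ)⁻¹ ^ n) κ R D').rd
      = 2 ^ (-((n : ℝ) / 2)) * (ν.real Set.univ * Real.sqrt κ) * (rePkXp η ν (rePkFr R k0 g) k0 i0 n ((4 : ℝ)⁻¹ ^ n) κ R D').val := hrv
  obtain ⟨Sg, hSg⟩ : ∃ Sg, Sg = ∑ i ∈ ivs k0 i0 (k0 + n), ∑ d ∈ D',
      (ν.prod (rePkLam ((4 : ℝ)⁻¹ ^ n))).real {ω : RePkOm | rePkIx R (k0 + n) ((rePkPar ν (rePkFr R k0 g) k0 (tmL k0 i0) ((4 : ℝ)⁻¹ ^ n)).co (tmL (k0 + n) i) ω) = d} ^ (3 / 2 : ℝ) := ⟨_, rfl⟩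
  rw [← hSg] at hrd
  have hX : 0 ≤ ν.real Set.univ * Real.sqrt κ := mul_nonneg measureReal_nonneg (Real.sqrt_nonneg _)
  have h1 : Sg ≤ 4 * R ^ 2 * (2 ^ ((γ + ε - 1 / 2) * n) * (ν.real Set.univ * Real.sqrt κ)) := by
    have e1 : Sg = 4 * R ^ 2 * (rePkXp η ν (rePkFr R k0 g) k0 i0 n ((4 : ℝ)⁻¹ ^ n) κ R D').rd := by
      rw [hrd]
      field_simp
    rw [e1, hrv']
    refine mul_le_mul_of_nonneg_left ?_ (by positivity)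
    have e2 : (2 : ℝ) ^ ((γ + ε - 1 / 2) * n) = 2 ^ (-((n : ℝ) / 2)) * 2 ^ ((γ + ε) * n) := by
      rw [← gn_two_add]
      congr 1
      ring
    rw [e2]
    calc 2 ^ (-((n : ℝ) / 2)) * (ν.real Set.univ * Real.sqrt κ) * (rePkXp η ν (rePkFr R k0 g) k0 i0 n ((4 : ℝ)⁻¹ ^ n) κ R D').val
        ≤ 2 ^ (-((n : ℝ) / 2)) * (ν.real Set.univ * Real.sqrt κ) * 2 ^ ((γ + ε) * n) :=
          mul_le_mul_of_nonneg_left hval (mul_nonneg (gn_two_pos _).le hX)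
      _ = _ := by ring
  have h2 : ∑ i ∈ ivs k0 i0 (k0 + n), ∑ d ∈ D, ν.real (rePkRay R (k0 + n) (tmL (k0 + n) i - tmL k0 i0) d) ^ (3 / 2 : ℝ)
      ≤ ((rePkNb 18).card : ℝ) ^ (3 / 2 : ℝ) * Sg := by
    rw [hSg, Finset.mul_sum]
    refine Finset.sum_le_sum fun i hi => ?_
    rw [hD']
    exact re_pk_tr (rePkNb 18) D _ _ (fun _ => measureReal_nonneg) (fun _ => measureReal_nonneg) fun d _ => re_pk_read h hn10 i0 i hi d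
  calc _ ≤ ((rePkNb 18).card : ℝ) ^ (3 / 2 : ℝ) * Sg := h2
    _ ≤ ((rePkNb 18).card : ℝ) ^ (3 / 2 : ℝ) * (4 * R ^ 2 * (2 ^ ((γ + ε - 1 / 2) * n) * (ν.real Set.univ * Real.sqrt κ))) :=
        mul_le_mul_of_nonneg_left h1 (Real.rpow_nonneg (Nat.cast_nonneg _) _)
    _ = _ := by ring

end Claimed.Agent.R256
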