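-- KEEP
import Claimed.Agent.R256.Re.PlGrid
import Claimed.Agent.R256.Re.Contract

/-!
# Row 256, unit RE, block PL, file 6: WAVE CUBE MASS ≤ RAY MASS  (08-round-entropy.tex l.140-146, 186-197)            (architect helper236; prefix `re_pk_`)
PAPER FREE.   The argument is INCOHERENT (no splitting of the state): `F = An v` at the root cut, `μ₀ = |F|² ρ` the raw row energy.
 (R)  `re_pk_regroup`    the labels of width `∈ [R, 2R]`, thickness `≥ F0` are regrouped into the cells of the grid `(R, kf)`:   `Σ tr ≤ C / (R² √F0) Σ_i Σ_d ms_i(cell d)^{3/2}`.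
 (D)  `re_pk_dom0`       generic: `√ms'(S') ≤ √ms(P) + err ‖v‖` if no row outside `P` is connected to `S'`   (`v = An^*(1_P F) + An^*(1_{Pᶜ} F)`, contraction, `Loc.ker`).
      `re_pk_dom`        a cell that is HEAVY (`ms ≥ s^B ‖v‖²`) has `ms ≤ 4 μ₀(rays through the neighbouring cells)`: the error is absorbed.      No counting of cells, no tail condition.
      `re_pk_dom_sum`    light cells: `Σ ms^{3/2} ≤ (s^B ‖v‖²)^{1/2} ‖v‖²`.
 (B)  `re_pk_root_sum`   a final cell receives rays from `≤ card (rePkNb 81)` root cells `g`:   `μ₀(Ray)^{3/2} ≤ card^{1/2} Σ_g μ₀|_g (Ray)^{3/2}`.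
 (L)  `re_pk_light`      trivial bound for one root cell.
-/

set_option autoImplicit false

namespace Claimed.Agent.R256

open MeasureTheory
open scoped ENNReal

/-- **L-256-RE-PK-COVER**: the cell of a label of width `≤ 2R` is covered by boundedly many cells of the grid.   PLAN: if the cell is empty take `∅`; else fix `x₀` in it, `N = (rePkNb 225).image (fun c => rePkSh c (rePkIx R k (co x₀)))`
(`Finset.card_image_le`); for `x` in the cell: both rows lie in `(Q.toT k).box 1`, `re_pk_box_near` (`K = 24`), `re_pk_idx`. -/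
theorem re_pk_cover (R : ℝ) (hR : 0 < R) (k : ℕ) (Q : RdTst) (hQ : (Q.toT k).Adm 1) (hQR : Q.r ≤ 2 * R) :
    ∃ N : Finset RePkIx, N.card ≤ (rePkNb 225).card ∧ ∀ x : RdWvPar.Ph, RdWvPar.co 0 x ∈ Q.rows k → rePkIx R k (RdWvPar.co 0 x) ∈ N := by
  classical
  by_cases hne : ∃ x₀ : RdWvPar.Ph, RdWvPar.co 0 x₀ ∈ Q.rows k
  · obtain ⟨x₀, hx₀⟩ := hne
    refine ⟨(rePkNb 225).image (fun c => rePkSh c (rePkIx R k (RdWvPar.co 0 x₀))), Finset.card_image_le, fun x hx => ?_⟩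
    have h1 : RePkNear R (Q.toT k).l 24 (RdWvPar.co 0 x₀) (RdWvPar.co 0 x) :=
      re_pk_box_near R hR (Q.toT k) hQ.l_pos hQ.r_pos hQR _ _ hx₀.1 hx.1
    have h2 : RePkNear R (rdLen k) ((24 : ℕ) : ℝ) (RdWvPar.co 0 x₀) (RdWvPar.co 0 x) := by
      have e : ((24 : ℕ) : ℝ) = 24 := by norm_num
      rw [e]
      exact h1
    have h3 := re_pk_idx R hR k 24 _ _ h2
    have e225 : 9 * 24 + 9 = 225 := by norm_num
    rw [e225] at h3
    generalize rePkNb 225 = NB at *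
    obtain ⟨c, hc, hcx⟩ := h3
    exact Finset.mem_image.mpr ⟨c, hc, hcx.symm⟩
  · exact ⟨∅, by rw [Finset.card_empty]; exact Nat.zero_le _, fun x hx => absurd ⟨x, hx⟩ hne⟩

/-- **L-256-RE-PK-REGROUP** (splitting a label among cubes and combining assignments in the same cube, l.193-197).   PLAN: `θ_{l,d} = th l * 1_{cell d}` (masks: `gn_th_mask`, `gn_mask_ind`, `gn_mask_mul`, `re_pk_cell_meas`), `N l` from `re_pk_cover`, `D = S.biUnion N`.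
(1) `th l = Σ_{d ∈ N l} θ_{l,d}` pointwise (`Valid.th_supp`; the cells are disjoint), `gn_en_sum`: `m l = Σ_{d ∈ N l} en θ_{l,d}`;   `re_pk_pm`: `m l^{3/2} ≤ card^{1/2} Σ_{d ∈ D} (en θ_{l,d})^{3/2}`.
(2) `w l = r⁴ f^(1-η) ≥ R⁴ F0` (`F0 ≤ F0^(1-η) ≤ f^(1-η)`), `√(w l) ≥ R² √F0`.
(3) split `S` by `iv l = i ∈ ivs` (`Valid.iv_in`, `gn_mem_ivs`; `Finset.sum_fiberwise_of_maps_to`);   for fixed `(i, d)`: `Σ_{l : iv l = i} (en θ_{l,d})^{3/2} ≤ (Σ_l en θ_{l,d})^{3/2}` (`re_pk_pm`), `Σ_l en θ_{l,d} = en (Σ_l θ_{l,d}) ≤ ms (cell d)` (`gn_en_sum`, `Valid.th_sum`, `gn_en_mono`). -/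
theorem re_pk_regroup (η : ℝ) (hη0 : 0 < η) (hη1 : η < 1) (p : RdWvPar) (E : Xp (p.sys η)) (hE : E.Valid) (R F0 : ℝ) (hR : 0 < R) (hF0 : 0 < F0) (hF1 : F0 ≤ 1)
    (S : Finset (Fin E.L)) (hS : ∀ l ∈ S, R ≤ (rwT (E.ts l)).r ∧ (rwT (E.ts l)).r ≤ 2 * R ∧ F0 ≤ (rwT (E.ts l)).f) :
    ∃ D : Finset RePkIx, ∑ l ∈ S, E.tr l ≤ ((rePkNb 225).card : ℝ) ^ (1 / 2 : ℝ) / (R ^ 2 * Real.sqrt F0) *
      ∑ i ∈ ivs E.k0 E.i0 E.kf, ∑ d ∈ D, (p.sys η).ms (tmL E.kf i) E.kf E.bT (rePkCell R E.kf d) (E.fin i) ^ (3 / 2 : ℝ) := by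
  classical
  have hcov : ∀ l : Fin E.L, ∃ N : Finset RePkIx, l ∈ S → (N.card ≤ (rePkNb 225).card ∧
      ∀ x : RdWvPar.Ph, RdWvPar.co 0 x ∈ (rwT (E.ts l)).rows E.kf → rePkIx R E.kf (RdWvPar.co 0 x) ∈ N) := by
    intro l
    by_cases hl : l ∈ S
    · obtain ⟨N, h1, h2⟩ := re_pk_cover R hR E.kf (rwT (E.ts l)) (hE.ts_ok l).1 (hS l hl).2.1
      exact ⟨N, fun _ => ⟨h1, h2⟩⟩
    · exact ⟨∅, fun h => absurd h hl⟩
  choose N hN using hcov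
  refine ⟨S.biUnion N, ?_⟩
  set D := S.biUnion N with hD
  -- the masks
  let ind : RePkIx → (p.sys η).X → ℝ := fun d => (rePkCell R E.kf d).indicator fun _ => 1
  let θ : Fin E.L → RePkIx → (p.sys η).X → ℝ := fun l d x => E.th l x * ind d x
  have hind : ∀ d, IsMask (ind d) := fun d => gn_mask_ind (re_pk_cell_meas R E.kf d)
  have hθ : ∀ l d, IsMask (θ l d) := fun l d => gn_mask_mul (gn_th_mask E hE l) (hind d)
  let a : Fin E.L → RePkIx → ℝ := fun l d => (p.sys η).en (tmL E.kf (E.iv l)) E.kf E.bT (θ l d) (E.fin (E.iv l))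
  have ha0 : ∀ l d, 0 ≤ a l d := fun l d => gn_en_nonneg _ _ _ (fun x => ((hθ l d).2 x).1) _
  have hind_eq : ∀ d (x : (p.sys η).X), ind d x = if rePkIx R E.kf (RdWvPar.co 0 x) = d then 1 else 0 := by
    intro d x
    show (rePkCell R E.kf d).indicator (fun _ => (1 : ℝ)) x = _
    by_cases h : rePkIx R E.kf (RdWvPar.co 0 x) = d
    · rw [if_pos h]
      exact Set.indicator_of_mem (show x ∈ rePkCell R E.kf d from h) _
    · rw [if_neg h]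
      exact Set.indicator_of_notMem (show x ∉ rePkCell R E.kf d from h) _
  -- (1)
  have h1 : ∀ l ∈ S, E.m l = ∑ d ∈ N l, a l d := by
    intro l hl
    show (p.sys η).en (tmL E.kf (E.iv l)) E.kf E.bT (E.th l) (E.fin (E.iv l)) = _
    rw [← gn_en_sum _ _ _ (N l) (θ l) (fun d _ => hθ l d)]
    congr 1
    funext x
    show E.th l x = ∑ d ∈ N l, E.th l x * ind d x
    by_cases hx : E.th l x = 0
    · simp [hx]
    · have hx' := hE.th_supp l x hx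
      have hmem : rePkIx R E.kf (RdWvPar.co 0 x) ∈ N l := (hN l hl).2 x hx'
      rw [← Finset.mul_sum]
      have : ∑ d ∈ N l, ind d x = 1 := by
        simp only [hind_eq]
        rw [Finset.sum_ite_eq, if_pos hmem]
      rw [this, mul_one]
  set c : ℝ := ((rePkNb 225).card : ℝ) ^ (1 / 2 : ℝ) with hc
  have hc0 : 0 ≤ c := Real.rpow_nonneg (Nat.cast_nonneg _) _
  have hsF : 0 < Real.sqrt F0 := Real.sqrt_pos.2 hF0
  have hden : 0 < R ^ 2 * Real.sqrt F0 := by positivity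
  have hpw0 : ∀ l d, 0 ≤ a l d ^ (3 / 2 : ℝ) := fun l d => Real.rpow_nonneg (ha0 l d) _
  -- (2)
  have h2 : ∀ l ∈ S, E.tr l ≤ c / (R ^ 2 * Real.sqrt F0) * ∑ d ∈ D, a l d ^ (3 / 2 : ℝ) := by
    intro l hl
    obtain ⟨hr1, hr2, hf⟩ := hS l hl
    have hf1 : (rwT (E.ts l)).f ≤ 1 := (hE.ts_ok l).1.f_le
    have hw : R ^ 4 * F0 ≤ E.w l := by
      show R ^ 4 * F0 ≤ (rwT (E.ts l)).r ^ 4 * (rwT (E.ts l)).f ^ (1 - η)
      have e1 : R ^ 4 ≤ (rwT (E.ts l)).r ^ 4 := pow_le_pow_left₀ hR.le hr1 4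
      have e2 : F0 ≤ (rwT (E.ts l)).f ^ (1 - η) := by
        calc F0 ≤ (rwT (E.ts l)).f := hf
          _ = (rwT (E.ts l)).f ^ (1 : ℝ) := (Real.rpow_one _).symm
          _ ≤ (rwT (E.ts l)).f ^ (1 - η) := Real.rpow_le_rpow_of_exponent_ge (lt_of_lt_of_le hF0 hf) hf1 (by linarith)
      exact mul_le_mul e1 e2 hF0.le (by positivity)
    have hsw : R ^ 2 * Real.sqrt F0 ≤ Real.sqrt (E.w l) := by
      have : R ^ 2 * Real.sqrt F0 = Real.sqrt (R ^ 4 * F0) := by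
        rw [Real.sqrt_mul (by positivity), show R ^ 4 = (R ^ 2) ^ 2 by ring, Real.sqrt_sq (by positivity)]
      rw [this]
      exact Real.sqrt_le_sqrt hw
    have hm : E.m l ^ (3 / 2 : ℝ) ≤ c * ∑ d ∈ D, a l d ^ (3 / 2 : ℝ) := by
      rw [h1 l hl]
      refine ((re_pk_pm (N l) (a l) (fun d _ => ha0 l d)).1).trans ?_
      refine mul_le_mul ?_ ?_ (Finset.sum_nonneg fun d _ => hpw0 l d) hc0
      · exact Real.rpow_le_rpow (Nat.cast_nonneg _) (by exact_mod_cast (hN l hl).1) (by norm_num)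
      · exact Finset.sum_le_sum_of_subset_of_nonneg (Finset.subset_biUnion_of_mem N hl) (fun d _ _ => hpw0 l d)
    have hm0 : 0 ≤ E.m l ^ (3 / 2 : ℝ) := Real.rpow_nonneg (gn_m_nonneg' E hE l) _
    calc E.tr l = E.m l ^ (3 / 2 : ℝ) / Real.sqrt (E.w l) := rfl
      _ ≤ E.m l ^ (3 / 2 : ℝ) / (R ^ 2 * Real.sqrt F0) := div_le_div_of_nonneg_left hm0 hden hsw
      _ ≤ (c * ∑ d ∈ D, a l d ^ (3 / 2 : ℝ)) / (R ^ 2 * Real.sqrt F0) := div_le_div_of_nonneg_right hm hden.le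
      _ = c / (R ^ 2 * Real.sqrt F0) * ∑ d ∈ D, a l d ^ (3 / 2 : ℝ) := by ring
  -- (3)
  have h3 : ∑ l ∈ S, ∑ d ∈ D, a l d ^ (3 / 2 : ℝ) ≤
      ∑ i ∈ ivs E.k0 E.i0 E.kf, ∑ d ∈ D, (p.sys η).ms (tmL E.kf i) E.kf E.bT (rePkCell R E.kf d) (E.fin i) ^ (3 / 2 : ℝ) := by
    have hmaps : ∀ l ∈ S, E.iv l ∈ ivs E.k0 E.i0 E.kf := fun l _ => (gn_mem_ivs _ _ _ _).2 (hE.iv_in l)
    rw [← Finset.sum_fiberwise_of_maps_to hmaps]
    refine Finset.sum_le_sum fun i _ => ?_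
    rw [Finset.sum_comm]
    refine Finset.sum_le_sum fun d _ => ?_
    set J := S.filter (fun l => E.iv l = i) with hJ
    have hJi : ∀ l ∈ J, E.iv l = i := fun l hl => (Finset.mem_filter.1 hl).2
    refine ((re_pk_pm J (fun l => a l d) (fun l _ => ha0 l d)).2).trans ?_
    refine Real.rpow_le_rpow (Finset.sum_nonneg fun l _ => ha0 l d) ?_ (by norm_num)
    have e1 : ∑ l ∈ J, a l d = ∑ l ∈ J, (p.sys η).en (tmL E.kf i) E.kf E.bT (θ l d) (E.fin i) := by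
      refine Finset.sum_congr rfl fun l hl => ?_
      show (p.sys η).en (tmL E.kf (E.iv l)) E.kf E.bT (θ l d) (E.fin (E.iv l)) = _
      rw [hJi l hl]
    rw [e1, ← gn_en_sum _ _ _ J (fun l => θ l d) (fun l _ => hθ l d)]
    have hsum1 : ∀ x, ∑ l ∈ J, E.th l x ≤ 1 := by
      intro x
      refine le_trans ?_ (hE.th_sum i x)
      rw [hJ, Finset.sum_filter]
      exact Finset.sum_le_sum_of_subset_of_nonneg (Finset.subset_univ _) (fun l _ _ => by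
        split_ifs
        · exact hE.th_nn l x
        · exact le_rfl)
    have hpt : ∀ x, ∑ l ∈ J, θ l d x ≤ ind d x := by
      intro x
      show ∑ l ∈ J, E.th l x * ind d x ≤ ind d x
      rw [← Finset.sum_mul]
      exact mul_le_of_le_one_left ((hind d).2 x).1 (hsum1 x)
    have hmk : IsMask (fun x => ∑ l ∈ J, θ l d x) := by
      refine ⟨Finset.measurable_sum _ (fun l _ => (hθ l d).1), fun x => ⟨Finset.sum_nonneg fun l _ => ((hθ l d).2 x).1, ?_⟩⟩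
      exact (hpt x).trans ((hind d).2 x).2
    exact gn_en_mono _ _ _ hmk (hind d) hpt _
  calc ∑ l ∈ S, E.tr l ≤ ∑ l ∈ S, c / (R ^ 2 * Real.sqrt F0) * ∑ d ∈ D, a l d ^ (3 / 2 : ℝ) := Finset.sum_le_sum h2
    _ = c / (R ^ 2 * Real.sqrt F0) * ∑ l ∈ S, ∑ d ∈ D, a l d ^ (3 / 2 : ℝ) := by rw [Finset.mul_sum]
    _ ≤ _ := mul_le_mul_of_nonneg_left h3 (div_nonneg hc0 hden.le)

/-- **L-256-RE-PK-DOM0** (generic; contraction on the preimage, kernel off the preimage).   PLAN: `F = An T k b v`, `v = adjoint An F` (`gn_adj_an`), `F = mulR 1_P F + mulR 1_{Pᶜ} F` (`gn_mulR_sum` over `Finset.univ : Finset Bool`, or `gn_mulR_coe` + `Lp.ext`), `map_add`;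
`ms = en (1_S')`, `gn_en_tri`;   first piece: `gn_en_adj_le` and `‖mulR 1_P F‖² = ms T k b P v` (`gn_mulR_ind_normsq`, `gn_ms_eq`);   second piece: `L.ker p hp bm N Λ hΛ T k T' k' b b' hc hb hb' Pᶜ S' ..`, `Real.sqrt_le_sqrt`, `Real.sqrt_mul_self_eq_abs`/`Real.sqrt_sq_eq_abs`, `‖F‖ ≤ ‖v‖` (`hT.contr`). -/
theorem re_pk_dom0 (M : Mdl) (g : ℝ) (L : M.Loc g) (p : M.Par) (hp : M.gd p) (hT : (M.sys p).Tight) (bm N : ℕ) (Λ : ℝ) (hΛ : 1 ≤ Λ) (T : ℝ) (k : ℕ) (T' : ℝ) (k' b b' : ℕ)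
    (hc : CutLe T k T' k') (hb : b ≤ bm) (hb' : b' ≤ bm) (Pr S' : Set (M.sys p).X) (hP : MeasurableSet Pr) (hS' : MeasurableSet S')
    (hnc : ∀ x ∉ Pr, ∀ x' ∈ S', ¬ L.cn p Λ T k T' k' x x') (v : (M.sys p).Kc) (hv : v ∈ (M.sys p).Pl b) :
    Real.sqrt ((M.sys p).ms T' k' b' S' v) ≤ Real.sqrt ((M.sys p).ms T k b Pr v) + |L.CN bm N * Λ ^ (-(N : ℝ)) * 2 ^ (L.Cl * ((k' : ℝ) - k))| * ‖v‖ := by
  obtain ⟨c, hcdef⟩ : ∃ c : ℝ, c = L.CN bm N * Λ ^ (-(N : ℝ)) * 2 ^ (L.Cl * ((k' : ℝ) - k)) := ⟨_, rfl⟩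
  rw [← hcdef]
  obtain ⟨F, hF⟩ : ∃ F, F = (M.sys p).An T k b v := ⟨_, rfl⟩
  obtain ⟨F1, hF1⟩ : ∃ F1, F1 = (M.sys p).mulR k (Pr.indicator fun _ => 1) F := ⟨_, rfl⟩
  obtain ⟨F2, hF2⟩ : ∃ F2, F2 = (M.sys p).mulR k (Prᶜ.indicator fun _ => 1) F := ⟨_, rfl⟩
  have hsum : F1 + F2 = F := by
    apply Lp.ext
    filter_upwards [gn_mulR_coe k (gn_mask_ind hP) F, gn_mulR_coe k (gn_mask_ind hP.compl) F, Lp.coeFn_add F1 F2] with x h1 h2 h3
    rw [h3, Pi.add_apply, hF1, hF2, h1, h2]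
    by_cases hx : x ∈ Pr <;> simp [hx]
  have hv' : v = ContinuousLinearMap.adjoint ((M.sys p).An T k b) F1 + ContinuousLinearMap.adjoint ((M.sys p).An T k b) F2 := by
    rw [← map_add, hsum, hF, gn_adj_an hT T k b hv]
  have h1 : Real.sqrt ((M.sys p).ms T' k' b' S' v)
      ≤ Real.sqrt ((M.sys p).ms T' k' b' S' (ContinuousLinearMap.adjoint ((M.sys p).An T k b) F1))
        + Real.sqrt ((M.sys p).ms T' k' b' S' (ContinuousLinearMap.adjoint ((M.sys p).An T k b) F2)) := by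
    conv_lhs => rw [hv']
    exact gn_en_tri T' k' b' (gn_mask_ind hS') _ _
  have h2 : (M.sys p).ms T' k' b' S' (ContinuousLinearMap.adjoint ((M.sys p).An T k b) F1) ≤ (M.sys p).ms T k b Pr v := by
    refine (gn_en_adj_le hT T k b T' k' b' (gn_mask_ind hS') F1).trans (le_of_eq ?_)
    rw [hF1, gn_mulR_ind_normsq k hP, gn_ms_eq T k b hP, hF]
  have h3 := L.ker p hp bm N Λ hΛ T k T' k' b b' hc hb hb' Prᶜ S' hP.compl hS' (fun x hx => hnc x hx) F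
  rw [← hF2, ← hcdef] at h3
  have h4 : ‖F‖ ≤ ‖v‖ := by rw [hF]; exact hT.contr T k b v
  have h5 : Real.sqrt ((M.sys p).ms T' k' b' S' (ContinuousLinearMap.adjoint ((M.sys p).An T k b) F2)) ≤ |c| * ‖v‖ := by
    calc _ ≤ Real.sqrt (c ^ 2 * ‖F‖ ^ 2) := Real.sqrt_le_sqrt h3
      _ = |c| * ‖F‖ := by rw [← mul_pow, Real.sqrt_sq_eq_abs, abs_mul, abs_of_nonneg (norm_nonneg _)]
      _ ≤ _ := by gcongr
  linarith [Real.sqrt_le_sqrt h2]

/-- **L-256-RE-PK-ACC**: (acc) with `Λ = 2^n` is nearness at the final scale, because the packets are much smaller than the cells.   `d_f = rdD H (k0+n)`, `ℓ_f = 2⁻¹^n ℓ₀`.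
PLAN: `rdQ H k0 = ℓ₀ rdD H k0`, `rdD H k0 = (2⁻¹^n)^(1/2) d_f ≤ d_f` (or squares: `rdQ² = Hℓ₀`, `d_f² = H/ℓ_f`), `H = ℓ_f d_f²`.   With `4^n d_f ≤ R`:   `2^n d_f ≤ R`;   `(2^n rdQ)² = 4^n H ℓ₀ = 4^n ℓ_f d_f² ℓ₀ = 8^n ℓ_f² d_f² ≤ (ℓ_f R)²`;   `2^n H = 2^n ℓ_f d_f² ≤ ℓ_f R²`.
The three conditions of `reCn` are literally those of `RePkNear R ℓ_f 1 (x.flow t) x'` (`(x.flow t).A = x.A`). -/
theorem re_pk_acc (H : ℝ) (hH : 0 < H) (k0 n : ℕ) (R T T' : ℝ) (hR : 2 ^ (2 * n) * rdD H (k0 + n) ≤ R) (x x' : RtRow) (h : reCn H (2 ^ n) T k0 T' (k0 + n) x x') :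
    RePkNear R (rdLen (k0 + n)) 1 (x.flow (T' - T)) x' := by
  obtain ⟨h1, h2, h3⟩ := h
  have hlf : 0 < rdLen (k0 + n) := rdLen_pos _
  have hl0 : rdLen k0 = 2 ^ n * rdLen (k0 + n) := by
    unfold rdLen
    rw [pow_add, mul_comm ((2 : ℝ)⁻¹ ^ k0), ← mul_assoc, ← mul_pow]
    norm_num
  have hd0 : 0 ≤ rdD H (k0 + n) := Real.sqrt_nonneg _
  have hd2 : rdD H (k0 + n) ^ 2 = H / rdLen (k0 + n) := Real.sq_sqrt (div_pos hH hlf).le
  have hq2 : rdQ H k0 ^ 2 = H * rdLen k0 := Real.sq_sqrt (mul_pos hH (rdLen_pos _)).le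
  have ha : (1 : ℝ) ≤ 2 ^ n := one_le_pow₀ (by norm_num)
  have h2n : (2 : ℝ) ^ (2 * n) = 2 ^ n * 2 ^ n := by rw [two_mul, pow_add]
  rw [h2n] at hR
  rw [hl0] at hq2
  have hHe : H = rdLen (k0 + n) * rdD H (k0 + n) ^ 2 := by
    rw [hd2]; field_simp
  generalize rdLen (k0 + n) = lf at *
  generalize rdD H (k0 + n) = d at *
  generalize (2 : ℝ) ^ n = a at *
  generalize rdQ H k0 = q at *
  have hR0 : 0 ≤ R := le_trans (by positivity) hR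
  have had : a * d ≤ R := by
    refine le_trans ?_ hR
    nlinarith [mul_nonneg (by linarith : (0:ℝ) ≤ a) hd0]
  have had0 : 0 ≤ a * d := by positivity
  have hsq : (a * a * d) ^ 2 ≤ R ^ 2 := pow_le_pow_left₀ (by positivity) hR 2
  have hd2' : 0 ≤ d ^ 2 := sq_nonneg d
  refine ⟨?_, ?_, ?_⟩
  · refine h1.trans ?_
    rw [one_mul]
    exact pow_le_pow_left₀ had0 had 2
  · refine h2.trans ?_
    rw [one_mul, mul_pow, hq2, hHe, mul_pow]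
    have : a ^ 2 * (lf * d ^ 2 * (a * lf)) = lf ^ 2 * (a ^ 3 * d ^ 2) := by ring
    rw [this]
    apply mul_le_mul_of_nonneg_left _ (by positivity)
    refine le_trans ?_ hsq
    have e : (a * a * d) ^ 2 = a ^ 3 * d ^ 2 * a := by ring
    rw [e]
    have : 0 ≤ a ^ 3 * d ^ 2 := by positivity
    nlinarith
  · refine h3.trans ?_
    rw [one_mul, hHe]
    have : a * (lf * d ^ 2) = lf * (a * d ^ 2) := by ring
    rw [this]
    apply mul_le_mul_of_nonneg_left _ hlf.le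
    refine le_trans ?_ hsq
    have e : (a * a * d) ^ 2 = a * d ^ 2 * a ^ 3 := by ring
    rw [e]
    have h0 : 0 ≤ a * d ^ 2 := by positivity
    have h3' : 1 ≤ a ^ 3 := one_le_pow₀ ha
    nlinarith

/-- **L-256-RE-PK-DOM** (a heavy cell is dominated by the raw mass of the rays through the neighbouring cells).   PLAN: `L` from `hE.loc`, `Λ = 2^n`, `N = ⌈|L.Cl|⌉₊ + B + 2`, `n0` with `|L.CN bm N| ≤ 2^n0` (and `1 ≤ n0`).   `Pr = ⋃ c ∈ rePkNb 36, Ray (rePkSh c d)` (measurable: `Finset.measurableSet_biUnion`, `re_pk_ray_meas`).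
Not connected: `cn` ⟹ `reCn` ⟹ `re_pk_acc` ⟹ `re_pk_near_symm` (`K = 1`: `3`) ⟹ `re_pk_idx` (`K = 3`, `36 = 9*3+9`): the index of `x.flow t` is `rePkSh c d`.   `re_pk_dom0` (`CutLe` by `gn_cutle_anc` + `gn_mem_ivs`; `hE.gen.tight`):
`√ms' ≤ √ms(Pr) + err ‖v‖`, `err ≤ 2^n0 2^(-nN) 2^(|Cl| n) ≤ 2^(-(B+1) n) ≤ (1/2) (2⁻¹^(Bn))^(1/2)`;   heavy: `err ‖v‖ ≤ (1/2) √ms'`;   so `√ms' ≤ 2 √ms(Pr)`; square. -/
theorem re_pk_dom (η : ℝ) (hE : ReEntry η) (bm B : ℕ) :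
    ∃ n0 : ℕ, ∀ (p : RdWvPar) (k0 i0 n b0 bT i : ℕ) (v : (p.sys η).Kc) (R : ℝ) (d : RePkIx), n0 ≤ n → b0 ≤ bm → bT ≤ bm → v ∈ (p.sys η).Pl b0 → i ∈ ivs k0 i0 (k0 + n) →
      2 ^ (2 * n) * rdD p.H (k0 + n) ≤ R →
      (2 : ℝ)⁻¹ ^ (B * n) * ‖v‖ ^ 2 ≤ (p.sys η).ms (tmL (k0 + n) i) (k0 + n) bT (rePkCell R (k0 + n) d) v →
      (p.sys η).ms (tmL (k0 + n) i) (k0 + n) bT (rePkCell R (k0 + n) d) v ≤
        4 * (p.sys η).ms (tmL k0 i0) k0 b0 (⋃ c ∈ rePkNb 36, rePkRay R (k0 + n) (tmL (k0 + n) i - tmL k0 i0) (rePkSh c d)) v := by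
  obtain ⟨L, hL⟩ := hE.loc
  obtain ⟨N, hN⟩ : ∃ N : ℕ, N = ⌈|L.Cl|⌉₊ + B + 2 := ⟨_, rfl⟩
  obtain ⟨n0, hn0⟩ : ∃ n0 : ℕ, n0 = ⌈|L.CN bm N|⌉₊ + 1 := ⟨_, rfl⟩
  refine ⟨n0, ?_⟩
  intro p k0 i0 n b0 bT i v R d hn hb0 hbT hv hi hR hheavy
  obtain ⟨N36, hN36⟩ : ∃ N36 : ℕ, N36 = 36 := ⟨_, rfl⟩
  rw [← hN36]
  have hD0 : 0 < rdD p.H (k0 + n) := by
    unfold rdD
    exact Real.sqrt_pos.2 (div_pos p.H_pos (rdLen_pos _))
  have hR0 : 0 < R := lt_of_lt_of_le (by positivity) hR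
  have hc : CutLe (tmL k0 i0) k0 (tmL (k0 + n) i) (k0 + n) := by
    have := gn_cutle_anc (Nat.le_add_right k0 n) i
    rwa [(gn_mem_ivs k0 i0 (k0 + n) i).1 hi] at this
  obtain ⟨T, hT⟩ : ∃ T : ℝ, T = tmL k0 i0 := ⟨_, rfl⟩
  obtain ⟨T', hT'⟩ : ∃ T' : ℝ, T' = tmL (k0 + n) i := ⟨_, rfl⟩
  rw [← hT, ← hT'] at hc
  rw [← hT'] at hheavy
  rw [← hT, ← hT']
  suffices key : ∀ Pr : Set (p.sys η).X, Pr = (⋃ c ∈ rePkNb N36, rePkRay R (k0 + n) (T' - T) (rePkSh c d)) →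
      (p.sys η).ms T' (k0 + n) bT (rePkCell R (k0 + n) d) v ≤ 4 * (p.sys η).ms T k0 b0 Pr v from key _ rfl
  intro Pr hPr
  have hPm : MeasurableSet Pr := by
    rw [hPr]
    exact Finset.measurableSet_biUnion _ fun c _ => re_pk_ray_meas _ _ _ _
  have hSm := re_pk_cell_meas R (k0 + n) d
  have hΛ : (1 : ℝ) ≤ 2 ^ n := one_le_pow₀ (by norm_num)
  have hnc : ∀ x ∉ Pr, ∀ x' ∈ rePkCell R (k0 + n) d, ¬ L.cn p (2 ^ n) T k0 T' (k0 + n) x x' := by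
    intro x hx x' hx' hcn
    apply hx
    have h1 := (hL p (2 ^ n) T k0 T' (k0 + n) x x').1 hcn
    have h2 := re_pk_acc p.H p.H_pos k0 n R T T' hR _ _ h1
    have h3 := re_pk_near_symm hR0 (rdLen_pos (k0 + n)) zero_le_one h2
    have h4 : RePkNear R (rdLen (k0 + n)) ((3 : ℕ) : ℝ) (RdWvPar.co T' x') ((RdWvPar.co T x).flow (T' - T)) := by
      have e : ((3 : ℕ) : ℝ) = 1 + 2 * 1 ^ 2 := by norm_num
      rw [e]
      exact h3
    have h5 : ∃ c ∈ rePkNb N36, rePkIx R (k0 + n) ((RdWvPar.co T x).flow (T' - T))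
        = rePkSh c (rePkIx R (k0 + n) (RdWvPar.co T' x')) := by
      rw [hN36]
      exact re_pk_idx R hR0 (k0 + n) 3 _ _ h4
    obtain ⟨c, hc1, hc2⟩ := h5
    rw [hPr]
    refine Set.mem_iUnion₂.2 ⟨c, hc1, ?_⟩
    show rePkIx R (k0 + n) ((RdWvPar.co 0 x).flow (T' - T)) = rePkSh c d
    have hx'' : rePkIx R (k0 + n) (RdWvPar.co 0 x') = d := hx'
    rw [← hx'']
    exact hc2
  have hmain := re_pk_dom0 (rndWav η) 1 L p p.ok (hE.gen.tight p p.ok) bm N (2 ^ n) hΛ T k0 T' (k0 + n) b0 bT hc hb0 hbT Pr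
    (rePkCell R (k0 + n) d) hPm hSm hnc v hv
  obtain ⟨err, herr⟩ : ∃ err : ℝ, err = |L.CN bm N * (2 ^ n : ℝ) ^ (-(N : ℝ)) * 2 ^ (L.Cl * (((k0 + n : ℕ) : ℝ) - k0))| := ⟨_, rfl⟩
  rw [← herr] at hmain
  have herr_le : err ≤ 1 / 2 * Real.sqrt ((2 : ℝ)⁻¹ ^ (B * n)) := by
    have hnR : (1 : ℝ) ≤ n := by
      have : 1 ≤ n := by omega
      exact_mod_cast this
    have h1 : |L.CN bm N| ≤ (2 : ℝ) ^ (n : ℝ) := by
      have a1 : |L.CN bm N| ≤ (⌈|L.CN bm N|⌉₊ : ℝ) := Nat.le_ceil _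
      have a2 : (⌈|L.CN bm N|⌉₊ : ℝ) ≤ (n : ℝ) := by
        have : ⌈|L.CN bm N|⌉₊ ≤ n := by omega
        exact_mod_cast this
      have a3 : (n : ℝ) ≤ (2 : ℝ) ^ n := by exact_mod_cast (Nat.lt_two_pow_self).le
      rw [Real.rpow_natCast]
      linarith
    have h2 : ((2 : ℝ) ^ n) ^ (-(N : ℝ)) = (2 : ℝ) ^ (-((n : ℝ) * N)) := by
      rw [← Real.rpow_natCast, ← Real.rpow_mul (by norm_num)]
      congr 1
      ring
    have h3 : (2 : ℝ) ^ (L.Cl * (((k0 + n : ℕ) : ℝ) - k0)) ≤ (2 : ℝ) ^ (|L.Cl| * n) := by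
      apply Real.rpow_le_rpow_of_exponent_le (by norm_num)
      push_cast
      have : L.Cl ≤ |L.Cl| := le_abs_self _
      nlinarith
    have h4 : Real.sqrt ((2 : ℝ)⁻¹ ^ (B * n)) = (2 : ℝ) ^ (-((B : ℝ) * n / 2)) := by
      rw [Real.sqrt_eq_rpow, ← Real.rpow_natCast, Real.inv_rpow (by norm_num), ← Real.rpow_neg (by norm_num),
        ← Real.rpow_mul (by norm_num)]
      congr 1
      push_cast
      ring
    have h5 : (1 / 2 : ℝ) = (2 : ℝ) ^ (-1 : ℝ) := by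
      rw [Real.rpow_neg_one]
      norm_num
    rw [herr, abs_mul, abs_mul, abs_of_pos (Real.rpow_pos_of_pos (by positivity) _),
      abs_of_pos (Real.rpow_pos_of_pos (by norm_num) _), h2, h4, h5, ← Real.rpow_add (by norm_num)]
    calc |L.CN bm N| * (2 : ℝ) ^ (-((n : ℝ) * N)) * (2 : ℝ) ^ (L.Cl * (((k0 + n : ℕ) : ℝ) - k0))
        ≤ (2 : ℝ) ^ (n : ℝ) * (2 : ℝ) ^ (-((n : ℝ) * N)) * (2 : ℝ) ^ (|L.Cl| * n) := by gcongr
      _ = (2 : ℝ) ^ ((n : ℝ) + -((n : ℝ) * N) + |L.Cl| * n) := by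
          rw [← Real.rpow_add (by norm_num), ← Real.rpow_add (by norm_num)]
      _ ≤ _ := by
          apply Real.rpow_le_rpow_of_exponent_le (by norm_num)
          have hNR : |L.Cl| + B + 2 ≤ (N : ℝ) := by
            rw [hN]
            push_cast
            linarith [Nat.le_ceil |L.Cl|]
          have h6 : (n : ℝ) * (|L.Cl| + B + 2) ≤ n * N := by gcongr
          have hB : (0 : ℝ) ≤ (B : ℝ) * n := by positivity
          nlinarith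
  obtain ⟨ms', hms'⟩ : ∃ a : ℝ, a = (p.sys η).ms T' (k0 + n) bT (rePkCell R (k0 + n) d) v := ⟨_, rfl⟩
  obtain ⟨msP, hmsP⟩ : ∃ a : ℝ, a = (p.sys η).ms T k0 b0 Pr v := ⟨_, rfl⟩
  have hmain' : Real.sqrt ms' ≤ Real.sqrt msP + err * ‖v‖ := by
    rw [hms', hmsP]
    exact hmain
  rw [← hms'] at hheavy
  rw [← hms', ← hmsP]
  have hms0 : 0 ≤ ms' := by rw [hms']; exact gn_ms_nonneg _ _ _ _ _
  have hmsP0 : 0 ≤ msP := by rw [hmsP]; exact gn_ms_nonneg _ _ _ _ _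
  have hs' : Real.sqrt ((2 : ℝ)⁻¹ ^ (B * n)) * ‖v‖ ≤ Real.sqrt ms' := by
    have := Real.sqrt_le_sqrt hheavy
    rwa [Real.sqrt_mul (by positivity), Real.sqrt_sq (norm_nonneg _)] at this
  have h6 : err * ‖v‖ ≤ 1 / 2 * Real.sqrt ms' := by
    calc err * ‖v‖ ≤ (1 / 2 * Real.sqrt ((2 : ℝ)⁻¹ ^ (B * n))) * ‖v‖ := by gcongr
      _ = 1 / 2 * (Real.sqrt ((2 : ℝ)⁻¹ ^ (B * n)) * ‖v‖) := by ring
      _ ≤ _ := by gcongr
  have h7 : Real.sqrt ms' ≤ 2 * Real.sqrt msP := by linarith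
  have h8 : ms' = Real.sqrt ms' ^ 2 := (Real.sq_sqrt hms0).symm
  have h9 : msP = Real.sqrt msP ^ 2 := (Real.sq_sqrt hmsP0).symm
  rw [h8, h9]
  nlinarith [Real.sqrt_nonneg ms', Real.sqrt_nonneg msP]

/-- **L-256-RE-PK-DISJ**: the cells (more generally the ray cells) are disjoint: finite sums of their masses are bounded by the total mass.   PLAN: `measureReal_biUnion_finset` (pairwise disjoint: two different values of one function; `re_pk_ray_meas`), `measureReal_mono`. -/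
theorem re_pk_disj (μ : Measure RdWvPar.Ph) [IsFiniteMeasure μ] (R : ℝ) (k : ℕ) (t : ℝ) (D : Finset RePkIx) : ∑ d ∈ D, μ.real (rePkRay R k t d) ≤ μ.real Set.univ := by
  rw [← measureReal_biUnion_finset ?_ (fun d _ => re_pk_ray_meas R k t d)]
  · exact measureReal_mono (Set.subset_univ _)
  · intro d _ d' _ hdd'
    rw [Function.onFun, Set.disjoint_left]
    intro x hx hx'
    exact hdd' (hx.symm.trans hx')

/-- the heavy / light splitting, abstractly -/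
theorem re_pk_dom_sum_abs (N D : Finset RePkIx) (m b : RePkIx → ℝ) (θ V : ℝ) (hm : ∀ d, 0 ≤ m d) (hb : ∀ d, 0 ≤ b d) (hθ : 0 ≤ θ)
    (hsum : ∑ d ∈ D, m d ≤ V) (hheavy : ∀ d ∈ D, θ ≤ m d → m d ≤ 4 * ∑ c ∈ N, b (rePkSh c d)) :
    ∑ d ∈ D, m d ^ (3 / 2 : ℝ) ≤ θ ^ (1 / 2 : ℝ) * V
      + 8 * (N.card : ℝ) ^ (3 / 2 : ℝ) * ∑ d ∈ Finset.image₂ rePkSh N D, b d ^ (3 / 2 : ℝ) := by
  rw [← Finset.sum_filter_add_sum_filter_not D (fun d => θ ≤ m d)]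
  have hlight : ∑ d ∈ D.filter (fun d => ¬ θ ≤ m d), m d ^ (3 / 2 : ℝ) ≤ θ ^ (1 / 2 : ℝ) * V := by
    calc ∑ d ∈ D.filter (fun d => ¬ θ ≤ m d), m d ^ (3 / 2 : ℝ)
        ≤ ∑ d ∈ D.filter (fun d => ¬ θ ≤ m d), θ ^ (1 / 2 : ℝ) * m d := by
          apply Finset.sum_le_sum
          intro d hd
          have hlt : m d < θ := not_le.1 (Finset.mem_filter.1 hd).2
          have e : m d ^ (3 / 2 : ℝ) = m d ^ (1 / 2 : ℝ) * m d := by
            rcases (hm d).eq_or_lt with h0 | h0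
            · rw [← h0, Real.zero_rpow (by norm_num), mul_zero]
            · rw [show (3 / 2 : ℝ) = 1 / 2 + 1 by norm_num, Real.rpow_add h0, Real.rpow_one]
          rw [e]
          exact mul_le_mul_of_nonneg_right (Real.rpow_le_rpow (hm d) hlt.le (by norm_num)) (hm d)
      _ = θ ^ (1 / 2 : ℝ) * ∑ d ∈ D.filter (fun d => ¬ θ ≤ m d), m d := by rw [Finset.mul_sum]
      _ ≤ θ ^ (1 / 2 : ℝ) * V := by
          apply mul_le_mul_of_nonneg_left _ (by positivity)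
          exact (Finset.sum_le_sum_of_subset_of_nonneg (Finset.filter_subset _ _) fun d _ _ => hm d).trans hsum
  have hheavy' : ∑ d ∈ D.filter (fun d => θ ≤ m d), m d ^ (3 / 2 : ℝ)
      ≤ 8 * (N.card : ℝ) ^ (3 / 2 : ℝ) * ∑ d ∈ Finset.image₂ rePkSh N D, b d ^ (3 / 2 : ℝ) := by
    have h1 := re_pk_tr N (D.filter fun d => θ ≤ m d) (fun d => m d / 4) b (fun d => div_nonneg (hm d) (by norm_num)) hb (by
      intro d hd
      obtain ⟨hd1, hd2⟩ := Finset.mem_filter.1 hd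
      have := hheavy d hd1 hd2
      show m d / 4 ≤ _
      linarith)
    have e4 : (4 : ℝ) ^ (3 / 2 : ℝ) = 8 := by
      rw [show (4 : ℝ) = 2 ^ (2 : ℝ) by norm_num, ← Real.rpow_mul (by norm_num)]
      norm_num
    have e : ∀ d, m d ^ (3 / 2 : ℝ) = 8 * (m d / 4) ^ (3 / 2 : ℝ) := by
      intro d
      rw [Real.div_rpow (hm d) (by norm_num), e4]
      ring
    calc ∑ d ∈ D.filter (fun d => θ ≤ m d), m d ^ (3 / 2 : ℝ)
        = 8 * ∑ d ∈ D.filter (fun d => θ ≤ m d), (m d / 4) ^ (3 / 2 : ℝ) := by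
          rw [Finset.mul_sum]
          exact Finset.sum_congr rfl fun d _ => e d
      _ ≤ 8 * ((N.card : ℝ) ^ (3 / 2 : ℝ) * ∑ d ∈ Finset.image₂ rePkSh N (D.filter fun d => θ ≤ m d), b d ^ (3 / 2 : ℝ)) :=
          mul_le_mul_of_nonneg_left h1 (by norm_num)
      _ ≤ 8 * ((N.card : ℝ) ^ (3 / 2 : ℝ) * ∑ d ∈ Finset.image₂ rePkSh N D, b d ^ (3 / 2 : ℝ)) := by
          apply mul_le_mul_of_nonneg_left _ (by norm_num)
          apply mul_le_mul_of_nonneg_left _ (by positivity)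
          exact Finset.sum_le_sum_of_subset_of_nonneg (Finset.image₂_subset_left (Finset.filter_subset _ _))
            fun d _ _ => Real.rpow_nonneg (hb d) _
      _ = _ := by ring
  linarith

/-- **L-256-RE-PK-DOMSUM**.   PLAN: `n0` of `re_pk_dom`.   Split `D` into heavy and light cells (`Finset.sum_filter_add_sum_filter_not`).   Light: `x^{3/2} = x^{1/2} x ≤ (2⁻¹^(Bn) ‖v‖²)^{1/2} x`, `Σ_d ms(cell d) ≤ ‖v‖²` (`gn_ms_eq_mu`, `re_pk_cell_eq_ray`, `re_pk_disj`, `gn_ms_le` with `S = univ`).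
Heavy: `re_pk_dom`, `ms(⋃) ≤ Σ_c ms(Ray (sh c d))` (`gn_ms_eq_mu`, `measureReal_biUnion_finset_le`);   `re_pk_tr` with `a d = ms(cell d)/4` on heavy cells (`0` else), `b d' = ms₀(Ray d')`;   `(4a)^{3/2} = 8 a^{3/2}`. -/
theorem re_pk_dom_sum (η : ℝ) (hE : ReEntry η) (bm B : ℕ) :
    ∃ n0 : ℕ, ∀ (p : RdWvPar) (k0 i0 n b0 bT i : ℕ) (v : (p.sys η).Kc) (R : ℝ) (D : Finset RePkIx), n0 ≤ n → b0 ≤ bm → bT ≤ bm → v ∈ (p.sys η).Pl b0 → i ∈ ivs k0 i0 (k0 + n) →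
      2 ^ (2 * n) * rdD p.H (k0 + n) ≤ R →
      ∑ d ∈ D, (p.sys η).ms (tmL (k0 + n) i) (k0 + n) bT (rePkCell R (k0 + n) d) v ^ (3 / 2 : ℝ) ≤
        ((2 : ℝ)⁻¹ ^ (B * n)) ^ (1 / 2 : ℝ) * ‖v‖ ^ 3 + 8 * ((rePkNb 36).card : ℝ) ^ (3 / 2 : ℝ) *
          ∑ d ∈ Finset.image₂ rePkSh (rePkNb 36) D, (p.sys η).ms (tmL k0 i0) k0 b0 (rePkRay R (k0 + n) (tmL (k0 + n) i - tmL k0 i0) d) v ^ (3 / 2 : ℝ) := by
  obtain ⟨n0, h0⟩ := re_pk_dom η hE bm B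
  refine ⟨n0, ?_⟩
  intro p k0 i0 n b0 bT i v R D hn hb0 hbT hv hi hR
  have hT : (p.sys η).Tight := hE.gen.tight p p.ok
  obtain ⟨N36, hN36⟩ : ∃ N36 : ℕ, N36 = 36 := ⟨_, rfl⟩
  have h0' := h0 p k0 i0 n b0 bT i v R
  rw [← hN36] at h0' ⊢
  have habs := re_pk_dom_sum_abs (rePkNb N36) D
    (fun d => (p.sys η).ms (tmL (k0 + n) i) (k0 + n) bT (rePkCell R (k0 + n) d) v)
    (fun d => (p.sys η).ms (tmL k0 i0) k0 b0 (rePkRay R (k0 + n) (tmL (k0 + n) i - tmL k0 i0) d) v)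
    ((2 : ℝ)⁻¹ ^ (B * n) * ‖v‖ ^ 2) (‖v‖ ^ 2) (fun d => gn_ms_nonneg _ _ _ _ _) (fun d => gn_ms_nonneg _ _ _ _ _)
    (by positivity) ?_ ?_
  · refine habs.trans (le_of_eq ?_)
    congr 1
    rw [Real.mul_rpow (by positivity) (by positivity), ← Real.sqrt_eq_rpow (‖v‖ ^ 2), Real.sqrt_sq (norm_nonneg _)]
    ring
  · have hfin := gn_mu_finite (P := p.sys η) (tmL (k0 + n) i) (k0 + n) bT v
    have h1 := @re_pk_disj ((p.sys η).mu (tmL (k0 + n) i) (k0 + n) bT v) hfin R (k0 + n) 0 D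
    have h2 : ((p.sys η).mu (tmL (k0 + n) i) (k0 + n) bT v).real Set.univ ≤ ‖v‖ ^ 2 := by
      rw [← gn_ms_eq_mu _ _ _ MeasurableSet.univ]
      exact gn_ms_le hT _ _ _ MeasurableSet.univ v
    refine le_trans (le_of_eq ?_) (h1.trans h2)
    refine Finset.sum_congr rfl fun d _ => ?_
    rw [← re_pk_cell_eq_ray]
    exact gn_ms_eq_mu _ _ _ (re_pk_cell_meas R (k0 + n) d) v
  · intro d hd hθ
    refine (h0' d hn hb0 hbT hv hi hR hθ).trans (mul_le_mul_of_nonneg_left ?_ (by norm_num))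
    have hfin := gn_mu_finite (P := p.sys η) (tmL k0 i0) k0 b0 v
    have hm : ∀ c, MeasurableSet (rePkRay R (k0 + n) (tmL (k0 + n) i - tmL k0 i0) (rePkSh c d)) := fun c => re_pk_ray_meas _ _ _ _
    have e1 := gn_ms_eq_mu (P := p.sys η) (tmL k0 i0) k0 b0 (Finset.measurableSet_biUnion (rePkNb N36) fun c _ => hm c) v
    refine (le_of_eq e1).trans ((measureReal_biUnion_finset_le _ _).trans (le_of_eq ?_))
    exact Finset.sum_congr rfl fun c _ => (gn_ms_eq_mu (P := p.sys η) _ _ _ (hm c) v).symm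

/-- the rays through one final cell start in boundedly many root cells.   (The numeral `81` is hidden in a variable: the elaborator tries to evaluate `c ∈ rePkNb 81`.) -/
theorem re_pk_root_sum_cov (R : ℝ) (hR : 0 < R) (k0 n : ℕ) (t : ℝ) (ht0 : 0 ≤ t) (ht1 : t ≤ rdLen k0) (d : RePkIx) :
    ∃ G : Finset RePkIx, G.card ≤ (rePkNb 81).card ∧ ∀ x ∈ rePkRay R (k0 + n) t d, rePkIx R k0 (RdWvPar.co 0 x) ∈ G := by
  obtain ⟨N, hN⟩ : ∃ N : ℕ, N = 81 := ⟨_, rfl⟩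
  rw [← hN]
  by_cases hne : (rePkRay R (k0 + n) t d).Nonempty
  · obtain ⟨x₁, hx₁⟩ := hne
    refine ⟨(rePkNb N).image (fun c => rePkSh c (rePkIx R k0 (RdWvPar.co 0 x₁))), Finset.card_image_le, ?_⟩
    intro x hx
    have hnear := re_pk_root_geo R hR k0 n t ht0 ht1 (RdWvPar.co 0 x₁) (RdWvPar.co 0 x) (hx.trans hx₁.symm)
    have hnear' : RePkNear R (rdLen k0) ((8 : ℕ) : ℝ) (RdWvPar.co 0 x₁) (RdWvPar.co 0 x) := by
      rw [Nat.cast_ofNat]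
      exact hnear
    have h9 : ∃ c ∈ rePkNb N, rePkIx R k0 (RdWvPar.co 0 x) = rePkSh c (rePkIx R k0 (RdWvPar.co 0 x₁)) := by
      rw [hN]
      exact re_pk_idx R hR k0 8 _ _ hnear'
    obtain ⟨c, hc, he⟩ := h9
    exact Finset.mem_image.2 ⟨c, hc, he.symm⟩
  · exact ⟨∅, by rw [Finset.card_empty]; exact Nat.zero_le _, fun x hx => absurd ⟨x, hx⟩ hne⟩

/-- **L-256-RE-PK-ROOTSUM** (an ending cell receives contributions from boundedly many root boxes, l.141-144; here incoherently).   PLAN: for `(i, d)` with `Ray_i d ≠ ∅` fix `x₁` in it, `G i d = (rePkNb 81).image (fun c => rePkSh c (rePkIx R k0 (co x₁)))`, else `∅`;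
`re_pk_root_geo` (`t = T_i - T_0 ∈ [0, ℓ₀]`: `gn_cutle_anc`, `gn_mem_ivs`) + `re_pk_idx` (`K = 8`, `81 = 9*8+9`): `Ray_i d ⊆ ⋃_{g ∈ G i d} cell g`;   `μ(Ray) = Σ_{g ∈ G i d} μ(Ray ∩ cell g)` (disjoint cells; `≤` suffices: `measureReal_biUnion_finset_le`),
`(μ.restrict (cell g)).real Ray = μ.real (Ray ∩ cell g)` (`Measure.restrict_apply`, `re_pk_ray_meas`);   `re_pk_pm`;   `G = ` union of all `G i d` (`Finset.biUnion`), enlarge the inner sums (nonnegative terms), exchange the sums (`Finset.sum_comm`). -/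
theorem re_pk_root_sum (μ : Measure RdWvPar.Ph) [IsFiniteMeasure μ] (R : ℝ) (hR : 0 < R) (k0 i0 n : ℕ) (D : Finset RePkIx) :
    ∃ G : Finset RePkIx, ∑ i ∈ ivs k0 i0 (k0 + n), ∑ d ∈ D, μ.real (rePkRay R (k0 + n) (tmL (k0 + n) i - tmL k0 i0) d) ^ (3 / 2 : ℝ) ≤
      ((rePkNb 81).card : ℝ) ^ (1 / 2 : ℝ) * ∑ g ∈ G, ∑ i ∈ ivs k0 i0 (k0 + n), ∑ d ∈ D,
        (μ.restrict (rePkCell R k0 g)).real (rePkRay R (k0 + n) (tmL (k0 + n) i - tmL k0 i0) d) ^ (3 / 2 : ℝ) := by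
  have hcov : ∀ i ∈ ivs k0 i0 (k0 + n), ∀ d, ∃ G : Finset RePkIx, G.card ≤ (rePkNb 81).card ∧
      ∀ x ∈ rePkRay R (k0 + n) (tmL (k0 + n) i - tmL k0 i0) d, rePkIx R k0 (RdWvPar.co 0 x) ∈ G := by
    intro i hi d
    have hc := gn_cutle_anc (Nat.le_add_right k0 n) i
    rw [(gn_mem_ivs k0 i0 (k0 + n) i).1 hi] at hc
    obtain ⟨-, hc1, hc2⟩ := hc
    exact re_pk_root_sum_cov R hR k0 n _ (by linarith) (by unfold rdLen; linarith) d
  choose! Gf hGc hGm using hcov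
  obtain ⟨G, hG⟩ : ∃ G : Finset RePkIx, G = (ivs k0 i0 (k0 + n)).biUnion fun i => D.biUnion fun d => Gf i d := ⟨_, rfl⟩
  refine ⟨G, ?_⟩
  obtain ⟨C, hC⟩ : ∃ C : ℝ, C = ((rePkNb 81).card : ℝ) ^ (1 / 2 : ℝ) := ⟨_, rfl⟩
  have hC0 : 0 ≤ C := by rw [hC]; positivity
  rw [← hC]
  have key : ∀ i ∈ ivs k0 i0 (k0 + n), ∀ d ∈ D, μ.real (rePkRay R (k0 + n) (tmL (k0 + n) i - tmL k0 i0) d) ^ (3 / 2 : ℝ)
      ≤ C * ∑ g ∈ G, (μ.restrict (rePkCell R k0 g)).real (rePkRay R (k0 + n) (tmL (k0 + n) i - tmL k0 i0) d) ^ (3 / 2 : ℝ) := by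
    intro i hi d hd
    obtain ⟨Ry, hRy⟩ : ∃ Ry : Set RdWvPar.Ph, Ry = rePkRay R (k0 + n) (tmL (k0 + n) i - tmL k0 i0) d := ⟨_, rfl⟩
    rw [← hRy]
    have hm : MeasurableSet Ry := by rw [hRy]; exact re_pk_ray_meas _ _ _ _
    have e1 : ∀ g, (μ.restrict (rePkCell R k0 g)).real Ry = μ.real (Ry ∩ rePkCell R k0 g) := by
      intro g
      rw [measureReal_restrict_apply hm]
    have h1 : μ.real Ry ≤ ∑ g ∈ Gf i d, (μ.restrict (rePkCell R k0 g)).real Ry := by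
      simp only [e1]
      refine le_trans (measureReal_mono ?_ (measure_ne_top _ _)) (measureReal_biUnion_finset_le _ _)
      intro x hx
      simp only [Set.mem_iUnion, Set.mem_inter_iff, exists_prop]
      exact ⟨_, hGm i hi d x (hRy ▸ hx), hx, rfl⟩
    calc μ.real Ry ^ (3 / 2 : ℝ) ≤ (∑ g ∈ Gf i d, (μ.restrict (rePkCell R k0 g)).real Ry) ^ (3 / 2 : ℝ) :=
          Real.rpow_le_rpow measureReal_nonneg h1 (by norm_num)
      _ ≤ ((Gf i d).card : ℝ) ^ (1 / 2 : ℝ) * ∑ g ∈ Gf i d, (μ.restrict (rePkCell R k0 g)).real Ry ^ (3 / 2 : ℝ) :=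
          (re_pk_pm _ _ fun g _ => measureReal_nonneg).1
      _ ≤ C * ∑ g ∈ G, (μ.restrict (rePkCell R k0 g)).real Ry ^ (3 / 2 : ℝ) := by
          apply mul_le_mul
          · rw [hC]
            exact Real.rpow_le_rpow (Nat.cast_nonneg _) (by exact_mod_cast hGc i hi d) (by norm_num)
          · apply Finset.sum_le_sum_of_subset_of_nonneg
            · intro g hg
              rw [hG]
              exact Finset.mem_biUnion.2 ⟨i, hi, Finset.mem_biUnion.2 ⟨d, hd, hg⟩⟩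
            · intros
              positivity
          · exact Finset.sum_nonneg fun g _ => by positivity
          · exact hC0
  refine (Finset.sum_le_sum fun i hi => Finset.sum_le_sum fun d hd => key i hi d hd).trans (le_of_eq ?_)
  simp only [← Finset.mul_sum]
  congr 1
  rw [Finset.sum_congr rfl fun i _ => Finset.sum_comm]
  exact Finset.sum_comm

/-- **L-256-RE-PK-LIGHT**.   PLAN: for each `i`: `re_pk_pm` (second part), `re_pk_disj`, monotonicity of `x ↦ x^{3/2}`;   `gn_ivs_card`: `2^n` intervals. -/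
theorem re_pk_light (ν : Measure RdWvPar.Ph) [IsFiniteMeasure ν] (R : ℝ) (k0 i0 n : ℕ) (D : Finset RePkIx) :
    ∑ i ∈ ivs k0 i0 (k0 + n), ∑ d ∈ D, ν.real (rePkRay R (k0 + n) (tmL (k0 + n) i - tmL k0 i0) d) ^ (3 / 2 : ℝ) ≤ 2 ^ n * ν.real Set.univ ^ (3 / 2 : ℝ) := by
  have h1 : ∀ i ∈ ivs k0 i0 (k0 + n), ∑ d ∈ D, ν.real (rePkRay R (k0 + n) (tmL (k0 + n) i - tmL k0 i0) d) ^ (3 / 2 : ℝ)
      ≤ ν.real Set.univ ^ (3 / 2 : ℝ) := by
    intro i _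
    refine ((re_pk_pm D _ fun d _ => measureReal_nonneg).2).trans ?_
    exact Real.rpow_le_rpow (Finset.sum_nonneg fun d _ => measureReal_nonneg) (re_pk_disj ν R _ _ D) (by norm_num)
  refine (Finset.sum_le_sum h1).trans (le_of_eq ?_)
  rw [Finset.sum_const, gn_ivs_card, nsmul_eq_mul, Nat.add_sub_cancel_left]
  push_cast
  ring

end Claimed.Agent.R256
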