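-- KEEP
import Claimed.Agent.R256.Re.PlDom
import Claimed.Agent.R256.Re.PlCl

/-!
# Row 256, unit RE, block PL, file 7: THE FREE GAP            (architect helper236; prefix `re_pk_`)
PAPER FREE.   `re_pk_one`: one dyadic class of label widths on a free experiment.      `re_pk_gap : RePLGap η γ`: all labels (`O(n)` classes + labels of huge weight).
-/

set_option autoImplicit false

namespace Claimed.Agent.R256

open MeasureTheory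
open scoped ENNReal

/-- **PL on a free gap**: free experiments all of whose labels are wider than `s^-(12/η+1) d_ℓ` and not thinner than `s^g` obey the CLASSICAL rate `γ` up to `4g`.      The exponent `12/η + 1` is package free. -/
def RePLGap (η γ : ℝ) : Prop :=
  ∀ g : ℝ, 0 < g → g ≤ 1 → ∀ C : ℕ, ∃ n0 : ℕ, ∀ (A : ℕ) (p : RdWvPar) (E : Xp (p.sys η)), n0 ≤ E.n → (rndWav η).Cls C A p E → E.st = [] →
    (∀ l, E.s ^ (-(12 / η + 1)) * rdD p.H E.kf ≤ (rwT (E.ts l)).r ∧ E.s ^ g ≤ (rwT (E.ts l)).f) → E.val ≤ 2 ^ ((γ + 4 * g) * E.n)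

theorem re_pk_rdD_pos (H : ℝ) (hH : 0 < H) (k : ℕ) : 0 < rdD H k := by
  unfold rdD
  exact Real.sqrt_pos.mpr (div_pos hH (rdLen_pos k))

theorem re_pk_rdD_mono (H : ℝ) (hH : 0 < H) (k n : ℕ) : rdD H k ≤ rdD H (k + n) := by
  unfold rdD
  apply Real.sqrt_le_sqrt
  have h1 : rdLen (k + n) ≤ rdLen k := by
    unfold rdLen
    exact pow_le_pow_of_le_one (by norm_num) (by norm_num) (Nat.le_add_right k n)
  exact div_le_div_of_nonneg_left hH.le (rdLen_pos _) h1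

/-- **L-256-RE-PK-BOXHYP**: the raw row energy of a root cell satisfies `RePkHyp` if it is not light.   `μ₀ = (p.sys η).mu T₀ k0 b0 v`, `ν = μ₀.restrict (cell g)`, `ϑ = rdD H k0`.
PLAN: `supp`: `Measure.restrict_apply` on the complement (`re_pk_cell_meas`);   `reg`: `ν.real S ≤ μ₀.real S` (`Measure.restrict_le_self`, `measureReal_mono`-type), `= ms T₀ k0 b0 (cell Q) v` (`gn_ms_eq_mu`, `hT.cellM`; the cell of the wave system is `{x | co T x ∈ Q.rows k}` and `co T x = co 0 x` by `rfl`), `hreg Q ⟨hQ, hth⟩`;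
`th_le`: `rdD H k0 ≤ rdD H (k0+n)` (`Real.sqrt_le_sqrt`, `rdLen (k0+n) ≤ rdLen k0`) and `hR`: `d_f ≤ s^(12/η) R` (multiply by `s^(12/η)`; `Real.rpow_neg`). -/
theorem re_pk_box_hyp (η : ℝ) (p : RdWvPar) (hT : (p.sys η).Tight) (k0 n b0 : ℕ) (T0 : ℝ) (v : (p.sys η).Kc) (κ R : ℝ) (hκ : 0 < κ) (hreg : (p.sys η).Reg T0 k0 b0 κ v)
    (hR : ((2 : ℝ)⁻¹ ^ n) ^ (-(12 / η)) * rdD p.H (k0 + n) ≤ R) (g : RePkIx) (B : ℕ)
    (hm : ((2 : ℝ)⁻¹ ^ n) ^ B * (κ * R ^ 4) ≤ (((p.sys η).mu T0 k0 b0 v).restrict (rePkCell R k0 g)).real Set.univ) :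
    RePkHyp η (((p.sys η).mu T0 k0 b0 v).restrict (rePkCell R k0 g)) R k0 n g κ (rdD p.H k0) B := by
  have hs : (0 : ℝ) < (2 : ℝ)⁻¹ ^ n := by positivity
  have hd0 := re_pk_rdD_pos p.H p.H_pos k0
  have hdf := re_pk_rdD_pos p.H p.H_pos (k0 + n)
  have hfin := gn_mu_finite (P := p.sys η) T0 k0 b0 v
  refine ⟨?_, hκ, hd0, ?_, ?_, ?_, hm⟩
  · exact lt_of_lt_of_le (mul_pos (Real.rpow_pos_of_pos hs _) hdf) hR
  · have h0 : ∀ μ : Measure RdWvPar.Ph, (μ.restrict (rePkCell R k0 g)) (rePkCell R k0 g)ᶜ = 0 := by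
      intro μ
      rw [Measure.restrict_apply (re_pk_cell_meas R k0 g).compl]
      simp
    exact h0 _
  · intro Q hQ hth
    have hmeas : MeasurableSet {x : RdWvPar.Ph | RdWvPar.co 0 x ∈ Q.rows k0} := hT.cellM Q 0 k0
    have h1 : (((p.sys η).mu T0 k0 b0 v).restrict (rePkCell R k0 g)).real {x : RdWvPar.Ph | RdWvPar.co 0 x ∈ Q.rows k0}
        ≤ ((p.sys η).mu T0 k0 b0 v).real {x : RdWvPar.Ph | RdWvPar.co 0 x ∈ Q.rows k0} := by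
      unfold Measure.real
      exact ENNReal.toReal_mono (measure_ne_top _ _) (Measure.restrict_le_self _)
    refine h1.trans ?_
    have h2 := hreg Q ⟨hQ, hth⟩
    rw [gn_ms_eq_mu T0 k0 b0 (hT.cellM Q T0 k0)] at h2
    exact h2
  · have h1 : rdD p.H (k0 + n) ≤ ((2 : ℝ)⁻¹ ^ n) ^ (12 / η) * R := by
      rw [Real.rpow_neg hs.le] at hR
      have h2 := Real.rpow_pos_of_pos hs (12 / η)
      rw [inv_mul_le_iff₀ h2] at hR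
      exact hR
    exact (re_pk_rdD_mono p.H p.H_pos k0 n).trans h1

/-- real-number core of the light case -/
theorem re_pk_rays_light {e s κ R : ℝ} (B : ℕ) (he : 0 ≤ e) (hs : 0 < s) (hκ : 0 < κ) (hR : 0 < R) (h : e ≤ s ^ B * (κ * R ^ 4)) :
    e ^ (3 / 2 : ℝ) ≤ s ^ ((B : ℝ) / 2) * (R ^ 2 * (e * Real.sqrt κ)) := by
  have h1 : e ^ (3 / 2 : ℝ) = Real.sqrt e * e := by
    rcases he.eq_or_lt with h0 | h0
    · rw [← h0, Real.zero_rpow (by norm_num)]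
      simp
    · rw [show (3 / 2 : ℝ) = 1 / 2 + 1 by norm_num, Real.rpow_add h0, Real.rpow_one, ← Real.sqrt_eq_rpow]
  have h2 : Real.sqrt e ≤ s ^ ((B : ℝ) / 2) * (Real.sqrt κ * R ^ 2) := by
    have h3 : Real.sqrt (s ^ B * (κ * R ^ 4)) = s ^ ((B : ℝ) / 2) * (Real.sqrt κ * R ^ 2) := by
      rw [Real.sqrt_mul (by positivity), Real.sqrt_mul hκ.le, Real.sqrt_eq_rpow (s ^ B), ← Real.rpow_natCast s B, ← Real.rpow_mul hs.le]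
      have h4 : Real.sqrt (R ^ 4) = R ^ 2 := by
        rw [show R ^ 4 = (R ^ 2) ^ 2 by ring]
        exact Real.sqrt_sq (by positivity)
      rw [h4]
      congr 2
      ring
    rw [← h3]
    exact Real.sqrt_le_sqrt h
  rw [h1]
  calc Real.sqrt e * e ≤ s ^ ((B : ℝ) / 2) * (Real.sqrt κ * R ^ 2) * e := by gcongr
    _ = _ := by ring

/-- **L-256-RE-PK-RAYS** (the ray readout of the raw row energy).   PLAN: `n0` of `re_pk_cl η γ .. ε B`.   `re_pk_root_sum` gives `G`.   For `g ∈ G`, `e_g = μ₀.real (cell g)`:   heavy (`s^B κ R⁴ ≤ e_g`): `re_pk_box_hyp`, `re_pk_cl`;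
light: `re_pk_light`, `e_g^{3/2} = e_g^{1/2} e_g ≤ (s^B κ R⁴)^{1/2} e_g = s^(B/2) R² √κ e_g`.   `Σ_{g ∈ G} e_g ≤ μ₀.real univ ≤ ‖v‖²` (`re_pk_disj` at `t = 0`, `re_pk_cell_eq_ray`; `gn_ms_eq_mu`, `gn_ms_le`). -/
theorem re_pk_rays (η γ : ℝ) (hη0 : 0 < η) (hη1 : η < 1) (P5 : (rndCl η).Rate γ) (ε : ℝ) (hε : 0 < ε) (B : ℕ) :
    ∃ n0 : ℕ, ∀ (p : RdWvPar) (k0 i0 n b0 : ℕ) (v : (p.sys η).Kc) (κ R : ℝ) (D : Finset RePkIx), n0 ≤ n → (p.sys η).Tight → 0 < κ → (p.sys η).Reg (tmL k0 i0) k0 b0 κ v →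
      ((2 : ℝ)⁻¹ ^ n) ^ (-(12 / η)) * rdD p.H (k0 + n) ≤ R →
      ∑ i ∈ ivs k0 i0 (k0 + n), ∑ d ∈ D, (p.sys η).ms (tmL k0 i0) k0 b0 (rePkRay R (k0 + n) (tmL (k0 + n) i - tmL k0 i0) d) v ^ (3 / 2 : ℝ) ≤
        ((rePkNb 81).card : ℝ) ^ (1 / 2 : ℝ) * (4 * ((rePkNb 18).card : ℝ) ^ (3 / 2 : ℝ) * 2 ^ ((γ + ε - 1 / 2) * n) + 2 ^ n * ((2 : ℝ)⁻¹ ^ n) ^ ((B : ℝ) / 2)) * (R ^ 2 * (‖v‖ ^ 2 * Real.sqrt κ)) := by
  obtain ⟨n0, H⟩ := re_pk_cl η γ hη0 hη1 P5 ε hε B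
  refine ⟨n0, fun p k0 i0 n b0 v κ R D hn hT hκ hreg hR => ?_⟩
  have hs : (0 : ℝ) < (2 : ℝ)⁻¹ ^ n := by positivity
  have hdf := re_pk_rdD_pos p.H p.H_pos (k0 + n)
  have hRpos : 0 < R := lt_of_lt_of_le (mul_pos (Real.rpow_pos_of_pos hs _) hdf) hR
  have hfin := gn_mu_finite (P := p.sys η) (tmL k0 i0) k0 b0 v
  set μ : Measure RdWvPar.Ph := (p.sys η).mu (tmL k0 i0) k0 b0 v with hμ
  have : IsFiniteMeasure μ := hfin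
  have e1 : ∀ (t : ℝ) (d : RePkIx), (p.sys η).ms (tmL k0 i0) k0 b0 (rePkRay R (k0 + n) t d) v = μ.real (rePkRay R (k0 + n) t d) :=
    fun t d => gn_ms_eq_mu (P := p.sys η) (tmL k0 i0) k0 b0 (re_pk_ray_meas R (k0 + n) t d) v
  simp_rw [e1]
  obtain ⟨G, hG⟩ := re_pk_root_sum μ R hRpos k0 i0 n D
  set K1 : ℝ := 4 * ((rePkNb 18).card : ℝ) ^ (3 / 2 : ℝ) * 2 ^ ((γ + ε - 1 / 2) * n) with hK1
  set K2 : ℝ := 2 ^ n * ((2 : ℝ)⁻¹ ^ n) ^ ((B : ℝ) / 2) with hK2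
  have hc18 : (0 : ℝ) ≤ ((rePkNb 18).card : ℝ) ^ (3 / 2 : ℝ) := Real.rpow_nonneg (Nat.cast_nonneg _) _
  have hK1n : 0 ≤ K1 := mul_nonneg (mul_nonneg (by norm_num) hc18) (Real.rpow_nonneg (by norm_num) _)
  have hK2n : 0 ≤ K2 := by positivity
  have hsk : 0 < Real.sqrt κ := Real.sqrt_pos.mpr hκ
  clear_value K1 K2
  have key : ∀ g ∈ G, ∑ i ∈ ivs k0 i0 (k0 + n), ∑ d ∈ D,
        (μ.restrict (rePkCell R k0 g)).real (rePkRay R (k0 + n) (tmL (k0 + n) i - tmL k0 i0) d) ^ (3 / 2 : ℝ)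
      ≤ (K1 + K2) * (R ^ 2 * Real.sqrt κ) * μ.real (rePkRay R k0 0 g) := by
    intro g _
    have eg : (μ.restrict (rePkCell R k0 g)).real Set.univ = μ.real (rePkRay R k0 0 g) := by
      unfold Measure.real
      rw [Measure.restrict_apply MeasurableSet.univ, Set.univ_inter, re_pk_cell_eq_ray]
    have heg : 0 ≤ μ.real (rePkRay R k0 0 g) := measureReal_nonneg
    by_cases hh : ((2 : ℝ)⁻¹ ^ n) ^ B * (κ * R ^ 4) ≤ (μ.restrict (rePkCell R k0 g)).real Set.univ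
    · have hyp := re_pk_box_hyp η p hT k0 n b0 (tmL k0 i0) v κ R hκ hreg hR g B hh
      have := H (μ.restrict (rePkCell R k0 g)) k0 i0 n R κ (rdD p.H k0) g D hn hyp
      refine this.trans ?_
      rw [eg]
      have h0 : 0 ≤ K2 * (R ^ 2 * Real.sqrt κ) * μ.real (rePkRay R k0 0 g) := by positivity
      calc 4 * ((rePkNb 18).card : ℝ) ^ (3 / 2 : ℝ) * R ^ 2 * 2 ^ ((γ + ε - 1 / 2) * n) * (μ.real (rePkRay R k0 0 g) * Real.sqrt κ)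
          = K1 * (R ^ 2 * Real.sqrt κ) * μ.real (rePkRay R k0 0 g) := by rw [hK1]; ring
        _ ≤ K1 * (R ^ 2 * Real.sqrt κ) * μ.real (rePkRay R k0 0 g) + K2 * (R ^ 2 * Real.sqrt κ) * μ.real (rePkRay R k0 0 g) := le_add_of_nonneg_right h0
        _ = _ := by ring
    · push Not at hh
      have := re_pk_light (μ.restrict (rePkCell R k0 g)) R k0 i0 n D
      refine this.trans ?_
      rw [eg] at hh ⊢
      have h1 := re_pk_rays_light B heg hs hκ hRpos hh.le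
      have h0 : 0 ≤ K1 * (R ^ 2 * Real.sqrt κ) * μ.real (rePkRay R k0 0 g) := by positivity
      calc (2 : ℝ) ^ n * μ.real (rePkRay R k0 0 g) ^ (3 / 2 : ℝ)
          ≤ 2 ^ n * (((2 : ℝ)⁻¹ ^ n) ^ ((B : ℝ) / 2) * (R ^ 2 * (μ.real (rePkRay R k0 0 g) * Real.sqrt κ))) := by gcongr
        _ = K2 * (R ^ 2 * Real.sqrt κ) * μ.real (rePkRay R k0 0 g) := by rw [hK2]; ring
        _ ≤ K1 * (R ^ 2 * Real.sqrt κ) * μ.real (rePkRay R k0 0 g) + K2 * (R ^ 2 * Real.sqrt κ) * μ.real (rePkRay R k0 0 g) := le_add_of_nonneg_left h0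
        _ = _ := by ring
  have htot : ∑ g ∈ G, μ.real (rePkRay R k0 0 g) ≤ ‖v‖ ^ 2 := by
    refine (re_pk_disj μ R k0 0 G).trans ?_
    have h1 := gn_ms_eq_mu (P := p.sys η) (tmL k0 i0) k0 b0 MeasurableSet.univ v
    have h2 := gn_ms_le hT (tmL k0 i0) k0 b0 MeasurableSet.univ v
    rw [h1] at h2
    exact h2
  have hc : (0 : ℝ) ≤ ((rePkNb 81).card : ℝ) ^ (1 / 2 : ℝ) := Real.rpow_nonneg (Nat.cast_nonneg _) _
  calc _ ≤ ((rePkNb 81).card : ℝ) ^ (1 / 2 : ℝ) * ∑ g ∈ G, ∑ i ∈ ivs k0 i0 (k0 + n), ∑ d ∈ D,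
        (μ.restrict (rePkCell R k0 g)).real (rePkRay R (k0 + n) (tmL (k0 + n) i - tmL k0 i0) d) ^ (3 / 2 : ℝ) := hG
    _ ≤ ((rePkNb 81).card : ℝ) ^ (1 / 2 : ℝ) * ∑ g ∈ G, (K1 + K2) * (R ^ 2 * Real.sqrt κ) * μ.real (rePkRay R k0 0 g) :=
        mul_le_mul_of_nonneg_left (Finset.sum_le_sum key) hc
    _ = ((rePkNb 81).card : ℝ) ^ (1 / 2 : ℝ) * ((K1 + K2) * (R ^ 2 * Real.sqrt κ) * ∑ g ∈ G, μ.real (rePkRay R k0 0 g)) := by rw [← Finset.mul_sum]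
    _ ≤ ((rePkNb 81).card : ℝ) ^ (1 / 2 : ℝ) * ((K1 + K2) * (R ^ 2 * Real.sqrt κ) * ‖v‖ ^ 2) :=
        mul_le_mul_of_nonneg_left (mul_le_mul_of_nonneg_left htot (by positivity)) hc
    _ = _ := by ring

theorem re_pk_one_pw (m : ℕ) (y : ℝ) : ((2 : ℝ)⁻¹ ^ m) ^ y = 2 ^ (-(y * m)) := by
  rw [← Real.rpow_natCast, ← Real.rpow_mul (by positivity), Real.inv_rpow (by norm_num), ← Real.rpow_neg (by norm_num)]
  congr 1
  ring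

theorem re_pk_one_num (γ g : ℝ) (C G0 n : ℕ) (hG : |γ| ≤ G0) (hg : 0 < g) (c1 c2 c3 c4 V e κ R : ℝ) (h1 : 0 ≤ c1) (h2 : 0 ≤ c2) (h3 : 0 ≤ c3) (h4 : 0 ≤ c4)
    (hV0 : 0 ≤ V) (hκ : 0 < κ) (hR : 0 < R) (hV : V ^ 2 ≤ e) (he : e ≤ ((2 : ℝ)⁻¹ ^ n) ^ (-(C : ℝ)) * (κ * R ^ 4))
    (hK : c1 * (1 + 8 * c2 * c3 * (4 * c4 + 1)) ≤ 2 ^ (g * n)) :
    c1 / (R ^ 2 * Real.sqrt (((2 : ℝ)⁻¹ ^ n) ^ g)) * (2 ^ n * (((2 : ℝ)⁻¹ ^ ((C + 2 * G0 + 6) * n)) ^ (1 / 2 : ℝ) * V ^ 3)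
      + 8 * c2 * (c3 * (4 * c4 * 2 ^ ((γ + g / 2 - 1 / 2) * n) + 2 ^ n * ((2 : ℝ)⁻¹ ^ n) ^ (((2 * G0 + 4 : ℕ) : ℝ) / 2)) * (R ^ 2 * (V ^ 2 * Real.sqrt κ))))
      ≤ 2 ^ ((γ + 2 * g - 1 / 2) * n) * (e * Real.sqrt κ) := by
  have hn0 : (0 : ℝ) ≤ n := Nat.cast_nonneg n
  have hγ : -(G0 : ℝ) ≤ γ := (abs_le.1 hG).1
  have he0 : 0 ≤ e := le_trans (sq_nonneg V) hV
  have hsκ : 0 < Real.sqrt κ := Real.sqrt_pos.2 hκ
  set t : ℝ := 2 ^ ((γ + g / 2 - 1 / 2) * n) with ht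
  have ht0 : 0 < t := gn_two_pos _
  set X : ℝ := e * Real.sqrt κ with hX
  have hX0 : 0 ≤ X := mul_nonneg he0 hsκ.le
  -- (i)
  have hi : V ^ 3 ≤ R ^ 2 * 2 ^ ((C : ℝ) * n / 2) * X := by
    have e1 : V ≤ Real.sqrt e := Real.le_sqrt_of_sq_le hV
    have e2 : Real.sqrt e ≤ 2 ^ ((C : ℝ) * n / 2) * (Real.sqrt κ * R ^ 2) := by
      have e3 : Real.sqrt (((2 : ℝ)⁻¹ ^ n) ^ (-(C : ℝ)) * (κ * R ^ 4)) = 2 ^ ((C : ℝ) * n / 2) * (Real.sqrt κ * R ^ 2) := by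
        rw [re_pk_one_pw, Real.sqrt_mul (gn_two_pos _).le, Real.sqrt_mul hκ.le, gn_two_sqrt,
          show R ^ 4 = (R ^ 2) ^ 2 by ring, Real.sqrt_sq (by positivity)]
        congr 2
        ring
      rw [← e3]
      exact Real.sqrt_le_sqrt he
    calc V ^ 3 = V * V ^ 2 := by ring
      _ ≤ (2 ^ ((C : ℝ) * n / 2) * (Real.sqrt κ * R ^ 2)) * e := mul_le_mul (e1.trans e2) hV (sq_nonneg V) (by positivity)
      _ = R ^ 2 * 2 ^ ((C : ℝ) * n / 2) * X := by rw [hX]; ring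
  -- (ii)
  have hii : (2 : ℝ) ^ n * ((2 : ℝ)⁻¹ ^ ((C + 2 * G0 + 6) * n)) ^ (1 / 2 : ℝ) * 2 ^ ((C : ℝ) * n / 2) ≤ t := by
    rw [re_pk_one_pw, ← gn_two_nat, ← gn_two_add, ← gn_two_add, ht]
    apply gn_two_mono
    push_cast
    nlinarith
  -- (iii)
  have hiii : (2 : ℝ) ^ n * ((2 : ℝ)⁻¹ ^ n) ^ (((2 * G0 + 4 : ℕ) : ℝ) / 2) ≤ t := by
    rw [re_pk_one_pw, ← gn_two_nat, ← gn_two_add, ht]
    apply gn_two_mono
    push_cast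
    nlinarith
  have hiv : V ^ 2 * Real.sqrt κ ≤ X := mul_le_mul_of_nonneg_right hV hsκ.le
  set β : ℝ := ((2 : ℝ)⁻¹ ^ ((C + 2 * G0 + 6) * n)) ^ (1 / 2 : ℝ) with hβ
  have hβ0 : 0 ≤ β := Real.rpow_nonneg (by positivity) _
  set β' : ℝ := ((2 : ℝ)⁻¹ ^ n) ^ (((2 * G0 + 4 : ℕ) : ℝ) / 2) with hβ'
  have hβ'0 : 0 ≤ β' := Real.rpow_nonneg (by positivity) _
  have hbr : 2 ^ n * (β * V ^ 3) + 8 * c2 * (c3 * (4 * c4 * t + 2 ^ n * β') * (R ^ 2 * (V ^ 2 * Real.sqrt κ)))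
      ≤ (1 + 8 * c2 * c3 * (4 * c4 + 1)) * (t * (R ^ 2 * X)) := by
    have a1 : 2 ^ n * (β * V ^ 3) ≤ t * (R ^ 2 * X) := by
      calc 2 ^ n * (β * V ^ 3) ≤ 2 ^ n * (β * (R ^ 2 * 2 ^ ((C : ℝ) * n / 2) * X)) := by gcongr
        _ = (2 ^ n * β * 2 ^ ((C : ℝ) * n / 2)) * (R ^ 2 * X) := by ring
        _ ≤ t * (R ^ 2 * X) := mul_le_mul_of_nonneg_right hii (by positivity)
    have a2 : 8 * c2 * (c3 * (4 * c4 * t + 2 ^ n * β') * (R ^ 2 * (V ^ 2 * Real.sqrt κ)))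
        ≤ 8 * c2 * (c3 * (4 * c4 * t + t) * (R ^ 2 * X)) := by gcongr
    calc _ ≤ t * (R ^ 2 * X) + 8 * c2 * (c3 * (4 * c4 * t + t) * (R ^ 2 * X)) := add_le_add a1 a2
      _ = _ := by ring
  have hsq : Real.sqrt (((2 : ℝ)⁻¹ ^ n) ^ g) = 2 ^ (-(g * n / 2)) := by
    rw [re_pk_one_pw, gn_two_sqrt]
    congr 1
    ring
  rw [hsq]
  have hq0 : (0 : ℝ) < 2 ^ (-(g * n / 2)) := gn_two_pos _
  calc c1 / (R ^ 2 * 2 ^ (-(g * n / 2))) * (2 ^ n * (β * V ^ 3) + 8 * c2 * (c3 * (4 * c4 * t + 2 ^ n * β') * (R ^ 2 * (V ^ 2 * Real.sqrt κ))))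
      ≤ c1 / (R ^ 2 * 2 ^ (-(g * n / 2))) * ((1 + 8 * c2 * c3 * (4 * c4 + 1)) * (t * (R ^ 2 * X))) :=
        mul_le_mul_of_nonneg_left hbr (by positivity)
    _ = (c1 * (1 + 8 * c2 * c3 * (4 * c4 + 1))) * ((2 ^ (-(g * n / 2)))⁻¹ * t * X) := by
        field_simp
    _ ≤ 2 ^ (g * n) * ((2 ^ (-(g * n / 2)))⁻¹ * t * X) := mul_le_mul_of_nonneg_right hK (by positivity)
    _ = 2 ^ ((γ + 2 * g - 1 / 2) * n) * X := by
        have h9 : (2 : ℝ) ^ (g * n) * ((2 ^ (-(g * n / 2)))⁻¹ * t) = 2 ^ ((γ + 2 * g - 1 / 2) * n) := by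
          rw [← gn_two_neg, ht, ← gn_two_add, ← gn_two_add]
          congr 1
          ring
        rw [← h9]
        ring

/-- **L-256-RE-PK-ONE** (one dyadic class).   PLAN: `s = E.s = 2⁻¹^n`, `X = e √κ`, `G0 = ⌈|γ|⌉₊`.   `B' = 2 G0 + 4`, `B = C + 2 G0 + 6`, `ε = g/2`;   `n0 ≥` those of `re_pk_dom_sum η hE C B`, `re_pk_rays .. ε B'`, and absorbing the constants (`gn_absorb`).
`re_pk_regroup` with `F0 = s^g` (`√F0 = s^(g/2)`), `E.fin i = E.v` (`st = []`), `re_pk_dom_sum` for every `i` (`4^n d_f ≤ s^-(12/η) d_f ≤ R`), `Σ_i` (`gn_ivs_card`), `re_pk_rays` with `D' = image₂ ..`.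
First term: `2^n s^(B/2) ‖v‖³ / R² ≤ 2^n s^(B/2) e √(e/R⁴) ≤ 2^n s^((B-C)/2) X`.   `‖v‖² ≤ e` (`Valid.budget`).   Collect: `Σ tr ≤ K s^(-g/2) [2^n s^((B-C)/2) + 2^((γ+g/2-1/2) n) + 2^n s^(B'/2)] X`, `K` absolute; each bracket term `≤ 2^((γ+g/2-1/2) n)`;   `3K ≤ 2^(g n)`. -/
theorem re_pk_one (η γ : ℝ) (hη0 : 0 < η) (hη1 : η < 1) (hE : ReEntry η) (P5 : (rndCl η).Rate γ) (g : ℝ) (hg : 0 < g) (C : ℕ) :
    ∃ n0 : ℕ, ∀ (p : RdWvPar) (E : Xp (p.sys η)) (R : ℝ) (S : Finset (Fin E.L)), n0 ≤ E.n → E.Valid → E.st = [] → E.GenLe C →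
      E.s ^ (-(12 / η)) * rdD p.H E.kf ≤ R → E.e ≤ E.s ^ (-(C : ℝ)) * (E.ka * R ^ 4) →
      (∀ l ∈ S, R ≤ (rwT (E.ts l)).r ∧ (rwT (E.ts l)).r ≤ 2 * R ∧ E.s ^ g ≤ (rwT (E.ts l)).f) →
      ∑ l ∈ S, E.tr l ≤ 2 ^ ((γ + 2 * g - 1 / 2) * E.n) * (E.e * Real.sqrt E.ka) := by
  set G0 : ℕ := ⌈|γ|⌉₊ with hG0
  have hG : |γ| ≤ G0 := Nat.le_ceil _
  obtain ⟨n1, H1⟩ := re_pk_dom_sum η hE C (C + 2 * G0 + 6)
  obtain ⟨n2, H2⟩ := re_pk_rays η γ hη0 hη1 P5 (g / 2) (half_pos hg) (2 * G0 + 4)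
  set c1 : ℝ := ((rePkNb 225).card : ℝ) ^ (1 / 2 : ℝ) with hc1
  set c2 : ℝ := ((rePkNb 36).card : ℝ) ^ (3 / 2 : ℝ) with hc2
  set c3 : ℝ := ((rePkNb 81).card : ℝ) ^ (1 / 2 : ℝ) with hc3
  set c4 : ℝ := ((rePkNb 18).card : ℝ) ^ (3 / 2 : ℝ) with hc4
  have h1 : 0 ≤ c1 := Real.rpow_nonneg (Nat.cast_nonneg _) _
  have h2 : 0 ≤ c2 := Real.rpow_nonneg (Nat.cast_nonneg _) _
  have h3 : 0 ≤ c3 := Real.rpow_nonneg (Nat.cast_nonneg _) _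
  have h4 : 0 ≤ c4 := Real.rpow_nonneg (Nat.cast_nonneg _) _
  obtain ⟨n3, H3⟩ := gn_absorb (c1 * (1 + 8 * c2 * c3 * (4 * c4 + 1))) g hg
  refine ⟨max n1 (max n2 n3), fun p E R S hn hV hst hgen hR he hS => ?_⟩
  have hn1 : n1 ≤ E.n := le_trans (le_max_left _ _) hn
  have hn2 : n2 ≤ E.n := le_trans (le_trans (le_max_left _ _) (le_max_right _ _)) hn
  have hn3 : n3 ≤ E.n := le_trans (le_trans (le_max_right _ _) (le_max_right _ _)) hn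
  have hT : (p.sys η).Tight := hE.gen.tight p p.ok
  have hs0 : 0 < E.s := gn_s_pos E
  have hdf : 0 < rdD p.H E.kf := re_pk_rdD_pos p.H p.H_pos E.kf
  have hRpos : 0 < R := lt_of_lt_of_le (mul_pos (Real.rpow_pos_of_pos hs0 _) hdf) hR
  have hF0 : 0 < E.s ^ g := Real.rpow_pos_of_pos hs0 _
  have hF1 : E.s ^ g ≤ 1 := Real.rpow_le_one hs0.le (gn_s_le_one E) hg.le
  obtain ⟨D, hD⟩ := re_pk_regroup η hη0 hη1 p E hV R (E.s ^ g) hRpos hF0 hF1 S hS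
  have hfin : ∀ i, E.fin i = E.v := by
    intro i
    unfold Xp.fin
    rw [hst]
    rfl
  have hR2 : 2 ^ (2 * E.n) * rdD p.H (E.k0 + E.n) ≤ R := by
    refine le_trans (mul_le_mul_of_nonneg_right ?_ hdf.le) hR
    rw [gn_s_rpow, ← gn_two_nat]
    apply gn_two_mono
    have h12 : 2 ≤ 12 / η := by
      rw [le_div_iff₀ hη0]
      linarith
    have hn0 : (0 : ℝ) ≤ E.n := Nat.cast_nonneg _
    push_cast
    nlinarith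
  set D' := Finset.image₂ rePkSh (rePkNb 36) D with hD'
  have hdom : ∀ i ∈ ivs E.k0 E.i0 E.kf, ∑ d ∈ D, (p.sys η).ms (tmL E.kf i) E.kf E.bT (rePkCell R E.kf d) (E.fin i) ^ (3 / 2 : ℝ) ≤
      ((2 : ℝ)⁻¹ ^ ((C + 2 * G0 + 6) * E.n)) ^ (1 / 2 : ℝ) * ‖E.v‖ ^ 3 + 8 * c2 *
          ∑ d ∈ D', (p.sys η).ms (tmL E.k0 E.i0) E.k0 E.b0 (rePkRay R (E.k0 + E.n) (tmL (E.k0 + E.n) i - tmL E.k0 E.i0) d) E.v ^ (3 / 2 : ℝ) := by
    intro i hi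
    rw [hfin i]
    exact H1 p E.k0 E.i0 E.n E.b0 E.bT i E.v R D hn1 hgen.1 hgen.2.1 hV.plat hi hR2
  have hrays := H2 p E.k0 E.i0 E.n E.b0 E.v E.ka R D' hn2 hT hV.ka_pos hV.reg hR
  have hcard : ((ivs E.k0 E.i0 E.kf).card : ℝ) = 2 ^ E.n := by
    rw [gn_ivs_card]
    have : E.kf - E.k0 = E.n := by
      unfold Xp.kf
      omega
    rw [this]
    push_cast
    rfl
  have hsum : ∑ i ∈ ivs E.k0 E.i0 E.kf, ∑ d ∈ D, (p.sys η).ms (tmL E.kf i) E.kf E.bT (rePkCell R E.kf d) (E.fin i) ^ (3 / 2 : ℝ) ≤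
      2 ^ E.n * (((2 : ℝ)⁻¹ ^ ((C + 2 * G0 + 6) * E.n)) ^ (1 / 2 : ℝ) * ‖E.v‖ ^ 3) + 8 * c2 *
        (c3 * (4 * c4 * 2 ^ ((γ + g / 2 - 1 / 2) * E.n) + 2 ^ E.n * ((2 : ℝ)⁻¹ ^ E.n) ^ (((2 * G0 + 4 : ℕ) : ℝ) / 2)) * (R ^ 2 * (‖E.v‖ ^ 2 * Real.sqrt E.ka))) := by
    refine (Finset.sum_le_sum hdom).trans ?_
    rw [Finset.sum_add_distrib, Finset.sum_const, nsmul_eq_mul, hcard, ← Finset.mul_sum]
    refine add_le_add le_rfl (mul_le_mul_of_nonneg_left hrays (mul_nonneg (by norm_num) h2))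
  refine hD.trans ((mul_le_mul_of_nonneg_left hsum (div_nonneg h1 (by positivity))).trans ?_)
  exact re_pk_one_num γ g C G0 E.n hG hg c1 c2 c3 c4 ‖E.v‖ E.e E.ka R h1 h2 h3 h4 (norm_nonneg _) hV.ka_pos hRpos hV.budget he (H3 E.n hn3)

/-- **L-256-RE-PK-HUGE** (labels of huge weight are negligible; generic).   PLAN: `m l ≤ ‖fin‖² ≤ ‖v‖² ≤ e ≤ (s^Dw κ) w l` (`gn_m_le_ms`, `gn_ms_le`, `gn_run_norm_le`), `gn_tr_le`: `tr l ≤ √(s^Dw κ) m l`;   `Σ_{l ∈ S} m l ≤ tm ≤ 2^n e` (`gn_total`, `gn_m_nonneg`). -/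
theorem re_pk_huge {P : PkSys} (hT : P.Tight) (E : Xp P) (hE : E.Valid) (Dw : ℝ) (S : Finset (Fin E.L)) (hS : ∀ l ∈ S, E.e ≤ E.s ^ Dw * (E.ka * E.w l)) :
    ∑ l ∈ S, E.tr l ≤ 2 ^ E.n * E.s ^ (Dw / 2) * (E.e * Real.sqrt E.ka) := by
  have hs : 0 < E.s := by unfold Xp.s; positivity
  have hm : ∀ l, E.m l ≤ E.e := by
    intro l
    refine (gn_m_le_ms hT E hE l).trans ((gn_ms_le hT _ _ _ (hT.cellM _ _ _) _).trans (le_trans ?_ hE.budget))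
    have := gn_run_norm_le hT E.kf (E.iv l) E.st (gn_valid_stm E hE) E.v
    unfold Xp.fin
    gcongr
  have h1 : ∀ l ∈ S, E.tr l ≤ Real.sqrt (E.s ^ Dw * E.ka) * E.m l := by
    intro l hl
    apply gn_tr_le E hE l
    calc E.m l ≤ E.e := hm l
      _ ≤ E.s ^ Dw * (E.ka * E.w l) := hS l hl
      _ = E.s ^ Dw * E.ka * E.w l := by ring
  have h2 : ∑ l ∈ S, E.m l ≤ 2 ^ E.n * E.e := by
    refine le_trans ?_ (gn_total hT E hE)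
    unfold Xp.tm
    exact Finset.sum_le_sum_of_subset_of_nonneg (Finset.subset_univ _) (fun l _ _ => gn_m_nonneg E hE l)
  have h3 : Real.sqrt (E.s ^ Dw * E.ka) = E.s ^ (Dw / 2) * Real.sqrt E.ka := by
    rw [Real.sqrt_mul (by positivity), Real.sqrt_eq_rpow (E.s ^ Dw), ← Real.rpow_mul hs.le]
    congr 2
    ring
  calc ∑ l ∈ S, E.tr l ≤ ∑ l ∈ S, Real.sqrt (E.s ^ Dw * E.ka) * E.m l := Finset.sum_le_sum h1
    _ = Real.sqrt (E.s ^ Dw * E.ka) * ∑ l ∈ S, E.m l := by rw [Finset.mul_sum]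
    _ ≤ Real.sqrt (E.s ^ Dw * E.ka) * (2 ^ E.n * E.e) := by gcongr
    _ = 2 ^ E.n * E.s ^ (Dw / 2) * (E.e * Real.sqrt E.ka) := by rw [h3]; ring

/-- **L-256-RE-PK-POLY** (what the polynomial setup gives): `d_f⁴ ≥ s^(3C) e/κ`.   PLAN: `adm` gives `φ`: `e ≤ s^-C κ φ.r⁴`, `s^C ≤ H/(ℓ₀ φ.r²)`, i.e. `s^C φ.r² ≤ H/ℓ₀ = rdD H k0 ² ≤ rdD H kf ²`;   square. -/
theorem re_pk_poly (η : ℝ) (C A : ℕ) (p : RdWvPar) (E : Xp (p.sys η)) (h : (rndWav η).Cls C A p E) : E.e ≤ E.s ^ (-(3 * C : ℝ)) * (E.ka * rdD p.H E.kf ^ 4) := by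
  obtain ⟨_, hV, _, _, φ, hset, hlo, _⟩ := h
  have hs : 0 < E.s := gn_s_pos E
  have hr : 0 < φ.r := hset.r_pos
  have hl : 0 < rdLen E.k0 := rdLen_pos _
  have hκ : 0 < E.ka := hV.ka_pos
  have hsC : 0 < E.s ^ (C : ℝ) := Real.rpow_pos_of_pos hs _
  have h1 : E.s ^ (C : ℝ) * φ.r ^ 2 ≤ rdD p.H E.kf ^ 2 := by
    have e1 : E.s ^ (C : ℝ) * φ.r ^ 2 ≤ p.H / rdLen E.k0 := by
      rw [le_div_iff₀ (by positivity)] at hlo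
      rw [le_div_iff₀ hl]
      calc E.s ^ (C : ℝ) * φ.r ^ 2 * rdLen E.k0 = E.s ^ (C : ℝ) * (rdLen E.k0 * φ.r ^ 2) := by ring
        _ ≤ p.H := hlo
    have e2 : p.H / rdLen E.k0 = rdD p.H E.k0 ^ 2 := by
      unfold rdD
      rw [Real.sq_sqrt (div_pos p.H_pos hl).le]
    have e3 : rdD p.H E.k0 ≤ rdD p.H E.kf := re_pk_rdD_mono p.H p.H_pos E.k0 E.n
    calc E.s ^ (C : ℝ) * φ.r ^ 2 ≤ rdD p.H E.k0 ^ 2 := by rw [← e2]; exact e1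
      _ ≤ rdD p.H E.kf ^ 2 := pow_le_pow_left₀ (re_pk_rdD_pos p.H p.H_pos _).le e3 2
  have h2 : (E.s ^ (C : ℝ)) ^ 2 * φ.r ^ 4 ≤ rdD p.H E.kf ^ 4 := by
    calc (E.s ^ (C : ℝ)) ^ 2 * φ.r ^ 4 = (E.s ^ (C : ℝ) * φ.r ^ 2) ^ 2 := by ring
      _ ≤ (rdD p.H E.kf ^ 2) ^ 2 := pow_le_pow_left₀ (by positivity) h1 2
      _ = rdD p.H E.kf ^ 4 := by ring
  have h3 : E.s ^ (-(3 * C : ℝ)) = E.s ^ (-(C : ℝ)) * ((E.s ^ (C : ℝ)) ^ 2)⁻¹ := by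
    rw [← Real.rpow_natCast (E.s ^ (C : ℝ)) 2, ← Real.rpow_mul hs.le, ← Real.rpow_neg hs.le, ← Real.rpow_add hs]
    congr 1
    push_cast
    ring
  have h4 : φ.r ^ 4 ≤ ((E.s ^ (C : ℝ)) ^ 2)⁻¹ * rdD p.H E.kf ^ 4 := by
    rw [le_inv_mul_iff₀ (by positivity)]
    exact h2
  calc E.e ≤ E.s ^ (-(C : ℝ)) * (E.ka * φ.r ^ 4) := hset.ek_hi
    _ ≤ E.s ^ (-(C : ℝ)) * (E.ka * (((E.s ^ (C : ℝ)) ^ 2)⁻¹ * rdD p.H E.kf ^ 4)) := by gcongr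
    _ = E.s ^ (-(3 * C : ℝ)) * (E.ka * rdD p.H E.kf ^ 4) := by rw [h3]; ring

/-- linear `≤` exponential -/
theorem re_pk_gap_lin (K g : ℝ) (hK : 0 ≤ K) (hg : 0 < g) : ∃ n0 : ℕ, ∀ n : ℕ, n0 ≤ n → K * n + 2 ≤ 2 ^ (g * n) := by
  obtain ⟨n1, H⟩ := gn_absorb (4 * (K + 2) / g) (g / 2) (by positivity)
  refine ⟨max n1 1, fun n hn => ?_⟩
  have hn1 : n1 ≤ n := (le_max_left _ _).trans hn
  have hn2 : (1 : ℝ) ≤ n := by exact_mod_cast (le_max_right _ _).trans hn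
  have h1 := H n hn1
  have h2 : g / 2 * n / 2 ≤ (2 : ℝ) ^ (g / 2 * n) := by
    rw [Real.rpow_def_of_pos (by norm_num : (0 : ℝ) < 2)]
    have h3 := Real.add_one_le_exp (Real.log 2 * (g / 2 * n))
    have h4 : (1 / 2 : ℝ) ≤ Real.log 2 := by
      have := Real.log_two_gt_d9
      linarith
    have h5 : 0 ≤ g / 2 * n := by positivity
    nlinarith
  have e : (2 : ℝ) ^ (g * n) = 2 ^ (g / 2 * n) * 2 ^ (g / 2 * n) := by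
    rw [← gn_two_add]
    congr 1
    ring
  rw [e]
  have h6 : 4 * (K + 2) / g * (g / 2 * n / 2) ≤ 2 ^ (g / 2 * n) * 2 ^ (g / 2 * n) :=
    mul_le_mul h1 h2 (by positivity) (gn_two_pos _).le
  have h7 : 4 * (K + 2) / g * (g / 2 * n / 2) = (K + 2) * n := by
    field_simp
    ring
  rw [h7] at h6
  nlinarith

/-- the dyadic class of a number `≥ 1` -/
theorem re_pk_gap_class (x : ℝ) (hx : 1 ≤ x) : (2 : ℝ) ^ ⌊Real.logb 2 x⌋₊ ≤ x ∧ x < 2 ^ (⌊Real.logb 2 x⌋₊ + 1) := by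
  have hx0 : 0 < x := by linarith
  have hl : 0 ≤ Real.logb 2 x := Real.logb_nonneg (by norm_num) hx
  constructor
  · have h1 := Nat.floor_le hl
    rw [Real.le_logb_iff_rpow_le (by norm_num) hx0, Real.rpow_natCast] at h1
    exact h1
  · have h1 := Nat.lt_floor_add_one (Real.logb 2 x)
    rw [Real.logb_lt_iff_lt_rpow (by norm_num) hx0] at h1
    have : ((⌊Real.logb 2 x⌋₊ : ℝ) + 1) = ((⌊Real.logb 2 x⌋₊ + 1 : ℕ) : ℝ) := by push_cast; ring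
    rw [this, Real.rpow_natCast] at h1
    exact h1

theorem re_pk_gap_d_pos (p : RdWvPar) (k : ℕ) : 0 < rdD p.H k := Real.sqrt_pos.2 (div_pos p.H_pos (rdLen_pos k))

/-- one class -/
theorem re_pk_gap_cls (η γ g : ℝ) (hη0 : 0 < η) (C n1 : ℕ)
    (H1 : ∀ (p : RdWvPar) (E : Xp (p.sys η)) (R : ℝ) (S : Finset (Fin E.L)), n1 ≤ E.n → E.Valid → E.st = [] → E.GenLe (3 * C) →
      E.s ^ (-(12 / η)) * rdD p.H E.kf ≤ R → E.e ≤ E.s ^ (-((3 * C : ℕ) : ℝ)) * (E.ka * R ^ 4) →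
      (∀ l ∈ S, R ≤ (rwT (E.ts l)).r ∧ (rwT (E.ts l)).r ≤ 2 * R ∧ E.s ^ g ≤ (rwT (E.ts l)).f) →
      ∑ l ∈ S, E.tr l ≤ 2 ^ ((γ + 2 * g - 1 / 2) * E.n) * (E.e * Real.sqrt E.ka))
    (A : ℕ) (p : RdWvPar) (E : Xp (p.sys η)) (hn : n1 ≤ E.n) (hn1 : 1 ≤ E.n) (hcl : (rndWav η).Cls C A p E) (hst : E.st = [])
    (hlab : ∀ l, E.s ^ (-(12 / η + 1)) * rdD p.H E.kf ≤ (rwT (E.ts l)).r ∧ E.s ^ g ≤ (rwT (E.ts l)).f) (c : ℕ) :
    ∑ l ∈ Finset.univ.filter (fun l => ⌊Real.logb 2 ((rwT (E.ts l)).r / rdD p.H E.kf)⌋₊ = c), E.tr l ≤ 2 ^ ((γ + 2 * g - 1 / 2) * E.n) * (E.e * Real.sqrt E.ka) := by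
  have hV : E.Valid := hcl.2.1
  have hd := re_pk_gap_d_pos p E.kf
  have hX : 0 ≤ E.e * Real.sqrt E.ka := mul_nonneg hV.e_pos.le (Real.sqrt_nonneg _)
  have hs1 : ∀ y : ℝ, 0 ≤ y → 1 ≤ E.s ^ (-y) := by
    intro y hy
    rw [gn_s_rpow]
    have : (0 : ℝ) ≤ E.n := Nat.cast_nonneg _
    calc (1 : ℝ) = 2 ^ (0 : ℝ) := (Real.rpow_zero _).symm
      _ ≤ _ := gn_two_mono (by nlinarith)
  rcases Finset.eq_empty_or_nonempty (Finset.univ.filter (fun l => ⌊Real.logb 2 ((rwT (E.ts l)).r / rdD p.H E.kf)⌋₊ = c)) with he | ⟨l0, hl0⟩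
  · rw [he, Finset.sum_empty]
    exact mul_nonneg (gn_two_pos _).le hX
  have hM : 0 ≤ 12 / η + 1 := by positivity
  have hcls : ∀ l, ⌊Real.logb 2 ((rwT (E.ts l)).r / rdD p.H E.kf)⌋₊ = c →
      2 ^ c * rdD p.H E.kf ≤ (rwT (E.ts l)).r ∧ (rwT (E.ts l)).r < 2 ^ (c + 1) * rdD p.H E.kf := by
    intro l hl
    have h1 : 1 ≤ (rwT (E.ts l)).r / rdD p.H E.kf := by
      rw [le_div_iff₀ hd]
      refine le_trans ?_ (hlab l).1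
      exact mul_le_mul_of_nonneg_right (hs1 _ hM) hd.le
    obtain ⟨h2, h3⟩ := re_pk_gap_class _ h1
    rw [hl] at h2 h3
    rw [le_div_iff₀ hd] at h2
    rw [div_lt_iff₀ hd] at h3
    exact ⟨h2, h3⟩
  have hGen : E.GenLe (3 * C) := by
    obtain ⟨g1, g2, g3⟩ := hcl.2.2.2.1
    exact ⟨by omega, by omega, fun σ hσ => (g3 σ hσ).trans (by omega)⟩
  have h2c : (1 : ℝ) ≤ 2 ^ c := one_le_pow₀ (by norm_num)
  refine H1 p E (2 ^ c * rdD p.H E.kf) _ hn hV hst hGen ?_ ?_ ?_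
  · obtain ⟨_, h3⟩ := hcls l0 (Finset.mem_filter.1 hl0).2
    have h4 := (hlab l0).1
    have e1 : E.s ^ (-(12 / η + 1)) = E.s ^ (-(12 / η)) * E.s ^ (-1 : ℝ) := by
      rw [← Real.rpow_add (gn_s_pos E)]
      congr 1
      ring
    have e2 : 2 ≤ E.s ^ (-1 : ℝ) := by
      rw [gn_s_rpow]
      have : (1 : ℝ) ≤ E.n := by exact_mod_cast hn1
      calc (2 : ℝ) = 2 ^ (1 : ℝ) := (Real.rpow_one _).symm
        _ ≤ _ := gn_two_mono (by linarith)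
    have ha : 0 < E.s ^ (-(12 / η)) := Real.rpow_pos_of_pos (gn_s_pos E) _
    rw [e1] at h4
    have h5 : E.s ^ (-(12 / η)) * 2 * rdD p.H E.kf ≤ E.s ^ (-(12 / η)) * E.s ^ (-1 : ℝ) * rdD p.H E.kf :=
      mul_le_mul_of_nonneg_right (mul_le_mul_of_nonneg_left e2 ha.le) hd.le
    rw [pow_succ] at h3
    linarith
  · have h1 := re_pk_poly η C A p E hcl
    have e3 : (-((3 * C : ℕ) : ℝ)) = -(3 * C : ℝ) := by push_cast; ring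
    rw [e3]
    refine h1.trans (mul_le_mul_of_nonneg_left (mul_le_mul_of_nonneg_left ?_ hV.ka_pos.le) (Real.rpow_nonneg (gn_s_pos E).le _))
    refine pow_le_pow_left₀ hd.le ?_ 4
    nlinarith
  · intro l hl
    obtain ⟨h2, h3⟩ := hcls l (Finset.mem_filter.1 hl).2
    refine ⟨h2, ?_, (hlab l).2⟩
    rw [pow_succ] at h3
    linarith

/-- the labels beyond the last class -/
theorem re_pk_gap_big (η g : ℝ) (hη0 : 0 < η) (hη1 : η < 1) (C A K : ℕ) (p : RdWvPar) (E : Xp (p.sys η)) (hT : (p.sys η).Tight) (hcl : (rndWav η).Cls C A p E)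
    (hlab : ∀ l, E.s ^ (-(12 / η + 1)) * rdD p.H E.kf ≤ (rwT (E.ts l)).r ∧ E.s ^ g ≤ (rwT (E.ts l)).f) :
    ∑ l ∈ Finset.univ.filter (fun l => ¬ ⌊Real.logb 2 ((rwT (E.ts l)).r / rdD p.H E.kf)⌋₊ ∈ Finset.range (K * E.n + 1)), E.tr l
      ≤ 2 ^ E.n * E.s ^ ((4 * K - 3 * C - g) / 2) * (E.e * Real.sqrt E.ka) := by
  have hV : E.Valid := hcl.2.1
  have hd := re_pk_gap_d_pos p E.kf
  have hs0 := gn_s_pos E
  refine re_pk_huge hT E hV _ _ fun l hl => ?_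
  have hl' : K * E.n < ⌊Real.logb 2 ((rwT (E.ts l)).r / rdD p.H E.kf)⌋₊ := by
    have := (Finset.mem_filter.1 hl).2
    rw [Finset.mem_range] at this
    omega
  have hM : 0 ≤ 12 / η + 1 := by positivity
  have h1 : 1 ≤ (rwT (E.ts l)).r / rdD p.H E.kf := by
    rw [le_div_iff₀ hd]
    refine le_trans ?_ (hlab l).1
    refine mul_le_mul_of_nonneg_right ?_ hd.le
    rw [gn_s_rpow]
    have : (0 : ℝ) ≤ E.n := Nat.cast_nonneg _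
    calc (1 : ℝ) = 2 ^ (0 : ℝ) := (Real.rpow_zero _).symm
      _ ≤ _ := gn_two_mono (by nlinarith)
  have h2 := (re_pk_gap_class _ h1).1
  rw [le_div_iff₀ hd] at h2
  have h3 : (2 : ℝ) ^ (K * E.n) * rdD p.H E.kf ≤ (rwT (E.ts l)).r :=
    le_trans (mul_le_mul_of_nonneg_right (pow_le_pow_right₀ (by norm_num) hl'.le) hd.le) h2
  have hT4 : E.s ^ (4 * K : ℝ) * ((2 : ℝ) ^ (K * E.n)) ^ 4 = 1 := by
    have e0 : (4 * K : ℝ) = ((4 * K : ℕ) : ℝ) := by push_cast; ring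
    rw [e0, Real.rpow_natCast]
    unfold Xp.s
    rw [← pow_mul, ← pow_mul, show E.n * (4 * K) = K * E.n * 4 by ring, ← mul_pow]
    norm_num
  have hok := hV.ts_ok l
  have hf0 : 0 < (rwT (E.ts l)).f := hok.1.f_pos
  have hf1 : (rwT (E.ts l)).f ≤ 1 := hok.1.f_le
  have hfη : E.s ^ g ≤ (rwT (E.ts l)).f ^ (1 - η) := by
    refine (hlab l).2.trans ?_
    calc (rwT (E.ts l)).f = (rwT (E.ts l)).f ^ (1 : ℝ) := (Real.rpow_one _).symm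
      _ ≤ _ := Real.rpow_le_rpow_of_exponent_ge hf0 hf1 (by linarith)
  have hw : E.w l = (rwT (E.ts l)).r ^ 4 * (rwT (E.ts l)).f ^ (1 - η) := rfl
  have hd4 : rdD p.H E.kf ^ 4 ≤ E.s ^ (4 * K : ℝ) * (rwT (E.ts l)).r ^ 4 := by
    have h5 : ((2 : ℝ) ^ (K * E.n) * rdD p.H E.kf) ^ 4 ≤ (rwT (E.ts l)).r ^ 4 := pow_le_pow_left₀ (by positivity) h3 4
    calc rdD p.H E.kf ^ 4 = E.s ^ (4 * K : ℝ) * ((2 : ℝ) ^ (K * E.n)) ^ 4 * rdD p.H E.kf ^ 4 := by rw [hT4, one_mul]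
      _ = E.s ^ (4 * K : ℝ) * ((2 : ℝ) ^ (K * E.n) * rdD p.H E.kf) ^ 4 := by ring
      _ ≤ _ := mul_le_mul_of_nonneg_left h5 (Real.rpow_nonneg hs0.le _)
  have hsplit : E.s ^ (4 * K - 3 * C - g : ℝ) = E.s ^ (-(3 * C : ℝ)) * E.s ^ (4 * K : ℝ) * (E.s ^ g)⁻¹ := by
    rw [← Real.rpow_neg hs0.le, ← Real.rpow_add hs0, ← Real.rpow_add hs0]
    congr 1
    ring
  have hsg : 0 < E.s ^ g := Real.rpow_pos_of_pos hs0 _
  have h6 : (1 : ℝ) ≤ (E.s ^ g)⁻¹ * (rwT (E.ts l)).f ^ (1 - η) := by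
    rw [inv_mul_eq_div, le_div_iff₀ hsg, one_mul]
    exact hfη
  have hκ := hV.ka_pos
  have hr4 : 0 ≤ (rwT (E.ts l)).r ^ 4 := by positivity
  calc E.e ≤ E.s ^ (-(3 * C : ℝ)) * (E.ka * rdD p.H E.kf ^ 4) := re_pk_poly η C A p E hcl
    _ ≤ E.s ^ (-(3 * C : ℝ)) * (E.ka * (E.s ^ (4 * K : ℝ) * (rwT (E.ts l)).r ^ 4)) :=
        mul_le_mul_of_nonneg_left (mul_le_mul_of_nonneg_left hd4 hκ.le) (Real.rpow_nonneg hs0.le _)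
    _ = E.s ^ (-(3 * C : ℝ)) * E.ka * E.s ^ (4 * K : ℝ) * (rwT (E.ts l)).r ^ 4 * 1 := by ring
    _ ≤ E.s ^ (-(3 * C : ℝ)) * E.ka * E.s ^ (4 * K : ℝ) * (rwT (E.ts l)).r ^ 4 * ((E.s ^ g)⁻¹ * (rwT (E.ts l)).f ^ (1 - η)) :=
        mul_le_mul_of_nonneg_left h6 (by positivity)
    _ = _ := by rw [hsplit, hw]; ring

/-- **L-256-RE-PK-GAP** (summation over the dyadic classes).   PLAN: `d = rdD H kf > 0`, class of `l`: `c l = ⌊logb 2 (r_l / d)⌋₊`, `2^(c l) d ≤ r_l < 2^(c l + 1) d` (`r_l ≥ d`).   `G0 = ⌈|γ|⌉₊`, `cm = (C + G0 + 3) n`.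
(a) `c l ≤ cm`: for each `c ≤ cm` apply `re_pk_one η γ .. g (3C)` to `S_c = {l | c l = c}`, `R = 2^c d`:   `s^-(12/η) d ≤ R` because `2R > r_l ≥ s^-(12/η+1) d` and `s^-1 ≥ 2`  (if `S_c = ∅` the sum is `0`);   `e ≤ s^-(3C) κ R⁴` by `re_pk_poly`, `R ≥ d`;   `GenLe (3C)` from `GenLe C`.
(b) `c l > cm`: `w l = r⁴ f^(1-η) ≥ 2^(4 cm) d⁴ s^g`, `re_pk_poly`: `e ≤ s^Dw κ w l` with `Dw = 4(C+G0+3) - 3C - g ≥ 2 G0 + 4` (`g ≤ 1`);   `re_pk_huge`.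
(c) `rd = Σ_c Σ_{S_c} + Σ_huge ≤ (cm + 1) 2^((γ+2g-1/2) n) X + 2^n s^(G0+2) X`;   `cm + 2 ≤ 2^(g n)` (`gn_absorb`-type: linear `≤` exponential; take `n0` large);   `val = 2^(n/2)/X * rd` (`gn_rd_of_val` / definition). -/
theorem re_pk_gap (η γ : ℝ) (hη0 : 0 < η) (hη1 : η < 1) (hE : ReEntry η) (P5 : (rndCl η).Rate γ) : RePLGap η γ := by
  intro g hg0 hg1 C
  obtain ⟨n1, H1⟩ := re_pk_one η γ hη0 hη1 hE P5 g hg0 (3 * C)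
  obtain ⟨G0, hG0⟩ : ∃ G0 : ℕ, |γ| ≤ G0 := ⟨⌈|γ|⌉₊, Nat.le_ceil _⟩
  obtain ⟨K, hK⟩ : ∃ K : ℕ, K = C + G0 + 3 := ⟨_, rfl⟩
  obtain ⟨n2, H2⟩ := re_pk_gap_lin K g (Nat.cast_nonneg _) hg0
  refine ⟨max (max n1 n2) 1, fun A p E hn hcl hst hlab => ?_⟩
  have hn1 : n1 ≤ E.n := ((le_max_left _ _).trans (le_max_left _ _)).trans hn
  have hn2 : n2 ≤ E.n := ((le_max_right _ _).trans (le_max_left _ _)).trans hn
  have hn3 : 1 ≤ E.n := (le_max_right _ _).trans hn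
  have hV : E.Valid := hcl.2.1
  have hT : (p.sys η).Tight := hE.gen.tight p hcl.1
  have hnn : (0 : ℝ) ≤ E.n := Nat.cast_nonneg _
  obtain ⟨X, hX⟩ : ∃ X, X = E.e * Real.sqrt E.ka := ⟨_, rfl⟩
  have hX0 : 0 < X := by rw [hX]; exact mul_pos hV.e_pos (Real.sqrt_pos.2 hV.ka_pos)
  obtain ⟨Y, hY⟩ : ∃ Y, Y = 2 ^ ((γ + 2 * g - 1 / 2) * E.n) * X := ⟨_, rfl⟩
  have hY0 : 0 ≤ Y := by rw [hY]; exact mul_nonneg (gn_two_pos _).le hX0.le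
  have hA : ∑ l ∈ Finset.univ.filter (fun l => ⌊Real.logb 2 ((rwT (E.ts l)).r / rdD p.H E.kf)⌋₊ ∈ Finset.range (K * E.n + 1)), E.tr l ≤ (K * E.n + 1 : ℕ) * Y := by
    rw [← Finset.sum_fiberwise_of_maps_to (t := Finset.range (K * E.n + 1)) (g := fun l => ⌊Real.logb 2 ((rwT (E.ts l)).r / rdD p.H E.kf)⌋₊)
      (fun l hl => (Finset.mem_filter.1 hl).2)]
    calc _ ≤ ∑ _c ∈ Finset.range (K * E.n + 1), Y := by
          refine Finset.sum_le_sum fun c _ => ?_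
          refine le_trans (Finset.sum_le_sum_of_subset_of_nonneg ?_ fun l _ _ => gn_tr_nonneg E hV l)
            (by rw [hY, hX]; exact re_pk_gap_cls η γ g hη0 C n1 H1 A p E hn1 hn3 hcl hst hlab c)
          intro l hl
          exact Finset.mem_filter.2 ⟨Finset.mem_univ _, (Finset.mem_filter.1 hl).2⟩
      _ = _ := by rw [Finset.sum_const, Finset.card_range, nsmul_eq_mul]
  have hB : ∑ l ∈ Finset.univ.filter (fun l => ¬ ⌊Real.logb 2 ((rwT (E.ts l)).r / rdD p.H E.kf)⌋₊ ∈ Finset.range (K * E.n + 1)), E.tr l ≤ Y := by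
    refine (re_pk_gap_big η g hη0 hη1 C A K p E hT hcl hlab).trans ?_
    rw [hY, ← hX]
    refine mul_le_mul_of_nonneg_right ?_ hX0.le
    rw [gn_s_rpow, ← gn_two_nat, ← gn_two_add]
    refine gn_two_mono ?_
    have hγ : -(G0 : ℝ) ≤ γ := by
      have := neg_abs_le γ
      linarith
    have hKr : (K : ℝ) = C + G0 + 3 := by rw [hK]; push_cast; ring
    rw [hKr]
    have hC0 : (0 : ℝ) ≤ C := Nat.cast_nonneg _
    have hG00 : (0 : ℝ) ≤ G0 := Nat.cast_nonneg _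
    have : (E.n : ℝ) + -((4 * ((C : ℝ) + G0 + 3) - 3 * C - g) / 2 * E.n) = (1 - (4 * ((C : ℝ) + G0 + 3) - 3 * C - g) / 2) * E.n := by ring
    rw [this]
    exact mul_le_mul_of_nonneg_right (by linarith) hnn
  have hrd : E.rd ≤ 2 ^ (g * E.n) * Y := by
    rw [gn_rd_eq, ← Finset.sum_filter_add_sum_filter_not Finset.univ (fun l => ⌊Real.logb 2 ((rwT (E.ts l)).r / rdD p.H E.kf)⌋₊ ∈ Finset.range (K * E.n + 1))]
    have h3 := H2 E.n hn2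
    calc _ ≤ (K * E.n + 1 : ℕ) * Y + Y := add_le_add hA hB
      _ = ((K : ℝ) * E.n + 2) * Y := by push_cast; ring
      _ ≤ _ := mul_le_mul_of_nonneg_right h3 hY0
  unfold Xp.val
  rw [← hX]
  calc 2 ^ ((E.n : ℝ) / 2) / X * E.rd ≤ 2 ^ ((E.n : ℝ) / 2) / X * (2 ^ (g * E.n) * Y) :=
        mul_le_mul_of_nonneg_left hrd (div_nonneg (gn_two_pos _).le hX0.le)
    _ = 2 ^ ((E.n : ℝ) / 2) * 2 ^ (g * E.n) * 2 ^ ((γ + 2 * g - 1 / 2) * E.n) := by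
        rw [hY]
        field_simp
    _ = 2 ^ ((γ + 3 * g) * E.n) := by
        rw [← gn_two_add, ← gn_two_add]
        congr 1
        ring
    _ ≤ _ := gn_two_mono (mul_le_mul_of_nonneg_right (by linarith) hnn)

end Claimed.Agent.R256
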