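-- KEEP
import Claimed.Agent.R256.Re.PlGap

/-!
# Row 256, unit RE, block PL, file 8: EXIT            (architect helper236; prefix `re_pk_`)
**EXIT:**   `re_pk_pl : RePL η`   (same hypotheses as `re_pl` of `Re/Contract.lean`, which it discharges).
One cut behind all stages at the depth `k = kf - ⌊h' n⌋`, `h' = min(h, τ/(12/η+1), 1/2)`;   rate `Γ` on the prefix, `RePLGap` (rate `γ + 4g`) on the free tails (`gn_comp_on`).
-/

set_option autoImplicit false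

namespace Claimed.Agent.R256

open MeasureTheory

/-- the class of the free tails -/
def RePkTh (η g : ℝ) (p : RdWvPar) (E : Xp (p.sys η)) : Prop :=
  ∀ l, E.s ^ (-(12 / η + 1)) * rdD p.H E.kf ≤ (rwT (E.ts l)).r ∧ E.s ^ g ≤ (rwT (E.ts l)).f

theorem re_pk_pl (η γ : ℝ) (hη0 : 0 < η) (hη1 : η < 1) (hE : ReEntry η) (P5 : (rndCl η).Rate γ) (hγ : γ < (rndWav η).Gam) : RePL η := by
  intro τ h hτ hh
  have hgap := re_pk_gap η γ hη0 hη1 hE P5
  obtain ⟨Γ, hΓ⟩ : ∃ Γ, Γ = (rndWav η).Gam := ⟨_, rfl⟩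
  rw [← hΓ] at hγ ⊢
  obtain ⟨M, hM⟩ : ∃ M, M = 12 / η + 1 := ⟨_, rfl⟩
  have hM0 : 0 < M := by rw [hM]; positivity
  obtain ⟨g, hgd⟩ : ∃ g, g = min ((Γ - γ) / 8) 1 := ⟨_, rfl⟩
  have hg0 : 0 < g := by rw [hgd]; exact lt_min (by linarith) one_pos
  have hg1 : g ≤ 1 := by rw [hgd]; exact min_le_right _ _
  have hg8 : g ≤ (Γ - γ) / 8 := by rw [hgd]; exact min_le_left _ _
  obtain ⟨D, hD⟩ : ∃ D, D = Γ - (γ + 4 * g) := ⟨_, rfl⟩
  have hD0 : 0 < D := by rw [hD]; linarith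
  obtain ⟨h', hh'⟩ : ∃ h', h' = min h (min (τ / M) (1 / 2)) := ⟨_, rfl⟩
  have hh0 : 0 < h' := by rw [hh']; exact lt_min hh (lt_min (by positivity) (by norm_num))
  have hh1 : h' ≤ h := by rw [hh']; exact min_le_left _ _
  have hh2 : h' * M ≤ τ := by
    have : h' ≤ τ / M := by rw [hh']; exact (min_le_right _ _).trans (min_le_left _ _)
    rwa [le_div_iff₀ hM0] at this
  have hh3 : h' ≤ 1 / 2 := by rw [hh']; exact (min_le_right _ _).trans (min_le_right _ _)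
  refine ⟨min (g * h' / 2) (D * h' / 8), lt_min (by positivity) (by positivity), fun C => ?_⟩
  have hc1 : min (g * h' / 2) (D * h' / 8) ≤ g * h' / 2 := min_le_left _ _
  have hc2 : min (g * h' / 2) (D * h' / 8) ≤ D * h' / 8 := min_le_right _ _
  obtain ⟨c, hc⟩ : ∃ c, c = min (g * h' / 2) (D * h' / 8) := ⟨_, rfl⟩
  rw [← hc] at hc1 hc2 ⊢
  have hTh : ∀ (C : ℕ) (ε : ℝ), 0 < ε → ∃ A n0 : ℕ, ∀ (p : (rndWav η).Par) (E : Xp ((rndWav η).sys p)), n0 ≤ E.n → (rndWav η).Cls C A p E → E.st = [] →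
      RePkTh η g p E → E.val ≤ 2 ^ ((γ + 4 * g + ε) * E.n) := by
    intro C ε hε
    obtain ⟨n0, H⟩ := hgap g hg0 hg1 C
    refine ⟨0, n0, fun p E hn hcl hst hth => (H 0 p E hn hcl hst hth).trans (gn_two_mono ?_)⟩
    have : (0 : ℝ) ≤ E.n := Nat.cast_nonneg _
    exact mul_le_mul_of_nonneg_right (by linarith) this
  obtain ⟨A, n0, H⟩ := gn_comp_on (rndWav η) 1 hE.gen Γ (γ + 4 * g) (hΓ ▸ gn_rate_gam _ 1 hE.gen) (RePkTh η g) hTh C (h' / 2) (D * h' / 8)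
    (by positivity) (by positivity)
  refine ⟨A, max n0 ⌈2 / h'⌉₊, fun p E hn hcl hgp hlab => ?_⟩
  have hn0 : n0 ≤ E.n := (le_max_left _ _).trans hn
  have hn1 : 2 / h' ≤ (E.n : ℝ) := (Nat.le_ceil _).trans (by exact_mod_cast (le_max_right _ _).trans hn)
  have hn2 : 2 ≤ h' * E.n := by
    rw [div_le_iff₀ hh0] at hn1
    linarith
  have hnn : (0 : ℝ) ≤ E.n := Nat.cast_nonneg _
  obtain ⟨m, hm⟩ : ∃ m, m = ⌊h' * E.n⌋₊ := ⟨_, rfl⟩
  have hm1 : (m : ℝ) ≤ h' * E.n := by rw [hm]; exact Nat.floor_le (by positivity)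
  have hm2 : h' * E.n / 2 ≤ (m : ℝ) := by
    have : h' * E.n < (m : ℝ) + 1 := by rw [hm]; exact Nat.lt_floor_add_one _
    linarith
  have hhn : h' * E.n ≤ 1 / 2 * E.n := mul_le_mul_of_nonneg_right hh3 hnn
  have hmn : m ≤ E.n := by
    have : (m : ℝ) ≤ E.n := by linarith
    exact_mod_cast this
  have hkf : E.kf = E.k0 + E.n := rfl
  have e1 : E.kf - (E.kf - m) = m := by omega
  have e2 : E.kf - m - E.k0 = E.n - m := by omega
  have hcut : E.CutAt (E.kf - m) E.st [] := by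
    refine ⟨(List.append_nil _).symm, fun σ hσ => ?_, fun σ hσ => absurd hσ List.not_mem_nil, by omega, by omega⟩
    have h1 := hgp σ hσ
    have h0 : h' * E.n ≤ h * E.n := mul_le_mul_of_nonneg_right hh1 hnn
    have h2 : (σ.k : ℝ) + m ≤ E.kf := by linarith
    have h3 : σ.k + m ≤ E.kf := by exact_mod_cast h2
    omega
  have hs1 : h' / 2 * E.n ≤ ((E.kf - m - E.k0 : ℕ) : ℝ) := by
    rw [e2, Nat.cast_sub hmn]
    linarith
  have hs2 : h' / 2 * E.n ≤ ((E.kf - (E.kf - m) : ℕ) : ℝ) := by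
    rw [e1]
    linarith
  have hs3 : ∀ i ∈ ivs E.k0 E.i0 (E.kf - m), ∀ (ψ : (p.sys η).Kc) (e' κ' : ℝ) (b' : ℕ), ∀ S ⊆ E.below (E.kf - m) i,
      RePkTh η g p (E.tl (E.kf - m) i ψ e' κ' b' [] S) := by
    intro i _ ψ e' κ' b' S _ l
    have hk : (E.tl (E.kf - m) i ψ e' κ' b' [] S).kf = E.kf := gn_tl_kf E (by omega) i ψ e' κ' b' [] S
    have hnt : ((E.tl (E.kf - m) i ψ e' κ' b' [] S).n : ℝ) = m := by
      show ((E.kf - (E.kf - m) : ℕ) : ℝ) = m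
      rw [e1]
    obtain ⟨l1, l2⟩ := hlab (E.sel S l)
    rw [hk, gn_s_rpow, gn_s_rpow, hnt]
    rw [gn_s_rpow] at l1 l2
    constructor
    · refine le_trans (mul_le_mul_of_nonneg_right (gn_two_mono ?_) (Real.sqrt_nonneg _)) l1
      rw [← hM]
      have : (m : ℝ) * M ≤ h' * E.n * M := mul_le_mul_of_nonneg_right hm1 hM0.le
      have h7 : h' * M * E.n ≤ τ * E.n := mul_le_mul_of_nonneg_right hh2 hnn
      linarith
    · refine le_trans (gn_two_mono ?_) l2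
      have h5 : g * (h' * E.n / 2) ≤ g * m := mul_le_mul_of_nonneg_left hm2 hg0.le
      have h6 : c * E.n ≤ g * h' / 2 * E.n := mul_le_mul_of_nonneg_right hc1 hnn
      linarith
  have hres : E.val ≤ 2 ^ ((Γ + D * h' / 8) * ((E.kf - m - E.k0 : ℕ) : ℝ) + (γ + 4 * g + D * h' / 8) * ((E.kf - (E.kf - m) : ℕ) : ℝ)) :=
    H p E hn0 hcl (E.kf - m) hcut hs1 hs2 hs3
  refine hres.trans (gn_two_mono ?_)
  rw [e1, e2, Nat.cast_sub hmn]
  have : D * (h' * E.n / 2) ≤ D * m := mul_le_mul_of_nonneg_left hm2 hD0.le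
  have h4 : c * E.n ≤ D * h' / 8 * E.n := mul_le_mul_of_nonneg_right hc2 hnn
  have h8 : 0 ≤ D * h' * E.n := by positivity
  rw [hD] at this h4 h8 ⊢
  linarith

end Claimed.Agent.R256
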