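import Claimed.Agent.R256.Re.SecLin

/-!
# Row 256, unit RE, block PLANE-B, file 4: PIECES, KERNEL MAJORANT, WEIGHTED ENERGY, SHELLS, MASS            (architect helper290)            CONTRACT
On top of `Re/Spa*.lean` (helper213: `reK`, `re_sp_scale`, `re_sp_dec`, `re_sp_F2`, `re_sp_mult`, `re_sp_K_inv`, `re_sp_zjac`, `re_sp_wt_int`, `re_sp_K_cont`, `re_sp_row_cont`) and `Rt/Geo.lean` (`rt_G1`).
Every `sorry` is a leaf `L-256-SEC-*` (name in the docstring).   Statements FROZEN; auxiliary lemmas directly above your theorem, prefix `re_sc_`; edit only your block.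
-/

set_option autoImplicit false

namespace Claimed.Agent.R256

open MeasureTheory
open scoped ENNReal FourierTransform InnerProductSpace BigOperators ContDiff

/-! ## 1. The multipliers `secM` and the pieces `secG` -/

/-- integrability of the window -/
theorem re_sc_psi_int (d : ℝ) (hd : 0 < d) (a : ℝ × ℝ) : Integrable fun A : ℝ × ℝ => rdPsi (d⁻¹ • (a - A)) ^ 2 :=
  Integrable.of_integral_ne_zero (by rw [re_sp_psi_one d hd]; positivity)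

/-- the window vanishes outside the disc -/
theorem re_sc_psi_zero (d : ℝ) (hd : 0 < d) (a A : ℝ × ℝ) (h : ¬ rtSq (a - A) < 2 * d ^ 2) : rdPsi (d⁻¹ • (a - A)) ^ 2 = 0 := by
  by_contra hne
  apply h
  have h1 : rdPsi (d⁻¹ • (a - A)) ≠ 0 := fun h0 => hne (by rw [h0]; ring)
  have h2 := rd_psi_supp h1
  have e : rtSq (d⁻¹ • (a - A)) = (d ^ 2)⁻¹ * rtSq (a - A) := by
    unfold rtSq
    simp only [Prod.smul_fst, Prod.smul_snd, smul_eq_mul]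
    rw [mul_pow, mul_pow, inv_pow]
    ring
  rw [e, inv_mul_lt_iff₀ (by positivity)] at h2
  linarith

/-- **LEAF L-256-SEC-M (1).**  `0 ≤ ∫_S ψ² ≤ ∫ ψ² = d²` (`re_sp_psi_one`, `setIntegral_le_integral`; integrability of `A ↦ ψ(d⁻¹(a - A))²`: continuous with compact support). -/
theorem re_sc_M_bd (H : ℝ) (hH : 0 < H) (k : ℕ) (S : Set (ℝ × ℝ)) (a : ℝ × ℝ) : 0 ≤ secM H k S a ∧ secM H k S a ≤ 1 := by
  obtain ⟨hd, -⟩ := re_sp_dq H hH k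
  unfold secM
  have h0 : 0 ≤ ∫ A in S, rdPsi ((rdD H k)⁻¹ • (a - A)) ^ 2 := integral_nonneg fun _ => sq_nonneg _
  have h1 : ∫ A in S, rdPsi ((rdD H k)⁻¹ • (a - A)) ^ 2 ≤ rdD H k ^ 2 := by
    rw [← re_sp_psi_one (rdD H k) hd a]
    exact setIntegral_le_integral (re_sc_psi_int _ hd a) (Filter.Eventually.of_forall fun _ => sq_nonneg _)
  refine ⟨by positivity, ?_⟩
  rw [inv_mul_le_iff₀ (by positivity), mul_one]
  exact h1

/-- **LEAF L-256-SEC-M (2).**  if `secM ≠ 0` the integrand is not a.e. zero on `S`;  `rd_psi_supp`, `rtSq (d⁻¹ • v) = rtSq v / d²`. -/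
theorem re_sc_M_supp (H : ℝ) (hH : 0 < H) (k : ℕ) (S : Set (ℝ × ℝ)) (a : ℝ × ℝ) (h : secM H k S a ≠ 0) : ∃ A ∈ S, rtSq (a - A) < 2 * rdD H k ^ 2 := by
  obtain ⟨hd, -⟩ := re_sp_dq H hH k
  by_contra hne
  push Not at hne
  apply h
  unfold secM
  rw [setIntegral_eq_zero_of_forall_eq_zero fun A hA => re_sc_psi_zero _ hd a A (not_lt.2 (hne A hA)), mul_zero]

/-- **LEAF L-256-SEC-M (3).**  the integrand vanishes off `S`: `setIntegral_eq_integral_of_forall_compl_eq_zero`, `re_sp_psi_one`. -/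
theorem re_sc_M_one (H : ℝ) (hH : 0 < H) (k : ℕ) (S : Set (ℝ × ℝ)) (a : ℝ × ℝ) (h : ∀ A, rtSq (a - A) < 2 * rdD H k ^ 2 → A ∈ S) : secM H k S a = 1 := by
  obtain ⟨hd, -⟩ := re_sp_dq H hH k
  unfold secM
  rw [setIntegral_eq_integral_of_forall_compl_eq_zero fun A hA => re_sc_psi_zero _ hd a A fun hlt => hA (h A hlt), re_sp_psi_one _ hd,
    inv_mul_cancel₀ (by positivity)]

/-- **LEAF L-256-SEC-M (4).**  finite additivity: `integral_biUnion_finset` (`integral_finset_biUnion`), integrability as in (1). -/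
theorem re_sc_M_sum (H : ℝ) (hH : 0 < H) (k : ℕ) {ι : Type} (Y : Finset ι) (S : ι → Set (ℝ × ℝ)) (hS : ∀ i ∈ Y, MeasurableSet (S i)) (hd : ∀ i ∈ Y, ∀ j ∈ Y, i ≠ j → Disjoint (S i) (S j)) (a : ℝ × ℝ) :
    ∑ i ∈ Y, secM H k (S i) a = secM H k (⋃ i ∈ Y, S i) a := by
  obtain ⟨hd0, -⟩ := re_sp_dq H hH k
  unfold secM
  rw [integral_biUnion_finset Y hS (fun i hi j hj hij => hd i hi j hj hij) fun i _ => (re_sc_psi_int _ hd0 a).integrableOn, Finset.mul_sum]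

theorem re_sc_conv_meas (φ : ℝ × ℝ → ℝ) (hφ : Continuous φ) (c : ℝ) (S : Set (ℝ × ℝ)) : StronglyMeasurable fun a : ℝ × ℝ => ∫ A in S, φ (c • (a - A)) := by
  have hc : Continuous fun x : (ℝ × ℝ) × (ℝ × ℝ) => φ (c • (x.1 - x.2)) := hφ.comp (by fun_prop)
  exact StronglyMeasurable.integral_prod_right' (ν := (volume : Measure (ℝ × ℝ)).restrict S)
      (f := fun x : (ℝ × ℝ) × (ℝ × ℝ) => φ (c • (x.1 - x.2))) hc.stronglyMeasurable

/-- **LEAF L-256-SEC-M (5).**  `a ↦ ∫_S ψ(d⁻¹(a - A))² dA` is continuous (`continuous_of_dominated`, bound: sup of `ψ²` times the indicator of a ball locally in `a`; or: `StronglyMeasurable.integral_prod_right`), composed with the measurable map `q ↦ (2 q.2)⁻¹ • q.1`. -/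
theorem re_sc_M_meas (H : ℝ) (hH : 0 < H) (k : ℕ) (S : Set (ℝ × ℝ)) (hS : MeasurableSet S) : Measurable fun q : RdWvPar.Mo => secM H k S ((2 * q.2)⁻¹ • q.1) := by
  have h1 : StronglyMeasurable fun a : ℝ × ℝ => ∫ A in S, rdPsi ((rdD H k)⁻¹ • (a - A)) ^ 2 :=
    re_sc_conv_meas (fun v => rdPsi v ^ 2) (rd_psi_contDiff.continuous.pow 2) _ S
  have h2 : Measurable fun a : ℝ × ℝ => secM H k S a := by
    unfold secM
    exact h1.measurable.const_mul _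
  exact h2.comp (by fun_prop)

/-- **LEAF L-256-SEC-G: the pieces are integrable, square integrable, pointwise dominated; orthogonality.**   `‖secG q‖ = secM · ‖G q‖ ≤ ‖G q‖` (`re_sc_M_bd`, `re_sc_M_meas`);  `∑ m_i² ≤ ∑ m_i = m_{∪} ≤ 1` (`re_sc_M_sum`). -/
theorem re_sc_G (H : ℝ) (hH : 0 < H) (k : ℕ) (G : RdWvPar.Mo → ℂ) (hG : Integrable G) :
    (∀ S, MeasurableSet S → Integrable (secG H k S G)) ∧ (∀ S q, ‖secG H k S G q‖ ≤ ‖G q‖) ∧
    ∀ {ι : Type} (Y : Finset ι) (S : ι → Set (ℝ × ℝ)), (∀ i ∈ Y, MeasurableSet (S i)) → (∀ i ∈ Y, ∀ j ∈ Y, i ≠ j → Disjoint (S i) (S j)) →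
      (∀ q, ∑ i ∈ Y, secG H k (S i) G q = secG H k (⋃ i ∈ Y, S i) G q) ∧ ∑ i ∈ Y, ∫⁻ q, ‖secG H k (S i) G q‖ₑ ^ 2 ≤ ∫⁻ q, ‖G q‖ₑ ^ 2 := by
  have hn : ∀ S (a : ℝ × ℝ), ‖((secM H k S a : ℝ) : ℂ)‖ ≤ 1 := by
    intro S a
    obtain ⟨h0, h1⟩ := re_sc_M_bd H hH k S a
    rw [Complex.norm_real, Real.norm_of_nonneg h0]
    exact h1
  have hm : ∀ S, MeasurableSet S → Measurable fun q : RdWvPar.Mo => ((secM H k S ((2 * q.2)⁻¹ • q.1) : ℝ) : ℂ) := fun S hS =>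
    Complex.measurable_ofReal.comp (re_sc_M_meas H hH k S hS)
  refine ⟨fun S hS => ?_, fun S q => ?_, fun Y S hS hd => ⟨fun q => ?_, ?_⟩⟩
  · unfold secG
    exact hG.bdd_mul (c := 1) (hm S hS).aestronglyMeasurable (Filter.Eventually.of_forall fun q => hn S _)
  · unfold secG
    rw [norm_mul]
    exact mul_le_of_le_one_left (norm_nonneg _) (hn S _)
  · unfold secG
    rw [← Finset.sum_mul, ← Complex.ofReal_sum, re_sc_M_sum H hH k Y S hS hd]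
  · have hae : ∀ i ∈ Y, AEMeasurable (fun q : RdWvPar.Mo => ‖secG H k (S i) G q‖ₑ ^ 2) volume := by
      intro i hi
      unfold secG
      exact (((hm (S i) (hS i hi)).aestronglyMeasurable.mul hG.aestronglyMeasurable).enorm).pow_const 2
    rw [← lintegral_finsetSum' Y hae]
    refine lintegral_mono fun q => ?_
    have e : ∀ i, ‖secG H k (S i) G q‖ₑ ^ 2 = ENNReal.ofReal (secM H k (S i) ((2 * q.2)⁻¹ • q.1) ^ 2) * ‖G q‖ₑ ^ 2 := by
      intro i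
      obtain ⟨h0, -⟩ := re_sc_M_bd H hH k (S i) ((2 * q.2)⁻¹ • q.1)
      unfold secG
      rw [enorm_mul, mul_pow, ← ofReal_norm, Complex.norm_real, Real.norm_of_nonneg h0, ENNReal.ofReal_pow h0]
    simp only [e]
    rw [← Finset.sum_mul, ← ENNReal.ofReal_sum_of_nonneg fun i _ => sq_nonneg _]
    refine mul_le_of_le_one_left zero_le ?_
    rw [ENNReal.ofReal_le_one]
    calc ∑ i ∈ Y, secM H k (S i) ((2 * q.2)⁻¹ • q.1) ^ 2 ≤ ∑ i ∈ Y, secM H k (S i) ((2 * q.2)⁻¹ • q.1) := by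
          refine Finset.sum_le_sum fun i _ => ?_
          obtain ⟨h0, h1⟩ := re_sc_M_bd H hH k (S i) ((2 * q.2)⁻¹ • q.1)
          nlinarith
      _ = secM H k (⋃ i ∈ Y, S i) ((2 * q.2)⁻¹ • q.1) := re_sc_M_sum H hH k Y S hS hd _
      _ ≤ 1 := (re_sc_M_bd H hH k _ _).2

/-- the plane wave factor of the field -/
theorem re_sc_fld_meas (t : ℝ) (z : ReSp) : Measurable fun q : RdWvPar.Mo => (reC3 : ℂ) * Complex.exp (Complex.I * ((rePair q z - t * reOm q : ℝ) : ℂ)) := by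
  have h : Measurable fun q : RdWvPar.Mo => rePair q z - t * reOm q := by
    unfold rePair rtIp reOm rtSq
    fun_prop
  exact (Complex.measurable_exp.comp ((Complex.measurable_ofReal.comp h).const_mul Complex.I)).const_mul _

theorem re_sc_fld_norm (t : ℝ) (z : ReSp) (q : RdWvPar.Mo) : ‖(reC3 : ℂ) * Complex.exp (Complex.I * ((rePair q z - t * reOm q : ℝ) : ℂ))‖ = |reC3| := by
  rw [norm_mul, Complex.norm_real, Real.norm_eq_abs, rt_w1c_norm_exp, mul_one]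

/-- **LEAF L-256-SEC-FSUM.**  `reFld` is linear in the state (`integral_finset_sum`, integrability `Integrable.bdd_mul`) and depends only on its a.e. class. -/
theorem re_sc_fld_sum {ι : Type} (Y : Finset ι) (g : ι → RdWvPar.Mo → ℂ) (hg : ∀ i ∈ Y, Integrable (g i)) (G : RdWvPar.Mo → ℂ) (h : ∀ᵐ q, ∑ i ∈ Y, g i q = G q) (t : ℝ) (z : ReSp) :
    reFld t G z = ∑ i ∈ Y, reFld t (g i) z := by
  unfold reFld
  rw [← integral_finsetSum Y fun i hi => (hg i hi).bdd_mul (c := |reC3|) (re_sc_fld_meas t z).aestronglyMeasurable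
    (Filter.Eventually.of_forall fun q => (re_sc_fld_norm t z q).le)]
  refine integral_congr_ae ?_
  filter_upwards [h] with q hq
  rw [← hq, Finset.mul_sum]

/-- **LEAF L-256-SEC-EN: conservation of energy.**   `rt_w1_planch`-type Plancherel on `(ℝ × ℝ) × ℝ` for the pairing `rePair` (statement of `Rt/Wv1.lean`, leaf L-256-RT-W1-A: `∫⁻ z, ‖∫ q, e^{i(ξ·b - ρy)} g q‖ₑ² = ofReal ((2π)³) ∫⁻ ‖g‖ₑ²` for `g ∈ L¹ ∩ L²`; PROVE IT HERE if it is not yet on main, via `re_sp_iso` and `MeasureTheory.Lp`-Plancherel / `ls_plancherel_inv` of `Top/Tools.lean`), applied to `g q = reC3 e^{-it reOm q} G q`;  `reC3² (2π)³ = 1`. -/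
theorem re_sc_energy (G : RdWvPar.Mo → ℂ) (h1 : Integrable G) (h2 : MemLp G 2 volume) (t : ℝ) : ∫⁻ z, ‖reFld t G z‖ₑ ^ 2 = ∫⁻ q, ‖G q‖ₑ ^ 2 := by
  have hm : Measurable fun q : RdWvPar.Mo => (reC3 : ℂ) * Complex.exp (Complex.I * ((-(t * reOm q) : ℝ) : ℂ)) := by
    have h : Measurable fun q : RdWvPar.Mo => -(t * reOm q) := by
      unfold reOm rtSq
      fun_prop
    exact (Complex.measurable_exp.comp ((Complex.measurable_ofReal.comp h).const_mul Complex.I)).const_mul _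
  have hc0 : 0 ≤ reC3 := by
    unfold reC3
    positivity
  have hn : ∀ q : RdWvPar.Mo, ‖(reC3 : ℂ) * Complex.exp (Complex.I * ((-(t * reOm q) : ℝ) : ℂ))‖ = reC3 := fun q => by
    rw [norm_mul, Complex.norm_real, Real.norm_of_nonneg hc0, rt_w1c_norm_exp, mul_one]
  set g : RdWvPar.Mo → ℂ := fun q => (reC3 : ℂ) * Complex.exp (Complex.I * ((-(t * reOm q) : ℝ) : ℂ)) * G q with hg
  have g1 : Integrable g := h1.bdd_mul (c := reC3) hm.aestronglyMeasurable (Filter.Eventually.of_forall fun q => (hn q).le)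
  have g2 : MemLp g 2 volume := by
    refine MemLp.of_le_mul (c := reC3) h2 (hm.aestronglyMeasurable.mul h2.1) (Filter.Eventually.of_forall fun q => ?_)
    rw [hg, norm_mul, hn]
  have e1 : ∀ z : ReSp, reFld t G z = ∫ q : RdWvPar.Mo, Complex.exp (Complex.I * ((rtIp q.1 z.1 - q.2 * z.2 : ℝ) : ℂ)) * g q := by
    intro z
    unfold reFld
    refine integral_congr_ae (Filter.Eventually.of_forall fun q => ?_)
    simp only [hg]
    have e : Complex.exp (Complex.I * ((rePair q z - t * reOm q : ℝ) : ℂ))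
        = Complex.exp (Complex.I * ((rtIp q.1 z.1 - q.2 * z.2 : ℝ) : ℂ)) * Complex.exp (Complex.I * ((-(t * reOm q) : ℝ) : ℂ)) := by
      rw [← Complex.exp_add]
      congr 1
      unfold rePair
      push_cast
      ring
    rw [e]
    ring
  simp only [e1]
  rw [rt_w1c_planch g1 g2]
  have e2 : ∀ q, ‖g q‖ₑ ^ 2 = ENNReal.ofReal (reC3 ^ 2) * ‖G q‖ₑ ^ 2 := by
    intro q
    rw [hg, enorm_mul, mul_pow, ← ofReal_norm, hn, ENNReal.ofReal_pow hc0]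
  simp only [e2]
  rw [lintegral_const_mul'' _ (h2.1.enorm.pow_const 2), ← mul_assoc, ← ENNReal.ofReal_mul (by positivity)]
  have e3 : (2 * Real.pi) ^ 3 * reC3 ^ 2 = 1 := rt_w1c_const
  rw [e3, ENNReal.ofReal_one, one_mul]

/-- **LEAF L-256-SEC-F2S: the field of a piece is the superposition of the root rows with angle in `S`.**      Same proof as `re_sp_F2` (helper213), with `∫ A' in S` instead of `∫ A'`:
for a.e. `q` with `G q ≠ 0`: `χ_β(Hρ) = 1`, so `secG H k S G q = d⁻² ∫_{A' ∈ S} (χ ψ_{A'})² G q`;  swap (`integral_integral_swap` on `volume.prod (volume.restrict S)`), `re_sp_mult` for fixed `A'`. -/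
theorem re_sc_F2S (p : RdWvPar) (T t : ℝ) (k β : ℕ) (G : RdWvPar.Mo → ℂ) (hG : Integrable G) (hS : ∀ᵐ q ∂(volume : Measure RdWvPar.Mo), G q ≠ 0 → p.H * q.2 ∈ rdPlat β)
    (S : Set (ℝ × ℝ)) (hSm : MeasurableSet S) (z : ReSp) :
    reFld t (secG p.H k S G) z = (((rdD p.H k ^ 2)⁻¹ : ℝ) : ℂ) * ∫ A' in S, ∫ z' : ReSp, reK p.H k β A' (t - T) (z - z') * secRow p T k β G (A', z') := by
  obtain ⟨hd, -⟩ := rt_w1c_d_pos p k
  set d := rdD p.H k with hdd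
  obtain ⟨B, hB0, hB⟩ := re_sp_sym_norm_le
  have hWint : ∀ q : RdWvPar.Mo, ∫ A' : ℝ × ℝ, rdPsi (d⁻¹ • ((2 * q.2)⁻¹ • q.1 - A')) ^ 2 = d ^ 2 := fun q => re_sp_psi_one d hd _
  have hWI : ∀ q : RdWvPar.Mo, Integrable fun A' : ℝ × ℝ => rdPsi (d⁻¹ • ((2 * q.2)⁻¹ • q.1 - A')) ^ 2 := fun q =>
    Integrable.of_integral_ne_zero (by rw [hWint]; positivity)
  have hχm : Measurable fun q : RdWvPar.Mo => rdChi β (p.H * q.2) ^ 2 :=
    ((rd_chi_contDiff β).continuous.measurable.comp (measurable_snd.const_mul p.H)).pow_const 2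
  have hEm : Measurable fun q : RdWvPar.Mo => (reC3 : ℂ) * Complex.exp (Complex.I * ((rePair q z - t * reOm q : ℝ) : ℂ)) := by
    have h : Measurable fun q : RdWvPar.Mo => rePair q z - t * reOm q := by
      unfold rePair rtIp reOm rtSq
      fun_prop
    exact (Complex.measurable_exp.comp ((Complex.measurable_ofReal.comp h).const_mul Complex.I)).const_mul _
  have hEn : ∀ q : RdWvPar.Mo, ‖(reC3 : ℂ) * Complex.exp (Complex.I * ((rePair q z - t * reOm q : ℝ) : ℂ))‖ = |reC3| := fun q => by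
    rw [norm_mul, Complex.norm_real, Real.norm_eq_abs, rt_w1c_norm_exp, mul_one]
  -- the double integrand
  set Φ : RdWvPar.Mo → ℝ × ℝ → ℂ := fun q A' => ((rdChi β (p.H * q.2) ^ 2 * rdPsi (d⁻¹ • ((2 * q.2)⁻¹ • q.1 - A')) ^ 2 : ℝ) : ℂ)
    * ((reC3 : ℂ) * Complex.exp (Complex.I * ((rePair q z - t * reOm q : ℝ) : ℂ)) * G q) with hΦ
  have hΦ1 : ∀ q, ∫ A' in S, Φ q A' = ((rdChi β (p.H * q.2) ^ 2 * ∫ A' in S, rdPsi (d⁻¹ • ((2 * q.2)⁻¹ • q.1 - A')) ^ 2 : ℝ) : ℂ)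
      * ((reC3 : ℂ) * Complex.exp (Complex.I * ((rePair q z - t * reOm q : ℝ) : ℂ)) * G q) := fun q => by
    simp only [hΦ]
    rw [integral_mul_const, integral_complex_ofReal, integral_const_mul]
  have hΦn : ∀ q A', ‖Φ q A'‖ = rdChi β (p.H * q.2) ^ 2 * rdPsi (d⁻¹ • ((2 * q.2)⁻¹ • q.1 - A')) ^ 2 * (|reC3| * ‖G q‖) := fun q A' => by
    simp only [hΦ]
    rw [norm_mul, norm_mul, hEn, Complex.norm_real, Real.norm_of_nonneg (by positivity)]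
  have hint : Integrable (Function.uncurry Φ) ((volume : Measure RdWvPar.Mo).prod (volume : Measure (ℝ × ℝ))) := by
    have hm : AEStronglyMeasurable (Function.uncurry Φ) ((volume : Measure RdWvPar.Mo).prod (volume : Measure (ℝ × ℝ))) := by
      have h1 : Measurable fun x : RdWvPar.Mo × (ℝ × ℝ) => rdPsi (d⁻¹ • ((2 * x.1.2)⁻¹ • x.1.1 - x.2)) ^ 2 :=
        (rd_psi_contDiff.continuous.measurable.comp (by fun_prop)).pow_const 2
      have h2 : Measurable fun x : RdWvPar.Mo × (ℝ × ℝ) => ((rdChi β (p.H * x.1.2) ^ 2 * rdPsi (d⁻¹ • ((2 * x.1.2)⁻¹ • x.1.1 - x.2)) ^ 2 : ℝ) : ℂ) :=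
        Complex.measurable_ofReal.comp ((hχm.comp measurable_fst).mul h1)
      exact h2.aestronglyMeasurable.mul ((hEm.comp measurable_fst).aestronglyMeasurable.mul hG.aestronglyMeasurable.comp_fst)
    rw [integrable_prod_iff hm]
    refine ⟨Filter.Eventually.of_forall fun q => ?_, ?_⟩
    · simp only [Function.uncurry_apply_pair, hΦ]
      exact (((hWI q).const_mul _).ofReal).mul_const _
    · have e : (fun q : RdWvPar.Mo => ∫ A', ‖Function.uncurry Φ (q, A')‖) = fun q => (rdChi β (p.H * q.2) ^ 2 * (d ^ 2 * |reC3|)) * ‖G q‖ := by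
        funext q
        simp only [Function.uncurry_apply_pair, hΦn]
        rw [integral_mul_const, integral_const_mul, hWint]
        ring
      rw [e]
      refine hG.norm.bdd_mul (c := d ^ 2 * |reC3|) (hχm.mul_const _).aestronglyMeasurable (Filter.Eventually.of_forall fun q => ?_)
      rw [Real.norm_of_nonneg (by positivity)]
      have h1 : rdChi β (p.H * q.2) ^ 2 ≤ 1 := pow_le_one₀ (rd_chi_nonneg _ _) (rd_chi_le_one _ _)
      exact mul_le_of_le_one_left (by positivity) h1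
  have hintS : Integrable (Function.uncurry Φ) ((volume : Measure RdWvPar.Mo).prod ((volume : Measure (ℝ × ℝ)).restrict S)) := by
    have e : (volume : Measure RdWvPar.Mo).prod ((volume : Measure (ℝ × ℝ)).restrict S)
        = ((volume : Measure RdWvPar.Mo).prod (volume : Measure (ℝ × ℝ))).restrict (Set.univ ×ˢ S) := by
      rw [← Measure.prod_restrict, Measure.restrict_univ]
    rw [e]
    exact hint.integrableOn
  -- step 1
  have s1 : reFld t (secG p.H k S G) z = (((d ^ 2)⁻¹ : ℝ) : ℂ) * ∫ q, ∫ A' in S, Φ q A' := by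
    unfold reFld
    rw [← integral_const_mul]
    refine integral_congr_ae ?_
    filter_upwards [hS] with q hq
    rw [hΦ1]
    unfold secG secM
    by_cases h0 : G q = 0
    · rw [h0]; simp
    · rw [rd_chi_one (hq h0)]
      push_cast
      ring
  rw [s1, integral_integral_swap hintS]
  congr 1
  refine integral_congr_ae (Filter.Eventually.of_forall fun A' => ?_)
  simp only
  obtain ⟨hKi, hKa⟩ := re_sp_K_inv p.H p.H_pos k β A' (t - T)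
  have hsm : Measurable fun q : RdWvPar.Mo => reSym p.H k β A' T q := by
    have h : Measurable (Function.uncurry fun (A : ℝ × ℝ) (q : RdWvPar.Mo) => reSym p.H k β A T q) := re_sp_sym_meas p.H k β T
    exact h.of_uncurry_left
  have hg : Integrable fun q : RdWvPar.Mo => (reC3 : ℂ) * reSym p.H k β A' T q * G q := by
    refine hG.bdd_mul (c := |reC3| * B) (hsm.const_mul _).aestronglyMeasurable (Filter.Eventually.of_forall fun q => ?_)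
    rw [norm_mul, Complex.norm_real, Real.norm_eq_abs]
    exact mul_le_mul_of_nonneg_left (hB _ _ _ _ _ _) (abs_nonneg _)
  have h := re_sp_mult (reK p.H k β A' (t - T)) (reSym p.H k β A' (t - T)) _ hKi hg hKa z
  calc ∫ q, Φ q A'
      = ∫ q, Complex.exp (Complex.I * (rePair q z : ℂ)) * (reSym p.H k β A' (t - T) q * ((reC3 : ℂ) * reSym p.H k β A' T q * G q)) := by
        refine integral_congr_ae (Filter.Eventually.of_forall fun q => ?_)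
        simp only [hΦ]
        unfold reSym
        have e : Complex.exp (Complex.I * ((rePair q z - t * reOm q : ℝ) : ℂ))
            = Complex.exp (Complex.I * (rePair q z : ℂ)) * (Complex.exp (-(Complex.I * (((t - T) * reOm q : ℝ) : ℂ))) * Complex.exp (-(Complex.I * ((T * reOm q : ℝ) : ℂ)))) := by
          rw [← Complex.exp_add, ← Complex.exp_add]
          congr 1
          push_cast
          ring
        rw [e]
        push_cast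
        ring
    _ = _ := h
    _ = _ := by
        refine integral_congr_ae (Filter.Eventually.of_forall fun z' => ?_)
        simp only
        congr 1
        unfold secRow
        refine integral_congr_ae (Filter.Eventually.of_forall fun q => ?_)
        simp only
        rw [re_sp_pk]
        ring

/-! ## 2. The kernel majorant, all times -/

theorem re_sc_osc_exp_deriv (i : ℕ) : iteratedDeriv i (fun x : ℝ => Complex.exp (-(Complex.I * (x : ℂ)))) = fun x : ℝ => (-Complex.I) ^ i * Complex.exp (-(Complex.I * (x : ℂ))) := by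
  induction i with
  | zero => funext x; simp
  | succ i ih =>
    rw [iteratedDeriv_succ, ih]
    funext x
    have h1 : HasDerivAt (fun x : ℝ => -(Complex.I * (x : ℂ))) (-(Complex.I * 1)) x :=
      ((Complex.ofRealCLM.hasDerivAt (x := x)).const_mul Complex.I).neg
    have h2 : HasDerivAt (fun x : ℝ => Complex.exp (-(Complex.I * (x : ℂ)))) (Complex.exp (-(Complex.I * (x : ℂ))) * (-(Complex.I * 1))) x := h1.cexp
    have h3 := (h2.const_mul ((-Complex.I) ^ i)).deriv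
    rw [h3]
    ring

theorem re_sc_osc_exp_smooth : ContDiff ℝ ∞ (fun x : ℝ => Complex.exp (-(Complex.I * (x : ℂ)))) := by
  have h1 : ContDiff ℝ ∞ (fun x : ℝ => (x : ℂ)) := Complex.ofRealCLM.contDiff
  exact (contDiff_const.mul h1).neg.cexp

theorem re_sc_osc_exp_norm (i : ℕ) (x : ℝ) : ‖iteratedFDeriv ℝ i (fun x : ℝ => Complex.exp (-(Complex.I * (x : ℂ)))) x‖ ≤ 1 := by
  rw [norm_iteratedFDeriv_eq_norm_iteratedDeriv, re_sc_osc_exp_deriv]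
  have h : -(Complex.I * (x : ℂ)) = ((-x : ℝ) : ℂ) * Complex.I := by push_cast; ring
  simp only [norm_mul, norm_pow, norm_neg, Complex.norm_I, one_pow, one_mul]
  rw [h, Complex.norm_exp_ofReal_mul_I]

theorem re_sc_osc_bdd (φ : RdWvPar.Mo → ℝ) (hφ : ContDiff ℝ ∞ φ) (hφc : HasCompactSupport φ) (j : ℕ) :
    ∃ B : ℝ, 1 ≤ B ∧ ∀ i ≤ j, ∀ q, ‖iteratedFDeriv ℝ i φ q‖ ≤ B := by
  induction j with
  | zero =>
    obtain ⟨C, hC⟩ := (hφ.continuous_iteratedFDeriv (m := 0) (by simp)).bounded_above_of_compact_support (hφc.iteratedFDeriv 0)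
    refine ⟨max 1 C, le_max_left _ _, fun i hi q => ?_⟩
    obtain rfl : i = 0 := by omega
    exact (hC q).trans (le_max_right _ _)
  | succ j ih =>
    obtain ⟨B, hB, h⟩ := ih
    obtain ⟨C, hC⟩ := (hφ.continuous_iteratedFDeriv (m := (j + 1 : ℕ)) (by exact_mod_cast le_top)).bounded_above_of_compact_support (hφc.iteratedFDeriv (j + 1))
    refine ⟨max B C, hB.trans (le_max_left _ _), fun i hi q => ?_⟩
    rcases Nat.lt_or_ge i (j + 1) with h1 | h1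
    · exact (h i (by omega) q).trans (le_max_left _ _)
    · obtain rfl : i = j + 1 := by omega
      exact (hC q).trans (le_max_right _ _)

theorem re_sc_osc_ph (φ : RdWvPar.Mo → ℝ) (hφ : ContDiff ℝ ∞ φ) (j : ℕ) (B : ℝ) (hB : 1 ≤ B) (h : ∀ i ≤ j, ∀ q, ‖iteratedFDeriv ℝ i φ q‖ ≤ B) (τ : ℝ) (n : ℕ) (hn : n ≤ j) (q : RdWvPar.Mo) :
    ‖iteratedFDeriv ℝ n (fun q => Complex.exp (-(Complex.I * ((τ * φ q : ℝ) : ℂ)))) q‖ ≤ (n.factorial : ℝ) * B ^ n * (1 + |τ|) ^ n := by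
  have hf : ContDiff ℝ ∞ (fun q => τ * φ q) := contDiff_const.mul hφ
  have h0 : (0 : ℝ) ≤ |τ| := abs_nonneg τ
  have hD1 : 1 ≤ (1 + |τ|) * B := by nlinarith
  have key := norm_iteratedFDeriv_comp_le (n := n) re_sc_osc_exp_smooth hf (by exact_mod_cast le_top) q (C := 1) (D := (1 + |τ|) * B)
    (fun i _ => re_sc_osc_exp_norm i _) (fun i hi1 hi2 => by
      have e : (fun q => τ * φ q) = τ • φ := by funext q; simp
      rw [e, iteratedFDeriv_const_smul_apply (hφ.contDiffAt.of_le (by exact_mod_cast le_top)), norm_smul, Real.norm_eq_abs]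
      calc |τ| * ‖iteratedFDeriv ℝ i φ q‖ ≤ |τ| * B := by gcongr; exact h i (by omega) q
        _ ≤ (1 + |τ|) * B := by nlinarith
        _ = ((1 + |τ|) * B) ^ 1 := by ring
        _ ≤ ((1 + |τ|) * B) ^ i := pow_le_pow_right₀ hD1 hi1)
  have e2 : ((fun x : ℝ => Complex.exp (-(Complex.I * (x : ℂ)))) ∘ fun q => τ * φ q) = fun q => Complex.exp (-(Complex.I * ((τ * φ q : ℝ) : ℂ))) := rfl
  rw [e2] at key
  refine key.trans (le_of_eq ?_)
  rw [mul_pow]; ring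

/-- **LEAF L-256-SEC-KER1: derivatives of an oscillating amplitude grow polynomially in the parameter.**
PLAN.  `e^{-iτφ} = (fun x : ℝ => cexp (-(I x))) ∘ (τ φ)`:   `norm_iteratedFDeriv_comp_le` with `C = 1` (all derivatives of `x ↦ cexp (-(I x))` have norm `1`: `iteratedDeriv`/`norm_iteratedFDeriv_eq_norm_iteratedDeriv`) and `D = (1 + |τ|) Bφ`, `Bφ ≥ 1` a bound of `‖D^i φ‖`, `1 ≤ i ≤ j` (`φ` smooth with compact support: bounded derivatives,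
`iteratedFDeriv_const_smul_apply`);  `norm_iteratedFDeriv_mul_le` for the product with `a`;  `D^i a` continuous with compact support: bounded by `Ba`, vanishing off `tsupport a` of finite measure. -/
theorem re_sc_osc (a : RdWvPar.Mo → ℂ) (ha : ContDiff ℝ ∞ a) (hac : HasCompactSupport a) (φ : RdWvPar.Mo → ℝ) (hφ : ContDiff ℝ ∞ φ) (hφc : HasCompactSupport φ) (j : ℕ) :
    ∃ B : ℝ, 0 ≤ B ∧ ∀ τ : ℝ, ∫ q, ‖iteratedFDeriv ℝ j (fun q => a q * Complex.exp (-(Complex.I * ((τ * φ q : ℝ) : ℂ)))) q‖ ≤ B * (1 + |τ|) ^ j := by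
  obtain ⟨Bφ, hB1, hBφ⟩ := re_sc_osc_bdd φ hφ hφc j
  have hint : ∀ i : ℕ, Integrable (fun q => ‖iteratedFDeriv ℝ i a q‖) := fun i =>
    ((ha.continuous_iteratedFDeriv (m := i) (by exact_mod_cast le_top)).integrable_of_hasCompactSupport (hac.iteratedFDeriv i)).norm
  refine ⟨∑ i ∈ Finset.range (j + 1), (j.choose i : ℝ) * (((j - i).factorial : ℝ) * Bφ ^ (j - i)) * ∫ q, ‖iteratedFDeriv ℝ i a q‖, ?_, fun τ => ?_⟩
  · refine Finset.sum_nonneg fun i _ => ?_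
    have : 0 ≤ ∫ q, ‖iteratedFDeriv ℝ i a q‖ := integral_nonneg fun q => norm_nonneg _
    positivity
  have h0 : (0 : ℝ) ≤ |τ| := abs_nonneg τ
  have he : ContDiff ℝ ∞ (fun q => Complex.exp (-(Complex.I * ((τ * φ q : ℝ) : ℂ)))) :=
    re_sc_osc_exp_smooth.comp (contDiff_const.mul hφ)
  have hpt : ∀ q, ‖iteratedFDeriv ℝ j (fun q => a q * Complex.exp (-(Complex.I * ((τ * φ q : ℝ) : ℂ)))) q‖
      ≤ ∑ i ∈ Finset.range (j + 1), ((j.choose i : ℝ) * (((j - i).factorial : ℝ) * Bφ ^ (j - i)) * (1 + |τ|) ^ j) * ‖iteratedFDeriv ℝ i a q‖ := by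
    intro q
    refine (norm_iteratedFDeriv_mul_le ha he q (n := j) (by exact_mod_cast le_top)).trans ?_
    refine Finset.sum_le_sum fun i hi => ?_
    have hi' : i ≤ j := by have := Finset.mem_range.1 hi; omega
    have h1 := re_sc_osc_ph φ hφ j Bφ hB1 hBφ τ (j - i) (by omega) q
    have h2 : (1 + |τ|) ^ (j - i) ≤ (1 + |τ|) ^ j := pow_le_pow_right₀ (by linarith) (by omega)
    calc (j.choose i : ℝ) * ‖iteratedFDeriv ℝ i a q‖ * ‖iteratedFDeriv ℝ (j - i) (fun q => Complex.exp (-(Complex.I * ((τ * φ q : ℝ) : ℂ)))) q‖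
        ≤ (j.choose i : ℝ) * ‖iteratedFDeriv ℝ i a q‖ * (((j - i).factorial : ℝ) * Bφ ^ (j - i) * (1 + |τ|) ^ j) := by
          gcongr
          refine h1.trans ?_
          gcongr
      _ = _ := by ring
  calc ∫ q, ‖iteratedFDeriv ℝ j (fun q => a q * Complex.exp (-(Complex.I * ((τ * φ q : ℝ) : ℂ)))) q‖
      ≤ ∫ q, ∑ i ∈ Finset.range (j + 1), ((j.choose i : ℝ) * (((j - i).factorial : ℝ) * Bφ ^ (j - i)) * (1 + |τ|) ^ j) * ‖iteratedFDeriv ℝ i a q‖ := by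
        refine integral_mono_of_nonneg (Filter.Eventually.of_forall fun q => norm_nonneg _) ?_ (Filter.Eventually.of_forall hpt)
        exact integrable_finsetSum _ fun i _ => (hint i).const_mul _
    _ = ∑ i ∈ Finset.range (j + 1), ((j.choose i : ℝ) * (((j - i).factorial : ℝ) * Bφ ^ (j - i)) * (1 + |τ|) ^ j) * ∫ q, ‖iteratedFDeriv ℝ i a q‖ := by
        rw [integral_finsetSum _ fun i _ => (hint i).const_mul _]
        refine Finset.sum_congr rfl fun i _ => ?_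
        rw [integral_const_mul]
    _ = _ := by
        rw [Finset.sum_mul]
        refine Finset.sum_congr rfl fun i _ => ?_
        ring

/-- the truncated dispersion relation -/
noncomputable def secPhi (β : ℕ) (q : RdWvPar.Mo) : ℝ :=
  rdChi (β + 1) q.2 * rdPsi0 ((4 * 2 ^ (β + 5) : ℝ)⁻¹ • q.1) * reOm q

theorem re_sc_ker_eqns_cite : True := by
  have := @secPhi.eq_1
  trivial

/-- the truncated dispersion relation is smooth -/
theorem re_sc_ker_phi_smooth (β : ℕ) : ContDiff ℝ ∞ (secPhi β) := by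
  rw [contDiff_iff_contDiffAt]
  intro x
  by_cases hx : 0 < x.2
  · have hq2 : ContDiffAt ℝ ∞ (fun x : RdWvPar.Mo => x.2) x := contDiff_snd.contDiffAt
    have hq1 : ContDiffAt ℝ ∞ (fun x : RdWvPar.Mo => x.1) x := contDiff_fst.contDiffAt
    have hchi : ContDiffAt ℝ ∞ (fun x : RdWvPar.Mo => rdChi (β + 1) x.2) x :=
      (rd_chi_contDiff (β + 1)).contDiffAt.comp x hq2
    have hpsi : ContDiffAt ℝ ∞ (fun x : RdWvPar.Mo => rdPsi0 ((4 * 2 ^ (β + 5) : ℝ)⁻¹ • x.1)) x :=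
      rd_psi0_contDiff.contDiffAt.comp x (ContDiffAt.fun_smul contDiffAt_const hq1)
    have hsq : ContDiffAt ℝ ∞ (fun x : RdWvPar.Mo => rtSq x.1) x := by
      unfold rtSq
      exact ((contDiff_fst.contDiffAt.comp x hq1).pow 2).add ((contDiff_snd.contDiffAt.comp x hq1).pow 2)
    have hom : ContDiffAt ℝ ∞ (fun x : RdWvPar.Mo => reOm x) x := by
      unfold reOm
      exact hsq.div (contDiffAt_const.mul hq2) (by positivity)
    unfold secPhi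
    exact (hchi.mul hpsi).mul hom
  · have hU : {y : RdWvPar.Mo | y.2 < (2 : ℝ)⁻¹ ^ (β + 1 + 5)} ∈ nhds x := by
      refine (isOpen_lt (by fun_prop) continuous_const).mem_nhds ?_
      exact lt_of_le_of_lt (not_lt.1 hx) (by positivity)
    refine (contDiffAt_const (c := (0 : ℝ))).congr_of_eventuallyEq ?_
    filter_upwards [hU] with y hy
    unfold secPhi
    have h0 : rdChi (β + 1) y.2 = 0 := by
      by_contra hne
      exact absurd (rd_chi_supp hne).1 (not_lt.2 (le_of_lt hy))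
    rw [h0, zero_mul, zero_mul]

/-- the truncated dispersion relation has compact support -/
theorem re_sc_ker_phi_compact (β : ℕ) : HasCompactSupport (secPhi β) := by
  set L : ℝ := 2 ^ (β + 5) with hL
  have hL0 : 0 < L := by positivity
  refine HasCompactSupport.intro (isCompact_closedBall (0 : RdWvPar.Mo) (8 * L)) fun q hq => ?_
  by_contra hne
  apply hq
  unfold secPhi at hne
  have h1 : rdChi (β + 1) q.2 ≠ 0 := fun h0 => hne (by rw [h0, zero_mul, zero_mul])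
  have h2 : rdPsi0 ((4 * L)⁻¹ • q.1) ≠ 0 := fun h0 => hne (by rw [h0, mul_zero, zero_mul])
  obtain ⟨h3, h4⟩ := rd_chi_supp h1
  have h5 := rd_psi0_supp h2
  have h6 : rtSq ((4 * L)⁻¹ • q.1) = ((4 * L)⁻¹) ^ 2 * rtSq q.1 := by
    simp only [rtSq, Prod.smul_fst, Prod.smul_snd, smul_eq_mul]
    ring
  rw [h6, inv_pow, inv_mul_lt_iff₀ (by positivity)] at h5
  have h7 : q.1.1 ^ 2 + q.1.2 ^ 2 < (4 * L) ^ 2 * 2 := h5
  have h8 : |q.1.1| ≤ 8 * L := abs_le_of_sq_le_sq (by nlinarith [sq_nonneg q.1.2]) (by positivity)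
  have h9 : |q.1.2| ≤ 8 * L := abs_le_of_sq_le_sq (by nlinarith [sq_nonneg q.1.1]) (by positivity)
  have h10 : |q.2| ≤ 8 * L := by
    have hp : 0 < q.2 := lt_trans (by positivity) h3
    rw [abs_of_pos hp]
    have : (2 : ℝ) ^ (β + 1 + 5) = 2 * L := by rw [hL]; ring
    linarith
  rw [Metric.mem_closedBall, dist_zero_right, Prod.norm_def, Prod.norm_def]
  exact max_le (max_le h8 h9) h10

/-- the symbol at time `τ` is the symbol at time `0` times the oscillating factor of the truncated phase -/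
theorem re_sc_ker_sym (β : ℕ) (τ : ℝ) (q : RdWvPar.Mo) :
    reSym 1 0 β 0 τ q = reSym 1 0 β 0 0 q * Complex.exp (-(Complex.I * ((τ * secPhi β q : ℝ) : ℂ))) := by
  by_cases h0 : reSym 1 0 β 0 0 q = 0
  · rw [h0, zero_mul]
    unfold reSym at h0 ⊢
    rcases mul_eq_zero.1 h0 with h | h
    · rw [h, zero_mul]
    · exact absurd h (Complex.exp_ne_zero _)
  · obtain ⟨h1, h2, h3⟩ := re_sp_sym_supp 1 one_pos 0 β 0 0 q h0
    set L : ℝ := 2 ^ (β + 5) with hL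
    have hL0 : 0 < L := by positivity
    rw [one_mul] at h1 h2
    have hq2 : 0 < q.2 := lt_trans (by positivity) h1
    have hχ : rdChi β q.2 ≠ 0 := by
      intro h
      apply h0
      unfold reSym
      rw [one_mul, h]
      simp
    have e1 : rdChi (β + 1) q.2 = 1 := rd_chi_nest (Nat.lt_succ_self β) hχ
    have e2 : rdPsi0 ((4 * L)⁻¹ • q.1) = 1 := by
      apply rd_psi0_one
      have h6 : ∀ (c : ℝ) (v : ℝ × ℝ), rtSq (c • v) = c ^ 2 * rtSq v := by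
        intro c v
        simp only [rtSq, Prod.smul_fst, Prod.smul_snd, smul_eq_mul]
        ring
      rw [sub_zero, h6, re_sp_scale_d10, inv_pow, inv_mul_lt_iff₀ (by positivity)] at h3
      rw [h6, inv_pow, inv_mul_le_iff₀ (by positivity)]
      have : (2 * q.2) ^ 2 ≤ (2 * L) ^ 2 := by
        apply pow_le_pow_left₀ (by positivity)
        linarith
      nlinarith
    have e3 : secPhi β q = reOm q := by
      unfold secPhi
      rw [e1, e2, one_mul, one_mul]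
    rw [e3]
    unfold reSym
    rw [mul_assoc, ← Complex.exp_add]
    congr 2
    push_cast
    ring

/-- **LEAF L-256-SEC-KER2: the normalised kernel at all times.**
PLAN.  `a = reSym 1 0 β 0 0` (smooth, compact support: `re_sp_sym_smooth`, `re_sp_sym_bdd_supp`);  `φ q = θ q * reOm q` with `θ` a smooth compactly supported function `= 1` on the support of `a` and vanishing near `{q.2 ≤ 0}`, e.g. `θ q = rdChi (β+1) q.2 * bump (q.1)`: `φ` is smooth (local argument as in `re_sp_sym_smooth`).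
`reSym 1 0 β 0 τ q = a q * exp (-(I τ φ q))` (both sides vanish off the support of `a`).   `re_sp_dec N` + `re_sc_osc` for `j ≤ N`;  `(1+|τ|)^j ≤ (1+|τ|)^N`. -/
theorem re_sc_ker (β N : ℕ) : ∃ C : ℝ, 0 ≤ C ∧ ∀ (τ : ℝ) (Z : ReSp), ‖reK 1 0 β 0 τ Z‖ ≤ C * (1 + |τ|) ^ N * (1 + ‖Z‖) ^ (-(N : ℝ)) := by
  obtain ⟨C0, hC0, hdec⟩ := re_sp_dec N
  have hosc := re_sc_osc (reSym 1 0 β 0 0) (re_sp_sym_smooth_s 1 one_pos 0 β 0 0) (re_sp_sym_compact 1 one_pos 0 β 0 0)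
    (secPhi β) (re_sc_ker_phi_smooth β) (re_sc_ker_phi_compact β)
  choose B hB0 hB using hosc
  have hπ : (0 : ℝ) < ((2 * Real.pi) ^ 3)⁻¹ := by positivity
  refine ⟨((2 * Real.pi) ^ 3)⁻¹ * (C0 * ∑ j ∈ Finset.range (N + 1), B j),
    mul_nonneg hπ.le (mul_nonneg hC0 (Finset.sum_nonneg fun j _ => hB0 j)), fun τ Z => ?_⟩
  have h1 := hdec (reSym 1 0 β 0 τ) (re_sp_sym_smooth_s 1 one_pos 0 β 0 τ) (re_sp_sym_compact 1 one_pos 0 β 0 τ) Z
  have hfun : reSym 1 0 β 0 τ = fun q => reSym 1 0 β 0 0 q * Complex.exp (-(Complex.I * ((τ * secPhi β q : ℝ) : ℂ))) :=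
    funext fun q => re_sc_ker_sym β τ q
  have hτ1 : (1 : ℝ) ≤ 1 + |τ| := by linarith [abs_nonneg τ]
  have h2 : ∑ j ∈ Finset.range (N + 1), ∫ q, ‖iteratedFDeriv ℝ j (reSym 1 0 β 0 τ) q‖
      ≤ (∑ j ∈ Finset.range (N + 1), B j) * (1 + |τ|) ^ N := by
    rw [Finset.sum_mul]
    refine Finset.sum_le_sum fun j hj => ?_
    rw [hfun]
    refine (hB j τ).trans ?_
    refine mul_le_mul_of_nonneg_left ?_ (hB0 j)
    exact pow_le_pow_right₀ hτ1 (by have := Finset.mem_range.1 hj; omega)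
  have h3 : (0 : ℝ) < (1 + ‖Z‖) ^ N := by positivity
  have h4 : (1 + ‖Z‖) ^ (-(N : ℝ)) = ((1 + ‖Z‖) ^ N)⁻¹ := by
    rw [Real.rpow_neg (by positivity), Real.rpow_natCast]
  unfold reK
  rw [norm_mul, Complex.norm_real, Real.norm_eq_abs, abs_of_pos hπ, h4, mul_assoc, mul_assoc]
  refine mul_le_mul_of_nonneg_left ?_ hπ.le
  rw [← mul_assoc, ← div_eq_mul_inv, le_div_iff₀ h3, mul_comm]
  refine h1.trans ?_
  rw [mul_assoc]
  exact mul_le_mul_of_nonneg_left h2 hC0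

/-- **LEAF L-256-SEC-KB (glue).**  `re_sp_scale`, `re_sc_ker`. -/
theorem re_sc_kb (β N : ℕ) : ∃ C : ℝ, 0 ≤ C ∧ ∀ (H : ℝ), 0 < H → ∀ (k : ℕ) (A : ℝ × ℝ) (s : ℝ) (w : ReSp),
    ‖reK H k β A s w‖ ≤ C * (1 + |s| / rdLen k) ^ N * (rdQ H k ^ 2 * H)⁻¹ * (1 + ‖reZ H k A s w‖) ^ (-(N : ℝ)) := by
  obtain ⟨C, hC, hK⟩ := re_sc_ker β N
  refine ⟨C, hC, fun H hH k A s w => ?_⟩
  obtain ⟨-, hc, -, -, -, -⟩ := re_sp_dq H hH k
  have hℓ := rdLen_pos k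
  have hτ : |s / rdLen k| = |s| / rdLen k := by rw [abs_div, abs_of_pos hℓ]
  have hpos : 0 < (rdQ H k ^ 2 * H)⁻¹ := by positivity
  rw [re_sp_scale H hH k β A s w, norm_mul, Complex.norm_real, Real.norm_eq_abs, abs_of_pos hpos]
  calc (rdQ H k ^ 2 * H)⁻¹ * ‖reK 1 0 β 0 (s / rdLen k) (reZ H k A s w)‖
      ≤ (rdQ H k ^ 2 * H)⁻¹ * (C * (1 + |s / rdLen k|) ^ N * (1 + ‖reZ H k A s w‖) ^ (-(N : ℝ))) :=
        mul_le_mul_of_nonneg_left (hK _ _) hpos.le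
    _ = C * (1 + |s| / rdLen k) ^ N * (rdQ H k ^ 2 * H)⁻¹ * (1 + ‖reZ H k A s w‖) ^ (-(N : ℝ)) := by
        rw [hτ]; ring

/-! ## 3. Weighted energy of a piece -/

/-- **LEAF L-256-SEC-CS: Cauchy-Schwarz for the superposition.**   `re_sc_F2S`;  `‖∫∫ K W‖ ≤ ∫⁻∫⁻ ‖K‖ ‖W‖` (`enorm_integral_le_lintegral_enorm` twice; if the inner/outer function is not integrable the Bochner integral is `0`);  `tri_cs` on `(volume.restrict S).prod volume` with `f = ‖W‖ₑ`, `w = ‖K‖ₑ` (measurable: `re_sp_K_cont`, `re_sp_row_cont`), `lintegral_prod`. -/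
theorem re_sc_cs (p : RdWvPar) (T t : ℝ) (k β : ℕ) (G : RdWvPar.Mo → ℂ) (hG : Integrable G) (hS : ∀ᵐ q ∂(volume : Measure RdWvPar.Mo), G q ≠ 0 → p.H * q.2 ∈ rdPlat β)
    (S : Set (ℝ × ℝ)) (hSm : MeasurableSet S) (z : ReSp) :
    ‖reFld t (secG p.H k S G) z‖ₑ ^ 2 ≤ ENNReal.ofReal ((rdD p.H k ^ 2)⁻¹ ^ 2) * (∫⁻ A' in S, ∫⁻ z' : ReSp, ‖reK p.H k β A' (t - T) (z - z')‖ₑ)
      * ∫⁻ A' in S, ∫⁻ z' : ReSp, ‖reK p.H k β A' (t - T) (z - z')‖ₑ * ‖secRow p T k β G (A', z')‖ₑ ^ 2 := by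
  obtain ⟨hd, -, -, -, -, -⟩ := re_sp_dq p.H p.H_pos k
  have hFc : Continuous (fun x : RdWvPar.Ph => secRow p T k β G x) := re_sp_row_cont p T k β G hG
  have hKc : Continuous (fun x : RdWvPar.Ph => reK p.H k β x.1 (t - T) (z - x.2)) := by
    have h := re_sp_K_cont p.H p.H_pos k β (t - T)
    have g : Continuous (fun x : RdWvPar.Ph => ((x.1, z - x.2) : (ℝ × ℝ) × ReSp)) := by fun_prop
    have h2 := h.comp g
    exact h2
  set μ : Measure RdWvPar.Ph := ((volume : Measure (ℝ × ℝ)).restrict S).prod (volume : Measure ReSp) with hμ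
  have hton : ∀ f : RdWvPar.Ph → ℝ≥0∞, Measurable f → ∫⁻ x, f x ∂μ = ∫⁻ A' in S, ∫⁻ z' : ReSp, f (A', z') :=
    fun f hf => lintegral_prod _ hf.aemeasurable
  have hmain : ‖reFld t (secG p.H k S G) z‖ₑ ≤ ENNReal.ofReal ((rdD p.H k ^ 2)⁻¹)
      * ∫⁻ x, ‖secRow p T k β G x‖ₑ * ‖reK p.H k β x.1 (t - T) (z - x.2)‖ₑ ∂μ := by
    rw [re_sc_F2S p T t k β G hG hS S hSm z, enorm_mul]
    have e0 : ‖(((rdD p.H k ^ 2)⁻¹ : ℝ) : ℂ)‖ₑ = ENNReal.ofReal ((rdD p.H k ^ 2)⁻¹) := by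
      rw [← ofReal_norm, Complex.norm_real, Real.norm_eq_abs, abs_of_pos (by positivity)]
    rw [e0]
    refine mul_le_mul' le_rfl ?_
    rw [hton (fun x => ‖secRow p T k β G x‖ₑ * ‖reK p.H k β x.1 (t - T) (z - x.2)‖ₑ) (hFc.enorm.measurable.mul hKc.enorm.measurable)]
    refine (enorm_integral_le_lintegral_enorm _).trans ?_
    refine lintegral_mono fun A => ?_
    refine (enorm_integral_le_lintegral_enorm _).trans ?_
    refine le_of_eq ?_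
    refine lintegral_congr fun z' => ?_
    rw [enorm_mul, mul_comm]
  have hcs := tri_cs μ (fun x => ‖secRow p T k β G x‖ₑ) (fun x => ‖reK p.H k β x.1 (t - T) (z - x.2)‖ₑ)
    hFc.enorm.measurable.aemeasurable hKc.enorm.measurable.aemeasurable
  rw [hton (fun x => ‖reK p.H k β x.1 (t - T) (z - x.2)‖ₑ) hKc.enorm.measurable,
    hton (fun x => ‖secRow p T k β G x‖ₑ ^ 2 * ‖reK p.H k β x.1 (t - T) (z - x.2)‖ₑ) ((hFc.enorm.measurable.pow_const 2).mul hKc.enorm.measurable)] at hcs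
  calc ‖reFld t (secG p.H k S G) z‖ₑ ^ 2
      ≤ (ENNReal.ofReal ((rdD p.H k ^ 2)⁻¹) * ∫⁻ x, ‖secRow p T k β G x‖ₑ * ‖reK p.H k β x.1 (t - T) (z - x.2)‖ₑ ∂μ) ^ 2 := by
        gcongr
    _ = ENNReal.ofReal ((rdD p.H k ^ 2)⁻¹ ^ 2) * (∫⁻ x, ‖secRow p T k β G x‖ₑ * ‖reK p.H k β x.1 (t - T) (z - x.2)‖ₑ ∂μ) ^ 2 := by
        rw [mul_pow, ENNReal.ofReal_pow (by positivity)]
    _ ≤ ENNReal.ofReal ((rdD p.H k ^ 2)⁻¹ ^ 2) * ((∫⁻ A' in S, ∫⁻ z' : ReSp, ‖reK p.H k β A' (t - T) (z - z')‖ₑ)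
        * ∫⁻ A' in S, ∫⁻ z' : ReSp, ‖secRow p T k β G (A', z')‖ₑ ^ 2 * ‖reK p.H k β A' (t - T) (z - z')‖ₑ) :=
        mul_le_mul' le_rfl hcs
    _ = _ := by
        rw [mul_assoc]
        simp_rw [mul_comm (‖secRow p T k β G _‖ₑ ^ 2)]

theorem re_sc_wen_one (β : ℕ) : ∃ C : ℝ, 0 ≤ C ∧ ∀ (H : ℝ), 0 < H → ∀ (k : ℕ) (A : ℝ × ℝ) (s : ℝ) (z : ReSp),
    ∫⁻ z' : ReSp, ‖reK H k β A s (z - z')‖ₑ ≤ ENNReal.ofReal (C * (1 + |s| / rdLen k) ^ 4) := by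
  obtain ⟨C4, hC4, hK⟩ := re_sc_kb β 4
  obtain ⟨Cw, hCw, hW⟩ := re_sp_wt_int
  refine ⟨C4 * Cw, by positivity, fun H hH k A s z => ?_⟩
  have := re_sp_haar
  have hl := rdLen_pos k
  have hQ := (re_sp_dq H hH k).2.1
  have hQH : 0 < rdQ H k ^ 2 * H := by positivity
  rw [lintegral_sub_left_eq_self (fun w => ‖reK H k β A s w‖ₑ) z]
  calc ∫⁻ w, ‖reK H k β A s w‖ₑ
      ≤ ∫⁻ w, ENNReal.ofReal (C4 * (1 + |s| / rdLen k) ^ 4 * (rdQ H k ^ 2 * H)⁻¹) * ENNReal.ofReal ((1 + ‖reZ H k A s w‖) ^ (-4 : ℝ)) := by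
        refine lintegral_mono fun w => ?_
        rw [← ofReal_norm, ← ENNReal.ofReal_mul (by positivity)]
        refine ENNReal.ofReal_le_ofReal ?_
        have h1 := hK H hH k A s w
        have e : (-((4 : ℕ) : ℝ)) = (-4 : ℝ) := by norm_num
        rw [e] at h1
        exact h1
    _ = ENNReal.ofReal (rdQ H k ^ 2 * H) * ∫⁻ Z, ENNReal.ofReal (C4 * (1 + |s| / rdLen k) ^ 4 * (rdQ H k ^ 2 * H)⁻¹) * ENNReal.ofReal ((1 + ‖Z‖) ^ (-4 : ℝ)) :=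
        re_sp_zjac H hH k A s (fun Z => ENNReal.ofReal (C4 * (1 + |s| / rdLen k) ^ 4 * (rdQ H k ^ 2 * H)⁻¹) * ENNReal.ofReal ((1 + ‖Z‖) ^ (-4 : ℝ)))
    _ = ENNReal.ofReal (C4 * (1 + |s| / rdLen k) ^ 4) * ∫⁻ Z : ReSp, ENNReal.ofReal ((1 + ‖Z‖) ^ (-4 : ℝ)) := by
        rw [lintegral_const_mul' _ _ ENNReal.ofReal_ne_top, ← mul_assoc, ← ENNReal.ofReal_mul hQH.le]
        congr 2
        field_simp
    _ ≤ ENNReal.ofReal (C4 * (1 + |s| / rdLen k) ^ 4) * ENNReal.ofReal Cw := mul_le_mul_right hW _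
    _ = _ := by
        rw [← ENNReal.ofReal_mul (by positivity)]
        congr 1
        ring

theorem re_sc_wen_in (H : ℝ) (hH : 0 < H) (k : ℕ) (A : ℝ × ℝ) (s t : ℝ) (z' : ReSp) (N1 : ℕ) (c0 : ℝ) (Ω : ℝ × ReSp → ℝ≥0∞) :
    ∫⁻ z : ReSp, Ω (t, z) * ENNReal.ofReal (c0 * (rdQ H k ^ 2 * H)⁻¹ * (1 + ‖reZ H k A s (z - z')‖) ^ (-(N1 : ℝ)))
      = ∫⁻ Z : ReSp, ENNReal.ofReal (c0 * (1 + ‖Z‖) ^ (-(N1 : ℝ))) * Ω (t, z' + secW H k A s Z) := by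
  have := re_sp_haar
  have hQ := (re_sp_dq H hH k).2.1
  have hQH : 0 < rdQ H k ^ 2 * H := by positivity
  have h1 : ∫⁻ z : ReSp, Ω (t, z) * ENNReal.ofReal (c0 * (rdQ H k ^ 2 * H)⁻¹ * (1 + ‖reZ H k A s (z - z')‖) ^ (-(N1 : ℝ)))
      = ∫⁻ w : ReSp, Ω (t, z' + secW H k A s (reZ H k A s w)) * ENNReal.ofReal (c0 * (rdQ H k ^ 2 * H)⁻¹ * (1 + ‖reZ H k A s w‖) ^ (-(N1 : ℝ))) := by
    rw [← lintegral_sub_right_eq_self (fun w : ReSp => Ω (t, z' + secW H k A s (reZ H k A s w)) * ENNReal.ofReal (c0 * (rdQ H k ^ 2 * H)⁻¹ * (1 + ‖reZ H k A s w‖) ^ (-(N1 : ℝ)))) z']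
    refine lintegral_congr fun z => ?_
    rw [(re_sc_W_Z H hH k A s (z - z') 0).1, add_sub_cancel]
  rw [h1, re_sp_zjac H hH k A s (fun Z => Ω (t, z' + secW H k A s Z) * ENNReal.ofReal (c0 * (rdQ H k ^ 2 * H)⁻¹ * (1 + ‖Z‖) ^ (-(N1 : ℝ)))),
    ← lintegral_const_mul' _ _ ENNReal.ofReal_ne_top]
  refine lintegral_congr fun Z => ?_
  rw [mul_left_comm, ← ENNReal.ofReal_mul hQH.le, mul_comm]
  congr 2
  field_simp

theorem re_sc_wen_Z_cont (H : ℝ) (k : ℕ) (T : ℝ) : Continuous fun P : (ℝ × ReSp) × RdWvPar.Ph => reZ H k P.2.1 (P.1.1 - T) (P.1.2 - P.2.2) := by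
  unfold reZ rtIp rtSq
  fun_prop

theorem re_sc_wen_meas (H : ℝ) (k : ℕ) (T c0 : ℝ) (n N1 : ℕ) : Measurable fun P : (ℝ × ReSp) × RdWvPar.Ph =>
    ENNReal.ofReal (c0 * (1 + |P.1.1 - T| / rdLen k) ^ n * (rdQ H k ^ 2 * H)⁻¹ * (1 + ‖reZ H k P.2.1 (P.1.1 - T) (P.1.2 - P.2.2)‖) ^ (-(N1 : ℝ))) := by
  have h1 := re_sc_wen_Z_cont H k T
  have h2 : Continuous fun P : (ℝ × ReSp) × RdWvPar.Ph => (1 + ‖reZ H k P.2.1 (P.1.1 - T) (P.1.2 - P.2.2)‖) ^ (-(N1 : ℝ)) :=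
    (continuous_const.add h1.norm).rpow_const fun P => Or.inl (ne_of_gt (add_pos_of_pos_of_nonneg one_pos (norm_nonneg _)))
  have h3 : Continuous fun P : (ℝ × ReSp) × RdWvPar.Ph => c0 * (1 + |P.1.1 - T| / rdLen k) ^ n * (rdQ H k ^ 2 * H)⁻¹ := by fun_prop
  exact ENNReal.measurable_ofReal.comp (h3.mul h2).measurable


theorem re_sc_wen_row_meas (p : RdWvPar) (T : ℝ) (k β : ℕ) (G : RdWvPar.Mo → ℂ) (hG : Integrable G) : Measurable fun y : RdWvPar.Ph => ‖secRow p T k β G y‖ₑ ^ 2 := by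
  have h : Continuous (secRow p T k β G) := re_sp_row_cont p T k β G hG
  exact h.measurable.enorm.pow_const 2

theorem re_sc_wen_fl_meas (H : ℝ) (k : ℕ) (T c0 : ℝ) (n N1 : ℕ) (Ω : ℝ × ReSp → ℝ≥0∞) (hΩ : Measurable Ω) (y : RdWvPar.Ph) :
    Measurable fun x : ℝ × ReSp => Ω x * ENNReal.ofReal (c0 * (1 + |x.1 - T| / rdLen k) ^ n * (rdQ H k ^ 2 * H)⁻¹ * (1 + ‖reZ H k y.1 (x.1 - T) (x.2 - y.2)‖) ^ (-(N1 : ℝ))) := by
  have h1 : Measurable fun x : ℝ × ReSp => ((x, y) : (ℝ × ReSp) × RdWvPar.Ph) := by fun_prop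
  have h2 := (re_sc_wen_meas H k T c0 n N1).comp h1
  simp only [Function.comp_def] at h2
  exact hΩ.mul h2

theorem re_sc_wen_fl (H : ℝ) (hH : 0 < H) (k : ℕ) (T c0 : ℝ) (hc0 : 0 ≤ c0) (N1 : ℕ) (Ω : ℝ × ReSp → ℝ≥0∞) (hΩ : Measurable Ω) (y : RdWvPar.Ph) :
    ∫⁻ x : ℝ × ReSp, Ω x * ENNReal.ofReal (c0 * (1 + |x.1 - T| / rdLen k) ^ (N1 + 4) * (rdQ H k ^ 2 * H)⁻¹ * (1 + ‖reZ H k y.1 (x.1 - T) (x.2 - y.2)‖) ^ (-(N1 : ℝ)))
      = ENNReal.ofReal c0 * secFl H k T N1 Ω y := by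
  have hl := rdLen_pos k
  have hm := re_sc_wen_fl_meas H k T c0 (N1 + 4) N1 Ω hΩ y
  rw [Measure.volume_eq_prod, lintegral_prod _ hm.aemeasurable]
  have h2 : ∀ t : ℝ, ∫⁻ z : ReSp, Ω (t, z) * ENNReal.ofReal (c0 * (1 + |t - T| / rdLen k) ^ (N1 + 4) * (rdQ H k ^ 2 * H)⁻¹ * (1 + ‖reZ H k y.1 (t - T) (z - y.2)‖) ^ (-(N1 : ℝ)))
      = ∫⁻ Z : ReSp, ENNReal.ofReal (c0 * (1 + |t - T| / rdLen k) ^ (N1 + 4) * (1 + ‖Z‖) ^ (-(N1 : ℝ))) * Ω (t, y.2 + secW H k y.1 (t - T) Z) := fun t =>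
    re_sc_wen_in H hH k y.1 (t - T) t y.2 N1 (c0 * (1 + |t - T| / rdLen k) ^ (N1 + 4)) Ω
  calc ∫⁻ t : ℝ, ∫⁻ z : ReSp, Ω (t, z) * ENNReal.ofReal (c0 * (1 + |t - T| / rdLen k) ^ (N1 + 4) * (rdQ H k ^ 2 * H)⁻¹ * (1 + ‖reZ H k y.1 (t - T) (z - y.2)‖) ^ (-(N1 : ℝ)))
      = ∫⁻ t : ℝ, ∫⁻ Z : ReSp, ENNReal.ofReal (c0 * (1 + |t - T| / rdLen k) ^ (N1 + 4) * (1 + ‖Z‖) ^ (-(N1 : ℝ))) * Ω (t, y.2 + secW H k y.1 (t - T) Z) := lintegral_congr h2
    _ = ∫⁻ s : ℝ, ∫⁻ Z : ReSp, ENNReal.ofReal (c0 * (1 + |T + s - T| / rdLen k) ^ (N1 + 4) * (1 + ‖Z‖) ^ (-(N1 : ℝ))) * Ω (T + s, y.2 + secW H k y.1 (T + s - T) Z) :=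
        (lintegral_add_left_eq_self (fun t : ℝ => ∫⁻ Z : ReSp, ENNReal.ofReal (c0 * (1 + |t - T| / rdLen k) ^ (N1 + 4) * (1 + ‖Z‖) ^ (-(N1 : ℝ))) * Ω (t, y.2 + secW H k y.1 (t - T) Z)) T).symm
    _ = _ := by
        unfold secFl
        rw [← lintegral_const_mul' _ _ ENNReal.ofReal_ne_top]
        refine lintegral_congr fun s => ?_
        rw [← lintegral_const_mul' _ _ ENNReal.ofReal_ne_top]
        refine lintegral_congr fun Z => ?_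
        rw [add_sub_cancel_left, ← mul_assoc, ← ENNReal.ofReal_mul hc0]
        congr 2
        ring

theorem re_sc_wen_pt (β N1 : ℕ) (C1 CN : ℝ) (hC1 : 0 ≤ C1)
    (h1 : ∀ (H : ℝ), 0 < H → ∀ (k : ℕ) (A : ℝ × ℝ) (s : ℝ) (z : ReSp), ∫⁻ z' : ReSp, ‖reK H k β A s (z - z')‖ₑ ≤ ENNReal.ofReal (C1 * (1 + |s| / rdLen k) ^ 4))
    (hN : ∀ (H : ℝ), 0 < H → ∀ (k : ℕ) (A : ℝ × ℝ) (s : ℝ) (w : ReSp), ‖reK H k β A s w‖ ≤ CN * (1 + |s| / rdLen k) ^ N1 * (rdQ H k ^ 2 * H)⁻¹ * (1 + ‖reZ H k A s w‖) ^ (-(N1 : ℝ)))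
    (p : RdWvPar) (T : ℝ) (k : ℕ) (G : RdWvPar.Mo → ℂ) (hG : Integrable G) (hS : ∀ᵐ q ∂(volume : Measure RdWvPar.Mo), G q ≠ 0 → p.H * q.2 ∈ rdPlat β)
    (S : Set (ℝ × ℝ)) (hSm : MeasurableSet S) (a : ℝ) (ha : 0 ≤ a) (hvol : volume S ≤ ENNReal.ofReal (a * rdD p.H k ^ 2)) (x : ℝ × ReSp) :
    ‖reFld x.1 (secG p.H k S G) x.2‖ₑ ^ 2 ≤ ENNReal.ofReal (a * (rdD p.H k ^ 2)⁻¹) *
      ∫⁻ y : RdWvPar.Ph, ENNReal.ofReal (C1 * CN * (1 + |x.1 - T| / rdLen k) ^ (N1 + 4) * (rdQ p.H k ^ 2 * p.H)⁻¹ * (1 + ‖reZ p.H k y.1 (x.1 - T) (x.2 - y.2)‖) ^ (-(N1 : ℝ)))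
        * ‖secRow p T k β G y‖ₑ ^ 2 ∂((volume.restrict S).prod volume) := by
  have hH := p.H_pos
  have hl := rdLen_pos k
  have hd := (re_sp_dq p.H hH k).1
  have hQ := (re_sp_dq p.H hH k).2.1
  have hU : 0 ≤ 1 + |x.1 - T| / rdLen k := by positivity
  have hI1 : ∫⁻ A' in S, ∫⁻ z' : ReSp, ‖reK p.H k β A' (x.1 - T) (x.2 - z')‖ₑ ≤ ENNReal.ofReal (C1 * (1 + |x.1 - T| / rdLen k) ^ 4) * ENNReal.ofReal (a * rdD p.H k ^ 2) := by
    calc ∫⁻ A' in S, ∫⁻ z' : ReSp, ‖reK p.H k β A' (x.1 - T) (x.2 - z')‖ₑ ≤ ∫⁻ A' in S, ENNReal.ofReal (C1 * (1 + |x.1 - T| / rdLen k) ^ 4) :=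
          lintegral_mono fun A' => h1 p.H hH k A' (x.1 - T) x.2
      _ = ENNReal.ofReal (C1 * (1 + |x.1 - T| / rdLen k) ^ 4) * volume S := setLIntegral_const _ _
      _ ≤ _ := mul_le_mul_right hvol _
  have hm : Measurable fun y : RdWvPar.Ph => ENNReal.ofReal (CN * (1 + |x.1 - T| / rdLen k) ^ N1 * (rdQ p.H k ^ 2 * p.H)⁻¹ * (1 + ‖reZ p.H k y.1 (x.1 - T) (x.2 - y.2)‖) ^ (-(N1 : ℝ)))
      * ‖secRow p T k β G y‖ₑ ^ 2 :=
    ((re_sc_wen_meas p.H k T CN N1 N1).comp (measurable_const.prodMk measurable_id)).mul (re_sc_wen_row_meas p T k β G hG)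
  have hI2 : ∫⁻ A' in S, ∫⁻ z' : ReSp, ‖reK p.H k β A' (x.1 - T) (x.2 - z')‖ₑ * ‖secRow p T k β G (A', z')‖ₑ ^ 2
      ≤ ∫⁻ y : RdWvPar.Ph, ENNReal.ofReal (CN * (1 + |x.1 - T| / rdLen k) ^ N1 * (rdQ p.H k ^ 2 * p.H)⁻¹ * (1 + ‖reZ p.H k y.1 (x.1 - T) (x.2 - y.2)‖) ^ (-(N1 : ℝ)))
        * ‖secRow p T k β G y‖ₑ ^ 2 ∂((volume.restrict S).prod volume) := by
    rw [lintegral_prod _ hm.aemeasurable]
    refine lintegral_mono fun A' => lintegral_mono fun z' => mul_le_mul_left ?_ _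
    rw [← ofReal_norm]
    exact ENNReal.ofReal_le_ofReal (hN p.H hH k A' (x.1 - T) (x.2 - z'))
  refine (re_sc_cs p T x.1 k β G hG hS S hSm x.2).trans ?_
  calc ENNReal.ofReal ((rdD p.H k ^ 2)⁻¹ ^ 2) * (∫⁻ A' in S, ∫⁻ z' : ReSp, ‖reK p.H k β A' (x.1 - T) (x.2 - z')‖ₑ)
        * ∫⁻ A' in S, ∫⁻ z' : ReSp, ‖reK p.H k β A' (x.1 - T) (x.2 - z')‖ₑ * ‖secRow p T k β G (A', z')‖ₑ ^ 2
      ≤ ENNReal.ofReal ((rdD p.H k ^ 2)⁻¹ ^ 2) * (ENNReal.ofReal (C1 * (1 + |x.1 - T| / rdLen k) ^ 4) * ENNReal.ofReal (a * rdD p.H k ^ 2))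
        * ∫⁻ y : RdWvPar.Ph, ENNReal.ofReal (CN * (1 + |x.1 - T| / rdLen k) ^ N1 * (rdQ p.H k ^ 2 * p.H)⁻¹ * (1 + ‖reZ p.H k y.1 (x.1 - T) (x.2 - y.2)‖) ^ (-(N1 : ℝ)))
          * ‖secRow p T k β G y‖ₑ ^ 2 ∂((volume.restrict S).prod volume) := mul_le_mul' (mul_le_mul_right hI1 _) hI2
    _ = ENNReal.ofReal (a * (rdD p.H k ^ 2)⁻¹) * (ENNReal.ofReal (C1 * (1 + |x.1 - T| / rdLen k) ^ 4)
        * ∫⁻ y : RdWvPar.Ph, ENNReal.ofReal (CN * (1 + |x.1 - T| / rdLen k) ^ N1 * (rdQ p.H k ^ 2 * p.H)⁻¹ * (1 + ‖reZ p.H k y.1 (x.1 - T) (x.2 - y.2)‖) ^ (-(N1 : ℝ)))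
          * ‖secRow p T k β G y‖ₑ ^ 2 ∂((volume.restrict S).prod volume)) := by
        rw [← mul_assoc, ← mul_assoc]
        congr 1
        rw [← ENNReal.ofReal_mul (by positivity), ← ENNReal.ofReal_mul (by positivity), ← ENNReal.ofReal_mul (by positivity)]
        congr 1
        field_simp
    _ = _ := by
        rw [← lintegral_const_mul' _ _ ENNReal.ofReal_ne_top]
        congr 1
        refine lintegral_congr fun y => ?_
        rw [← mul_assoc, ← ENNReal.ofReal_mul (by positivity)]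
        congr 2
        ring


theorem re_sc_wen_swap_meas (p : RdWvPar) (T : ℝ) (k β : ℕ) (G : RdWvPar.Mo → ℂ) (hG : Integrable G) (c0 : ℝ) (c1 : ℝ≥0∞) (n N1 : ℕ) (Ω : ℝ × ReSp → ℝ≥0∞) (hΩ : Measurable Ω) :
    Measurable fun P : (ℝ × ReSp) × RdWvPar.Ph => Ω P.1 * (c1 * (ENNReal.ofReal (c0 * (1 + |P.1.1 - T| / rdLen k) ^ n * (rdQ p.H k ^ 2 * p.H)⁻¹ * (1 + ‖reZ p.H k P.2.1 (P.1.1 - T) (P.1.2 - P.2.2)‖) ^ (-(N1 : ℝ)))
        * ‖secRow p T k β G P.2‖ₑ ^ 2)) := by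
  have h1 := re_sc_wen_meas p.H k T c0 n N1
  have h2 : Measurable fun P : (ℝ × ReSp) × RdWvPar.Ph => ‖secRow p T k β G P.2‖ₑ ^ 2 := (re_sc_wen_row_meas p T k β G hG).comp measurable_snd
  have h3 : Measurable fun P : (ℝ × ReSp) × RdWvPar.Ph => Ω P.1 := hΩ.comp measurable_fst
  exact h3.mul (measurable_const.mul (h1.mul h2))

theorem re_sc_wen_restr (S : Set (ℝ × ℝ)) : ((volume : Measure (ℝ × ℝ)).restrict S).prod (volume : Measure ReSp) = (volume : Measure RdWvPar.Ph).restrict {y : RdWvPar.Ph | y.1 ∈ S} := by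
  have h1 : {y : RdWvPar.Ph | y.1 ∈ S} = S ×ˢ (Set.univ : Set ReSp) := by
    ext y; simp
  rw [h1, Measure.volume_eq_prod (ℝ × ℝ) ReSp, ← Measure.prod_restrict, Measure.restrict_univ]

/-- **LEAF L-256-SEC-WEN: weighted energy of a piece `≤` weighted mass of its root rows.**
PLAN.  `re_sc_cs`.   First factor: `re_sc_kb β 4`, `re_sp_zjac`, `re_sp_wt_int`: `∫⁻ z', ‖K (z - z')‖ ≤ C₄ (1 + |t-T|/ℓ)⁴` (substitution `z' ↦ z - z'`: `lintegral_sub_left_eq_self`), so it is `≤ C₄ (1+|t-T|/ℓ)⁴ a d²`.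
Second factor: `re_sc_kb β N1`.   Tonelli: integrate first in `z` (substitute `w = z - z'`, then `Z = reZ H k A' (t-T) w` by `re_sp_zjac` applied to `f Z = (1+‖Z‖)^{-N1} Ω (t, z' + secW H k A' (t-T) Z)`, `re_sc_W_Z`), then `t = T + s`.   `rw k = ofReal (ℓ/H) • volume`, `ℓ/H = d⁻²` (`re_sp_dq`);  `d⁻⁴ · a d² = a d⁻²`.
Measurability of `(s, Z, A', z') ↦ Ω (T + s, z' + secW ..)`: `hΩ` composed with a continuous map. -/
theorem re_sc_wen (β N1 : ℕ) : ∃ C : ℝ, 0 ≤ C ∧ ∀ (p : RdWvPar) (T : ℝ) (k : ℕ) (G : RdWvPar.Mo → ℂ), Integrable G → (∀ᵐ q ∂(volume : Measure RdWvPar.Mo), G q ≠ 0 → p.H * q.2 ∈ rdPlat β) →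
    ∀ (S : Set (ℝ × ℝ)), MeasurableSet S → ∀ a : ℝ, 0 ≤ a → volume S ≤ ENNReal.ofReal (a * rdD p.H k ^ 2) → ∀ Ω : ℝ × ReSp → ℝ≥0∞, Measurable Ω →
    ∫⁻ x : ℝ × ReSp, Ω x * ‖reFld x.1 (secG p.H k S G) x.2‖ₑ ^ 2
      ≤ ENNReal.ofReal (C * a) * ∫⁻ y in {y : RdWvPar.Ph | y.1 ∈ S}, ‖secRow p T k β G y‖ₑ ^ 2 * secFl p.H k T N1 Ω y ∂(p.rw k) := by
  obtain ⟨C1, hC1, h1⟩ := re_sc_wen_one β
  obtain ⟨CN, hCN, hN⟩ := re_sc_kb β N1
  refine ⟨C1 * CN, by positivity, fun p T k G hG hS S hSm a ha hvol Ω hΩ => ?_⟩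
  have hH := p.H_pos
  have hl := rdLen_pos k
  have hd := (re_sp_dq p.H hH k).1
  have hd2 := (re_sp_dq p.H hH k).2.2.2.2.1
  have hM := re_sc_wen_swap_meas p T k β G hG (C1 * CN) (ENNReal.ofReal (a * (rdD p.H k ^ 2)⁻¹)) (N1 + 4) N1 Ω hΩ
  calc ∫⁻ x : ℝ × ReSp, Ω x * ‖reFld x.1 (secG p.H k S G) x.2‖ₑ ^ 2
      ≤ ∫⁻ x : ℝ × ReSp, ∫⁻ y : RdWvPar.Ph, Ω x * (ENNReal.ofReal (a * (rdD p.H k ^ 2)⁻¹) * (ENNReal.ofReal (C1 * CN * (1 + |x.1 - T| / rdLen k) ^ (N1 + 4) * (rdQ p.H k ^ 2 * p.H)⁻¹ * (1 + ‖reZ p.H k y.1 (x.1 - T) (x.2 - y.2)‖) ^ (-(N1 : ℝ)))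
        * ‖secRow p T k β G y‖ₑ ^ 2)) ∂((volume.restrict S).prod volume) := by
        refine lintegral_mono fun x => ?_
        have hx1 : Measurable fun y : RdWvPar.Ph => ((x, y) : (ℝ × ReSp) × RdWvPar.Ph) := by fun_prop
        have hx2 := (re_sc_wen_meas p.H k T (C1 * CN) (N1 + 4) N1).comp hx1
        simp only [Function.comp_def] at hx2
        have hx3 : Measurable fun y : RdWvPar.Ph => ENNReal.ofReal (C1 * CN * (1 + |x.1 - T| / rdLen k) ^ (N1 + 4) * (rdQ p.H k ^ 2 * p.H)⁻¹ * (1 + ‖reZ p.H k y.1 (x.1 - T) (x.2 - y.2)‖) ^ (-(N1 : ℝ)))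
            * ‖secRow p T k β G y‖ₑ ^ 2 := hx2.mul (re_sc_wen_row_meas p T k β G hG)
        rw [lintegral_const_mul _ (hx3.const_mul _), lintegral_const_mul _ hx3]
        exact mul_le_mul_right (re_sc_wen_pt β N1 C1 CN hC1 h1 hN p T k G hG hS S hSm a ha hvol x) _
    _ = ∫⁻ y : RdWvPar.Ph, (∫⁻ x : ℝ × ReSp, Ω x * (ENNReal.ofReal (a * (rdD p.H k ^ 2)⁻¹) * (ENNReal.ofReal (C1 * CN * (1 + |x.1 - T| / rdLen k) ^ (N1 + 4) * (rdQ p.H k ^ 2 * p.H)⁻¹ * (1 + ‖reZ p.H k y.1 (x.1 - T) (x.2 - y.2)‖) ^ (-(N1 : ℝ)))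
        * ‖secRow p T k β G y‖ₑ ^ 2))) ∂((volume.restrict S).prod volume) :=
        lintegral_lintegral_swap (f := fun (x : ℝ × ReSp) (y : RdWvPar.Ph) => Ω x * (ENNReal.ofReal (a * (rdD p.H k ^ 2)⁻¹) * (ENNReal.ofReal (C1 * CN * (1 + |x.1 - T| / rdLen k) ^ (N1 + 4) * (rdQ p.H k ^ 2 * p.H)⁻¹ * (1 + ‖reZ p.H k y.1 (x.1 - T) (x.2 - y.2)‖) ^ (-(N1 : ℝ)))
        * ‖secRow p T k β G y‖ₑ ^ 2))) hM.aemeasurable
    _ = ∫⁻ y : RdWvPar.Ph, ENNReal.ofReal (a * (rdD p.H k ^ 2)⁻¹) * (ENNReal.ofReal (C1 * CN) * (‖secRow p T k β G y‖ₑ ^ 2 * secFl p.H k T N1 Ω y)) ∂((volume.restrict S).prod volume) := by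
        refine lintegral_congr fun y => ?_
        rw [mul_left_comm (ENNReal.ofReal (C1 * CN)), ← re_sc_wen_fl p.H hH k T (C1 * CN) (by positivity) N1 Ω hΩ y,
          ← lintegral_const_mul' _ _ (by simp), ← lintegral_const_mul' _ _ ENNReal.ofReal_ne_top]
        refine lintegral_congr fun x => ?_
        ring
    _ = _ := by
        rw [lintegral_const_mul' _ _ ENNReal.ofReal_ne_top, lintegral_const_mul' _ _ ENNReal.ofReal_ne_top, re_sc_wen_restr]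
        unfold RdWvPar.rw
        rw [Measure.restrict_smul, lintegral_smul_measure, smul_eq_mul, ← mul_assoc, ← mul_assoc, ← ENNReal.ofReal_mul (by positivity), ← ENNReal.ofReal_mul (by positivity)]
        congr 2
        rw [hd2]
        field_simp

/-! ## 4. Shells -/

theorem re_sc_xray_one : ∫ x in Set.Ioi (0:ℝ), (1 + x) ^ (-2 : ℝ) = 1 := by
  have hd : ∀ x ∈ Set.Ici (0:ℝ), HasDerivAt (fun t : ℝ => -(1 + t)⁻¹) ((1 + x) ^ (-2 : ℝ)) x := by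
    intro x hx
    have hx' : (0:ℝ) ≤ x := hx
    have h1 : HasDerivAt (fun t : ℝ => 1 + t) 1 x := (hasDerivAt_id x).const_add 1
    have h2 : HasDerivAt (fun t : ℝ => -(1 + t)⁻¹) (-(-1 / (1 + x) ^ 2)) x := (h1.inv (by positivity)).neg
    have e : (1 + x) ^ (-2 : ℝ) = -(-1 / (1 + x) ^ 2) := by
      rw [Real.rpow_neg (by positivity)]
      norm_num
      rw [neg_div, neg_neg, one_div]
    rw [e]
    exact h2
  have hint : IntegrableOn (fun x : ℝ => (1 + x) ^ (-2 : ℝ)) (Set.Ioi 0) := by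
    have := integrableOn_add_rpow_Ioi_of_lt (a := -2) (c := 0) (m := 1) (by norm_num) (by norm_num)
    simpa [add_comm] using this
  have ht : Filter.Tendsto (fun t : ℝ => -(1 + t)⁻¹) Filter.atTop (nhds 0) := by
    have h1 : Filter.Tendsto (fun t : ℝ => 1 + t) Filter.atTop Filter.atTop := Filter.tendsto_atTop_add_const_left _ 1 Filter.tendsto_id
    have := (tendsto_inv_atTop_zero.comp h1).neg
    simpa using this
  have := integral_Ioi_of_hasDerivAt_of_tendsto' hd hint ht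
  simpa using this

theorem re_sc_xray_base : ∫⁻ x : ℝ, ENNReal.ofReal ((1 + |x|) ^ (-2 : ℝ)) = ENNReal.ofReal 2 := by
  have hint : Integrable (fun x : ℝ => (1 + ‖x‖) ^ (-2 : ℝ)) := by
    apply integrable_one_add_norm
    simp
  simp only [Real.norm_eq_abs] at hint
  rw [← ofReal_integral_eq_lintegral_ofReal hint (Filter.Eventually.of_forall fun x => by positivity)]
  rw [integral_comp_abs (f := fun x => (1 + x) ^ (-2 : ℝ)), re_sc_xray_one]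
  norm_num

/-- **LEAF L-256-SEC-XRAY.**  `∫⁻ s, ofReal ((1 + |α + σ s|)^{-2}) = 2/σ` (substitution `lintegral_comp_mul_left`-type + `∫ (1+|x|)^{-2} = 2`; an upper bound is enough: `integrable_..`, or compare with `2 ∫_0^∞ (1+x)^{-2}`: `integral_Ioi_rpow_of_lt`). -/
theorem re_sc_xray (α σ : ℝ) (hσ : 0 < σ) : ∫⁻ s : ℝ, ENNReal.ofReal ((1 + |α + σ * s|) ^ (-2 : ℝ)) ≤ ENNReal.ofReal (2 / σ) := by
  have hm : Measurable fun x : ℝ => ENNReal.ofReal ((1 + |α + x|) ^ (-2 : ℝ)) := by fun_prop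
  have h1 : ∫⁻ s : ℝ, ENNReal.ofReal ((1 + |α + σ * s|) ^ (-2 : ℝ)) = ∫⁻ x, ENNReal.ofReal ((1 + |α + x|) ^ (-2 : ℝ)) ∂(Measure.map (fun s => σ * s) volume) := by
    rw [lintegral_map hm (by fun_prop)]
  rw [h1, Real.map_volume_mul_left hσ.ne', lintegral_smul_measure, lintegral_add_left_eq_self (fun x => ENNReal.ofReal ((1 + |x|) ^ (-2 : ℝ))) α, re_sc_xray_base,
    smul_eq_mul, ← ENNReal.ofReal_mul (abs_nonneg _), abs_of_pos (inv_pos.2 hσ)]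
  refine le_of_eq ?_
  congr 1
  field_simp

theorem re_sc_shell_tc_cont (x0 r R : ℝ) : Continuous (tcoord x0 r R) := by
  unfold tcoord tvec
  refine (PiLp.continuous_toLp 2 _).comp (continuous_pi fun i => ?_)
  fin_cases i
  · simp; fun_prop
  · simp; fun_prop
  · simp; fun_prop

theorem re_sc_shell_W_cont (H : ℝ) (k : ℕ) (A : ℝ × ℝ) : Continuous fun p : ℝ × ReSp => secW H k A p.1 p.2 := by
  unfold secW rtIp rtSq
  fun_prop

theorem re_sc_shell_pt (N' : ℕ) (U V Y3 Y4 : ℝ) (hU : 1 ≤ U) (hV : 1 ≤ V) (h3 : 1 ≤ Y3) (h4 : 1 ≤ Y4) (M : ℝ) (hM : 0 < M) (h : M ≤ U * V * Y3 * Y4) :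
    U ^ (N' + 4 + 4) * V ^ (-((N' + 4 : ℕ) : ℝ)) * (U ^ (-((2 * N' + 8 : ℕ) : ℝ)) * Y3 ^ (-((N' + 2 : ℕ) : ℝ)) * Y4 ^ (-((N' + 2 : ℕ) : ℝ)))
      ≤ (M ^ N')⁻¹ * (V ^ (-4 : ℝ) * Y3 ^ (-2 : ℝ)) := by
  have hU0 : 0 < U := by linarith
  have hV0 : 0 < V := by linarith
  have h30 : 0 < Y3 := by linarith
  have h40 : 0 < Y4 := by linarith
  have e4 : V ^ (-4 : ℝ) = (V ^ 4)⁻¹ := by
    rw [Real.rpow_neg hV0.le]; norm_cast
  have e2 : Y3 ^ (-2 : ℝ) = (Y3 ^ 2)⁻¹ := by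
    rw [Real.rpow_neg h30.le]; norm_cast
  rw [Real.rpow_neg hV0.le, Real.rpow_neg hU0.le, Real.rpow_neg h30.le, Real.rpow_neg h40.le, Real.rpow_natCast, Real.rpow_natCast, Real.rpow_natCast, Real.rpow_natCast, e4, e2]
  have e : U ^ (N' + 4 + 4) * (V ^ (N' + 4))⁻¹ * ((U ^ (2 * N' + 8))⁻¹ * (Y3 ^ (N' + 2))⁻¹ * (Y4 ^ (N' + 2))⁻¹)
      = ((U * V * Y3 * Y4) ^ N')⁻¹ * ((V ^ 4)⁻¹ * (Y3 ^ 2)⁻¹) * (Y4 ^ 2)⁻¹ := by
    field_simp
    ring
  rw [e]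
  have h5 : ((U * V * Y3 * Y4) ^ N')⁻¹ ≤ (M ^ N')⁻¹ := by
    apply inv_anti₀ (by positivity)
    exact pow_le_pow_left₀ hM.le h _
  have h6 : (Y4 ^ 2)⁻¹ ≤ 1 := inv_le_one_of_one_le₀ (one_le_pow₀ h4)
  calc ((U * V * Y3 * Y4) ^ N')⁻¹ * ((V ^ 4)⁻¹ * (Y3 ^ 2)⁻¹) * (Y4 ^ 2)⁻¹
      ≤ (M ^ N')⁻¹ * ((V ^ 4)⁻¹ * (Y3 ^ 2)⁻¹) * 1 := by gcongr
    _ = _ := by ring

theorem re_sc_shell_ev_cont (c : SecPt) (y : RdWvPar.Ph) : Continuous fun p : ℝ × ReSp => c.Lm (c.T0 + p.1, y.2 + secW c.H c.k y.1 p.1 p.2) := by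
  refine (re_sc_Lm_cont c).comp ?_
  have := re_sc_shell_W_cont c.H c.k y.1
  fun_prop

theorem re_sc_shell_line (c : SecPt) (hc : c.Ok) (ℓE R x0 : ℝ) (c' : TV) (hℓ : 0 < ℓE) (y : RdWvPar.Ph) (hD : 1 / 2 ≤ c.D (c.ang y.1)) (Z : ReSp) :
    ∫⁻ s : ℝ, ENNReal.ofReal ((1 + ‖tcoord x0 ℓE R ((c.Lm (c.T0 + s, y.2 + secW c.H c.k y.1 s Z)).1 - c')‖) ^ (-2 : ℝ)) ≤ ENNReal.ofReal (4 * ℓE * c.l) := by
  have hl : 0 < c.l := rdLen_pos _
  have hσ : 0 < c.D (c.ang y.1) / (c.l * ℓE) := by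
    have : 0 < c.D (c.ang y.1) := by linarith
    positivity
  refine le_trans (lintegral_mono fun s => ?_) ((re_sc_xray (((c.Lm (c.T0, y.2 + secW c.H c.k y.1 0 Z)).1 0 - c' 0) / ℓE) (c.D (c.ang y.1) / (c.l * ℓE)) hσ).trans ?_)
  · refine ENNReal.ofReal_le_ofReal ?_
    refine Real.rpow_le_rpow_of_nonpos (by positivity) ?_ (by norm_num)
    have h1 := PiLp.norm_apply_le (tcoord x0 ℓE R ((c.Lm (c.T0 + s, y.2 + secW c.H c.k y.1 s Z)).1 - c')) 0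
    have h2 : tcoord x0 ℓE R ((c.Lm (c.T0 + s, y.2 + secW c.H c.k y.1 s Z)).1 - c') 0
        = ((c.Lm (c.T0, y.2 + secW c.H c.k y.1 0 Z)).1 0 - c' 0) / ℓE + c.D (c.ang y.1) / (c.l * ℓE) * s := by
      have h3 : tcoord x0 ℓE R ((c.Lm (c.T0 + s, y.2 + secW c.H c.k y.1 s Z)).1 - c') 0 = ((c.Lm (c.T0 + s, y.2 + secW c.H c.k y.1 s Z)).1 0 - c' 0) / ℓE := by
        simp [tcoord, tvec]
      rw [h3, re_sc_ray c hc]
      field_simp
      ring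
    rw [h2, Real.norm_eq_abs] at h1
    linarith
  · refine ENNReal.ofReal_le_ofReal ?_
    have hD0 : 0 < c.D (c.ang y.1) := by linarith
    rw [div_div_eq_mul_div, div_le_iff₀ hD0]
    have : 0 < ℓE * c.l := by positivity
    nlinarith

theorem re_sc_shell_int : ∃ C : ℝ, 0 ≤ C ∧ ∀ (c : SecPt), c.Ok → ∀ (ℓE R x0 : ℝ) (c' : TV), 0 < ℓE → ∀ y : RdWvPar.Ph, 1 / 2 ≤ c.D (c.ang y.1) →
    ∫⁻ s : ℝ, ∫⁻ Z : ReSp, ENNReal.ofReal ((1 + ‖Z‖) ^ (-4 : ℝ) * (1 + ‖tcoord x0 ℓE R ((c.Lm (c.T0 + s, y.2 + secW c.H c.k y.1 s Z)).1 - c')‖) ^ (-2 : ℝ)) ≤ ENNReal.ofReal (C * ℓE * c.l) := by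
  obtain ⟨C, hC, hW⟩ := re_sp_wt_int
  refine ⟨C * 4, by positivity, fun c hc ℓE R x0 c' hℓ y hD => ?_⟩
  have hl : 0 < c.l := rdLen_pos _
  have hcont : Continuous fun p : ℝ × ReSp => (1 + ‖p.2‖) ^ (-4 : ℝ) * (1 + ‖tcoord x0 ℓE R ((c.Lm (c.T0 + p.1, y.2 + secW c.H c.k y.1 p.1 p.2)).1 - c')‖) ^ (-2 : ℝ) := by
    have h1 := re_sc_shell_ev_cont c y
    have h2 := re_sc_shell_tc_cont x0 ℓE R
    have h3 : Continuous fun p : ℝ × ReSp => 1 + ‖tcoord x0 ℓE R ((c.Lm (c.T0 + p.1, y.2 + secW c.H c.k y.1 p.1 p.2)).1 - c')‖ :=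
      continuous_const.add (h2.comp (h1.fst.sub continuous_const)).norm
    have h4 : Continuous fun p : ℝ × ReSp => 1 + ‖p.2‖ := by fun_prop
    exact (h4.rpow_const fun p => Or.inl (by positivity)).mul (h3.rpow_const fun p => Or.inl (by positivity))
  rw [lintegral_lintegral_swap (f := fun s Z => ENNReal.ofReal ((1 + ‖Z‖) ^ (-4 : ℝ) * (1 + ‖tcoord x0 ℓE R ((c.Lm (c.T0 + s, y.2 + secW c.H c.k y.1 s Z)).1 - c')‖) ^ (-2 : ℝ)))
    (ENNReal.measurable_ofReal.comp hcont.measurable).aemeasurable]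
  calc ∫⁻ Z : ReSp, ∫⁻ s : ℝ, ENNReal.ofReal ((1 + ‖Z‖) ^ (-4 : ℝ) * (1 + ‖tcoord x0 ℓE R ((c.Lm (c.T0 + s, y.2 + secW c.H c.k y.1 s Z)).1 - c')‖) ^ (-2 : ℝ))
      ≤ ∫⁻ Z : ReSp, ENNReal.ofReal ((1 + ‖Z‖) ^ (-4 : ℝ)) * ENNReal.ofReal (4 * ℓE * c.l) := by
        refine lintegral_mono fun Z => ?_
        simp only [ENNReal.ofReal_mul (show (0 : ℝ) ≤ (1 + ‖Z‖) ^ (-4 : ℝ) by positivity)]
        rw [lintegral_const_mul' _ _ ENNReal.ofReal_ne_top]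
        exact mul_le_mul_right (re_sc_shell_line c hc ℓE R x0 c' hℓ y hD Z) _
    _ = (∫⁻ Z : ReSp, ENNReal.ofReal ((1 + ‖Z‖) ^ (-4 : ℝ))) * ENNReal.ofReal (4 * ℓE * c.l) := by
        rw [lintegral_mul_const' _ _ ENNReal.ofReal_ne_top]
    _ ≤ ENNReal.ofReal C * ENNReal.ofReal (4 * ℓE * c.l) := mul_le_mul_left hW _
    _ = ENNReal.ofReal (C * 4 * ℓE * c.l) := by
        rw [← ENNReal.ofReal_mul hC]
        congr 1
        ring


theorem re_sc_shell_bd (N' : ℕ) (c : SecPt) (ℓE Bf R x0 s0 : ℝ) (c' : TV) (hB : 0 < Bf) (y : RdWvPar.Ph) (M : ℝ) (hM : 0 < M)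
    (h : ∀ (s : ℝ) (Z : ReSp), M ≤ (1 + |s| / c.l) * (1 + ‖Z‖) * (1 + ‖tcoord x0 ℓE R ((c.Lm (c.T0 + s, y.2 + secW c.H c.k y.1 s Z)).1 - c')‖)
      * (1 + Bf * |(c.Lm (c.T0 + s, y.2 + secW c.H c.k y.1 s Z)).2 - s0|)) :
    secFl c.H c.k c.T0 (N' + 4) (c.wt (N' + 2) (2 * N' + 8) ℓE Bf R x0 c' s0) y
      ≤ ENNReal.ofReal ((M ^ N')⁻¹) * ∫⁻ s : ℝ, ∫⁻ Z : ReSp, ENNReal.ofReal ((1 + ‖Z‖) ^ (-4 : ℝ) * (1 + ‖tcoord x0 ℓE R ((c.Lm (c.T0 + s, y.2 + secW c.H c.k y.1 s Z)).1 - c')‖) ^ (-2 : ℝ)) := by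
  have hl : 0 < c.l := rdLen_pos _
  rw [← lintegral_const_mul' _ _ ENNReal.ofReal_ne_top]
  unfold secFl
  refine lintegral_mono fun s => ?_
  rw [← lintegral_const_mul' _ _ ENNReal.ofReal_ne_top]
  refine lintegral_mono fun Z => ?_
  have hu : |c.uo (c.T0 + s)| = |s| / c.l := by
    unfold SecPt.uo
    rw [add_sub_cancel_left, abs_div, abs_of_pos hl]
  have hsl : 0 ≤ |s| / c.l := by positivity
  unfold SecPt.wt tW
  simp only [hu]
  rw [← ENNReal.ofReal_mul (by positivity), ← ENNReal.ofReal_mul (by positivity), ← ENNReal.ofReal_mul (by positivity), ← ENNReal.ofReal_mul (by positivity)]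
  refine ENNReal.ofReal_le_ofReal ?_
  exact re_sc_shell_pt N' (1 + |s| / c.l) (1 + ‖Z‖) _ _ (by linarith) (by linarith [norm_nonneg Z]) (by linarith [norm_nonneg (tcoord x0 ℓE R ((c.Lm (c.T0 + s, y.2 + secW c.H c.k y.1 s Z)).1 - c'))])
    (by have := abs_nonneg ((c.Lm (c.T0 + s, y.2 + secW c.H c.k y.1 s Z)).2 - s0); nlinarith) M hM (h s Z)

theorem re_sc_shell_prod (U V Y3 Y4 M : ℝ) (hU : 0 ≤ U) (hV : 0 ≤ V) (h3 : 0 ≤ Y3) (h4 : 0 ≤ Y4) (h : M ≤ 1 ∨ M ≤ U ∨ M ≤ V ∨ M ≤ Y3 ∨ M ≤ Y4) :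
    M ≤ (1 + U) * (1 + V) * (1 + Y3) * (1 + Y4) := by
  have h1 : 1 + U + V + Y3 + Y4 ≤ (1 + U) * (1 + V) * (1 + Y3) * (1 + Y4) := by
    have a1 : 1 + U + V ≤ (1 + U) * (1 + V) := by nlinarith
    have a2 : 1 + U + V + Y3 ≤ (1 + U) * (1 + V) * (1 + Y3) := by nlinarith
    nlinarith
  rcases h with h | h | h | h | h <;> linarith

theorem re_sc_shell_ex (c : SecPt) (ℓE Bf R x0 s0 : ℝ) (c' : TV) (y : RdWvPar.Ph) : ∃ j : ℕ, y ∈ c.shell ℓE Bf R x0 c' s0 (2 ^ j) := by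
  have hl : 0 < c.l := rdLen_pos _
  obtain ⟨j, hj⟩ := pow_unbounded_of_one_lt (‖tcoord x0 ℓE R ((c.Lm (c.T0 + 0, y.2 + secW c.H c.k y.1 0 0)).1 - c')‖ + abs (Bf * |(c.Lm (c.T0 + 0, y.2 + secW c.H c.k y.1 0 0)).2 - s0|)) (one_lt_two : (1 : ℝ) < 2)
  refine ⟨j, 0, 0, ?_, ?_, ?_, ?_⟩
  · simp only [abs_zero]; positivity
  · simp only [norm_zero]; positivity
  · have := abs_nonneg (Bf * |(c.Lm (c.T0 + 0, y.2 + secW c.H c.k y.1 0 0)).2 - s0|)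
    linarith
  · have := le_abs_self (Bf * |(c.Lm (c.T0 + 0, y.2 + secW c.H c.k y.1 0 0)).2 - s0|)
    have := norm_nonneg (tcoord x0 ℓE R ((c.Lm (c.T0 + 0, y.2 + secW c.H c.k y.1 0 0)).1 - c'))
    linarith

theorem re_sc_shell_M (N' : ℕ) (c : SecPt) (ℓE Bf R x0 s0 : ℝ) (c' : TV) (hB : 0 < Bf) (y : RdWvPar.Ph) (j : ℕ) (hj : ∀ i < j, y ∉ c.shell ℓE Bf R x0 c' s0 (2 ^ i)) :
    ∃ M : ℝ, 0 < M ∧ (M ^ N')⁻¹ ≤ 2 ^ N' * (2 : ℝ)⁻¹ ^ (N' * j) ∧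
    ∀ (s : ℝ) (Z : ReSp), M ≤ (1 + |s| / c.l) * (1 + ‖Z‖) * (1 + ‖tcoord x0 ℓE R ((c.Lm (c.T0 + s, y.2 + secW c.H c.k y.1 s Z)).1 - c')‖)
      * (1 + Bf * |(c.Lm (c.T0 + s, y.2 + secW c.H c.k y.1 s Z)).2 - s0|) := by
  have hl : 0 < c.l := rdLen_pos _
  rcases Nat.eq_zero_or_pos j with rfl | hpos
  · refine ⟨1, one_pos, ?_, fun s Z => ?_⟩
    · simp only [one_pow, inv_one, mul_zero, pow_zero, mul_one]
      exact one_le_pow₀ one_le_two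
    · exact re_sc_shell_prod _ _ _ _ _ (by positivity) (by positivity) (by positivity) (by positivity) (Or.inl le_rfl)
  · obtain ⟨i, rfl⟩ : ∃ i, j = i + 1 := ⟨j - 1, by omega⟩
    refine ⟨2 ^ i, by positivity, ?_, fun s Z => ?_⟩
    · refine le_of_eq ?_
      rw [← pow_mul, mul_add, mul_one, pow_add, inv_pow, inv_pow, mul_comm i N']
      field_simp
    · have h1 := hj i (by omega)
      refine re_sc_shell_prod _ _ _ _ _ (by positivity) (by positivity) (by positivity) (by positivity) (Or.inr ?_)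
      by_contra hcon
      push Not at hcon
      obtain ⟨a1, a2, a3, a4⟩ := hcon
      refine h1 ⟨s, Z, ?_, a2.le, a3.le, a4.le⟩
      rw [div_lt_iff₀ hl] at a1
      exact a1.le

/-- **LEAF L-256-SEC-SHELL: the pulled back tile weight is a rapidly decreasing sum of shells.**      orders: kernel `N1 = N'+4`, tile `N = N'+2`, time `Mt = 2N'+8`.
PLAN.  Fix `y = (A, z')`.   The integrand of `secFl` at `(s, Z)` is `(1+|s|/ℓ)^{-N'} (1+‖Z‖)^{-N'-4} (1+‖Y₃‖)^{-N'-2} (1+Bf|Y₄|)^{-N'-2}` (`c.uo (T0+s) = s/ℓ`; `Y₃ = tcoord ..`, `tW` unfolded).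
The shells increase with `M`, and `y ∈ shell (2^j)` for `j` large (`s = 0`, `Z = 0`).   `j₀` = the least such `j` (`Nat.find`).   If `j₀ ≥ 1`, `y ∉ shell (2^(j₀-1))`: at every `(s, Z)` one of the four quantities exceeds `2^(j₀-1)`, so the integrand is `≤ 2^{-N'(j₀-1)} (1+‖Z‖)^{-4} (1+‖Y₃‖)^{-2}`;  the same bound (with `1`) holds for `j₀ = 0`.
`‖Y₃‖ ≥ |Y₃ 0| = |(c.Lm ..).1 0 - c' 0|/ℓE`, affine in `s` with slope `D/(ℓ ℓE) ≥ 1/(2 ℓ ℓE)` (`re_sc_ray`): `re_sc_xray` gives `4 ℓ ℓE`;  `re_sp_wt_int`.   `C = 4 · 2^{N'} C_wt`;  the term `j₀` of the series dominates (`ENNReal.le_tsum`). -/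
theorem re_sc_shell (N' : ℕ) : ∃ C : ℝ, 0 ≤ C ∧ ∀ (c : SecPt), c.Ok → ∀ (ℓE Bf R x0 s0 : ℝ) (c' : TV), 0 < ℓE → 0 < Bf → 0 < R → ∀ y : RdWvPar.Ph, 1 / 2 ≤ c.D (c.ang y.1) →
    secFl c.H c.k c.T0 (N' + 4) (c.wt (N' + 2) (2 * N' + 8) ℓE Bf R x0 c' s0) y
      ≤ ENNReal.ofReal (C * ℓE * c.l) * ∑' j : ℕ, ENNReal.ofReal ((2 : ℝ)⁻¹ ^ (N' * j)) * (c.shell ℓE Bf R x0 c' s0 (2 ^ j)).indicator 1 y := by
  classical
  obtain ⟨C, hC, hI⟩ := re_sc_shell_int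
  refine ⟨2 ^ N' * C, by positivity, fun c hc ℓE Bf R x0 s0 c' hℓ hB hR y hD => ?_⟩
  have hl : 0 < c.l := rdLen_pos _
  have hex := re_sc_shell_ex c ℓE Bf R x0 s0 c' y
  obtain ⟨M, hM, hMN, hpt⟩ := re_sc_shell_M N' c ℓE Bf R x0 s0 c' hB y (Nat.find hex) (fun i hi => Nat.find_min hex hi)
  have hmem := Nat.find_spec hex
  calc secFl c.H c.k c.T0 (N' + 4) (c.wt (N' + 2) (2 * N' + 8) ℓE Bf R x0 c' s0) y
      ≤ ENNReal.ofReal ((M ^ N')⁻¹) * ENNReal.ofReal (C * ℓE * c.l) :=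
        (re_sc_shell_bd N' c ℓE Bf R x0 s0 c' hB y M hM hpt).trans (mul_le_mul_right (hI c hc ℓE R x0 c' hℓ y hD) _)
    _ ≤ ENNReal.ofReal (2 ^ N' * (2 : ℝ)⁻¹ ^ (N' * Nat.find hex)) * ENNReal.ofReal (C * ℓE * c.l) := mul_le_mul_left (ENNReal.ofReal_le_ofReal hMN) _
    _ = ENNReal.ofReal (2 ^ N' * C * ℓE * c.l) * (ENNReal.ofReal ((2 : ℝ)⁻¹ ^ (N' * Nat.find hex)) * (c.shell ℓE Bf R x0 c' s0 (2 ^ Nat.find hex)).indicator 1 y) := by
        rw [Set.indicator_of_mem hmem, Pi.one_apply, mul_one, ← ENNReal.ofReal_mul (by positivity), ← ENNReal.ofReal_mul (by positivity)]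
        congr 1
        ring
    _ ≤ _ := mul_le_mul_right (ENNReal.le_tsum (f := fun j : ℕ => ENNReal.ofReal ((2 : ℝ)⁻¹ ^ (N' * j)) * (c.shell ℓE Bf R x0 c' s0 (2 ^ j)).indicator 1 y) (Nat.find hex)) _

/-! ## 5. Mass of an enlarged test -/

/-- **LEAF L-256-SEC-MASS: regularity + `rt_G1`.**   `Cg` = the constant of `rt_G1 η`.   `RtCover (τ.set M) τ.l τ.unc η (M^Cg τ.w η)`: tests `σ i`, `Adm 1`, length `τ.l`, uncertainty `≥ τ.unc ≥ d`;  `{x | co x ∈ τ.set M} ⊆ ⋃ i {x | co x ∈ (σ i).set 1}`, `lintegral_mono_set`, `lintegral_iUnion_le` (finite/countable union), `SecReg`, `ENNReal.ofReal_sum_of_nonneg`. -/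
theorem re_sc_mass (η : ℝ) (h0 : 0 < η) (h1 : η < 1) : ∃ Cg : ℝ, 0 < Cg ∧ ∀ (p : RdWvPar) (T : ℝ) (k β : ℕ) (G : RdWvPar.Mo → ℂ) (κ : ℝ), 0 ≤ κ → SecReg η p T k β G κ →
    ∀ (M : ℝ) (τ : RtTest), 2 ≤ M → τ.Adm M → τ.l = rdLen k → rdD p.H k ≤ τ.unc →
    ∫⁻ x in {x : RdWvPar.Ph | RdWvPar.co T x ∈ τ.set M}, ‖secRow p T k β G x‖ₑ ^ 2 ∂(p.rw k) ≤ ENNReal.ofReal (κ * (M ^ Cg * τ.w η)) := by
  obtain ⟨Cg, hCg, hG⟩ := rt_G1 η h0 h1
  refine ⟨Cg, hCg, fun p T k β G κ hκ hreg M τ hM hA hl hu => ?_⟩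
  obtain ⟨m, σ, hσ, hcov, hsum⟩ := hG M τ hM hA
  have hsub : {x : RdWvPar.Ph | RdWvPar.co T x ∈ τ.set M} ⊆ ⋃ i, {x : RdWvPar.Ph | RdWvPar.co T x ∈ (σ i).set 1} := by
    intro x hx
    obtain ⟨i, hi⟩ := Set.mem_iUnion.1 (hcov hx)
    exact Set.mem_iUnion.2 ⟨i, hi⟩
  have hw : ∀ i, 0 ≤ (σ i).w η := fun i => by
    unfold RtTest.w
    have := (hσ i).1.r_pos
    have := (hσ i).1.f_pos
    positivity
  calc _ ≤ ∫⁻ x in ⋃ i, {x : RdWvPar.Ph | RdWvPar.co T x ∈ (σ i).set 1}, ‖secRow p T k β G x‖ₑ ^ 2 ∂(p.rw k) := lintegral_mono_set hsub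
    _ ≤ ∑' i, ∫⁻ x in {x : RdWvPar.Ph | RdWvPar.co T x ∈ (σ i).set 1}, ‖secRow p T k β G x‖ₑ ^ 2 ∂(p.rw k) := lintegral_iUnion_le _ _
    _ = ∑ i, ∫⁻ x in {x : RdWvPar.Ph | RdWvPar.co T x ∈ (σ i).set 1}, ‖secRow p T k β G x‖ₑ ^ 2 ∂(p.rw k) := tsum_fintype _
    _ ≤ ∑ i, ENNReal.ofReal (κ * (σ i).w η) := Finset.sum_le_sum fun i _ => hreg (σ i) (hσ i).1 ((hσ i).2.1.trans hl) (hu.trans (hσ i).2.2)
    _ = ENNReal.ofReal (∑ i, κ * (σ i).w η) := (ENNReal.ofReal_sum_of_nonneg fun i _ => mul_nonneg hκ (hw i)).symm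
    _ ≤ _ := by
        rw [← Finset.mul_sum]
        exact ENNReal.ofReal_le_ofReal (mul_le_mul_of_nonneg_left hsum hκ)

end Claimed.Agent.R256
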