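import Claimed.Agent.R256.Re.SecDefs

/-!
# Row 256, unit RE, block PLANE-B, file 2: THE SLAB THEOREM            (architect helper290)            CONTRACT
PAPER-FREE (Mathlib + `R256/Tri`: `tri_env_dil`, `TFS` calculus, `teta`, `tri_eta_*`, `tri_cs`, `tri_psi_exists`, `tri_sch_decay`).   Every `sorry` is a leaf `L-256-SEC-*` (name in the docstring).
Statements FROZEN; auxiliary lemmas directly above your theorem, prefix `re_sc_`; edit only your block.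
-/

set_option autoImplicit false

namespace Claimed.Agent.R256

open MeasureTheory
open scoped ENNReal FourierTransform InnerProductSpace BigOperators SchwartzMap

/-! ## 1. The envelope estimate on a wide radial band -/

/-- the band cutoff: `0` off `[1, 2]`;   `secChi s = S(3s/2) - S(s)`, `S(s) = smoothTransition (2 s - 3)` (`= 0` for `s ≤ 3/2`, `= 1` for `s ≥ 2`) -/
noncomputable def secChi (s : ℝ) : ℝ := Real.smoothTransition (3 * s - 3) - Real.smoothTransition (2 * s - 3)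

theorem re_sc_chi_eqns_cite : True := by
  have := @secChi.eq_1
  trivial

theorem re_sc_chi_supp (s : ℝ) (h : secChi s ≠ 0) : 1 ≤ s ∧ s ≤ 2 := by
  constructor
  · by_contra hs
    rw [not_le] at hs
    apply h
    unfold secChi
    rw [Real.smoothTransition.zero_of_nonpos (by linarith), Real.smoothTransition.zero_of_nonpos (by linarith), sub_zero]
  · by_contra hs
    rw [not_le] at hs
    apply h
    unfold secChi
    rw [Real.smoothTransition.one_of_one_le (by linarith), Real.smoothTransition.one_of_one_le (by linarith), sub_self]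

/-- **LEAF L-256-SEC-WB1.**  (1) `Real.smoothTransition.zero_of_nonpos`, `.one_of_one_le`.   (2) telescoping: `secChi (ζ / a_j) = S(ζ/a_{j-1}) - S(ζ/a_j)`, `a_j = a (3/2)^j` (`Finset.sum_range_sub'`-type);  `S(ζ/a_{-1}) = 1` for `ζ ≥ (4/3) a`, `S(ζ/a_{J-1}) = 0` for `ζ ≤ (3/2) a_{J-1} = a (3/2)^J`.
(3) `secChi` is smooth with compact support: `k = 𝓕` of the Schwartz map (as in `tri_psi_exists`). -/
theorem re_sc_chi : (∀ s : ℝ, secChi s ≠ 0 → 1 ≤ s ∧ s ≤ 2) ∧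
    (∀ (a ζ : ℝ) (J : ℕ), 0 < a → 4 / 3 * a ≤ ζ → ζ ≤ a * (3 / 2) ^ J → ∑ j ∈ Finset.range J, secChi (ζ / (a * (3 / 2) ^ j)) = 1) ∧
    ∃ k : 𝓢(ℝ, ℂ), ∀ u : ℝ, (𝓕⁻ k) u = (secChi u : ℂ) := by
  refine ⟨re_sc_chi_supp, fun a ζ J ha h1 h2 => ?_, ?_⟩
  · set f : ℕ → ℝ := fun j => Real.smoothTransition (3 * (ζ / (a * (3 / 2) ^ j)) - 3) with hf
    have e : ∀ j, secChi (ζ / (a * (3 / 2) ^ j)) = f j - f (j + 1) := by
      intro j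
      unfold secChi
      simp only [hf]
      congr 2
      have : (0 : ℝ) < (3 / 2) ^ j := by positivity
      rw [pow_succ]
      field_simp
    simp only [e]
    rw [Finset.sum_range_sub']
    have e0 : f 0 = 1 := by
      simp only [hf, pow_zero, mul_one]
      apply Real.smoothTransition.one_of_one_le
      have : 4 / 3 ≤ ζ / a := by rw [le_div_iff₀ ha]; exact h1
      linarith
    have eJ : f J = 0 := by
      simp only [hf]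
      apply Real.smoothTransition.zero_of_nonpos
      have : ζ / (a * (3 / 2) ^ J) ≤ 1 := by rw [div_le_one (by positivity)]; exact h2
      linarith
    rw [e0, eJ, sub_zero]
  · set g : ℝ → ℂ := fun ξ => ((secChi ξ : ℝ) : ℂ) with hg
    have hcs : HasCompactSupport g := by
      apply HasCompactSupport.intro (isCompact_Icc (a := (1 : ℝ)) (b := 2))
      intro ξ hξ
      by_contra h0
      apply hξ
      have : secChi ξ ≠ 0 := by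
        intro h
        apply h0
        simp [hg, h]
      exact re_sc_chi_supp ξ this
    have hsm0 : ContDiff ℝ (⊤ : ℕ∞) secChi := by
      unfold secChi
      exact (Real.smoothTransition.contDiff.comp (by fun_prop)).sub (Real.smoothTransition.contDiff.comp (by fun_prop))
    have hsm : ContDiff ℝ (⊤ : ℕ∞) g := Complex.ofRealCLM.contDiff.comp hsm0
    let G : 𝓢(ℝ, ℂ) := hcs.toSchwartzMap hsm
    have hGg : ∀ ξ, G ξ = g ξ := fun ξ => rfl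
    refine ⟨𝓕 G, fun u => ?_⟩
    rw [FourierTransform.fourierInv_fourier_eq, hGg]

/-- the reproducing formula with a multiplier (generalisation of `tri_repro`) -/
theorem re_sc_repro {V : Type*} [MeasurableSpace V] (μ : Measure V) [SFinite μ] (T : V → TV) (hT : Measurable T) (k : V → ℂ) (hk : Integrable k μ)
    (g : TV → ℂ) (hg : Integrable g) (p : TV) :
    (𝓕⁻ fun ω : TV => (∫ v, 𝐞 ⟪ω, T v⟫_ℝ • k v ∂μ) * g ω) p = ∫ v, (𝓕⁻ g) (p + T v) * k v ∂μ := by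
  simp only [Real.fourierInv_eq]
  have hint : Integrable (Function.uncurry fun (v : V) (ω : TV) => (𝐞 ⟪ω, p + T v⟫_ℝ • g ω) * k v) (μ.prod volume) := by
    have h2 : Integrable (fun z : V × TV => k z.1 * g z.2) (μ.prod volume) := hk.mul_prod hg
    have hm : Measurable fun z : V × TV => ((𝐞 ⟪z.2, p + T z.1⟫_ℝ : Circle) : ℂ) := by
      have hc : Continuous fun t : ℝ => ((𝐞 t : Circle) : ℂ) := by fun_prop
      exact hc.measurable.comp (measurable_snd.inner (measurable_const.add (hT.comp measurable_fst)))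
    have h3 := h2.bdd_mul (c := 1) hm.aestronglyMeasurable (Filter.Eventually.of_forall fun z => (Circle.norm_coe _).le)
    refine h3.congr (Filter.Eventually.of_forall fun z => ?_)
    simp only [Function.uncurry, Circle.smul_def, smul_eq_mul]
    ring
  calc ∫ ω, 𝐞 ⟪ω, p⟫_ℝ • ((∫ v, 𝐞 ⟪ω, T v⟫_ℝ • k v ∂μ) * g ω) = ∫ ω, ∫ v, (𝐞 ⟪ω, p + T v⟫_ℝ • g ω) * k v ∂μ := by
        refine integral_congr_ae (Filter.Eventually.of_forall fun ω => ?_)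
        have e : ∀ v, (𝐞 ⟪ω, p + T v⟫_ℝ • g ω) * k v = (𝐞 ⟪ω, p⟫_ℝ • g ω) * (𝐞 ⟪ω, T v⟫_ℝ • k v) := by
          intro v
          rw [inner_add_right, AddChar.map_add_eq_mul]
          simp only [Circle.smul_def, smul_eq_mul, Circle.coe_mul]
          ring
        simp only [e]
        rw [integral_const_mul]
        simp only [Circle.smul_def, smul_eq_mul]
        ring
    _ = ∫ v, (∫ ω, (𝐞 ⟪ω, p + T v⟫_ℝ • g ω) * k v) ∂μ := (integral_integral_swap hint).symm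
    _ = ∫ v, (∫ ω, 𝐞 ⟪ω, p + T v⟫_ℝ • g ω) * k v ∂μ := by
        refine integral_congr_ae (Filter.Eventually.of_forall fun v => ?_)
        exact integral_mul_const _ _

theorem re_sc_inner_e2 (ω : TV) (s : ℝ) : ⟪ω, s • tvec 0 0 1⟫_ℝ = s * ω 2 := by
  rw [inner_smul_right]
  congr 1
  simp only [tvec, PiLp.inner_apply, Fin.sum_univ_three]
  simp

/-- **LEAF L-256-SEC-WB2: one band of a `TFS` function.**
PLAN.  `F = 𝓕⁻ g`.   `F' = 𝓕⁻ (fun ω => secChi (ω 2 / a) * g ω)`: integrable (`|secChi| ≤ 1`, continuous: `Integrable.bdd_mul`), vanishes off `S ∩ {a ≤ ω 2 ≤ 2a}` (`re_sc_chi` (1)).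
With `k` of `re_sc_chi` (3), `κ s = a k (a s)`:   `∫ s, 𝐞 (s ω 2) κ s = 𝓕⁻ k (ω 2 / a) = secChi (ω 2 / a)`;  Fubini as in `tri_repro`:   `F' p = ∫ s, F (p + s • e₂) κ s`, `e₂ = tvec 0 0 1`;  Cauchy-Schwarz `tri_cs`:
`‖F' p‖² ≤ (∫ |κ|) ∫ ‖F (p + s e₂)‖² |κ s| ds`;   `w s = ‖κ s‖ₑ`, `∫ w = ∫ |k| =: A`. -/
theorem re_sc_band : ∃ A : ℝ, 0 ≤ A ∧ ∀ (a : ℝ), 0 < a → ∃ w : ℝ → ℝ≥0∞, Measurable w ∧ ∫⁻ s, w s ≤ ENNReal.ofReal A ∧
    ∀ (S : Set TV) (g : TV → ℂ), Integrable g → (∀ ω, ω ∉ S → g ω = 0) →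
      TFS (S ∩ {ω | a ≤ ω 2 ∧ ω 2 ≤ 2 * a}) (𝓕⁻ fun ω : TV => (secChi (ω 2 / a) : ℂ) * g ω) ∧
      ∀ p : TV, ‖(𝓕⁻ fun ω : TV => (secChi (ω 2 / a) : ℂ) * g ω) p‖ₑ ^ 2 ≤ ENNReal.ofReal A * ∫⁻ s, w s * ‖(𝓕⁻ g) (p + s • tvec 0 0 1)‖ₑ ^ 2 := by
  obtain ⟨hsupp, -, Ψ, hΨ⟩ := re_sc_chi
  obtain ⟨I, hI⟩ : ∃ I : ℝ, I = ∫ s, ‖Ψ s‖ := ⟨_, rfl⟩
  have hI0 : 0 ≤ I := by
    rw [hI]
    exact integral_nonneg fun _ => norm_nonneg _
  refine ⟨I, hI0, fun a ha => ?_⟩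
  obtain ⟨k, hk⟩ : ∃ k : ℝ → ℂ, k = fun s => (a : ℂ) * Ψ (a * s) := ⟨_, rfl⟩
  have hkc : Continuous k := by
    rw [hk]
    exact continuous_const.mul (Ψ.continuous.comp (by fun_prop))
  have hki : Integrable k := by
    rw [hk]
    exact (Ψ.integrable.comp_mul_left' ha.ne').const_mul _
  have hkn : ∫⁻ s, ‖k s‖ₑ = ENNReal.ofReal I := by
    rw [← ofReal_integral_norm_eq_lintegral_enorm hki, hk, hI]
    congr 1
    simp only [norm_mul, Complex.norm_real, Real.norm_eq_abs, abs_of_pos ha]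
    rw [integral_const_mul, Measure.integral_comp_mul_left (fun s => ‖Ψ s‖) a, abs_of_pos (inv_pos.2 ha), smul_eq_mul, ← mul_assoc,
      mul_inv_cancel₀ ha.ne', one_mul]
  have h1 : ∀ ω : TV, ∫ s : ℝ, 𝐞 ⟪ω, s • tvec 0 0 1⟫_ℝ • k s = (secChi (ω 2 / a) : ℂ) := by
    intro ω
    have h2 := hΨ (ω 2 / a)
    rw [SchwartzMap.fourierInv_coe, Real.fourierInv_eq] at h2
    have e : ∀ s : ℝ, 𝐞 ⟪ω, s • tvec 0 0 1⟫_ℝ • k s = (a : ℂ) * (fun v : ℝ => 𝐞 ⟪v, ω 2 / a⟫_ℝ • Ψ v) (a * s) := by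
      intro s
      rw [re_sc_inner_e2, hk]
      have h3 : ⟪a * s, ω 2 / a⟫_ℝ = s * ω 2 := by
        simp only [RCLike.inner_apply, conj_trivial]
        field_simp
      simp only [h3, Circle.smul_def, smul_eq_mul]
      ring
    simp only [e]
    rw [integral_const_mul, Measure.integral_comp_mul_left (fun v : ℝ => 𝐞 ⟪v, ω 2 / a⟫_ℝ • Ψ v) a, h2, abs_of_pos (inv_pos.2 ha)]
    simp [ha.ne']
  refine ⟨fun s => ‖k s‖ₑ, hkc.measurable.enorm, hkn.le, fun S g hg hS => ⟨?_, fun p => ?_⟩⟩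
  · refine ⟨fun ω : TV => (secChi (ω 2 / a) : ℂ) * g ω, ?_, ?_, rfl⟩
    · have hc : Continuous fun ω : TV => ((secChi (ω 2 / a) : ℝ) : ℂ) := by
        unfold secChi
        have := Real.smoothTransition.continuous
        fun_prop
      refine hg.bdd_mul (c := 1) hc.aestronglyMeasurable (Filter.Eventually.of_forall fun ω => ?_)
      rw [Complex.norm_real, Real.norm_eq_abs]
      unfold secChi
      rw [abs_le]
      have b1 := Real.smoothTransition.nonneg (3 * (ω 2 / a) - 3)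
      have b2 := Real.smoothTransition.le_one (3 * (ω 2 / a) - 3)
      have b3 := Real.smoothTransition.nonneg (2 * (ω 2 / a) - 3)
      have b4 := Real.smoothTransition.le_one (2 * (ω 2 / a) - 3)
      constructor <;> linarith
    · intro ω hω
      show (secChi (ω 2 / a) : ℂ) * g ω = 0
      by_cases h5 : ω ∈ S
      · have h6 : secChi (ω 2 / a) = 0 := by
          by_contra h7
          obtain ⟨b1, b2⟩ := hsupp _ h7
          apply hω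
          refine ⟨h5, ?_, ?_⟩
          · rwa [le_div_iff₀ ha, one_mul] at b1
          · rwa [div_le_iff₀ ha] at b2
        rw [h6]; simp
      · rw [hS ω h5, mul_zero]
  · have hrep := re_sc_repro volume (fun s : ℝ => s • tvec 0 0 1) (measurable_id.smul_const _) k hki g hg p
    simp only [h1] at hrep
    rw [hrep]
    have hFt : TFS Set.univ (𝓕⁻ g) := ⟨g, hg, fun ω hω => absurd (Set.mem_univ ω) hω, rfl⟩
    have hFc : Continuous (𝓕⁻ g) := hFt.continuous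
    have hGm : Measurable fun s : ℝ => ‖(𝓕⁻ g) (p + s • tvec 0 0 1)‖ₑ :=
      (hFc.measurable.comp (measurable_const.add (measurable_id.smul_const _))).enorm
    have hcs := tri_cs volume (fun s : ℝ => ‖(𝓕⁻ g) (p + s • tvec 0 0 1)‖ₑ) (fun s => ‖k s‖ₑ) hGm.aemeasurable hkc.measurable.enorm.aemeasurable
    rw [hkn] at hcs
    have h8 : ‖∫ s : ℝ, (𝓕⁻ g) (p + s • tvec 0 0 1) * k s‖ₑ ≤ ∫⁻ s : ℝ, ‖(𝓕⁻ g) (p + s • tvec 0 0 1)‖ₑ * ‖k s‖ₑ := by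
      refine (enorm_integral_le_lintegral_enorm _).trans (le_of_eq ?_)
      simp only [enorm_mul]
    have h9 : ∫⁻ s : ℝ, ‖(𝓕⁻ g) (p + s • tvec 0 0 1)‖ₑ ^ 2 * ‖k s‖ₑ = ∫⁻ s : ℝ, ‖k s‖ₑ * ‖(𝓕⁻ g) (p + s • tvec 0 0 1)‖ₑ ^ 2 :=
      lintegral_congr fun s => mul_comm _ _
    rw [h9] at hcs
    exact (pow_le_pow_left' h8 2).trans hcs

theorem re_sc_tvec_cont {α : Type*} [TopologicalSpace α] {a b c : α → ℝ} (ha : Continuous a) (hb : Continuous b) (hc : Continuous c) :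
    Continuous fun x => tvec (a x) (b x) (c x) := by
  unfold tvec
  have h : Continuous fun x => (![a x, b x, c x] : Fin 3 → ℝ) := by
    refine continuous_pi fun i => ?_
    fin_cases i
    · exact ha
    · exact hb
    · exact hc
  exact (PiLp.continuous_toLp 2 _).comp h

theorem re_sc_tW_cont (N : ℕ) (x0 ℓ R : ℝ) : Continuous fun P : TV × TV => (1 + ‖tcoord x0 ℓ R (P.2 - P.1)‖) ^ (-(N : ℝ)) := by
  have h1 : Continuous fun P : TV × TV => tcoord x0 ℓ R (P.2 - P.1) := by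
    unfold tcoord
    apply re_sc_tvec_cont <;> fun_prop
  refine Continuous.rpow_const (by fun_prop) fun P => Or.inl ?_
  positivity

theorem re_sc_tW_meas (N : ℕ) (x0 ℓ R : ℝ) : Measurable fun P : TV × TV => tW N x0 ℓ R P.1 P.2 := by
  unfold tW
  exact (re_sc_tW_cont N x0 ℓ R).measurable.ennreal_ofReal

theorem re_sc_tW_meas' (N : ℕ) (x0 ℓ R : ℝ) (c : TV) : Measurable (tW N x0 ℓ R c) :=
  Measurable.of_uncurry_left (f := fun a b => tW N x0 ℓ R a b) (re_sc_tW_meas N x0 ℓ R)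

/-- Tonelli and a translation -/
theorem re_sc_shift (e : TV) (Φ H : TV → ℝ≥0∞) (hΦ : Measurable Φ) (hH : Measurable H) (w : ℝ → ℝ≥0∞) (hw : Measurable w) :
    ∫⁻ p, Φ p * ∫⁻ s, w s * H (p + s • e) = ∫⁻ s, w s * ∫⁻ p, Φ (p - s • e) * H p := by
  have hm1 : Measurable fun P : TV × ℝ => H (P.1 + P.2 • e) := hH.comp (by fun_prop)
  have e1 : ∀ p, Φ p * ∫⁻ s, w s * H (p + s • e) = ∫⁻ s, Φ p * (w s * H (p + s • e)) := fun p => by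
    have hm2 : Measurable fun s : ℝ => w s * H (p + s • e) := hw.mul (hH.comp (by fun_prop))
    rw [lintegral_const_mul _ hm2]
  simp only [e1]
  rw [lintegral_lintegral_swap]
  · refine lintegral_congr fun s => ?_
    have e2 : ∀ p, Φ p * (w s * H (p + s • e)) = w s * (Φ p * H (p + s • e)) := fun p => by ring
    simp only [e2]
    have hm3 : Measurable fun p : TV => Φ p * H (p + s • e) := hΦ.mul (hH.comp (by fun_prop))
    rw [lintegral_const_mul _ hm3]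
    congr 1
    rw [← lintegral_add_right_eq_self (fun p => Φ (p - s • e) * H p) (s • e)]
    simp only [add_sub_cancel_right]
  · exact ((hΦ.comp measurable_fst).mul ((hw.comp measurable_snd).mul hm1)).aemeasurable

/-- **LEAF L-256-SEC-WB3: translation invariance of the tile densities and of the energy.**
PLAN.  Tonelli + `p ↦ p + s e₂` (`lintegral_add_right_eq_self`);  `tW N x0 ℓ R c (p - s e₂) = tW N x0 ℓ R (c + s e₂) p` (unfold `tW`: depends on `p - c`);  each inner integral is `≤ tKd · ofReal (ℓ³R³)` (`le_iSup`-chain; multiply by the inverse constant as in `tri_Kd_le`);  conclude with `tri_Kd_le`. -/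
theorem re_sc_band_K (N : ℕ) (r ℓ A : ℝ) (hr : 0 < r) (hℓ : 0 < ℓ) (hA : 0 ≤ A) (X : Finset ℝ) (F F' : ℝ → TV → ℂ) (hF : ∀ x ∈ X, Continuous (F x)) (w : ℝ → ℝ≥0∞) (hw : Measurable w)
    (hwA : ∫⁻ s, w s ≤ ENNReal.ofReal A)
    (h : ∀ x ∈ X, ∀ p : TV, ‖F' x p‖ₑ ^ 2 ≤ ENNReal.ofReal A * ∫⁻ s, w s * ‖F x (p + s • tvec 0 0 1)‖ₑ ^ 2) :
    tKd N r ℓ X F' ≤ ENNReal.ofReal (A ^ 2) * tKd N r ℓ X F ∧ ∀ x ∈ X, tE (F' x) ≤ ENNReal.ofReal (A ^ 2) * tE (F x) := by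
  have hA2 : ENNReal.ofReal (A ^ 2) = ENNReal.ofReal A * ENNReal.ofReal A := by
    rw [← ENNReal.ofReal_mul hA, sq]
  -- a general bound
  have key : ∀ (Y : Finset ℝ), Y ⊆ X → ∀ (Φ : TV → ℝ≥0∞), Measurable Φ → ∀ B : ℝ≥0∞,
      (∀ s : ℝ, ∫⁻ p, Φ (p - s • tvec 0 0 1) * ∑ x ∈ Y, ‖F x p‖ₑ ^ 2 ≤ B) →
      ∫⁻ p, Φ p * ∑ x ∈ Y, ‖F' x p‖ₑ ^ 2 ≤ ENNReal.ofReal (A ^ 2) * B := by
    intro Y hY Φ hΦ B hB
    have hHm : Measurable fun p => ∑ x ∈ Y, ‖F x p‖ₑ ^ 2 :=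
      Finset.measurable_sum _ fun x hx => ((hF x (hY hx)).measurable.enorm).pow_const 2
    have h1 : ∀ p, ∑ x ∈ Y, ‖F' x p‖ₑ ^ 2 ≤ ENNReal.ofReal A * ∫⁻ s, w s * ∑ x ∈ Y, ‖F x (p + s • tvec 0 0 1)‖ₑ ^ 2 := by
      intro p
      refine (Finset.sum_le_sum fun x hx => h x (hY hx) p).trans (le_of_eq ?_)
      rw [← Finset.mul_sum, ← lintegral_finsetSum]
      · simp only [Finset.mul_sum]
      · intro x hx
        exact hw.mul ((((hF x (hY hx)).measurable.comp (by fun_prop)).enorm).pow_const 2)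
    calc ∫⁻ p, Φ p * ∑ x ∈ Y, ‖F' x p‖ₑ ^ 2
        ≤ ∫⁻ p, ENNReal.ofReal A * (Φ p * ∫⁻ s, w s * ∑ x ∈ Y, ‖F x (p + s • tvec 0 0 1)‖ₑ ^ 2) := by
          refine lintegral_mono fun p => ?_
          calc Φ p * ∑ x ∈ Y, ‖F' x p‖ₑ ^ 2 ≤ Φ p * (ENNReal.ofReal A * ∫⁻ s, w s * ∑ x ∈ Y, ‖F x (p + s • tvec 0 0 1)‖ₑ ^ 2) :=
                mul_le_mul' le_rfl (h1 p)
            _ = _ := by ring
      _ = ENNReal.ofReal A * ∫⁻ s, w s * ∫⁻ p, Φ (p - s • tvec 0 0 1) * ∑ x ∈ Y, ‖F x p‖ₑ ^ 2 := by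
          rw [lintegral_const_mul' _ _ ENNReal.ofReal_ne_top,
            re_sc_shift (tvec 0 0 1) Φ (fun p => ∑ x ∈ Y, ‖F x p‖ₑ ^ 2) hΦ hHm w hw]
      _ ≤ ENNReal.ofReal A * ∫⁻ s, w s * B := by
          refine mul_le_mul' le_rfl (lintegral_mono fun s => mul_le_mul' le_rfl (hB s))
      _ = ENNReal.ofReal A * ((∫⁻ s, w s) * B) := by rw [lintegral_mul_const _ hw]
      _ ≤ ENNReal.ofReal A * (ENNReal.ofReal A * B) := mul_le_mul' le_rfl (mul_le_mul' hwA le_rfl)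
      _ = _ := by rw [hA2, mul_assoc]
  constructor
  · refine tri_Kd_le N r ℓ X F' _ (fun R hR1 hR2 x0 c => ?_) hr hℓ
    have hR0 : 0 < R := lt_of_lt_of_le (by positivity) hR1
    have hpos : 0 < ℓ ^ 3 * R ^ 3 := by positivity
    rw [mul_assoc]
    refine key _ (Finset.filter_subset _ _) _ (re_sc_tW_meas' N x0 ℓ R c) _ fun s => ?_
    have e1 : ∀ p, tW N x0 ℓ R c (p - s • tvec 0 0 1) = tW N x0 ℓ R (c + s • tvec 0 0 1) p := by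
      intro p
      unfold tW
      congr 5
      abel
    simp only [e1]
    have h2 : ENNReal.ofReal ((ℓ ^ 3 * R ^ 3)⁻¹) * ∫⁻ p, tW N x0 ℓ R (c + s • tvec 0 0 1) p * ∑ x ∈ X.filter (fun x => |x - x0| ≤ R), ‖F x p‖ₑ ^ 2
        ≤ tKd N r ℓ X F := by
      unfold tKd
      exact le_iSup_of_le R (le_iSup_of_le ⟨hR1, hR2⟩ (le_iSup_of_le x0 (le_iSup_of_le (c + s • tvec 0 0 1) le_rfl)))
    calc ∫⁻ p, tW N x0 ℓ R (c + s • tvec 0 0 1) p * ∑ x ∈ X.filter (fun x => |x - x0| ≤ R), ‖F x p‖ₑ ^ 2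
        = (ENNReal.ofReal ((ℓ ^ 3 * R ^ 3)⁻¹) * ∫⁻ p, tW N x0 ℓ R (c + s • tvec 0 0 1) p * ∑ x ∈ X.filter (fun x => |x - x0| ≤ R), ‖F x p‖ₑ ^ 2) * ENNReal.ofReal (ℓ ^ 3 * R ^ 3) := by
          rw [mul_comm (ENNReal.ofReal ((ℓ ^ 3 * R ^ 3)⁻¹)), mul_assoc, ← ENNReal.ofReal_mul (by positivity), inv_mul_cancel₀ hpos.ne',
            ENNReal.ofReal_one, mul_one]
      _ ≤ _ := mul_le_mul' h2 le_rfl
  · intro x hx
    have h3 := key {x} (by simpa using hx) (fun _ => 1) measurable_const (tE (F x)) (fun s => by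
      simp only [Finset.sum_singleton, one_mul]
      exact le_rfl)
    simpa [tE] using h3

theorem re_sc_w4_chi_bd (s : ℝ) : |secChi s| ≤ 1 := by
  unfold secChi
  have h1 := Real.smoothTransition.nonneg (3 * s - 3)
  have h2 := Real.smoothTransition.le_one (3 * s - 3)
  have h3 := Real.smoothTransition.nonneg (2 * s - 3)
  have h4 := Real.smoothTransition.le_one (2 * s - 3)
  rw [abs_le]
  constructor <;> linarith

theorem re_sc_w4_chi_cont : Continuous secChi := by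
  unfold secChi
  exact (Real.smoothTransition.continuous.comp (by fun_prop)).sub (Real.smoothTransition.continuous.comp (by fun_prop))

theorem re_sc_w4_chi_int (a : ℝ) (g : TV → ℂ) (hg : Integrable g) : Integrable fun ω : TV => (secChi (ω 2 / a) : ℂ) * g ω := by
  refine hg.bdd_mul (c := 1) ?_ ?_
  · have hc : Continuous fun ω : TV => (secChi (ω 2 / a) : ℂ) :=
      Complex.continuous_ofReal.comp (re_sc_w4_chi_cont.comp (by fun_prop))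
    exact hc.aestronglyMeasurable
  · refine Filter.Eventually.of_forall fun ω => ?_
    rw [Complex.norm_real, Real.norm_eq_abs]
    exact re_sc_w4_chi_bd _

theorem re_sc_w4_pow3 {ι : Type*} (s : Finset ι) (z : ι → ℂ) : ‖∑ j ∈ s, z j‖ₑ ^ 3 ≤ (s.card : ℝ≥0∞) ^ 2 * ∑ j ∈ s, ‖z j‖ₑ ^ 3 := by
  have h9 := ENNReal.rpow_sum_le_const_mul_sum_rpow s (fun j => ‖z j‖ₑ) (p := 3) (by norm_num)
  have e1 : ((3 : ℝ) - 1) = ((2 : ℕ) : ℝ) := by norm_num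
  have e2 : (3 : ℝ) = ((3 : ℕ) : ℝ) := by norm_num
  rw [e1, ENNReal.rpow_natCast] at h9
  simp only [e2, ENNReal.rpow_natCast] at h9
  refine le_trans ?_ h9
  gcongr
  exact enorm_sum_le _ _

theorem re_sc_w4_Kd_mono (N : ℕ) (r r' ℓ : ℝ) (hr : 0 < r) (hrr : r ≤ r') (X : Finset ℝ) (F : ℝ → TV → ℂ) : tKd N r ℓ X F ≤ tKd N r' ℓ X F := by
  unfold tKd
  refine iSup_mono fun R => iSup_const_mono fun h => ⟨le_trans ?_ h.1, h.2⟩
  have h1 : √r ≤ √r' := Real.sqrt_le_sqrt hrr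
  have h2 : 0 < √r := Real.sqrt_pos.2 hr
  exact one_div_le_one_div_of_le h2 h1

/-- **LEAF L-256-SEC-WB4 (glue): the `L³` envelope estimate on the band `[r/ℓ, 2^B r/ℓ]`.**
PLAN.  `J = 2 B + 2`, `a_j = (3/4)(r/ℓ)(3/2)^j`, `r_j = a_j ℓ ∈ [3r/4, 2^B r]` for the `j` that matter (bands with `a_j > 2^B r/ℓ` are empty: `F^j = 0`; or apply the estimate only for `j` with `a_j ≤ 2^B r/ℓ`), `r_j ≥ 3/2 ≥ 1`.
`F x = 𝓕⁻ g_x`, `F^j x = 𝓕⁻ (secChi (ω 2 / a_j) g_x)`;  `∑_j F^j x = F x` (`re_sc_chi` (2) on the support, linearity of `𝓕⁻`: `integral_finset_sum`).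
`F^j x` is `TFS` of `tPl x (2/ℓ) (4√r_j/ℓ) ((1-1/√r_j) r_j/ℓ) ((2+1/√r_j) r_j/ℓ)` (`2√r ≤ 4√r_j`), multiplicity: `1/√r_j ≤ 2/√r`.   `tri_env_dil N m ε` at `(r_j, ℓ)`;   `tKd N r_j ℓ ≤ tKd N (2^B r) ℓ` (smaller range of `R`: `iSup` monotone), `re_sc_band_K`;  `r_j^ε ≤ (2^B r)^ε`.
`‖∑_j a_j‖³ ≤ J² ∑_j ‖a_j‖³` (`ENNReal.rpow_sum_le_const_mul_sum_rpow` / `inner_le_nnorm_mul_nnorm`-free: power mean). -/
theorem re_sc_env_wide (N m B : ℕ) (ε : ℝ) (hε : 0 < ε) : ∃ C : ℝ, 0 ≤ C ∧ ∀ r ℓ : ℝ, 2 ≤ r → 0 < ℓ → ∀ (X : Finset ℝ) (F : ℝ → TV → ℂ),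
    (∀ x ∈ X, |x| ≤ 1) → (∀ y : ℝ, (X.filter fun x => |x - y| ≤ 2 / √r).card ≤ m) →
    (∀ x ∈ X, TFS (tPl x (2 / ℓ) (2 * √r / ℓ) (r / ℓ) (2 ^ B * (r / ℓ))) (F x)) →
    ∫⁻ p, ‖∑ x ∈ X, F x p‖ₑ ^ 3 ≤ ENNReal.ofReal (C * r ^ ε) * (tKd N (2 ^ B * r) ℓ X F) ^ (1 / 2 : ℝ) * ∑ x ∈ X, tE (F x) := by
  obtain ⟨C₀, hC₀, hdil⟩ := tri_env_dil N m ε hε
  obtain ⟨A, hA, hband⟩ := re_sc_band
  obtain ⟨J, hJ⟩ : ∃ J : ℕ, J = 2 * B + 2 := ⟨_, rfl⟩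
  refine ⟨(J : ℝ) ^ 2 * J * (C₀ * ((2 : ℝ) ^ B) ^ ε) * A * A ^ 2, by positivity, ?_⟩
  intro r ℓ hr hℓ X F hbd hmult hfs
  have hr0 : 0 < r := by linarith
  have hfs' : ∀ x ∈ X, ∃ g : TV → ℂ, Integrable g ∧ (∀ ω, ω ∉ tPl x (2 / ℓ) (2 * √r / ℓ) (r / ℓ) (2 ^ B * (r / ℓ)) → g ω = 0) ∧ F x = 𝓕⁻ g := hfs
  choose! g hg h0 hFg using hfs'
  obtain ⟨a, ha_def⟩ : ∃ a : ℕ → ℝ, a = fun j => 3 / 4 * (r / ℓ) * (3 / 2) ^ j := ⟨_, rfl⟩
  have ha : ∀ j, 0 < a j := fun j => by rw [ha_def]; positivity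
  obtain ⟨Fj, hFj⟩ : ∃ Fj : ℕ → ℝ → TV → ℂ, Fj = fun j x => 𝓕⁻ fun ω : TV => (secChi (ω 2 / a j) : ℂ) * g x ω := ⟨_, rfl⟩
  set K := tKd N (2 ^ B * r) ℓ X F with hK
  set E := ∑ x ∈ X, tE (F x) with hE
  -- the bands add up
  have hsum : ∀ x ∈ X, ∀ p, F x p = ∑ j ∈ Finset.range J, Fj j x p := by
    intro x hx p
    rw [hFg x hx, hFj]
    simp only [Real.fourierInv_eq]
    rw [← integral_finsetSum _ (fun j _ => tri_char_int (re_sc_w4_chi_int (a j) (g x) (hg x hx)) p)]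
    refine integral_congr_ae (Filter.Eventually.of_forall fun ω => ?_)
    beta_reduce
    rw [← Finset.smul_sum, ← Finset.sum_mul]
    by_cases hω : ω ∈ tPl x (2 / ℓ) (2 * √r / ℓ) (r / ℓ) (2 ^ B * (r / ℓ))
    · have h1 := re_sc_chi.2.1 (3 / 4 * (r / ℓ)) (ω 2) J (by positivity) (by linarith [hω.2.2.1]) (by
        refine hω.2.2.2.trans ?_
        have e1 : ((3 : ℝ) / 2) ^ J = 9 / 4 * (9 / 4) ^ B := by
          rw [hJ, pow_add, pow_mul]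
          norm_num
          ring
        have e2 : (2 : ℝ) ^ B ≤ (9 / 4) ^ B := pow_le_pow_left₀ (by norm_num) (by norm_num) B
        have e3 : 0 < r / ℓ := by positivity
        have e4 : (0 : ℝ) < (9 / 4) ^ B := by positivity
        rw [e1]
        nlinarith [mul_le_mul_of_nonneg_right e2 e3.le, mul_pos e4 e3])
      have h2 : ∑ j ∈ Finset.range J, (secChi (ω 2 / a j) : ℂ) = 1 := by
        rw [ha_def, ← Complex.ofReal_sum, h1, Complex.ofReal_one]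
      rw [h2, one_mul]
    · rw [h0 x hx ω hω, mul_zero]
  -- one band
  have hj : ∀ j ∈ Finset.range J, ∫⁻ p, ‖∑ x ∈ X, Fj j x p‖ₑ ^ 3
      ≤ ENNReal.ofReal (C₀ * (((2 : ℝ) ^ B) ^ ε * r ^ ε)) * (ENNReal.ofReal A * K ^ (1 / 2 : ℝ)) * (ENNReal.ofReal (A ^ 2) * E) := by
    intro j _
    by_cases hcase : a j ≤ 2 ^ B * (r / ℓ)
    · obtain ⟨rj, hrj⟩ : ∃ rj : ℝ, rj = a j * ℓ := ⟨_, rfl⟩
      have hrj' : rj = 3 / 4 * r * (3 / 2) ^ j := by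
        rw [hrj, ha_def]
        field_simp
      have haj : a j = rj / ℓ := by rw [hrj]; field_simp
      have hp1 : (1 : ℝ) ≤ (3 / 2) ^ j := one_le_pow₀ (by norm_num)
      have hrj1 : 1 ≤ rj := by rw [hrj']; nlinarith
      have hrj0 : 0 < rj := by linarith
      have hrj2 : rj ≤ 2 ^ B * r := by
        rw [hrj]
        calc a j * ℓ ≤ 2 ^ B * (r / ℓ) * ℓ := by gcongr
          _ = 2 ^ B * r := by field_simp
      have hrj3 : r ≤ 4 * rj := by rw [hrj']; nlinarith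
      have hsq : √r ≤ 2 * √rj := by
        calc √r ≤ √(4 * rj) := Real.sqrt_le_sqrt hrj3
          _ = 2 * √rj := by
            rw [Real.sqrt_mul (by norm_num), show (4 : ℝ) = 2 ^ 2 by norm_num, Real.sqrt_sq (by norm_num)]
      have hsr : 0 < √r := Real.sqrt_pos.2 hr0
      have hsrj : 0 < √rj := Real.sqrt_pos.2 hrj0
      obtain ⟨w, hw, hwA, hb⟩ := hband (a j) (ha j)
      have hb' : ∀ x ∈ X, TFS (tPl x (2 / ℓ) (2 * √r / ℓ) (r / ℓ) (2 ^ B * (r / ℓ)) ∩ {ω | a j ≤ ω 2 ∧ ω 2 ≤ 2 * a j}) (Fj j x) ∧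
          ∀ p : TV, ‖Fj j x p‖ₑ ^ 2 ≤ ENNReal.ofReal A * ∫⁻ s, w s * ‖F x (p + s • tvec 0 0 1)‖ₑ ^ 2 := by
        intro x hx
        have := hb _ (g x) (hg x hx) (h0 x hx)
        rw [hFj, hFg x hx]
        exact this
      have h1 := hdil rj ℓ hrj1 hℓ X (Fj j) hbd (fun y => le_trans (Finset.card_le_card ?_) (hmult y)) (fun x hx => (hb' x hx).1.mono ?_)
      · have h2 := re_sc_band_K N (2 ^ B * r) ℓ A (by positivity) hℓ hA X F (Fj j) (fun x hx => (hfs x hx).continuous) w hw hwA (fun x hx => (hb' x hx).2)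
        have h3 : tKd N rj ℓ X (Fj j) ≤ ENNReal.ofReal (A ^ 2) * K := (re_sc_w4_Kd_mono N rj _ ℓ hrj0 hrj2 X _).trans h2.1
        have h4 : ∑ x ∈ X, tE (Fj j x) ≤ ENNReal.ofReal (A ^ 2) * E := by
          rw [hE, Finset.mul_sum]
          exact Finset.sum_le_sum h2.2
        have h5 : rj ^ ε ≤ ((2 : ℝ) ^ B) ^ ε * r ^ ε := by
          rw [← Real.mul_rpow (by positivity) hr0.le]
          exact Real.rpow_le_rpow hrj0.le hrj2 hε.le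
        have h6 : (ENNReal.ofReal (A ^ 2) * K) ^ (1 / 2 : ℝ) = ENNReal.ofReal A * K ^ (1 / 2 : ℝ) := by
          rw [ENNReal.mul_rpow_of_nonneg _ _ (by norm_num), ENNReal.ofReal_rpow_of_nonneg (by positivity) (by norm_num), ← Real.sqrt_eq_rpow, Real.sqrt_sq hA]
        refine h1.trans ?_
        rw [← h6]
        gcongr
      · intro x hx
        simp only [Finset.mem_filter] at hx ⊢
        refine ⟨hx.1, hx.2.trans ?_⟩
        rw [div_le_div_iff₀ hsrj hsr]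
        linarith
      · intro ω hω
        obtain ⟨⟨q0, q1, q2, q3⟩, q4, q5⟩ := hω
        have hi : 0 ≤ 1 / √rj := by positivity
        have hrl : 0 < rj / ℓ := by positivity
        refine ⟨q0, q1.trans ?_, ?_, ?_⟩
        · gcongr ?_ / ℓ
          linarith
        · rw [← haj]
          nlinarith [ha j]
        · rw [← haj]
          nlinarith [ha j]
    · have hz : ∀ x ∈ X, ∀ p, Fj j x p = 0 := by
        intro x hx p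
        have e : (fun ω : TV => (secChi (ω 2 / a j) : ℂ) * g x ω) = fun _ => 0 := by
          funext ω
          by_cases hω : ω ∈ tPl x (2 / ℓ) (2 * √r / ℓ) (r / ℓ) (2 ^ B * (r / ℓ))
          · have h1 : secChi (ω 2 / a j) = 0 := by
              by_contra hne
              have h2 := (re_sc_chi.1 _ hne).1
              rw [le_div_iff₀ (ha j)] at h2
              exact hcase (by linarith [hω.2.2.2])
            rw [h1]
            simp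
          · rw [h0 x hx ω hω, mul_zero]
        rw [hFj]
        beta_reduce
        rw [e, Real.fourierInv_eq]
        simp
      have e : ∀ p, ‖∑ x ∈ X, Fj j x p‖ₑ ^ 3 = 0 := by
        intro p
        rw [Finset.sum_eq_zero fun x hx => hz x hx p]
        simp
      simp only [e, lintegral_zero]
      exact zero_le
  have hcont : ∀ j, Continuous fun p => ∑ x ∈ X, Fj j x p := by
    intro j
    refine continuous_finsetSum _ fun x hx => ?_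
    have : TFS Set.univ (Fj j x) := ⟨_, re_sc_w4_chi_int (a j) (g x) (hg x hx), fun ω hω => absurd (Set.mem_univ ω) hω, by rw [hFj]⟩
    exact this.continuous
  calc ∫⁻ p, ‖∑ x ∈ X, F x p‖ₑ ^ 3 = ∫⁻ p, ‖∑ j ∈ Finset.range J, ∑ x ∈ X, Fj j x p‖ₑ ^ 3 := by
        refine lintegral_congr fun p => ?_
        rw [Finset.sum_comm, Finset.sum_congr rfl fun x hx => hsum x hx p]
    _ ≤ ∫⁻ p, (J : ℝ≥0∞) ^ 2 * ∑ j ∈ Finset.range J, ‖∑ x ∈ X, Fj j x p‖ₑ ^ 3 := by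
        refine lintegral_mono fun p => ?_
        have := re_sc_w4_pow3 (Finset.range J) (fun j => ∑ x ∈ X, Fj j x p)
        rwa [Finset.card_range] at this
    _ = (J : ℝ≥0∞) ^ 2 * ∑ j ∈ Finset.range J, ∫⁻ p, ‖∑ x ∈ X, Fj j x p‖ₑ ^ 3 := by
        rw [lintegral_const_mul' _ _ (by simp), lintegral_finsetSum _ fun j _ => (hcont j).measurable.enorm.pow_const 3]
    _ ≤ (J : ℝ≥0∞) ^ 2 * ∑ j ∈ Finset.range J, (ENNReal.ofReal (C₀ * (((2 : ℝ) ^ B) ^ ε * r ^ ε)) * (ENNReal.ofReal A * K ^ (1 / 2 : ℝ)) * (ENNReal.ofReal (A ^ 2) * E)) := by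
        gcongr with j hj'
        exact hj j hj'
    _ = _ := by
        rw [Finset.sum_const, Finset.card_range, nsmul_eq_mul]
        have e : ENNReal.ofReal ((J : ℝ) ^ 2 * J * (C₀ * ((2 : ℝ) ^ B) ^ ε) * A * A ^ 2 * r ^ ε)
            = (J : ℝ≥0∞) ^ 2 * J * ENNReal.ofReal (C₀ * (((2 : ℝ) ^ B) ^ ε * r ^ ε)) * ENNReal.ofReal A * ENNReal.ofReal (A ^ 2) := by
          have hre : 0 ≤ r ^ ε := Real.rpow_nonneg hr0.le _
          have h2e : 0 ≤ ((2 : ℝ) ^ B) ^ ε := Real.rpow_nonneg (by positivity) _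
          rw [← ENNReal.ofReal_natCast, ← ENNReal.ofReal_pow (by positivity), ← ENNReal.ofReal_mul (by positivity), ← ENNReal.ofReal_mul (by positivity),
            ← ENNReal.ofReal_mul (by positivity), ← ENNReal.ofReal_mul (by positivity)]
          congr 1
          ring
        rw [e]
        ring

/-! ## 2. Superpositions of plane waves -/

/-- **LEAF L-256-SEC-VCONT.**  `continuous_of_dominated` (bound `‖g q‖`; the character is continuous in `(p, s)`; measurability in `q` from `hΘ`, `hθ`). -/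
theorem re_sc_V_cont (g : RdWvPar.Mo → ℂ) (hg : Integrable g) (Θ : RdWvPar.Mo → TV) (hΘ : Measurable Θ) (θ : RdWvPar.Mo → ℝ) (hθ : Measurable θ) :
    Continuous fun P : TV × ℝ => secV g Θ θ P.1 P.2 := by
  unfold secV
  refine continuous_of_dominated (bound := fun q => ‖g q‖) (fun P => ?_) (fun P => Filter.Eventually.of_forall fun q => ?_) hg.norm
    (Filter.Eventually.of_forall fun q => ?_)
  · have h1 : Measurable fun q : RdWvPar.Mo => ⟪Θ q, P.1⟫_ℝ + θ q * P.2 := (hΘ.inner_const).add (hθ.mul_const _)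
    have h2 : Measurable fun q : RdWvPar.Mo => ((𝐞 (⟪Θ q, P.1⟫_ℝ + θ q * P.2) : Circle) : ℂ) :=
      (continuous_subtype_val.comp Real.continuous_fourierChar).measurable.comp h1
    simp only [Circle.smul_def]
    exact h2.aestronglyMeasurable.smul hg.aestronglyMeasurable
  · rw [Circle.norm_smul]
  · have h1 : Continuous fun P : TV × ℝ => ⟪Θ q, P.1⟫_ℝ + θ q * P.2 := by fun_prop
    exact (Real.continuous_fourierChar.comp h1).smul continuous_const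

/-- **LEAF L-256-SEC-TFS: a cut off superposition of plane waves has an integrable Fourier transform.**
PLAN.  `teta ρ z = 𝓕⁻ a`, `a` integrable, `a = 0` off `closedBall 0 (1/(16ρ))` (`tri_eta_fs`).   `G ω = ∫ q, a (ω - Θ q) * (𝐞 (θ q * s) • g q)`.   Integrable: Tonelli, `∫∫ ‖a (ω - Θ q)‖ ‖g q‖ = ‖a‖₁ ‖g‖₁` (`Integrable.mul_prod` composed with the measure preserving shear `(q, ω) ↦ (q, ω - Θ q)`:
`MeasurePreserving.skew_product`/`measurePreserving_sub_right`; then `Integrable.integral_prod_right`).   `G ω ≠ 0` ⟹ some `q` with `g q ≠ 0`, `‖ω - Θ q‖ ≤ 1/(16ρ)` ⟹ `ω ∈ S`.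
`𝓕⁻ G p = ∫ q ∫ ω, 𝐞 ⟪ω, p⟫ a (ω - Θ q) ..  = ∫ q, 𝐞 ⟪Θ q, p⟫ (𝓕⁻ a p) ..` (Fubini, translation `integral_sub_right_eq_self`, `inner_add_left`). -/
theorem re_sc_tfs (g : RdWvPar.Mo → ℂ) (hg : Integrable g) (Θ : RdWvPar.Mo → TV) (hΘ : Measurable Θ) (θ : RdWvPar.Mo → ℝ) (hθ : Measurable θ) (ρ : ℝ) (hρ : 0 < ρ) (z : TV) (s : ℝ)
    (S : Set TV) (hS : ∀ q, g q ≠ 0 → ∀ ω : TV, ‖ω‖ ≤ 1 / (16 * ρ) → Θ q + ω ∈ S) :
    TFS S fun p => teta ρ z p * secV g Θ θ p s := by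
  obtain ⟨a, ha, ha0, hae⟩ := tri_eta_fs ρ hρ z
  obtain ⟨h, hh⟩ : ∃ h : RdWvPar.Mo → ℂ, h = fun q => 𝐞 (θ q * s) • g q := ⟨_, rfl⟩
  have hc : Continuous fun t : ℝ => ((𝐞 t : Circle) : ℂ) := by fun_prop
  have hhi : Integrable h := by
    rw [hh]
    have hm : Measurable fun q : RdWvPar.Mo => ((𝐞 (θ q * s) : Circle) : ℂ) := hc.measurable.comp (hθ.mul_const s)
    have h3 := hg.bdd_mul (c := 1) hm.aestronglyMeasurable (Filter.Eventually.of_forall fun z => (Circle.norm_coe _).le)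
    refine h3.congr (Filter.Eventually.of_forall fun q => ?_)
    simp only [Circle.smul_def, smul_eq_mul]
  have hmp : MeasurePreserving (fun P : RdWvPar.Mo × TV => (P.1, P.2 - Θ P.1)) (volume.prod volume) (volume.prod volume) := by
    refine MeasurePreserving.skew_product (f := id) (g := fun q ω => ω - Θ q) (MeasurePreserving.id _) ?_ (Filter.Eventually.of_forall fun q => ?_)
    · exact measurable_snd.sub (hΘ.comp measurable_fst)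
    · exact (measurePreserving_sub_right volume (Θ q)).map_eq
  have hK : Integrable (fun P : RdWvPar.Mo × TV => a (P.2 - Θ P.1) * h P.1) (volume.prod volume) := by
    have h2 : Integrable (fun P : RdWvPar.Mo × TV => h P.1 * a P.2) (volume.prod volume) := hhi.mul_prod ha
    have h3 := hmp.integrable_comp_of_integrable h2
    refine h3.congr (Filter.Eventually.of_forall fun P => ?_)
    simp only [Function.comp]
    ring
  refine ⟨fun ω => ∫ q, a (ω - Θ q) * h q, hK.integral_prod_right, fun ω hω => ?_, ?_⟩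
  · have e : ∀ q, a (ω - Θ q) * h q = 0 := by
      intro q
      by_cases hq : g q = 0
      · rw [hh]
        simp [hq]
      · have h1 : ω - Θ q ∉ Metric.closedBall (0 : TV) (1 / (16 * ρ)) := by
          intro hmem
          apply hω
          have := hS q hq (ω - Θ q) (by simpa using hmem)
          simpa using this
        rw [ha0 _ h1, zero_mul]
    simp only [e, integral_zero]
  · funext p
    rw [hae, Real.fourierInv_eq, Real.fourierInv_eq]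
    unfold secV
    have hint : Integrable (Function.uncurry fun (q : RdWvPar.Mo) (ω : TV) => 𝐞 ⟪ω, p⟫_ℝ • (a (ω - Θ q) * h q)) (volume.prod volume) := by
      have hm : Measurable fun P : RdWvPar.Mo × TV => ((𝐞 ⟪P.2, p⟫_ℝ : Circle) : ℂ) := hc.measurable.comp (measurable_snd.inner measurable_const)
      have h3 := hK.bdd_mul (c := 1) hm.aestronglyMeasurable (Filter.Eventually.of_forall fun z => (Circle.norm_coe _).le)
      refine h3.congr (Filter.Eventually.of_forall fun P => ?_)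
      simp only [Function.uncurry, Circle.smul_def, smul_eq_mul]
    symm
    calc ∫ ω, 𝐞 ⟪ω, p⟫_ℝ • ∫ q, a (ω - Θ q) * h q = ∫ ω, ∫ q, 𝐞 ⟪ω, p⟫_ℝ • (a (ω - Θ q) * h q) := by
          refine integral_congr_ae (Filter.Eventually.of_forall fun ω => ?_)
          simp only [Circle.smul_def, smul_eq_mul]
          rw [integral_const_mul]
      _ = ∫ q, ∫ ω, 𝐞 ⟪ω, p⟫_ℝ • (a (ω - Θ q) * h q) := (integral_integral_swap hint).symm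
      _ = ∫ q, (∫ ω, 𝐞 ⟪ω, p⟫_ℝ • a ω) * (𝐞 (⟪Θ q, p⟫_ℝ + θ q * s) • g q) := by
          refine integral_congr_ae (Filter.Eventually.of_forall fun q => ?_)
          have e : ∀ ω, 𝐞 ⟪ω, p⟫_ℝ • (a (ω - Θ q) * h q) = (fun ω' => 𝐞 ⟪ω', p⟫_ℝ • a ω') (ω - Θ q) * (𝐞 (⟪Θ q, p⟫_ℝ + θ q * s) • g q) := by
            intro ω
            have e1 : ⟪ω, p⟫_ℝ = ⟪ω - Θ q, p⟫_ℝ + ⟪Θ q, p⟫_ℝ := by
              rw [← inner_add_left, sub_add_cancel]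
            rw [e1, hh, AddChar.map_add_eq_mul, AddChar.map_add_eq_mul]
            simp only [Circle.smul_def, smul_eq_mul, Circle.coe_mul]
            ring
          simp only [e]
          rw [integral_mul_const, integral_sub_right_eq_self (fun ω' => 𝐞 ⟪ω', p⟫_ℝ • a ω') (Θ q)]
      _ = _ := integral_const_mul _ _

theorem re_sc_V_repro (g : RdWvPar.Mo → ℂ) (hg : Integrable g) (Θ : RdWvPar.Mo → TV) (hΘ : Measurable Θ) (θ : RdWvPar.Mo → ℝ) (hθ : Measurable θ)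
    (k : ℝ → ℂ) (hk : Integrable k) (h1 : ∀ q, g q ≠ 0 → ∫ s : ℝ, 𝐞 (θ q * s) • k s = 1) (p : TV) (s0 : ℝ) :
    secV g Θ θ p s0 = ∫ s, secV g Θ θ p (s0 + s) * k s := by
  unfold secV
  have hint : Integrable (Function.uncurry fun (s : ℝ) (q : RdWvPar.Mo) => (𝐞 (⟪Θ q, p⟫_ℝ + θ q * (s0 + s)) • g q) * k s) (volume.prod volume) := by
    have h2 : Integrable (fun z : ℝ × RdWvPar.Mo => k z.1 * g z.2) (volume.prod volume) := hk.mul_prod hg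
    have hm : Measurable fun z : ℝ × RdWvPar.Mo => ((𝐞 (⟪Θ z.2, p⟫_ℝ + θ z.2 * (s0 + z.1)) : Circle) : ℂ) := by
      have hc : Continuous fun t : ℝ => ((𝐞 t : Circle) : ℂ) := by fun_prop
      exact hc.measurable.comp ((((hΘ.comp measurable_snd).inner measurable_const)).add ((hθ.comp measurable_snd).mul (measurable_const.add measurable_fst)))
    have h3 := h2.bdd_mul (c := 1) hm.aestronglyMeasurable (Filter.Eventually.of_forall fun z => (Circle.norm_coe _).le)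
    refine h3.congr (Filter.Eventually.of_forall fun z => ?_)
    simp only [Function.uncurry, Circle.smul_def, smul_eq_mul]
    ring
  calc ∫ q, 𝐞 (⟪Θ q, p⟫_ℝ + θ q * s0) • g q = ∫ q, ∫ s, (𝐞 (⟪Θ q, p⟫_ℝ + θ q * (s0 + s)) • g q) * k s := by
        refine integral_congr_ae (Filter.Eventually.of_forall fun q => ?_)
        by_cases hq : g q ≠ 0
        · have e : ∀ s, (𝐞 (⟪Θ q, p⟫_ℝ + θ q * (s0 + s)) • g q) * k s = (𝐞 (⟪Θ q, p⟫_ℝ + θ q * s0) • g q) * (𝐞 (θ q * s) • k s) := by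
            intro s
            rw [mul_add, ← add_assoc, AddChar.map_add_eq_mul]
            simp only [Circle.smul_def, smul_eq_mul, Circle.coe_mul]
            ring
          simp only [e]
          rw [integral_const_mul, h1 q hq, mul_one]
        · simp [not_not.1 hq]
    _ = ∫ s, (∫ q, (𝐞 (⟪Θ q, p⟫_ℝ + θ q * (s0 + s)) • g q) * k s) := (integral_integral_swap hint).symm
    _ = _ := by
        refine integral_congr_ae (Filter.Eventually.of_forall fun s => ?_)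
        exact integral_mul_const _ _

/-- **LEAF L-256-SEC-BERN: Bernstein in the last variable.**
PLAN (as `tri_line`).  `Ψ` from `tri_psi_exists`, `ψ s = Bf Ψ (Bf s)`, `∫ s, 𝐞 (θ s) ψ s = 𝓕⁻ Ψ (θ / Bf) = 1` for `|θ| ≤ Bf`.   Fubini: `secV g Θ θ p s0 = ∫ s, secV g Θ θ p (s0 + s) ψ s`.   `tri_cs`;  `|ψ s| ≤ Bf C_N (1 + Bf |s|)^{-N}` (`tri_sch_decay`);  translate `s ↦ s - s0`. -/
theorem re_sc_bern (N : ℕ) : ∃ A : ℝ, 0 ≤ A ∧ ∀ (Bf : ℝ), 0 < Bf → ∀ (g : RdWvPar.Mo → ℂ), Integrable g → ∀ (Θ : RdWvPar.Mo → TV), Measurable Θ → ∀ (θ : RdWvPar.Mo → ℝ), Measurable θ →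
    (∀ q, g q ≠ 0 → |θ q| ≤ Bf) → ∀ (p : TV) (s0 : ℝ),
    ‖secV g Θ θ p s0‖ₑ ^ 2 ≤ ENNReal.ofReal (A * Bf) * ∫⁻ s : ℝ, ENNReal.ofReal ((1 + Bf * |s - s0|) ^ (-(N : ℝ))) * ‖secV g Θ θ p s‖ₑ ^ 2 := by
  obtain ⟨Ψ, hΨ⟩ := tri_psi_exists
  obtain ⟨C, hC, hdec⟩ := tri_sch_decay Ψ N
  obtain ⟨I, hI⟩ : ∃ I : ℝ, I = ∫ s, ‖Ψ s‖ := ⟨_, rfl⟩
  have hI0 : 0 ≤ I := by
    rw [hI]
    exact integral_nonneg fun _ => norm_nonneg _
  refine ⟨I * C, by positivity, fun a ha g hg Θ hΘ θ hθ hS p s0 => ?_⟩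
  obtain ⟨k, hk⟩ : ∃ k : ℝ → ℂ, k = fun s => (a : ℂ) * Ψ (a * s) := ⟨_, rfl⟩
  have hki : Integrable k := by
    rw [hk]
    exact (Ψ.integrable.comp_mul_left' ha.ne').const_mul _
  have hkn : ∫⁻ s, ‖k s‖ₑ = ENNReal.ofReal I := by
    rw [← ofReal_integral_norm_eq_lintegral_enorm hki, hk, hI]
    congr 1
    simp only [norm_mul, Complex.norm_real, Real.norm_eq_abs, abs_of_pos ha]
    rw [integral_const_mul, Measure.integral_comp_mul_left (fun s => ‖Ψ s‖) a, abs_of_pos (inv_pos.2 ha), smul_eq_mul, ← mul_assoc,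
      mul_inv_cancel₀ ha.ne', one_mul]
  have hkw : ∀ s, ‖k s‖ₑ ≤ ENNReal.ofReal (C * a) * ENNReal.ofReal ((1 + a * |s|) ^ (-(N : ℝ))) := by
    intro s
    rw [← ENNReal.ofReal_mul (by positivity), ← ofReal_norm, hk]
    refine ENNReal.ofReal_le_ofReal ?_
    have h2 := hdec (a * s)
    rw [Real.norm_eq_abs, abs_mul, abs_of_pos ha] at h2
    rw [norm_mul, Complex.norm_real, Real.norm_eq_abs, abs_of_pos ha]
    calc a * ‖Ψ (a * s)‖ ≤ a * (C * (1 + a * |s|) ^ (-(N : ℝ))) := by gcongr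
      _ = _ := by ring
  have h1 : ∀ q, g q ≠ 0 → ∫ s : ℝ, 𝐞 (θ q * s) • k s = 1 := by
    intro q hq
    have hu : |θ q / a| ≤ 1 := by
      rw [abs_div, abs_of_pos ha, div_le_one ha]
      exact hS q hq
    have h2 := hΨ _ hu
    rw [SchwartzMap.fourierInv_coe, Real.fourierInv_eq] at h2
    have e : ∀ s : ℝ, 𝐞 (θ q * s) • k s = (a : ℂ) * (fun v : ℝ => 𝐞 ⟪v, θ q / a⟫_ℝ • Ψ v) (a * s) := by
      intro s
      rw [hk]
      have h3 : ⟪a * s, θ q / a⟫_ℝ = θ q * s := by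
        simp only [RCLike.inner_apply, conj_trivial]
        field_simp
      simp only [h3, Circle.smul_def, smul_eq_mul]
      ring
    simp only [e]
    rw [integral_const_mul, Measure.integral_comp_mul_left (fun v : ℝ => 𝐞 ⟪v, θ q / a⟫_ℝ • Ψ v) a, h2, abs_of_pos (inv_pos.2 ha)]
    simp [ha.ne']
  have hVc : Continuous fun s : ℝ => secV g Θ θ p (s0 + s) := by
    have h0 := re_sc_V_cont g hg Θ hΘ θ hθ
    have h00 : Continuous fun s : ℝ => ((p, s0 + s) : TV × ℝ) := by fun_prop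
    have h01 := Continuous.comp h0 h00
    exact h01
  have hGm : Measurable fun s : ℝ => ‖secV g Θ θ p (s0 + s)‖ₑ := hVc.measurable.enorm
  have h : ‖secV g Θ θ p s0‖ₑ ^ 2 ≤ (∫⁻ s, ‖k s‖ₑ) * ∫⁻ s, ‖secV g Θ θ p (s0 + s)‖ₑ ^ 2 * ‖k s‖ₑ := by
    refine le_trans ?_ (tri_cs volume _ _ hGm.aemeasurable hki.1.aemeasurable.enorm)
    gcongr
    conv_lhs => rw [re_sc_V_repro g hg Θ hΘ θ hθ k hki h1 p s0]
    refine (enorm_integral_le_lintegral_enorm _).trans (le_of_eq ?_)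
    simp only [enorm_mul]
  rw [hkn] at h
  refine h.trans ?_
  rw [mul_assoc I C a, ENNReal.ofReal_mul hI0, mul_assoc]
  refine mul_le_mul' le_rfl ?_
  rw [← lintegral_const_mul' _ _ ENNReal.ofReal_ne_top,
    ← lintegral_add_left_eq_self (fun s => ENNReal.ofReal (C * a) * (ENNReal.ofReal ((1 + a * |s - s0|) ^ (-(N : ℝ))) * ‖secV g Θ θ p s‖ₑ ^ 2)) s0]
  refine lintegral_mono fun s => ?_
  simp only [add_sub_cancel_left]
  calc ‖secV g Θ θ p (s0 + s)‖ₑ ^ 2 * ‖k s‖ₑ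
      ≤ ‖secV g Θ θ p (s0 + s)‖ₑ ^ 2 * (ENNReal.ofReal (C * a) * ENNReal.ofReal ((1 + a * |s|) ^ (-(N : ℝ)))) := mul_le_mul' le_rfl (hkw s)
    _ = _ := by ring

/-- **LEAF L-256-SEC-PLBALL.**  `|tl0 x ω| ≤ (1 + |x| + x²) max|ω i| ≤ 3 ‖ω‖`, `|tl1 x ω| ≤ 3 ‖ω‖`, `|ω 2| ≤ ‖ω‖` (`PiLp.norm_apply_le`/`EuclideanSpace.norm_eq`);  `tl0`, `tl1` additive;  `3/16 ≤ 1 ≤ √r`, `1/16 ≤ r`. -/
theorem re_sc_pl_ball (x r ℓ : ℝ) (B : ℕ) (hB : 1 ≤ B) (hx : |x| ≤ 1) (hr : 1 ≤ r) (hℓ : 0 < ℓ) (ω ω' : TV)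
    (h : ω ∈ tPl x (1 / ℓ) (√r / ℓ) (2 * (r / ℓ)) (2 ^ (B - 1) * (r / ℓ))) (h' : ‖ω'‖ ≤ 1 / (16 * ℓ)) :
    ω + ω' ∈ tPl x (2 / ℓ) (2 * √r / ℓ) (r / ℓ) (2 ^ B * (r / ℓ)) := by
  obtain ⟨h1, h2, h3, h4⟩ := h
  have n0 : |ω' 0| ≤ ‖ω'‖ := by simpa using PiLp.norm_apply_le ω' 0
  have n1 : |ω' 1| ≤ ‖ω'‖ := by simpa using PiLp.norm_apply_le ω' 1
  have n2 : |ω' 2| ≤ ‖ω'‖ := by simpa using PiLp.norm_apply_le ω' 2
  have hn : 0 ≤ ‖ω'‖ := norm_nonneg _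
  have hx2 : x ^ 2 ≤ 1 := by
    have := sq_le_sq' (abs_le.1 hx).1 (abs_le.1 hx).2
    simpa using this
  have hL : 1 / (16 * ℓ) = 1 / 16 * (1 / ℓ) := by
    field_simp
  have hl0 : 0 < 1 / ℓ := by positivity
  have hsr : 1 ≤ √r := by
    rw [Real.one_le_sqrt]
    exact hr
  have e0 : |tl0 x ω'| ≤ 3 * ‖ω'‖ := by
    unfold tl0
    have a1 : |x * ω' 1| ≤ ‖ω'‖ := by
      rw [abs_mul]
      nlinarith [abs_nonneg x, abs_nonneg (ω' 1)]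
    have a2 : |x ^ 2 * ω' 2| ≤ ‖ω'‖ := by
      rw [abs_mul, abs_of_nonneg (sq_nonneg x)]
      nlinarith [sq_nonneg x, abs_nonneg (ω' 2)]
    calc _ ≤ |ω' 0 + x * ω' 1| + |x ^ 2 * ω' 2| := abs_add_le _ _
      _ ≤ |ω' 0| + |x * ω' 1| + |x ^ 2 * ω' 2| := by
          gcongr
          exact abs_add_le _ _
      _ ≤ _ := by linarith
  have e1 : |tl1 x ω'| ≤ 3 * ‖ω'‖ := by
    unfold tl1
    have a2 : |2 * x * ω' 2| ≤ 2 * ‖ω'‖ := by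
      rw [abs_mul, abs_mul]
      simp only [abs_two]
      nlinarith [abs_nonneg x, abs_nonneg (ω' 2)]
    calc _ ≤ |ω' 1| + |2 * x * ω' 2| := abs_add_le _ _
      _ ≤ _ := by linarith
  have s0 : tl0 x (ω + ω') = tl0 x ω + tl0 x ω' := by
    simp only [tl0, PiLp.add_apply]
    ring
  have s1 : tl1 x (ω + ω') = tl1 x ω + tl1 x ω' := by
    simp only [tl1, PiLp.add_apply]
    ring
  have s2 : (ω + ω') 2 = ω 2 + ω' 2 := by simp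
  have d1 : (2 : ℝ) / ℓ = 2 * (1 / ℓ) := by ring
  have d2 : 2 * √r / ℓ = 2 * √r * (1 / ℓ) := by ring
  have d3 : √r / ℓ = √r * (1 / ℓ) := by ring
  have d4 : r / ℓ = r * (1 / ℓ) := by ring
  rw [hL] at h'
  obtain ⟨m1, m2⟩ := abs_le.1 n2
  refine ⟨?_, ?_, ?_, ?_⟩
  · rw [s0, d1]
    calc _ ≤ |tl0 x ω| + |tl0 x ω'| := abs_add_le _ _
      _ ≤ _ := by linarith
  · rw [s1, d2]
    rw [d3] at h2
    calc _ ≤ |tl1 x ω| + |tl1 x ω'| := abs_add_le _ _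
      _ ≤ √r * (1 / ℓ) + 3 * (1 / 16 * (1 / ℓ)) := by linarith
      _ ≤ _ := by nlinarith
  · rw [s2]
    rw [d4] at h3 ⊢
    have : 1 * (1 / ℓ) ≤ r * (1 / ℓ) := mul_le_mul_of_nonneg_right hr hl0.le
    linarith
  · rw [s2]
    rw [d4] at h4 ⊢
    obtain ⟨B', rfl⟩ : ∃ B', B = B' + 1 := ⟨B - 1, by omega⟩
    simp only [Nat.add_sub_cancel] at h4
    have hp : (1 : ℝ) ≤ 2 ^ B' := one_le_pow₀ (by norm_num)
    rw [pow_succ]
    have h5 : 1 * (1 / ℓ) ≤ r * (1 / ℓ) := mul_le_mul_of_nonneg_right hr hl0.le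
    have h6 : 1 * (r * (1 / ℓ)) ≤ 2 ^ B' * (r * (1 / ℓ)) := mul_le_mul_of_nonneg_right hp (by positivity)
    linarith

theorem re_sc_slab_pt (N3 : ℕ) (Bf C₂ A : ℝ) (Y : Finset ℝ) (g : ℝ → RdWvPar.Mo → ℂ) (Θ : RdWvPar.Mo → TV) (θ : RdWvPar.Mo → ℝ) (hΘ : Measurable Θ) (hθ : Measurable θ)
    (hg : ∀ x ∈ Y, Integrable (g x)) (p : TV) (s0 : ℝ) (a b t : ℝ≥0∞) (ha : a ≠ ∞) (hb : b ≠ ∞) (ht : t ≤ ENNReal.ofReal C₂ * b)
    (hbern : ∀ x ∈ Y, ‖secV (g x) Θ θ p s0‖ₑ ^ 2 ≤ ENNReal.ofReal (A * Bf) * ∫⁻ s : ℝ, ENNReal.ofReal ((1 + Bf * |s - s0|) ^ (-(N3 : ℝ))) * ‖secV (g x) Θ θ p s‖ₑ ^ 2) :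
    a * ∑ x ∈ Y, t * ‖secV (g x) Θ θ p s0‖ₑ ^ 2 ≤ ENNReal.ofReal C₂ * ENNReal.ofReal (A * Bf) *
      ∫⁻ s : ℝ, a * b * ENNReal.ofReal ((1 + Bf * |s - s0|) ^ (-(N3 : ℝ))) * ∑ x ∈ Y, ‖secV (g x) Θ θ p s‖ₑ ^ 2 := by
  have hm : ∀ x ∈ Y, Measurable fun s : ℝ => ENNReal.ofReal ((1 + Bf * |s - s0|) ^ (-(N3 : ℝ))) * ‖secV (g x) Θ θ p s‖ₑ ^ 2 := by
    intro x hx
    have hc0 := re_sc_V_cont (g x) (hg x hx) Θ hΘ θ hθ
    have hc3 : Continuous fun s : ℝ => ((p, s) : TV × ℝ) := Continuous.prodMk_right p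
    have hc1 : Continuous fun s : ℝ => secV (g x) Θ θ p s := by
      have := hc0.comp hc3
      simpa only [Function.comp_def] using this
    have hc2 : Measurable fun s : ℝ => (1 + Bf * |s - s0|) ^ (-(N3 : ℝ)) := by
      have : Continuous fun s : ℝ => 1 + Bf * |s - s0| := by fun_prop
      exact this.measurable.pow_const _
    exact hc2.ennreal_ofReal.mul (hc1.measurable.enorm.pow_const 2)
  have e1 : ∫⁻ s : ℝ, a * b * ENNReal.ofReal ((1 + Bf * |s - s0|) ^ (-(N3 : ℝ))) * ∑ x ∈ Y, ‖secV (g x) Θ θ p s‖ₑ ^ 2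
      = a * b * ∑ x ∈ Y, ∫⁻ s : ℝ, ENNReal.ofReal ((1 + Bf * |s - s0|) ^ (-(N3 : ℝ))) * ‖secV (g x) Θ θ p s‖ₑ ^ 2 := by
    rw [← lintegral_finsetSum _ hm, ← lintegral_const_mul' _ _ (ENNReal.mul_ne_top ha hb)]
    refine lintegral_congr fun s => ?_
    rw [Finset.mul_sum, Finset.mul_sum]
    exact Finset.sum_congr rfl fun x _ => by ring
  rw [e1]
  calc a * ∑ x ∈ Y, t * ‖secV (g x) Θ θ p s0‖ₑ ^ 2
      ≤ a * ∑ x ∈ Y, (ENNReal.ofReal C₂ * b) * (ENNReal.ofReal (A * Bf) *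
          ∫⁻ s : ℝ, ENNReal.ofReal ((1 + Bf * |s - s0|) ^ (-(N3 : ℝ))) * ‖secV (g x) Θ θ p s‖ₑ ^ 2) :=
        mul_le_mul' le_rfl (Finset.sum_le_sum fun x hx => mul_le_mul' ht (hbern x hx))
    _ = _ := by
        rw [Finset.mul_sum, Finset.mul_sum, Finset.mul_sum]
        exact Finset.sum_congr rfl fun x _ => by ring

theorem re_sc_slab_Kd (N N2 N3 B : ℕ) (C₂ A : ℝ) (hC₂ : 0 ≤ C₂) (hA : 0 ≤ A)
    (hdec : ∀ (ρ : ℝ), 0 < ρ → ∀ z p : TV, ‖teta ρ z p‖ₑ ^ 2 ≤ ENNReal.ofReal C₂ * tWt N2 ρ z p)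
    (hbern : ∀ (Bf : ℝ), 0 < Bf → ∀ (g : RdWvPar.Mo → ℂ), Integrable g → ∀ (Θ : RdWvPar.Mo → TV), Measurable Θ → ∀ (θ : RdWvPar.Mo → ℝ), Measurable θ →
      (∀ q, g q ≠ 0 → |θ q| ≤ Bf) → ∀ (p : TV) (s0 : ℝ),
      ‖secV g Θ θ p s0‖ₑ ^ 2 ≤ ENNReal.ofReal (A * Bf) * ∫⁻ s : ℝ, ENNReal.ofReal ((1 + Bf * |s - s0|) ^ (-(N3 : ℝ))) * ‖secV g Θ θ p s‖ₑ ^ 2)
    (r ℓ Bf : ℝ) (hr : 0 < r) (hℓ : 0 < ℓ) (hBf : 0 < Bf)
    (X : Finset ℝ) (g : ℝ → RdWvPar.Mo → ℂ) (Θ : RdWvPar.Mo → TV) (θ : RdWvPar.Mo → ℝ) (hΘ : Measurable Θ) (hθ : Measurable θ) (hg : ∀ x ∈ X, Integrable (g x))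
    (hsupp : ∀ x ∈ X, ∀ q, g x q ≠ 0 → |θ q| ≤ Bf) (c : TV) (s0 : ℝ) (K : ℝ≥0∞)
    (hK : ∀ R : ℝ, 1 / √(2 ^ B * r) ≤ R → R ≤ 1 → ∀ (x0 : ℝ) (c' : TV),
      ∫⁻ p : TV, ∫⁻ s : ℝ, tW N x0 ℓ R c' p * tWt N2 ℓ c p * ENNReal.ofReal ((1 + Bf * |s - s0|) ^ (-(N3 : ℝ))) * ∑ x ∈ X.filter (fun x => |x - x0| ≤ R), ‖secV (g x) Θ θ p s‖ₑ ^ 2
        ≤ K * ENNReal.ofReal (ℓ ^ 3 * R ^ 3 / Bf)) :
    tKd N (2 ^ B * r) ℓ X (fun x p => teta ℓ c p * secV (g x) Θ θ p s0) ≤ ENNReal.ofReal (C₂ * A) * K := by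
  refine tri_Kd_le N (2 ^ B * r) ℓ X _ _ ?_ (by positivity) hℓ
  intro R hR0 hR1 x0 c'
  have hRpos : 0 < R := lt_of_lt_of_le (by positivity) hR0
  obtain ⟨Y, hY⟩ : ∃ Y : Finset ℝ, Y = X.filter (fun x => |x - x0| ≤ R) := ⟨_, rfl⟩
  have hK' := hK R hR0 hR1 x0 c'
  rw [← hY] at hK' ⊢
  have hYX : ∀ x ∈ Y, x ∈ X := fun x hx => by
    rw [hY] at hx
    exact (Finset.mem_filter.1 hx).1
  have hpt : ∀ p : TV, tW N x0 ℓ R c' p * ∑ x ∈ Y, ‖teta ℓ c p * secV (g x) Θ θ p s0‖ₑ ^ 2 ≤ ENNReal.ofReal C₂ * ENNReal.ofReal (A * Bf) *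
      ∫⁻ s : ℝ, tW N x0 ℓ R c' p * tWt N2 ℓ c p * ENNReal.ofReal ((1 + Bf * |s - s0|) ^ (-(N3 : ℝ))) * ∑ x ∈ Y, ‖secV (g x) Θ θ p s‖ₑ ^ 2 := by
    intro p
    have h := re_sc_slab_pt N3 Bf C₂ A Y g Θ θ hΘ hθ (fun x hx => hg x (hYX x hx)) p s0 (tW N x0 ℓ R c' p) (tWt N2 ℓ c p) (‖teta ℓ c p‖ₑ ^ 2)
      ENNReal.ofReal_ne_top ENNReal.ofReal_ne_top (hdec ℓ hℓ c p)
      (fun x hx => hbern Bf hBf (g x) (hg x (hYX x hx)) Θ hΘ θ hθ (hsupp x (hYX x hx)) p s0)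
    simp only [enorm_mul, mul_pow]
    exact h
  calc ∫⁻ p, tW N x0 ℓ R c' p * ∑ x ∈ Y, ‖teta ℓ c p * secV (g x) Θ θ p s0‖ₑ ^ 2
      ≤ ∫⁻ p, ENNReal.ofReal C₂ * ENNReal.ofReal (A * Bf) *
        ∫⁻ s : ℝ, tW N x0 ℓ R c' p * tWt N2 ℓ c p * ENNReal.ofReal ((1 + Bf * |s - s0|) ^ (-(N3 : ℝ))) * ∑ x ∈ Y, ‖secV (g x) Θ θ p s‖ₑ ^ 2 := lintegral_mono hpt
    _ = ENNReal.ofReal C₂ * ENNReal.ofReal (A * Bf) * ∫⁻ p,
        ∫⁻ s : ℝ, tW N x0 ℓ R c' p * tWt N2 ℓ c p * ENNReal.ofReal ((1 + Bf * |s - s0|) ^ (-(N3 : ℝ))) * ∑ x ∈ Y, ‖secV (g x) Θ θ p s‖ₑ ^ 2 :=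
        lintegral_const_mul' _ _ (ENNReal.mul_ne_top ENNReal.ofReal_ne_top ENNReal.ofReal_ne_top)
    _ ≤ ENNReal.ofReal C₂ * ENNReal.ofReal (A * Bf) * (K * ENNReal.ofReal (ℓ ^ 3 * R ^ 3 / Bf)) := mul_le_mul' le_rfl hK'
    _ = ENNReal.ofReal (C₂ * A) * K * ENNReal.ofReal (ℓ ^ 3 * R ^ 3) := by
        have e : ENNReal.ofReal C₂ * ENNReal.ofReal (A * Bf) * ENNReal.ofReal (ℓ ^ 3 * R ^ 3 / Bf) = ENNReal.ofReal (C₂ * A) * ENNReal.ofReal (ℓ ^ 3 * R ^ 3) := by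
          rw [← ENNReal.ofReal_mul hC₂, ← ENNReal.ofReal_mul (by positivity), ← ENNReal.ofReal_mul (by positivity)]
          congr 1
          field_simp
        calc ENNReal.ofReal C₂ * ENNReal.ofReal (A * Bf) * (K * ENNReal.ofReal (ℓ ^ 3 * R ^ 3 / Bf))
            = (ENNReal.ofReal C₂ * ENNReal.ofReal (A * Bf) * ENNReal.ofReal (ℓ ^ 3 * R ^ 3 / Bf)) * K := by ring
          _ = _ := by rw [e]; ring

/-- **LEAF L-256-SEC-SLAB (glue): the slab theorem.**   `Θ q` in the (shrunk) plank of `x`, `|θ q| ≤ Bf` on the support of `g x`;   `K` = density of the pieces on the 4-dimensional tiles `ℓ × ℓR × ℓR² × 1/Bf`, weighted by the cutoff at `c`.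
PLAN.  `F x p = teta ℓ c p * secV (g x) Θ θ p s0`.   `re_sc_tfs` + `re_sc_pl_ball`: `TFS` of the full plank.   `re_sc_env_wide N m B ε`.   `tKd` by `tri_Kd_le` (with `2^B r` in place of `r`):
`‖F x p‖² = ‖teta‖² ‖secV‖² ≤ C₁ tWt N2 ℓ c p · A Bf ∫ (1 + Bf|s - s0|)^{-N3} ‖secV (g x) Θ θ p s‖² ds` (`tri_eta_decay N2`, `re_sc_bern N3`);  pull out constants and the finite sum (`lintegral_finset_sum`, `lintegral_const_mul`; measurability: `re_sc_V_cont`, `tW`, `tWt` continuous in `p`);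
`A Bf · K ℓ³R³/Bf = A K ℓ³ R³`.   `(C₁ A K)^{1/2} = (C₁A)^{1/2} K^{1/2}` (`ENNReal.mul_rpow_of_nonneg`). -/
theorem re_sc_slab (N N2 N3 m B : ℕ) (hB : 1 ≤ B) (ε : ℝ) (hε : 0 < ε) : ∃ C : ℝ, 0 ≤ C ∧ ∀ (r ℓ Bf : ℝ), 2 ≤ r → 0 < ℓ → 0 < Bf →
    ∀ (X : Finset ℝ) (g : ℝ → RdWvPar.Mo → ℂ) (Θ : RdWvPar.Mo → TV) (θ : RdWvPar.Mo → ℝ), Measurable Θ → Measurable θ → (∀ x ∈ X, Integrable (g x)) →
    (∀ x ∈ X, |x| ≤ 1) → (∀ y : ℝ, (X.filter fun x => |x - y| ≤ 2 / √r).card ≤ m) →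
    (∀ x ∈ X, ∀ q, g x q ≠ 0 → Θ q ∈ tPl x (1 / ℓ) (√r / ℓ) (2 * (r / ℓ)) (2 ^ (B - 1) * (r / ℓ)) ∧ |θ q| ≤ Bf) →
    ∀ (c : TV) (s0 : ℝ) (K : ℝ≥0∞),
    (∀ R : ℝ, 1 / √(2 ^ B * r) ≤ R → R ≤ 1 → ∀ (x0 : ℝ) (c' : TV),
      ∫⁻ p : TV, ∫⁻ s : ℝ, tW N x0 ℓ R c' p * tWt N2 ℓ c p * ENNReal.ofReal ((1 + Bf * |s - s0|) ^ (-(N3 : ℝ))) * ∑ x ∈ X.filter (fun x => |x - x0| ≤ R), ‖secV (g x) Θ θ p s‖ₑ ^ 2
        ≤ K * ENNReal.ofReal (ℓ ^ 3 * R ^ 3 / Bf)) →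
    ∫⁻ p, ‖teta ℓ c p * ∑ x ∈ X, secV (g x) Θ θ p s0‖ₑ ^ 3
      ≤ ENNReal.ofReal (C * r ^ ε) * K ^ (1 / 2 : ℝ) * ∑ x ∈ X, ∫⁻ p, ‖teta ℓ c p * secV (g x) Θ θ p s0‖ₑ ^ 2 := by
  obtain ⟨C₁, hC₁, hwide⟩ := re_sc_env_wide N m B ε hε
  obtain ⟨C₂, hC₂, hdec⟩ := tri_eta_decay N2
  obtain ⟨A, hA, hbern⟩ := re_sc_bern N3
  refine ⟨C₁ * √(C₂ * A), by positivity, ?_⟩
  intro r ℓ Bf hr hℓ hBf X g Θ θ hΘ hθ hg hbd hmult hsupp c s0 K hK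
  have hr0 : 0 < r := by linarith
  have hKd := re_sc_slab_Kd N N2 N3 B C₂ A hC₂ hA hdec hbern r ℓ Bf hr0 hℓ hBf X g Θ θ hΘ hθ hg (fun x hx q hq => (hsupp x hx q hq).2) c s0 K hK
  have hfs : ∀ x ∈ X, TFS (tPl x (2 / ℓ) (2 * √r / ℓ) (r / ℓ) (2 ^ B * (r / ℓ))) (fun p => teta ℓ c p * secV (g x) Θ θ p s0) := by
    intro x hx
    exact re_sc_tfs (g x) (hg x hx) Θ hΘ θ hθ ℓ hℓ c s0 _ fun q hq ω hω =>
      re_sc_pl_ball x r ℓ B hB (hbd x hx) (by linarith) hℓ (Θ q) ω (hsupp x hx q hq).1 hω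
  have h1 := hwide r ℓ hr hℓ X (fun x p => teta ℓ c p * secV (g x) Θ θ p s0) hbd hmult hfs
  have e1 : ∀ p, teta ℓ c p * ∑ x ∈ X, secV (g x) Θ θ p s0 = ∑ x ∈ X, teta ℓ c p * secV (g x) Θ θ p s0 := fun p => Finset.mul_sum _ _ _
  simp only [e1]
  refine h1.trans ?_
  have e3 : (ENNReal.ofReal (C₂ * A) * K) ^ (1 / 2 : ℝ) = ENNReal.ofReal (√(C₂ * A)) * K ^ (1 / 2 : ℝ) := by
    rw [ENNReal.mul_rpow_of_nonneg _ _ (by norm_num), ENNReal.ofReal_rpow_of_nonneg (by positivity) (by norm_num), ← Real.sqrt_eq_rpow]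
  have e4 : ENNReal.ofReal (C₁ * √(C₂ * A) * r ^ ε) * K ^ (1 / 2 : ℝ) = ENNReal.ofReal (C₁ * r ^ ε) * (ENNReal.ofReal (C₂ * A) * K) ^ (1 / 2 : ℝ) := by
    have hre : 0 ≤ r ^ ε := Real.rpow_nonneg hr0.le _
    rw [e3, ← mul_assoc, ← ENNReal.ofReal_mul (by positivity)]
    congr 2
    ring
  rw [e4]
  exact mul_le_mul' (mul_le_mul' le_rfl (ENNReal.rpow_le_rpow hKd (by norm_num))) le_rfl

/-! ## 3. Averaging over the cutoffs -/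

theorem re_sc_cube_vol (ℓ : ℝ) (hℓ : 0 < ℓ) (p : TV) :
    MeasurableSet {c : TV | ∀ i, |p i - c i| ≤ ℓ / 2} ∧ volume {c : TV | ∀ i, |p i - c i| ≤ ℓ / 2} = ENNReal.ofReal (ℓ ^ 3) := by
  have h1 : MeasurePreserving (@WithLp.ofLp 2 (Fin 3 → ℝ)) volume volume := PiLp.volume_preserving_ofLp (Fin 3)
  have e : {c : TV | ∀ i, |p i - c i| ≤ ℓ / 2} = (@WithLp.ofLp 2 (Fin 3 → ℝ)) ⁻¹' Set.Icc (fun i => p i - ℓ / 2) (fun i => p i + ℓ / 2) := by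
    ext c
    simp only [Set.mem_ofPred_eq, Set.mem_preimage, Set.mem_Icc, Pi.le_def, abs_le]
    constructor
    · intro h
      exact ⟨fun i => by have := h i; linarith [this.1, this.2], fun i => by have := h i; linarith [this.1, this.2]⟩
    · intro h i
      exact ⟨by linarith [h.2 i], by linarith [h.1 i]⟩
  rw [e]
  refine ⟨h1.measurable measurableSet_Icc, ?_⟩
  rw [h1.measure_preimage measurableSet_Icc.nullMeasurableSet, Real.volume_Icc_pi]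
  simp only [Fin.prod_univ_three]
  have e2 : ∀ i : Fin 3, p i + ℓ / 2 - (p i - ℓ / 2) = ℓ := fun i => by ring
  simp only [e2]
  rw [← ENNReal.ofReal_mul hℓ.le, ← ENNReal.ofReal_mul (by positivity)]
  congr 1
  ring

/-- **LEAF L-256-SEC-CUBE.**  `{c | ∀ i, |p i - c i| ≤ ℓ/2}` has volume `ℓ³` (`EuclideanSpace.volume_preserving_measurableEquiv`, `Real.volume_pi_Icc`/`Real.volume_Icc_pi`);  on it `1 ≤ ‖teta ℓ c p‖` (`tri_eta_ge`) and `|c 0 + b c 2 - (p 0 + b p 2)| ≤ (1 + b) ℓ / 2 ≤ 1`. -/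
theorem re_sc_cube (ℓ b a : ℝ) (hℓ : 0 < ℓ) (hb : 0 ≤ b) (hbℓ : (1 + b) * ℓ ≤ 1) (p : TV) (hp : 0 ≤ p 0 + b * p 2 + a ∧ p 0 + b * p 2 + a ≤ 1) :
    ENNReal.ofReal (ℓ ^ 3) ≤ ∫⁻ c : TV, ({c : TV | -1 ≤ c 0 + b * c 2 + a ∧ c 0 + b * c 2 + a ≤ 2}.indicator 1 c) * ‖teta ℓ c p‖ₑ ^ 3 := by
  obtain ⟨hm, hv⟩ := re_sc_cube_vol ℓ hℓ p
  rw [← hv, ← lintegral_indicator_one hm]
  refine lintegral_mono fun c => ?_
  by_cases hc : c ∈ {c : TV | ∀ i, |p i - c i| ≤ ℓ / 2}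
  · rw [Set.indicator_of_mem hc]
    have hc' : ∀ i, |p i - c i| ≤ ℓ / 2 := hc
    have h0 := abs_le.1 (hc' 0)
    have h2 := abs_le.1 (hc' 2)
    have hb2 : b * (ℓ / 2) ≤ (1 - ℓ) / 2 := by nlinarith
    have h3 : b * (p 2 - c 2) ≤ b * (ℓ / 2) := mul_le_mul_of_nonneg_left h2.2 hb
    have h4 : b * (-(ℓ / 2)) ≤ b * (p 2 - c 2) := mul_le_mul_of_nonneg_left h2.1 hb
    have hmem : c ∈ {c : TV | -1 ≤ c 0 + b * c 2 + a ∧ c 0 + b * c 2 + a ≤ 2} := by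
      constructor
      · nlinarith [hp.1]
      · nlinarith [hp.2]
    rw [Set.indicator_of_mem hmem]
    have h5 : 1 ≤ ‖teta ℓ c p‖ := tri_eta_ge ℓ hℓ c p hc'
    have h6 : (1 : ℝ≥0∞) ≤ ‖teta ℓ c p‖ₑ := by
      rw [← ofReal_norm]
      exact ENNReal.one_le_ofReal.2 h5
    simp only [Pi.one_apply, one_mul]
    exact one_le_pow₀ h6
  · rw [Set.indicator_of_notMem hc]
    exact zero_le

theorem re_sc_avg_fub (K : TV × (TV × ℝ) → ℝ≥0∞) (hK : Measurable K) :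
    ∫⁻ P : TV × ℝ, ∫⁻ c : TV, K (c, P) = ∫⁻ R : TV × ℝ, ∫⁻ p : TV, K (R.1, (p, R.2)) := by
  have h1 : ∫⁻ P : TV × ℝ, ∫⁻ c : TV, K (c, P) = ∫⁻ c : TV, ∫⁻ P : TV × ℝ, K (c, P) :=
    lintegral_lintegral_swap (f := fun P c => K (c, P)) (hK.comp measurable_swap).aemeasurable
  have h2 : ∀ c : TV, ∫⁻ P : TV × ℝ, K (c, P) = ∫⁻ s : ℝ, ∫⁻ p : TV, K (c, (p, s)) := fun c => by
    have hc : Measurable fun P : TV × ℝ => K (c, P) := hK.comp (measurable_const.prodMk measurable_id)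
    rw [Measure.volume_eq_prod TV ℝ, lintegral_prod_symm _ hc.aemeasurable]
  have hm : Measurable fun R : TV × ℝ => ∫⁻ p : TV, K (R.1, (p, R.2)) := by
    apply Measurable.lintegral_prod_right' (f := fun Z : (TV × ℝ) × TV => K (Z.1.1, (Z.2, Z.1.2)))
    exact hK.comp (by fun_prop)
  rw [h1, Measure.volume_eq_prod TV ℝ, lintegral_prod _ hm.aemeasurable]
  exact lintegral_congr h2

theorem re_sc_avg_Km (J : TV × ℝ → ℝ≥0∞) (hJ : Measurable J) (e : TV × TV → ℂ) (he : Continuous e) (V : TV × ℝ → ℂ) (hV : Continuous V) (n : ℕ) :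
    Measurable fun Z : TV × (TV × ℝ) => J (Z.1, Z.2.2) * ‖e (Z.1, Z.2.1) * V Z.2‖ₑ ^ n := by
  have h1 : Measurable fun Z : TV × (TV × ℝ) => J (Z.1, Z.2.2) := hJ.comp (by fun_prop)
  have h2 : Continuous fun Z : TV × (TV × ℝ) => e (Z.1, Z.2.1) * V Z.2 := (he.comp (by fun_prop)).mul (hV.comp (by fun_prop))
  exact h1.mul (h2.measurable.enorm.pow_const n)

theorem re_sc_avg_mid (J : TV × ℝ → ℝ≥0∞) (hJ : Measurable J) (e : TV × TV → ℂ) (he : Continuous e) (V : TV × ℝ → ℂ) (hV : Continuous V)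
    (X : Finset ℝ) (v : ℝ → TV × ℝ → ℂ) (hv : ∀ x ∈ X, Continuous (v x)) (Y : ℝ≥0∞)
    (h : ∀ R : TV × ℝ, J R * ∫⁻ p, ‖e (R.1, p) * V (p, R.2)‖ₑ ^ 3 ≤ J R * (Y * ∑ x ∈ X, ∫⁻ p, ‖e (R.1, p) * v x (p, R.2)‖ₑ ^ 2)) :
    ∫⁻ P : TV × ℝ, ∫⁻ c : TV, J (c, P.2) * ‖e (c, P.1) * V P‖ₑ ^ 3 ≤ Y * ∑ x ∈ X, ∫⁻ P : TV × ℝ, ∫⁻ c : TV, J (c, P.2) * ‖e (c, P.1) * v x P‖ₑ ^ 2 := by
  have hK3 := re_sc_avg_Km J hJ e he V hV 3
  have hK2 : ∀ x ∈ X, Measurable fun Z : TV × (TV × ℝ) => J (Z.1, Z.2.2) * ‖e (Z.1, Z.2.1) * v x Z.2‖ₑ ^ 2 := fun x hx => re_sc_avg_Km J hJ e he (v x) (hv x hx) 2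
  have e3 := re_sc_avg_fub _ hK3
  have e2 : ∀ x ∈ X, ∫⁻ P : TV × ℝ, ∫⁻ c : TV, J (c, P.2) * ‖e (c, P.1) * v x P‖ₑ ^ 2 = ∫⁻ R : TV × ℝ, J R * ∫⁻ p : TV, ‖e (R.1, p) * v x (p, R.2)‖ₑ ^ 2 := fun x hx => by
    rw [re_sc_avg_fub _ (hK2 x hx)]
    refine lintegral_congr fun R => ?_
    have hm : Measurable fun p : TV => ‖e (R.1, p) * v x (p, R.2)‖ₑ ^ 2 :=
      ((he.comp (by fun_prop)).mul ((hv x hx).comp (by fun_prop))).measurable.enorm.pow_const 2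
    show ∫⁻ p : TV, J R * ‖e (R.1, p) * v x (p, R.2)‖ₑ ^ 2 = _
    exact lintegral_const_mul _ hm
  have hmR : ∀ x ∈ X, Measurable fun R : TV × ℝ => J R * ∫⁻ p : TV, ‖e (R.1, p) * v x (p, R.2)‖ₑ ^ 2 := fun x hx => by
    refine hJ.mul ?_
    apply Measurable.lintegral_prod_right' (f := fun Z : (TV × ℝ) × TV => ‖e (Z.1.1, Z.2) * v x (Z.2, Z.1.2)‖ₑ ^ 2)
    exact ((he.comp (by fun_prop)).mul ((hv x hx).comp (by fun_prop))).measurable.enorm.pow_const 2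
  rw [e3, Finset.sum_congr rfl e2, ← lintegral_finsetSum X hmR, ← lintegral_const_mul Y (Finset.measurable_fun_sum X hmR)]
  refine lintegral_mono fun R => ?_
  have hm : Measurable fun p : TV => ‖e (R.1, p) * V (p, R.2)‖ₑ ^ 3 :=
    ((he.comp (by fun_prop)).mul (hV.comp (by fun_prop))).measurable.enorm.pow_const 3
  calc ∫⁻ p : TV, J (R.1, R.2) * ‖e (R.1, p) * V (p, R.2)‖ₑ ^ 3 = J R * ∫⁻ p : TV, ‖e (R.1, p) * V (p, R.2)‖ₑ ^ 3 := lintegral_const_mul _ hm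
    _ ≤ J R * (Y * ∑ x ∈ X, ∫⁻ p, ‖e (R.1, p) * v x (p, R.2)‖ₑ ^ 2) := h R
    _ = Y * ∑ x ∈ X, J R * ∫⁻ p, ‖e (R.1, p) * v x (p, R.2)‖ₑ ^ 2 := by
        rw [mul_left_comm, Finset.mul_sum]


theorem re_sc_avg_eta_cont (ℓ : ℝ) : Continuous fun Q : TV × TV => teta ℓ Q.1 Q.2 := by
  unfold teta
  exact teta0.continuous.comp (by fun_prop)

theorem re_sc_avg_wint : ∃ C : ℝ, 0 ≤ C ∧ ∀ ℓ : ℝ, 0 < ℓ → ∫⁻ w : TV, ENNReal.ofReal ((1 + ‖w‖ / ℓ) ^ (-((4 : ℕ) : ℝ))) = ENNReal.ofReal (ℓ ^ 3 * C) := by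
  have hint : Integrable (fun u : TV => (1 + ‖u‖) ^ (-((4 : ℕ) : ℝ))) volume := by
    apply integrable_one_add_norm
    simp
    norm_num
  refine ⟨∫ u : TV, (1 + ‖u‖) ^ (-((4 : ℕ) : ℝ)), integral_nonneg fun u => by positivity, fun ℓ hℓ => ?_⟩
  rw [ENNReal.ofReal_mul (by positivity), ofReal_integral_eq_lintegral_ofReal hint (Filter.Eventually.of_forall fun u => by positivity),
    ← tri_dil_lint ℓ hℓ (fun u => ENNReal.ofReal ((1 + ‖u‖) ^ (-((4 : ℕ) : ℝ))))]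
  refine lintegral_congr fun w => ?_
  rw [norm_smul, Real.norm_of_nonneg (inv_nonneg.2 hℓ.le), div_eq_inv_mul]

theorem re_sc_avg_up : ∃ C : ℝ, 0 ≤ C ∧ ∀ (ℓ : ℝ), 0 < ℓ → ∀ (J : TV × ℝ → ℝ≥0∞), Measurable J → ∀ (v : TV × ℝ → ℂ), Continuous v → ∀ En : ℝ≥0∞,
    (∀ w : TV, ∫⁻ P : TV × ℝ, J (P.1 + w, P.2) * ‖v P‖ₑ ^ 2 ≤ En) →
    ∫⁻ P : TV × ℝ, ∫⁻ c : TV, J (c, P.2) * ‖teta ℓ c P.1 * v P‖ₑ ^ 2 ≤ ENNReal.ofReal (ℓ ^ 3) * (ENNReal.ofReal C * En) := by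
  obtain ⟨C1, hC1, hdec⟩ := tri_eta_decay 4
  obtain ⟨C2, hC2, hw⟩ := re_sc_avg_wint
  refine ⟨C1 * C2, by positivity, fun ℓ hℓ J hJ v hv En hEn => ?_⟩
  have hM : Measurable fun Z : (TV × ℝ) × TV => J (Z.1.1 + Z.2, Z.1.2) * ‖teta ℓ (Z.1.1 + Z.2) Z.1.1 * v Z.1‖ₑ ^ 2 := by
    have h1 : Measurable fun Z : (TV × ℝ) × TV => J (Z.1.1 + Z.2, Z.1.2) := hJ.comp (by fun_prop)
    have h2 : Continuous fun Z : (TV × ℝ) × TV => teta ℓ (Z.1.1 + Z.2) Z.1.1 * v Z.1 :=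
      ((re_sc_avg_eta_cont ℓ).comp (f := fun Z : (TV × ℝ) × TV => (Z.1.1 + Z.2, Z.1.1)) (by fun_prop)).mul (hv.comp continuous_fst)
    exact h1.mul (h2.measurable.enorm.pow_const 2)
  calc ∫⁻ P : TV × ℝ, ∫⁻ c : TV, J (c, P.2) * ‖teta ℓ c P.1 * v P‖ₑ ^ 2
      = ∫⁻ P : TV × ℝ, ∫⁻ w : TV, J (P.1 + w, P.2) * ‖teta ℓ (P.1 + w) P.1 * v P‖ₑ ^ 2 :=
        lintegral_congr fun P => (lintegral_add_left_eq_self (fun c : TV => J (c, P.2) * ‖teta ℓ c P.1 * v P‖ₑ ^ 2) P.1).symm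
    _ = ∫⁻ w : TV, ∫⁻ P : TV × ℝ, J (P.1 + w, P.2) * ‖teta ℓ (P.1 + w) P.1 * v P‖ₑ ^ 2 :=
        lintegral_lintegral_swap (f := fun (P : TV × ℝ) (w : TV) => J (P.1 + w, P.2) * ‖teta ℓ (P.1 + w) P.1 * v P‖ₑ ^ 2) hM.aemeasurable
    _ ≤ ∫⁻ w : TV, ENNReal.ofReal C1 * ENNReal.ofReal ((1 + ‖w‖ / ℓ) ^ (-((4 : ℕ) : ℝ))) * En := by
        refine lintegral_mono fun w => ?_
        calc ∫⁻ P : TV × ℝ, J (P.1 + w, P.2) * ‖teta ℓ (P.1 + w) P.1 * v P‖ₑ ^ 2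
            ≤ ∫⁻ P : TV × ℝ, ENNReal.ofReal C1 * ENNReal.ofReal ((1 + ‖w‖ / ℓ) ^ (-((4 : ℕ) : ℝ))) * (J (P.1 + w, P.2) * ‖v P‖ₑ ^ 2) := by
              refine lintegral_mono fun P => ?_
              have h1 := hdec ℓ hℓ (P.1 + w) P.1
              have h2 : tWt 4 ℓ (P.1 + w) P.1 = ENNReal.ofReal ((1 + ‖w‖ / ℓ) ^ (-((4 : ℕ) : ℝ))) := by
                unfold tWt
                rw [sub_add_cancel_left, norm_neg]
              rw [h2] at h1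
              rw [enorm_mul, mul_pow]
              calc J (P.1 + w, P.2) * (‖teta ℓ (P.1 + w) P.1‖ₑ ^ 2 * ‖v P‖ₑ ^ 2)
                  ≤ J (P.1 + w, P.2) * (ENNReal.ofReal C1 * ENNReal.ofReal ((1 + ‖w‖ / ℓ) ^ (-((4 : ℕ) : ℝ))) * ‖v P‖ₑ ^ 2) := mul_le_mul_right (mul_le_mul_left h1 _) _
                _ = _ := by ring
          _ = ENNReal.ofReal C1 * ENNReal.ofReal ((1 + ‖w‖ / ℓ) ^ (-((4 : ℕ) : ℝ))) * ∫⁻ P : TV × ℝ, J (P.1 + w, P.2) * ‖v P‖ₑ ^ 2 :=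
              lintegral_const_mul' _ _ (ENNReal.mul_ne_top ENNReal.ofReal_ne_top ENNReal.ofReal_ne_top)
          _ ≤ _ := mul_le_mul_right (hEn w) _
    _ = ENNReal.ofReal C1 * (∫⁻ w : TV, ENNReal.ofReal ((1 + ‖w‖ / ℓ) ^ (-((4 : ℕ) : ℝ)))) * En := by
        have hm : Measurable fun w : TV => ENNReal.ofReal ((1 + ‖w‖ / ℓ) ^ (-((4 : ℕ) : ℝ))) := by fun_prop
        rw [lintegral_mul_const _ (hm.const_mul _), lintegral_const_mul _ hm]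
    _ = _ := by
        rw [hw ℓ hℓ, ← mul_assoc, ← ENNReal.ofReal_mul hC1, ← ENNReal.ofReal_mul (by positivity)]
        congr 2
        ring

theorem re_sc_avg_low (bt ℓ : ℝ) (hℓ : 0 < ℓ) (hbℓ : (1 + bt ^ 2) * ℓ ≤ 1) (P : TV × ℝ) (z : ℂ) :
    ENNReal.ofReal (ℓ ^ 3) * (({P : TV × ℝ | 0 ≤ P.1 0 - 2 * bt * P.2 + bt ^ 2 * P.1 2 ∧ P.1 0 - 2 * bt * P.2 + bt ^ 2 * P.1 2 ≤ 1}.indicator 1 P) * ‖z‖ₑ ^ 3)
      ≤ ∫⁻ c : TV, ({P : TV × ℝ | -1 ≤ P.1 0 - 2 * bt * P.2 + bt ^ 2 * P.1 2 ∧ P.1 0 - 2 * bt * P.2 + bt ^ 2 * P.1 2 ≤ 2}.indicator 1 (c, P.2)) * ‖teta ℓ c P.1 * z‖ₑ ^ 3 := by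
  classical
  by_cases hP : P ∈ {P : TV × ℝ | 0 ≤ P.1 0 - 2 * bt * P.2 + bt ^ 2 * P.1 2 ∧ P.1 0 - 2 * bt * P.2 + bt ^ 2 * P.1 2 ≤ 1}
  · rw [Set.indicator_of_mem hP, Pi.one_apply, one_mul]
    have hP' : 0 ≤ P.1 0 - 2 * bt * P.2 + bt ^ 2 * P.1 2 ∧ P.1 0 - 2 * bt * P.2 + bt ^ 2 * P.1 2 ≤ 1 := hP
    have h1 := re_sc_cube ℓ (bt ^ 2) (-2 * bt * P.2) hℓ (by positivity) hbℓ P.1 ⟨by linarith [hP'.1], by linarith [hP'.2]⟩
    calc ENNReal.ofReal (ℓ ^ 3) * ‖z‖ₑ ^ 3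
        ≤ (∫⁻ c : TV, ({c : TV | -1 ≤ c 0 + bt ^ 2 * c 2 + -2 * bt * P.2 ∧ c 0 + bt ^ 2 * c 2 + -2 * bt * P.2 ≤ 2}.indicator 1 c) * ‖teta ℓ c P.1‖ₑ ^ 3) * ‖z‖ₑ ^ 3 := mul_le_mul_left h1 _
      _ = ∫⁻ c : TV, ({c : TV | -1 ≤ c 0 + bt ^ 2 * c 2 + -2 * bt * P.2 ∧ c 0 + bt ^ 2 * c 2 + -2 * bt * P.2 ≤ 2}.indicator 1 c) * ‖teta ℓ c P.1‖ₑ ^ 3 * ‖z‖ₑ ^ 3 :=
          (lintegral_mul_const' _ _ (by simp)).symm
      _ = _ := by
          refine lintegral_congr fun c => ?_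
          rw [enorm_mul, mul_pow, mul_assoc]
          congr 1
          simp only [Set.indicator, Set.mem_ofPred_eq, Pi.one_apply]
          have e : c 0 + bt ^ 2 * c 2 + -2 * bt * P.2 = c 0 - 2 * bt * P.2 + bt ^ 2 * c 2 := by ring
          rw [e]
  · rw [Set.indicator_of_notMem hP, zero_mul, mul_zero]
    exact zero_le


theorem re_sc_avg_J_meas (bt a b : ℝ) : Measurable fun R : TV × ℝ => (({P : TV × ℝ | a ≤ P.1 0 - 2 * bt * P.2 + bt ^ 2 * P.1 2 ∧ P.1 0 - 2 * bt * P.2 + bt ^ 2 * P.1 2 ≤ b}.indicator 1 R : ℝ≥0∞)) := by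
  have hf : Measurable fun P : TV × ℝ => P.1 0 - 2 * bt * P.2 + bt ^ 2 * P.1 2 := by fun_prop
  exact measurable_one.indicator ((measurableSet_le measurable_const hf).inter (measurableSet_le hf measurable_const))

theorem re_sc_avg_shift (bt : ℝ) (w : TV) (P : TV × ℝ) :
    (({P : TV × ℝ | -1 ≤ P.1 0 - 2 * bt * P.2 + bt ^ 2 * P.1 2 ∧ P.1 0 - 2 * bt * P.2 + bt ^ 2 * P.1 2 ≤ 2}.indicator 1 (P.1 + w, P.2) : ℝ≥0∞))
      = ({P : TV × ℝ | (-1 - w 0 - bt ^ 2 * w 2) ≤ P.1 0 - 2 * bt * P.2 + bt ^ 2 * P.1 2 ∧ P.1 0 - 2 * bt * P.2 + bt ^ 2 * P.1 2 ≤ (-1 - w 0 - bt ^ 2 * w 2) + 3}.indicator 1 P) := by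
  have key : ((P.1 + w, P.2) ∈ {P : TV × ℝ | -1 ≤ P.1 0 - 2 * bt * P.2 + bt ^ 2 * P.1 2 ∧ P.1 0 - 2 * bt * P.2 + bt ^ 2 * P.1 2 ≤ 2})
      ↔ P ∈ {P : TV × ℝ | (-1 - w 0 - bt ^ 2 * w 2) ≤ P.1 0 - 2 * bt * P.2 + bt ^ 2 * P.1 2 ∧ P.1 0 - 2 * bt * P.2 + bt ^ 2 * P.1 2 ≤ (-1 - w 0 - bt ^ 2 * w 2) + 3} := by
    simp only [Set.mem_ofPred_eq, PiLp.add_apply]
    exact ⟨fun h => ⟨by linarith [h.1], by linarith [h.2]⟩, fun h => ⟨by linarith [h.1], by linarith [h.2]⟩⟩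
  by_cases h : P ∈ {P : TV × ℝ | (-1 - w 0 - bt ^ 2 * w 2) ≤ P.1 0 - 2 * bt * P.2 + bt ^ 2 * P.1 2 ∧ P.1 0 - 2 * bt * P.2 + bt ^ 2 * P.1 2 ≤ (-1 - w 0 - bt ^ 2 * w 2) + 3}
  · rw [Set.indicator_of_mem h, Set.indicator_of_mem (key.2 h)]
    rfl
  · rw [Set.indicator_of_notMem h, Set.indicator_of_notMem (fun h' => h (key.1 h'))]

/-- **LEAF L-256-SEC-AVG: from the cut off slabs to the time slab `0 ≤ tm ≤ 1`.**      `tm (p, s) = p 0 - 2 bt s + bt² p 2`.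
PLAN.  LHS: for fixed `s0`, `re_sc_cube` (`b = bt²`, `a = -2 bt s0`) and Tonelli:   `ℓ³ ∫_{0 ≤ tm ≤ 1} ‖∑ v‖³ dp ≤ ∫_{c : -1 ≤ tm (c, s0) ≤ 2} ∫ ‖teta ℓ c p ∑ v‖³ dp dc`.   `hslab`.
RHS: `‖teta ℓ c p‖² ≤ C₁ tWt 4 ℓ c p` (`tri_eta_decay 4`), substitute `c = p + w`: `tWt 4 ℓ (p + w) p = tWt 4 ℓ w 0`, `tm (p + w, s0) = tm (p, s0) + w 0 + bt² w 2`; Tonelli; for fixed `w` the integral over `(p, s0)` is `hen` with `a = -1 - w 0 - bt² w 2`;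
`∫ tWt 4 ℓ w 0 dw = ℓ³ ∫ (1 + ‖w‖)^{-4} dw < ∞` (`integrable_one_add_norm`, `finrank = 3 < 4`; dilation `Measure.lintegral_comp_smul`-type as `tri_dil_lint`).   Cancel `ℓ³`.
Measurability: `hv`, `teta ℓ c p` continuous in `(c, p)` (Schwartz map composed with a continuous map). -/
theorem re_sc_avg : ∃ C : ℝ, 0 ≤ C ∧ ∀ (bt ℓ : ℝ), 0 < ℓ → (1 + bt ^ 2) * ℓ ≤ 1 → ∀ (X : Finset ℝ) (v : ℝ → TV → ℝ → ℂ), (∀ x ∈ X, Continuous fun P : TV × ℝ => v x P.1 P.2) →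
    ∀ (Y : ℝ≥0∞) (En : ℝ → ℝ≥0∞),
    (∀ (c : TV) (s0 : ℝ), -1 ≤ c 0 - 2 * bt * s0 + bt ^ 2 * c 2 → c 0 - 2 * bt * s0 + bt ^ 2 * c 2 ≤ 2 →
      ∫⁻ p, ‖teta ℓ c p * ∑ x ∈ X, v x p s0‖ₑ ^ 3 ≤ Y * ∑ x ∈ X, ∫⁻ p, ‖teta ℓ c p * v x p s0‖ₑ ^ 2) →
    (∀ x ∈ X, ∀ a : ℝ, ∫⁻ P : TV × ℝ, ({P : TV × ℝ | a ≤ P.1 0 - 2 * bt * P.2 + bt ^ 2 * P.1 2 ∧ P.1 0 - 2 * bt * P.2 + bt ^ 2 * P.1 2 ≤ a + 3}.indicator 1 P) * ‖v x P.1 P.2‖ₑ ^ 2 ≤ En x) →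
    ∫⁻ P : TV × ℝ, ({P : TV × ℝ | 0 ≤ P.1 0 - 2 * bt * P.2 + bt ^ 2 * P.1 2 ∧ P.1 0 - 2 * bt * P.2 + bt ^ 2 * P.1 2 ≤ 1}.indicator 1 P) * ‖∑ x ∈ X, v x P.1 P.2‖ₑ ^ 3
      ≤ ENNReal.ofReal C * Y * ∑ x ∈ X, En x := by
  classical
  obtain ⟨C, hC, hup⟩ := re_sc_avg_up
  refine ⟨C, hC, fun bt ℓ hℓ hbℓ X v hv Y En hslab hen => ?_⟩
  have hJ := re_sc_avg_J_meas bt (-1) 2
  have hV : Continuous fun P : TV × ℝ => ∑ x ∈ X, v x P.1 P.2 := continuous_finsetSum _ hv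
  have hmid := re_sc_avg_mid _ hJ (fun Q => teta ℓ Q.1 Q.2) (re_sc_avg_eta_cont ℓ) (fun P => ∑ x ∈ X, v x P.1 P.2) hV X (fun x P => v x P.1 P.2) hv Y (fun R => by
    by_cases hR : R ∈ {P : TV × ℝ | -1 ≤ P.1 0 - 2 * bt * P.2 + bt ^ 2 * P.1 2 ∧ P.1 0 - 2 * bt * P.2 + bt ^ 2 * P.1 2 ≤ 2}
    · exact mul_le_mul_right (hslab R.1 R.2 hR.1 hR.2) _
    · rw [Set.indicator_of_notMem hR, zero_mul, zero_mul])
  have hupx : ∀ x ∈ X, ∫⁻ P : TV × ℝ, ∫⁻ c : TV, ({P : TV × ℝ | -1 ≤ P.1 0 - 2 * bt * P.2 + bt ^ 2 * P.1 2 ∧ P.1 0 - 2 * bt * P.2 + bt ^ 2 * P.1 2 ≤ 2}.indicator 1 (c, P.2)) * ‖teta ℓ c P.1 * v x P.1 P.2‖ₑ ^ 2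
      ≤ ENNReal.ofReal (ℓ ^ 3) * (ENNReal.ofReal C * En x) := fun x hx =>
    hup ℓ hℓ _ hJ (fun P => v x P.1 P.2) (hv x hx) (En x) (fun w => by
      simp only [re_sc_avg_shift]
      exact hen x hx _)
  have hlow : ENNReal.ofReal (ℓ ^ 3) * ∫⁻ P : TV × ℝ, ({P : TV × ℝ | 0 ≤ P.1 0 - 2 * bt * P.2 + bt ^ 2 * P.1 2 ∧ P.1 0 - 2 * bt * P.2 + bt ^ 2 * P.1 2 ≤ 1}.indicator 1 P) * ‖∑ x ∈ X, v x P.1 P.2‖ₑ ^ 3
      ≤ ∫⁻ P : TV × ℝ, ∫⁻ c : TV, ({P : TV × ℝ | -1 ≤ P.1 0 - 2 * bt * P.2 + bt ^ 2 * P.1 2 ∧ P.1 0 - 2 * bt * P.2 + bt ^ 2 * P.1 2 ≤ 2}.indicator 1 (c, P.2)) * ‖teta ℓ c P.1 * ∑ x ∈ X, v x P.1 P.2‖ₑ ^ 3 := by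
    rw [← lintegral_const_mul' _ _ ENNReal.ofReal_ne_top]
    exact lintegral_mono fun P => re_sc_avg_low bt ℓ hℓ hbℓ P _
  have hfin : ENNReal.ofReal (ℓ ^ 3) * ∫⁻ P : TV × ℝ, ({P : TV × ℝ | 0 ≤ P.1 0 - 2 * bt * P.2 + bt ^ 2 * P.1 2 ∧ P.1 0 - 2 * bt * P.2 + bt ^ 2 * P.1 2 ≤ 1}.indicator 1 P) * ‖∑ x ∈ X, v x P.1 P.2‖ₑ ^ 3
      ≤ ENNReal.ofReal (ℓ ^ 3) * (ENNReal.ofReal C * Y * ∑ x ∈ X, En x) := by
    refine hlow.trans (hmid.trans ((mul_le_mul_right (Finset.sum_le_sum hupx) _).trans (le_of_eq ?_)))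
    rw [← Finset.mul_sum, ← Finset.mul_sum]
    ring
  exact (ENNReal.mul_le_mul_iff_right (by simpa using pow_pos hℓ 3) ENNReal.ofReal_ne_top).1 hfin

end Claimed.Agent.R256
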