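import Claimed.Agent.R256.Re.SpaSup
import Claimed.Agent.R256.Re.Contract

/-!
# Row 256, unit RE, block PLANE-A, file 5: READOUT, (tiny-cap), (space-3)            (architect helper213)            CONTRACT
**EXITS:**   `re_sp_planeA (η) : RePlaneA η`   (discharges `re_planeA` of `Re/Contract.lean`; exponent `C0 = 6`)      and      `re_sp_readout` = (space-3) for PLANE-B (exact, no error term).
Notation: `ℓ₀ = rdLen E.k0`, `ℓ_f = rdLen E.kf = ℓ₀ Δ`, `Δ = E.s = 2^-n`, `T₀ = tmL E.k0 E.i0`, `T_i = tmL E.kf i`, `W_i = p.row T_i E.kf E.bT v`, `ρ_f = p.rw E.kf`, `r = φ.r`, `h = H/(ℓ₀ r²) ∈ [Δ/Kp, Kp Δ]`.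
ARITHMETIC of (tiny-cap):   `d₀² = H/ℓ₀ = h r²`, spectrum radius² `Kp² r² Δ ≤ Kp³ d₀² ≤ (Kp² d₀)²`: `Λ = Kp²`;   `re_sp_sup`: `‖u_t‖² ≤ C₁ Kp⁸ κ/ℓ₀³`;   `re_sp_wsup`: `‖W‖² ≤ C₂² C₁ Kp⁸ κ/ℓ₀³ =: B²`;
 `m_l ≤ B² ρ_f(cell_l) ≤ B² 32 ℓ_f⁴ r_l⁶/H`;   `w_l = r_l⁴ f_l^{1-η} ≥ r_l⁴/Kp`;   `r_l² ≤ Kp² r²`, `r²/H ≤ Kp/(ℓ₀Δ)`, `ℓ_f⁴/(ℓ₀Δ) = ℓ₀³Δ³`:   `m_l ≤ R w_l`, `R = 32 C₂² C₁ Kp¹² κ Δ³`;
 `∑ m_l^{3/2}/√w_l ≤ √R ∑ m_l ≤ √R 2^n e`;   `val = Δ^{-1/2}/(e√κ) · .. ≤ (32 C₂² C₁)^{1/2} Kp⁶`.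
Every `sorry` is a leaf `L-256-RESP-*`.   Statements FROZEN; auxiliary lemmas directly above your theorem, prefix `re_sp_`; edit only your block.
-/

set_option autoImplicit false

namespace Claimed.Agent.R256

open MeasureTheory
open scoped ENNReal

/-- the root state of a wave experiment as an `L²` function -/
def reV {η : ℝ} {p : RdWvPar} (E : Xp (p.sys η)) : Lp ℂ 2 (volume : Measure RdWvPar.Mo) := E.v

theorem re_sp_main_eqns_cite : True := by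
  have := @reV.eq_1
  trivial

/-- **LEAF L-256-RESP-WSUP: the rows are bounded by the field at the same time.**  `re_sp_F1` with `t = T` (`T - T = 0`), `norm_integral_le_integral_norm`, `‖K u‖ ≤ B ‖K‖`, `∫ ‖K‖ = (∫⁻ ‖K‖ₑ).toReal ≤ C` (`re_sp_K_inv` integrable, `re_sp_kl1` with `s = 0`, `integral_norm_eq_lintegral_enorm`). -/
theorem re_sp_wsup (β : ℕ) : ∃ C : ℝ, 0 ≤ C ∧ ∀ (p : RdWvPar) (T : ℝ) (k : ℕ) (G : RdWvPar.Mo → ℂ), Integrable G → ∀ B : ℝ, (∀ z', ‖reFld T G z'‖ ≤ B) →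
    ∀ x : RdWvPar.Ph, ‖∫ q, p.pk T k β x q * G q‖ ≤ C * B := by
  obtain ⟨C, hC, hkl⟩ := re_sp_kl1 β
  refine ⟨C, hC, ?_⟩
  intro p T k G hG B hB x
  have := re_sp_haar
  obtain ⟨A, z⟩ := x
  have hB0 : 0 ≤ B := (norm_nonneg _).trans (hB 0)
  have hl : 0 < rdLen k := rdLen_pos k
  obtain ⟨hKint, -⟩ := re_sp_K_inv p.H p.H_pos k β A (T - T)
  have hk := hkl p.H p.H_pos k A (T - T) (by simp; positivity)
  have hKn : ∫ w, ‖reK p.H k β A (T - T) w‖ ≤ C := by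
    rw [integral_norm_eq_lintegral_enorm hKint.1]
    exact ENNReal.toReal_le_of_le_ofReal hC hk
  rw [re_sp_F1 p T T k β G hG A z]
  calc ‖∫ z' : ReSp, reK p.H k β A (T - T) (z - z') * reFld T G z'‖
      ≤ ∫ z' : ReSp, ‖reK p.H k β A (T - T) (z - z') * reFld T G z'‖ := norm_integral_le_integral_norm _
    _ ≤ ∫ z' : ReSp, ‖reK p.H k β A (T - T) (z - z')‖ * B := by
        refine integral_mono_of_nonneg (Filter.Eventually.of_forall fun _ => norm_nonneg _) ?_ (Filter.Eventually.of_forall fun z' => ?_)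
        · exact ((hKint.comp_sub_left z).norm).mul_const B
        · simp only [norm_mul]
          exact mul_le_mul_of_nonneg_left (hB z') (norm_nonneg _)
    _ = (∫ w : ReSp, ‖reK p.H k β A (T - T) w‖) * B := by
        rw [integral_mul_const, integral_sub_left_eq_self (fun w => ‖reK p.H k β A (T - T) w‖)]
    _ ≤ C * B := by gcongr

theorem re_sp_vol_sq {a b M : ℝ} (hM : 0 ≤ M) (h : a ^ 2 + b ^ 2 ≤ M ^ 2) : |a| ≤ M ∧ |b| ≤ M := by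
  constructor
  · exact abs_le_of_sq_le_sq (by nlinarith [sq_nonneg b]) hM
  · exact abs_le_of_sq_le_sq (by nlinarith [sq_nonneg a]) hM

theorem re_sp_vol_shear (Sb : Set (ℝ × ℝ)) (hSb : MeasurableSet Sb) (c : ℝ × ℝ → ℝ) (hc : Measurable c) (ρ : ℝ) :
    volume {w : (ℝ × ℝ) × ℝ | w.1 ∈ Sb ∧ |w.2 - c w.1| ≤ ρ} = volume Sb * ENNReal.ofReal (2 * ρ) := by
  have hm : MeasurableSet {w : (ℝ × ℝ) × ℝ | w.1 ∈ Sb ∧ |w.2 - c w.1| ≤ ρ} := by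
    apply MeasurableSet.inter
    · exact measurable_fst hSb
    · exact measurableSet_le ((measurable_snd.sub (hc.comp measurable_fst)).abs) measurable_const
  rw [Measure.volume_eq_prod, Measure.prod_apply hm]
  have e : ∀ b : ℝ × ℝ, volume (Prod.mk b ⁻¹' {w : (ℝ × ℝ) × ℝ | w.1 ∈ Sb ∧ |w.2 - c w.1| ≤ ρ}) = Sb.indicator (fun _ => ENNReal.ofReal (2 * ρ)) b := by
    intro b
    by_cases hb : b ∈ Sb
    · rw [Set.indicator_of_mem hb]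
      have : Prod.mk b ⁻¹' {w : (ℝ × ℝ) × ℝ | w.1 ∈ Sb ∧ |w.2 - c w.1| ≤ ρ} = Set.Icc (c b - ρ) (c b + ρ) := by
        ext y
        simp only [Set.mem_preimage, Set.mem_ofPred_eq, hb, true_and, Set.mem_Icc, abs_le]
        constructor
        · rintro ⟨h1, h2⟩; constructor <;> linarith
        · rintro ⟨h1, h2⟩; constructor <;> linarith
      rw [this, Real.volume_Icc]
      congr 1
      ring
    · rw [Set.indicator_of_notMem hb]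
      have : Prod.mk b ⁻¹' {w : (ℝ × ℝ) × ℝ | w.1 ∈ Sb ∧ |w.2 - c w.1| ≤ ρ} = ∅ := by
        ext y
        simp [hb]
      rw [this, measure_empty]
  simp_rw [e]
  rw [lintegral_indicator hSb, setLIntegral_const, mul_comm]

theorem re_sp_vol_square (a : ℝ × ℝ) (ρ : ℝ) :
    volume (Set.Icc (a.1 - ρ) (a.1 + ρ) ×ˢ Set.Icc (a.2 - ρ) (a.2 + ρ)) = ENNReal.ofReal (2 * ρ) * ENNReal.ofReal (2 * ρ) := by
  rw [Measure.volume_eq_prod, Measure.prod_prod, Real.volume_Icc, Real.volume_Icc]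
  congr 2 <;> ring

/-- **LEAF L-256-RESP-VOL: the row measure of a cell.**
PLAN.  `Q.rows k = (Q.toT k).set 1 ⊆ box 1`:  `|A_i - As_i| ≤ r`, `|b_i - bs_i| ≤ ℓ r`, `|y - ys - 2 As·(b - bs)| ≤ ℓ r²`.   The set is contained in `SA ×ˢ {(b, y) | b ∈ Sb ∧ |y - c b| ≤ ℓ r²}` (squares);  volume by Tonelli (`Measure.prod_apply`/`lintegral_prod`; the section in `y` is an interval of length `2ℓr²`: `Real.volume_Icc`);
`4r² · 4ℓ²r² · 2ℓr² = 32 ℓ³ r⁶`;  `p.rw k = ofReal (ℓ/H) • volume`. -/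
theorem re_sp_cell_vol (p : RdWvPar) (T : ℝ) (k : ℕ) (Q : RdTst) (hr : 0 < Q.r) :
    (p.rw k) {x : RdWvPar.Ph | RdWvPar.co T x ∈ Q.rows k} ≤ ENNReal.ofReal (32 * rdLen k ^ 4 * Q.r ^ 6 / p.H) := by
  set ℓ := rdLen k with hℓ
  have hℓ0 : 0 < ℓ := rdLen_pos k
  have hH := p.H_pos
  set r := Q.r with hrr
  set SA : Set (ℝ × ℝ) := Set.Icc (Q.As.1 - r) (Q.As.1 + r) ×ˢ Set.Icc (Q.As.2 - r) (Q.As.2 + r) with hSA
  set Sb : Set (ℝ × ℝ) := Set.Icc (Q.bs.1 - ℓ * r) (Q.bs.1 + ℓ * r) ×ˢ Set.Icc (Q.bs.2 - ℓ * r) (Q.bs.2 + ℓ * r) with hSb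
  set c : ℝ × ℝ → ℝ := fun b => Q.ys + 2 * rtIp Q.As (b - Q.bs) with hc
  have hcm : Measurable c := by
    unfold c rtIp
    fun_prop
  have hsub : {x : RdWvPar.Ph | RdWvPar.co T x ∈ Q.rows k} ⊆ SA ×ˢ {w : (ℝ × ℝ) × ℝ | w.1 ∈ Sb ∧ |w.2 - c w.1| ≤ ℓ * r ^ 2} := by
    intro x hx
    obtain ⟨⟨h1, h2, h3⟩, -, -⟩ := hx
    simp only [RtTest.x, RtTest.z, RtTest.V, RdTst.toT, RdWvPar.co, rtSq, Prod.smul_fst, Prod.smul_snd, Prod.fst_sub, Prod.snd_sub, smul_eq_mul] at h1 h2 h3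
    have hlr : 0 < ℓ * r := by positivity
    have hlr2 : 0 < ℓ * r ^ 2 := by positivity
    obtain ⟨a1, a2⟩ := re_sp_vol_sq zero_le_one h1
    obtain ⟨b1, b2⟩ := re_sp_vol_sq zero_le_one h3
    rw [abs_mul, abs_of_pos (inv_pos.2 hlr), inv_mul_le_iff₀ hlr, mul_one, abs_le] at a1 a2
    rw [abs_mul, abs_of_pos (inv_pos.2 hr), inv_mul_le_iff₀ hr, mul_one, abs_le] at b1 b2
    rw [abs_div, abs_of_pos hlr2, div_le_one hlr2] at h2
    refine ⟨⟨⟨by linarith [b1.1], by linarith [b1.2]⟩, ⟨by linarith [b2.1], by linarith [b2.2]⟩⟩, ⟨⟨by linarith [a1.1], by linarith [a1.2]⟩, ⟨by linarith [a2.1], by linarith [a2.2]⟩⟩, ?_⟩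
    have e : x.2.2 - c x.2.1 = x.2.2 - Q.ys - 2 * rtIp Q.As (x.2.1 - Q.bs) := by
      simp only [hc]; ring
    rw [e]
    exact h2
  have hSbm : MeasurableSet Sb := measurableSet_Icc.prod measurableSet_Icc
  unfold RdWvPar.rw
  rw [Measure.smul_apply, smul_eq_mul]
  calc ENNReal.ofReal (ℓ / p.H) * volume {x : RdWvPar.Ph | RdWvPar.co T x ∈ Q.rows k}
      ≤ ENNReal.ofReal (ℓ / p.H) * volume (SA ×ˢ {w : (ℝ × ℝ) × ℝ | w.1 ∈ Sb ∧ |w.2 - c w.1| ≤ ℓ * r ^ 2}) :=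
        mul_le_mul_right (measure_mono hsub) _
    _ = ENNReal.ofReal (ℓ / p.H) * ((ENNReal.ofReal (2 * r) * ENNReal.ofReal (2 * r)) *
          ((ENNReal.ofReal (2 * (ℓ * r)) * ENNReal.ofReal (2 * (ℓ * r))) * ENNReal.ofReal (2 * (ℓ * r ^ 2)))) := by
        rw [Measure.volume_eq_prod, Measure.prod_prod, re_sp_vol_shear Sb hSbm c hcm, hSA, hSb, re_sp_vol_square, re_sp_vol_square]
    _ = _ := by
        rw [← ENNReal.ofReal_mul (by positivity), ← ENNReal.ofReal_mul (by positivity), ← ENNReal.ofReal_mul (by positivity),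
          ← ENNReal.ofReal_mul (by positivity), ← ENNReal.ofReal_mul (by positivity)]
        congr 1
        field_simp
        ring

/-- **LEAF L-256-RESP-FREE.**  `Xp.fin`, `Xp.run` on the empty list. -/
theorem re_sp_free {P : PkSys} (E : Xp P) (h : E.st = []) (i : ℕ) : E.fin i = E.v := by
  unfold Xp.fin
  rw [h]
  rfl

/-- **LEAF L-256-RESP-THLE.**  `th_sum` at `i = E.iv l`, `Finset.single_le_sum` (`th_nn`). -/
theorem re_sp_th_le {P : PkSys} (E : Xp P) (h : E.Valid) (l : Fin E.L) (x : P.X) : E.th l x ≤ 1 := by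
  refine le_trans ?_ (h.th_sum (E.iv l) x)
  have := Finset.single_le_sum (f := fun l' => if E.iv l' = E.iv l then E.th l' x else 0)
    (fun l' _ => by split_ifs; exact h.th_nn l' x; exact le_rfl) (Finset.mem_univ l)
  simpa using this

theorem re_sp_l2_norm_sq {α : Type*} [MeasurableSpace α] {μ : Measure α} {Fb : Type*} [NormedAddCommGroup Fb] [InnerProductSpace ℂ Fb]
    (F : Lp Fb 2 μ) : ‖F‖ ^ 2 = ∫ x, ‖(F : α → Fb) x‖ ^ 2 ∂μ := by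
  have h := L2.inner_def (𝕜 := ℂ) F F
  rw [inner_self_eq_norm_sq_to_K] at h
  simp only [inner_self_eq_norm_sq_to_K] at h
  have h2 : ((‖F‖ ^ 2 : ℝ) : ℂ) = ((∫ x, ‖(F : α → Fb) x‖ ^ 2 ∂μ : ℝ) : ℂ) := by
    have e := integral_complex_ofReal (μ := μ) (f := fun x => ‖(F : α → Fb) x‖ ^ 2)
    rw [← e]
    push_cast
    exact h
  exact_mod_cast h2

theorem re_sp_iv_mem {P : PkSys} (E : Xp P) (hv : E.Valid) (l : Fin E.L) : E.iv l ∈ Finset.Ico (E.i0 * 2 ^ E.n) ((E.i0 + 1) * 2 ^ E.n) := by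
  have h := hv.iv_in l
  unfold ancI Xp.kf at h
  have e : E.k0 + E.n - E.k0 = E.n := by omega
  rw [e] at h
  have hp : 0 < 2 ^ E.n := by positivity
  rw [Finset.mem_Ico]
  constructor
  · rw [← h]; exact Nat.div_mul_le_self _ _
  · rw [← h]
    have := Nat.lt_div_mul_add hp (a := E.iv l)
    have e2 : (E.iv l / 2 ^ E.n + 1) * 2 ^ E.n = E.iv l / 2 ^ E.n * 2 ^ E.n + 2 ^ E.n := by ring
    omega

/-- **LEAF L-256-RESP-MSUM: total assigned mass.**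
PLAN.  `E.m l = ∫ θ_l ‖An(T_{iv l}) v‖² dρ` (`re_sp_free`).   `I = Finset.Ico (i0 2^n) ((i0+1) 2^n)`, `iv l ∈ I` (`iv_in`, `ancI`, `E.kf - E.k0 = n`, `Nat.div_eq_iff`..), card `2^n`.   `∑_l = ∑_{i ∈ I} ∑_{l, iv l = i}` (`Finset.sum_fiberwise_of_maps_to`).
For fixed `i`: `∑_{l, iv l = i} ∫ θ_l f = ∫ (∑ ..) f ≤ ∫ f = ‖An v‖² ≤ ‖v‖² ≤ e`  (`integral_finset_sum`, integrability: `θ_l` measurable, `0 ≤ θ_l ≤ 1`, `f = ‖An v ·‖²` integrable (`Lp.memLp`); `th_sum`; `hAn`; `budget`; `‖F‖² = ∫ ‖F x‖²`: `pk_l2_norm_sq`-type / `L2.norm_sq_eq_..`). -/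
theorem re_sp_mass_sum {P : PkSys} (E : Xp P) (hv : E.Valid) (hf : E.st = []) (hAn : ∀ (T : ℝ) (k b : ℕ) (v : P.Kc), ‖P.An T k b v‖ ≤ ‖v‖) :
    ∑ l, E.m l ≤ 2 ^ E.n * E.e := by
  classical
  obtain ⟨I, hI⟩ : ∃ I : Finset ℕ, I = Finset.Ico (E.i0 * 2 ^ E.n) ((E.i0 + 1) * 2 ^ E.n) := ⟨_, rfl⟩
  have hcard : (I.card : ℝ) = 2 ^ E.n := by
    rw [hI, Nat.card_Ico]
    have : (E.i0 + 1) * 2 ^ E.n - E.i0 * 2 ^ E.n = 2 ^ E.n := by
      rw [add_mul, one_mul]; exact Nat.add_sub_cancel_left _ _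
    rw [this]; push_cast; rfl
  obtain ⟨f, hfdef⟩ : ∃ f : ℕ → P.X → ℝ, f = fun i x => ‖(P.An (tmL E.kf i) E.kf E.bT E.v : P.X → P.Fb) x‖ ^ 2 := ⟨_, rfl⟩
  have hfint : ∀ i, Integrable (f i) (P.rho E.kf) := fun i => by
    rw [hfdef]
    exact (Lp.memLp _).integrable_norm_pow (by norm_num)
  have hfnn : ∀ i x, 0 ≤ f i x := fun i x => by rw [hfdef]; positivity
  have hfle : ∀ i, ∫ x, f i x ∂(P.rho E.kf) ≤ E.e := fun i => by
    rw [hfdef]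
    simp only
    rw [← re_sp_l2_norm_sq]
    calc ‖P.An (tmL E.kf i) E.kf E.bT E.v‖ ^ 2 ≤ ‖E.v‖ ^ 2 := by gcongr; exact hAn _ _ _ _
      _ ≤ E.e := hv.budget
  have hm : ∀ l, E.m l = ∫ x, E.th l x * f (E.iv l) x ∂(P.rho E.kf) := fun l => by
    unfold Xp.m PkSys.en
    rw [re_sp_free E hf, hfdef]
  have hθint : ∀ l i, Integrable (fun x => (if E.iv l = i then E.th l x else 0) * f i x) (P.rho E.kf) := by
    intro l i
    refine (hfint i).bdd_mul (c := 1) ?_ (Filter.Eventually.of_forall fun x => ?_)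
    · exact (Measurable.ite (MeasurableSet.const _) (hv.th_meas l) measurable_const).aestronglyMeasurable
    · split_ifs
      · rw [Real.norm_eq_abs, abs_of_nonneg (hv.th_nn l x)]
        exact re_sp_th_le E hv l x
      · simp
  calc ∑ l, E.m l = ∑ l, ∑ i ∈ I, ∫ x, (if E.iv l = i then E.th l x else 0) * f i x ∂(P.rho E.kf) := by
        refine Finset.sum_congr rfl fun l _ => ?_
        rw [hm l, Finset.sum_eq_single (E.iv l)]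
        · simp
        · intro i _ hne
          simp [Ne.symm hne]
        · intro hni
          exact absurd (hI ▸ re_sp_iv_mem E hv l) hni
    _ = ∑ i ∈ I, ∫ x, (∑ l, if E.iv l = i then E.th l x else 0) * f i x ∂(P.rho E.kf) := by
        rw [Finset.sum_comm]
        refine Finset.sum_congr rfl fun i _ => ?_
        rw [← integral_finsetSum _ (fun l _ => hθint l i)]
        simp only [Finset.sum_mul]
    _ ≤ ∑ i ∈ I, ∫ x, f i x ∂(P.rho E.kf) := by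
        refine Finset.sum_le_sum fun i _ => ?_
        refine integral_mono_of_nonneg (Filter.Eventually.of_forall fun x => ?_) (hfint i) (Filter.Eventually.of_forall fun x => ?_)
        · refine mul_nonneg (Finset.sum_nonneg fun l _ => ?_) (hfnn i x)
          split_ifs
          · exact hv.th_nn l x
          · exact le_rfl
        · exact mul_le_of_le_one_left (hfnn i x) (hv.th_sum i x)
    _ ≤ ∑ _i ∈ I, E.e := Finset.sum_le_sum fun i _ => hfle i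
    _ = 2 ^ E.n * E.e := by rw [Finset.sum_const, nsmul_eq_mul, hcard]

/-- **LEAF L-256-RESP-MLE: mass of one label from a sup bound.**
PLAN.  `E.m l = ∫ θ_l ‖(p.an ..) x‖² dρ_f`, `re_sp_an_spec`, `‖row x‖² ≤ B²`, `θ_l ≤ 1_{cell}` (`re_sp_th_le`, `th_supp`, `th_nn`):   `E.m l ≤ B² ∫ θ_l dρ_f ≤ B² (ρ_f cell).toReal` (`lintegral_indicator_one_le`, `integral_eq_lintegral_of_nonneg_ae`), `re_sp_cell_vol` (`r_pos` from `ts_ok`: `Adm`). -/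
theorem re_sp_mass_le (η : ℝ) (p : RdWvPar) (E : Xp (p.sys η)) (hv : E.Valid) (hf : E.st = []) (B : ℝ) (hB : 0 ≤ B)
    (h : ∀ (l : Fin E.L) (x : RdWvPar.Ph), ‖p.row (tmL E.kf (E.iv l)) E.kf E.bT E.v x‖ ≤ B) (l : Fin E.L) :
    0 ≤ E.m l ∧ E.m l ≤ B ^ 2 * (32 * rdLen E.kf ^ 4 * (rwT (E.ts l)).r ^ 6 / p.H) := by
  set T := tmL E.kf (E.iv l) with hT
  set k := E.kf with hk
  set Q : RdTst := rwT (E.ts l) with hQ
  set θ : RdWvPar.Ph → ℝ := E.th l with hθ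
  set F : Lp ℂ 2 (p.rw k) := p.an T k E.bT E.v with hF
  set S : Set RdWvPar.Ph := {x : RdWvPar.Ph | RdWvPar.co T x ∈ Q.rows k} with hS
  have hm : E.m l = ∫ x, θ x * ‖(F : RdWvPar.Ph → ℂ) x‖ ^ 2 ∂(p.rw k) := by
    unfold Xp.m
    rw [re_sp_free E hf]
    rfl
  have hθm : Measurable θ := hv.th_meas l
  have hθ0 : ∀ x, 0 ≤ θ x := hv.th_nn l
  have hθ1 : ∀ x, θ x ≤ 1 := re_sp_th_le E hv l
  have hθs : ∀ x, θ x ≠ 0 → x ∈ S := hv.th_supp l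
  have hr : 0 < Q.r := (hv.ts_ok l).1.r_pos
  have hvol := re_sp_cell_vol p T k Q hr
  have hH := p.H_pos
  have hl := rdLen_pos k
  have hnn : ∀ x, 0 ≤ θ x * ‖(F : RdWvPar.Ph → ℂ) x‖ ^ 2 := fun x => mul_nonneg (hθ0 x) (by positivity)
  refine ⟨by rw [hm]; exact integral_nonneg hnn, ?_⟩
  have hasm : AEStronglyMeasurable (fun x => θ x * ‖(F : RdWvPar.Ph → ℂ) x‖ ^ 2) (p.rw k) :=
    hθm.aestronglyMeasurable.mul ((Lp.aestronglyMeasurable F).norm.pow 2)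
  rw [hm, integral_eq_lintegral_of_nonneg_ae (Filter.Eventually.of_forall hnn) hasm]
  have h1 : ∫⁻ x, ENNReal.ofReal (θ x * ‖(F : RdWvPar.Ph → ℂ) x‖ ^ 2) ∂(p.rw k) ≤ ENNReal.ofReal (B ^ 2) * ENNReal.ofReal (32 * rdLen k ^ 4 * Q.r ^ 6 / p.H) := by
    calc ∫⁻ x, ENNReal.ofReal (θ x * ‖(F : RdWvPar.Ph → ℂ) x‖ ^ 2) ∂(p.rw k)
        ≤ ∫⁻ x, ENNReal.ofReal (B ^ 2) * S.indicator 1 x ∂(p.rw k) := by
          refine lintegral_mono_ae ?_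
          filter_upwards [re_sp_an_spec p T k E.bT E.v] with x hx
          by_cases hxS : x ∈ S
          · rw [Set.indicator_of_mem hxS, Pi.one_apply, mul_one]
            apply ENNReal.ofReal_le_ofReal
            have h2 : ‖(F : RdWvPar.Ph → ℂ) x‖ ≤ B := by
              rw [hF, hx]
              exact h l x
            calc θ x * ‖(F : RdWvPar.Ph → ℂ) x‖ ^ 2 ≤ 1 * B ^ 2 :=
                  mul_le_mul (hθ1 x) (pow_le_pow_left₀ (norm_nonneg _) h2 2) (by positivity) zero_le_one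
              _ = _ := one_mul _
          · have h3 : θ x = 0 := by
              by_contra hne
              exact hxS (hθs x hne)
            rw [h3, zero_mul, ENNReal.ofReal_zero]
            exact zero_le
      _ = ENNReal.ofReal (B ^ 2) * ∫⁻ x, S.indicator 1 x ∂(p.rw k) := lintegral_const_mul' _ _ ENNReal.ofReal_ne_top
      _ ≤ ENNReal.ofReal (B ^ 2) * (p.rw k) S := mul_le_mul_right (lintegral_indicator_one_le S) _
      _ ≤ _ := mul_le_mul_right hvol _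
  have h2 := ENNReal.toReal_mono (ENNReal.mul_ne_top ENNReal.ofReal_ne_top ENNReal.ofReal_ne_top) h1
  rwa [ENNReal.toReal_mul, ENNReal.toReal_ofReal (by positivity), ENNReal.toReal_ofReal (by positivity)] at h2

theorem re_sp_rpow_three_half (m : ℝ) (hm : 0 ≤ m) : m ^ (3 / 2 : ℝ) = m * Real.sqrt m := by
  rcases hm.eq_or_lt with h | h
  · rw [← h]; simp; 
  · rw [Real.sqrt_eq_rpow, show (3 / 2 : ℝ) = 1 + 1 / 2 by norm_num, Real.rpow_add h, Real.rpow_one]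

/-- **LEAF L-256-RESP-ARITH (1).**  `m^{3/2}/√w = m · √(m/w) ≤ m √R` (`Real.rpow_add`, `Real.sqrt_eq_rpow`, `Real.sqrt_le_sqrt`, `Real.sqrt_div`). -/
theorem re_sp_rd_le {ι : Type*} (s : Finset ι) (m w : ι → ℝ) (R : ℝ) (hm : ∀ l ∈ s, 0 ≤ m l) (hw : ∀ l ∈ s, 0 < w l) (h : ∀ l ∈ s, m l ≤ R * w l) :
    ∑ l ∈ s, m l ^ (3 / 2 : ℝ) / Real.sqrt (w l) ≤ Real.sqrt R * ∑ l ∈ s, m l := by
  rw [Finset.mul_sum]
  refine Finset.sum_le_sum fun l hl => ?_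
  rw [re_sp_rpow_three_half _ (hm l hl), mul_div_assoc, ← Real.sqrt_div (hm l hl), mul_comm (Real.sqrt R)]
  refine mul_le_mul_of_nonneg_left (Real.sqrt_le_sqrt ?_) (hm l hl)
  rw [div_le_iff₀ (hw l hl)]
  exact h l hl

theorem re_sp_tmL_range (k0 i0 n i : ℕ) (h : ancI (k0 + n) k0 i = i0) :
    tmL k0 i0 ≤ tmL (k0 + n) i ∧ tmL (k0 + n) i + rdLen (k0 + n) ≤ tmL k0 i0 + rdLen k0 := by
  unfold ancI at h
  have e : k0 + n - k0 = n := by omega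
  rw [e] at h
  have hp : 0 < 2 ^ n := by positivity
  have h1 : i0 * 2 ^ n ≤ i := by
    rw [← h]; exact Nat.div_mul_le_self i (2 ^ n)
  have h2 : i + 1 ≤ (i0 + 1) * 2 ^ n := by
    rw [← h]
    have := Nat.lt_div_mul_add hp (a := i)
    have e2 : (i / 2 ^ n + 1) * 2 ^ n = i / 2 ^ n * 2 ^ n + 2 ^ n := by ring
    omega
  have h1r : (i0 : ℝ) * 2 ^ n ≤ i := by exact_mod_cast h1
  have h2r : (i : ℝ) + 1 ≤ ((i0 : ℝ) + 1) * 2 ^ n := by exact_mod_cast h2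
  have p0 : (0 : ℝ) < 2 ^ k0 := by positivity
  have pn : (0 : ℝ) < 2 ^ n := by positivity
  unfold tmL rdLen
  simp only [inv_pow, pow_add]
  constructor
  · rw [div_le_div_iff₀ p0 (by positivity)]
    nlinarith
  · have e3 : (i : ℝ) / (2 ^ k0 * 2 ^ n) + (2 ^ k0)⁻¹ * (2 ^ n)⁻¹ = ((i : ℝ) + 1) / (2 ^ k0 * 2 ^ n) := by
      field_simp
    have e4 : (i0 : ℝ) / 2 ^ k0 + (2 ^ k0)⁻¹ = ((i0 : ℝ) + 1) / 2 ^ k0 := by
      field_simp
    rw [e3, e4, div_le_div_iff₀ (by positivity) p0]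
    nlinarith

/-- **LEAF L-256-RESP-ARITH (2): the parameters of one free step.**  `E.s = 2⁻¹^n`, `rdLen E.kf = rdLen E.k0 * E.s` (`pow_add`), `f ≤ 1` (`Adm.f_le`), `f^(1-η) ≥ f` (`Real.rpow_le_rpow_of_exponent_ge`), `re_sp_dq`. -/
theorem re_sp_step_par (η : ℝ) (hη0 : 0 < η) (hη1 : η < 1) (p : RdWvPar) (E : Xp (p.sys η)) (bm : ℕ) (Kp : ℝ) (φ : RdFrm) (h : ReStep η p E bm Kp φ) :
    rdLen E.kf = rdLen E.k0 * E.s ∧ 0 < E.s ∧ E.s ≤ 1 ∧ (2 : ℝ) ^ ((E.n : ℝ) / 2) = (Real.sqrt E.s)⁻¹ ∧ (2 : ℝ) ^ E.n = E.s⁻¹ ∧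
    (Kp * φ.r) ^ 2 * E.s ≤ (Kp ^ 2 * rdD p.H E.k0) ^ 2 ∧ (Kp * φ.r) ^ 2 ≤ (Kp ^ 2 * rdD p.H E.kf) ^ 2 ∧
    (∀ l, (rwT (E.ts l)).r ^ 4 / Kp ≤ E.w l ∧ 0 < (rwT (E.ts l)).r ∧
      32 * rdLen E.kf ^ 4 * (rwT (E.ts l)).r ^ 6 / p.H ≤ 32 * Kp ^ 4 * rdLen E.kf ^ 3 * E.w l) ∧
    (∀ l, tmL E.k0 E.i0 ≤ tmL E.kf (E.iv l) ∧ tmL E.kf (E.iv l) + rdLen E.kf ≤ tmL E.k0 E.i0 + rdLen E.k0) := by
  have hH : 0 < p.H := p.H_pos
  have hK : 1 ≤ Kp := h.Kp_ge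
  have hK0 : 0 < Kp := by linarith
  have hr : 0 < φ.r := h.r_pos
  have hl0 : 0 < rdLen E.k0 := rdLen_pos _
  have hlf : 0 < rdLen E.kf := rdLen_pos _
  have e1 : rdLen E.kf = rdLen E.k0 * E.s := by
    unfold rdLen Xp.kf Xp.s
    rw [pow_add]
  have hs0 : 0 < E.s := by unfold Xp.s; positivity
  have hs1 : E.s ≤ 1 := by
    unfold Xp.s
    exact pow_le_one₀ (by norm_num) (by norm_num)
  have e5 : (2 : ℝ) ^ E.n = E.s⁻¹ := by
    unfold Xp.s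
    rw [inv_pow, inv_inv]
  have e4 : (2 : ℝ) ^ ((E.n : ℝ) / 2) = (Real.sqrt E.s)⁻¹ := by
    rw [← Real.sqrt_inv, ← e5, Real.sqrt_eq_rpow, ← Real.rpow_natCast, ← Real.rpow_mul (by norm_num)]
    congr 1
    ring
  obtain ⟨hd0, -, -, -, hdsq0, -⟩ := re_sp_dq p.H hH E.k0
  obtain ⟨hdf, -, -, -, hdsqf, -⟩ := re_sp_dq p.H hH E.kf
  -- s r² ≤ Kp H / ℓ0
  have hlo : E.s * (rdLen E.k0 * φ.r ^ 2) ≤ Kp * p.H := by
    have := h.H_lo
    rw [div_le_div_iff₀ hK0 (by positivity)] at this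
    linarith
  have k1 : E.s * φ.r ^ 2 ≤ Kp * rdD p.H E.k0 ^ 2 := by
    rw [hdsq0, mul_div_assoc', le_div_iff₀ hl0]
    linarith
  have k2 : φ.r ^ 2 ≤ Kp * rdD p.H E.kf ^ 2 := by
    rw [hdsqf, e1, mul_div_assoc', le_div_iff₀ (by positivity)]
    linarith
  have hK2 : Kp ^ 2 * Kp ≤ Kp ^ 4 := by
    have : Kp ^ 4 = Kp ^ 2 * Kp * Kp := by ring
    rw [this]
    exact le_mul_of_one_le_right (by positivity) hK
  refine ⟨e1, hs0, hs1, e4, e5, ?_, ?_, ?_, ?_⟩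
  · calc (Kp * φ.r) ^ 2 * E.s = Kp ^ 2 * (E.s * φ.r ^ 2) := by ring
      _ ≤ Kp ^ 2 * (Kp * rdD p.H E.k0 ^ 2) := by gcongr
      _ = Kp ^ 2 * Kp * rdD p.H E.k0 ^ 2 := by ring
      _ ≤ Kp ^ 4 * rdD p.H E.k0 ^ 2 := by gcongr
      _ = (Kp ^ 2 * rdD p.H E.k0) ^ 2 := by ring
  · calc (Kp * φ.r) ^ 2 = Kp ^ 2 * φ.r ^ 2 := by ring
      _ ≤ Kp ^ 2 * (Kp * rdD p.H E.kf ^ 2) := by gcongr
      _ = Kp ^ 2 * Kp * rdD p.H E.kf ^ 2 := by ring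
      _ ≤ Kp ^ 4 * rdD p.H E.kf ^ 2 := by gcongr
      _ = (Kp ^ 2 * rdD p.H E.kf) ^ 2 := by ring
  · intro l
    obtain ⟨hadm, -⟩ : ((rwT (E.ts l)).toT E.kf).Adm 1 ∧ rdD p.H E.kf ≤ (rwT (E.ts l)).r * (rwT (E.ts l)).f := h.valid.ts_ok l
    have hrl : 0 < (rwT (E.ts l)).r := hadm.r_pos
    have hfl : 0 < (rwT (E.ts l)).f := hadm.f_pos
    have hfl1 : (rwT (E.ts l)).f ≤ 1 := hadm.f_le
    obtain ⟨-, hl2, hl3⟩ := h.lab l
    have hw : E.w l = (rwT (E.ts l)).r ^ 4 * (rwT (E.ts l)).f ^ (1 - η) := rfl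
    have hf : (rwT (E.ts l)).f ≤ (rwT (E.ts l)).f ^ (1 - η) := by
      have := Real.rpow_le_rpow_of_exponent_ge hfl hfl1 (by linarith : 1 - η ≤ 1)
      rwa [Real.rpow_one] at this
    have hw1 : (rwT (E.ts l)).r ^ 4 / Kp ≤ E.w l := by
      rw [hw, div_eq_mul_one_div]
      gcongr
      exact hl3.trans hf
    refine ⟨hw1, hrl, ?_⟩
    -- ℓ_f r_l² ≤ Kp³ H
    have k3 : rdLen E.kf * (rwT (E.ts l)).r ^ 2 ≤ Kp ^ 3 * p.H := by
      calc rdLen E.kf * (rwT (E.ts l)).r ^ 2 ≤ rdLen E.kf * (Kp * φ.r) ^ 2 := by gcongr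
        _ = Kp ^ 2 * (E.s * (rdLen E.k0 * φ.r ^ 2)) := by rw [e1]; ring
        _ ≤ Kp ^ 2 * (Kp * p.H) := by gcongr
        _ = Kp ^ 3 * p.H := by ring
    rw [div_le_iff₀ hH]
    calc 32 * rdLen E.kf ^ 4 * (rwT (E.ts l)).r ^ 6
        = 32 * rdLen E.kf ^ 3 * (rwT (E.ts l)).r ^ 4 * (rdLen E.kf * (rwT (E.ts l)).r ^ 2) := by ring
      _ ≤ 32 * rdLen E.kf ^ 3 * (rwT (E.ts l)).r ^ 4 * (Kp ^ 3 * p.H) := by gcongr
      _ = 32 * Kp ^ 4 * rdLen E.kf ^ 3 * ((rwT (E.ts l)).r ^ 4 / Kp) * p.H := by field_simp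
      _ ≤ 32 * Kp ^ 4 * rdLen E.kf ^ 3 * E.w l * p.H := by gcongr
  · intro l
    exact re_sp_tmL_range E.k0 E.i0 E.n (E.iv l) (h.valid.iv_in l)

/-- **LEAF L-256-RESP-PLANEA (glue) = EXIT: (tiny-cap) for waves.**
PLAN.  `C0 = 6`.   Given `bm`: `C₁` from `re_sp_sup bm`, `C₂ = ∑_{β ≤ bm}` of the constants of `re_sp_wsup β`, `C = √(32 C₂² C₁)`.   Follow the ARITHMETIC of the header:
`hreg = h.valid.reg`, `h.spec`, `reAngIn` + `re_sp_step_par` give the hypotheses of `re_sp_sup` at `(T₀, k0, b0)` with `Λ = Kp²` and `t = T_l` (`|T_l - T₀| ≤ ℓ₀`);   `re_sp_L1`;   `re_sp_wsup E.bT` (`E.bT ≤ bm`);   `re_sp_mass_le`;   `re_sp_rd_le`;   `re_sp_mass_sum` with `re_sp_an_norm`;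
unfold `Xp.val`, `Xp.rd`;   `Kp ^ (6 : ℝ) = Kp ^ 6` (`Real.rpow_natCast`). -/
theorem re_sp_planeA (η : ℝ) (hη0 : 0 < η) (hη1 : η < 1) : RePlaneA η := by
  refine ⟨6, fun bm => ?_⟩
  obtain ⟨C1, hC1, hsup⟩ := re_sp_sup bm
  choose C2f hC2f hw using re_sp_wsup
  obtain ⟨C2, hC2def⟩ : ∃ C2 : ℝ, C2 = ∑ β ∈ Finset.range (bm + 1), C2f β := ⟨_, rfl⟩
  have hC2 : 0 ≤ C2 := hC2def ▸ Finset.sum_nonneg fun β _ => hC2f β
  have hC2le : ∀ β, β ≤ bm → C2f β ≤ C2 := fun β hβ => by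
    rw [hC2def]
    exact Finset.single_le_sum (f := C2f) (fun i _ => hC2f i) (Finset.mem_range.mpr (by omega))
  refine ⟨Real.sqrt (32 * C2 ^ 2 * C1), fun p E Kp φ h hang => ?_⟩
  obtain ⟨e1, hs0, hs1, e4, e5, a1, -, hlab, htime⟩ := re_sp_step_par η hη0 hη1 p E bm Kp φ h
  have hv := h.valid
  have hK : 1 ≤ Kp := h.Kp_ge
  have hK0 : 0 < Kp := by linarith
  have hl0 : 0 < rdLen E.k0 := rdLen_pos _
  have hka : 0 < E.ka := hv.ka_pos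
  have he : 0 < E.e := hv.e_pos
  have hang' : ∀ᵐ q ∂(volume : Measure RdWvPar.Mo), (reV E : RdWvPar.Mo → ℂ) q ≠ 0 →
      rtSq ((2 * q.2)⁻¹ • q.1 - φ.As) ≤ (Kp ^ 2 * rdD p.H E.k0) ^ 2 := by
    refine Filter.Eventually.mono hang fun q hq hne => ?_
    exact (hq hne).trans a1
  have hGint : Integrable (reV E : RdWvPar.Mo → ℂ) := re_sp_L1 p E.b0 φ.As _ (reV E) h.spec hang'
  obtain ⟨B0, hB0def⟩ : ∃ B0 : ℝ, B0 = C1 * (Kp ^ 2) ^ 4 * E.ka / rdLen E.k0 ^ 3 := ⟨_, rfl⟩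
  have hB0 : 0 ≤ B0 := by rw [hB0def]; positivity
  have hfld : ∀ (l : Fin E.L) (z : ReSp), ‖reFld (tmL E.kf (E.iv l)) (reV E) z‖ ≤ Real.sqrt B0 := by
    intro l z
    apply Real.le_sqrt_of_sq_le
    rw [hB0def]
    refine hsup η p (tmL E.k0 E.i0) (tmL E.kf (E.iv l)) E.k0 E.b0 E.ka (Kp ^ 2) φ.As (reV E) h.gen.1
      (one_le_pow₀ hK) hka.le h.spec hang' hv.reg ?_ z
    obtain ⟨t1, t2⟩ := htime l
    have : 0 < rdLen E.kf := rdLen_pos _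
    rw [abs_le]
    constructor <;> linarith
  have hrow : ∀ (l : Fin E.L) (x : RdWvPar.Ph), ‖p.row (tmL E.kf (E.iv l)) E.kf E.bT E.v x‖ ≤ C2 * Real.sqrt B0 := by
    intro l x
    refine (hw E.bT p (tmL E.kf (E.iv l)) E.kf (reV E) hGint (Real.sqrt B0) (hfld l) x).trans ?_
    exact mul_le_mul_of_nonneg_right (hC2le _ h.gen.2) (Real.sqrt_nonneg _)
  have hm := re_sp_mass_le η p E hv h.free (C2 * Real.sqrt B0) (by positivity) hrow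
  obtain ⟨R, hRdef⟩ : ∃ R : ℝ, R = (C2 * Real.sqrt B0) ^ 2 * (32 * Kp ^ 4 * rdLen E.kf ^ 3) := ⟨_, rfl⟩
  have hmR : ∀ l, E.m l ≤ R * E.w l := by
    intro l
    refine (hm l).2.trans ?_
    have h2 : R * E.w l = (C2 * Real.sqrt B0) ^ 2 * (32 * Kp ^ 4 * rdLen E.kf ^ 3 * E.w l) := by rw [hRdef]; ring
    rw [h2]
    exact mul_le_mul_of_nonneg_left (hlab l).2.2 (sq_nonneg _)
  have hrd : E.rd ≤ Real.sqrt R * ∑ l, E.m l :=
    re_sp_rd_le Finset.univ E.m E.w R (fun l _ => (hm l).1) (fun l _ => hv.w_pos l) (fun l _ => hmR l)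
  have hsum : ∑ l, E.m l ≤ 2 ^ E.n * E.e := re_sp_mass_sum E hv h.free (fun T k b v => re_sp_an_norm p T k b v)
  have hR : R = (32 * C2 ^ 2 * C1) * E.ka * E.s * (Kp ^ 6 * E.s) ^ 2 := by
    rw [hRdef, mul_pow, Real.sq_sqrt hB0, hB0def, e1]
    field_simp
  have hsR : Real.sqrt R = Real.sqrt (32 * C2 ^ 2 * C1) * Real.sqrt E.ka * Real.sqrt E.s * (Kp ^ 6 * E.s) := by
    rw [hR, Real.sqrt_mul (by positivity), Real.sqrt_sq (by positivity), Real.sqrt_mul (by positivity), Real.sqrt_mul (by positivity)]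
  have hsk : 0 < Real.sqrt E.ka := Real.sqrt_pos.mpr hka
  have hss : 0 < Real.sqrt E.s := Real.sqrt_pos.mpr hs0
  unfold Xp.val
  rw [e4]
  calc (Real.sqrt E.s)⁻¹ / (E.e * Real.sqrt E.ka) * E.rd
      ≤ (Real.sqrt E.s)⁻¹ / (E.e * Real.sqrt E.ka) * (Real.sqrt R * (2 ^ E.n * E.e)) := by
        gcongr
        exact hrd.trans (mul_le_mul_of_nonneg_left hsum (Real.sqrt_nonneg _))
    _ = Real.sqrt (32 * C2 ^ 2 * C1) * Kp ^ 6 := by
        rw [hsR, e5]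
        field_simp
    _ = Real.sqrt (32 * C2 ^ 2 * C1) * Kp ^ (6 : ℝ) := by
        rw [← Real.rpow_natCast Kp 6]
        norm_num

/-! ## (space-3) -/

/-- **LEAF L-256-RESP-HOLD: Hölder on a cell.**   `∫ θ f² = ∫ (θ^{2/3} f²) θ^{1/3} ≤ (∫ θ f³)^{2/3} (∫ θ)^{1/3}` (`ENNReal.lintegral_mul_le_Lp_mul_Lq`, exponents `3/2`, `3`), raise to the power `3/2`. -/
theorem re_sp_hold {α : Type*} [MeasurableSpace α] (μ : Measure α) (θ f : α → ℝ≥0∞) (hθ : Measurable θ) (hf : Measurable f) :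
    (∫⁻ x, θ x * f x ^ 2 ∂μ) ^ (3 / 2 : ℝ) ≤ (∫⁻ x, θ x ∂μ) ^ (1 / 2 : ℝ) * ∫⁻ x, θ x * f x ^ 3 ∂μ := by
  have hh : (3 / 2 : ℝ).HolderConjugate 3 := by
    rw [Real.holderConjugate_iff]
    norm_num
  have h := ENNReal.lintegral_mul_le_Lp_mul_Lq μ hh (f := fun a => θ a ^ (2 / 3 : ℝ) * f a ^ 2) (g := fun a => θ a ^ (1 / 3 : ℝ))
    (by fun_prop) (by fun_prop)
  have e1 : ∀ a, ((fun a => θ a ^ (2 / 3 : ℝ) * f a ^ 2) * fun a => θ a ^ (1 / 3 : ℝ)) a = θ a * f a ^ 2 := by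
    intro a
    simp only [Pi.mul_apply]
    rw [mul_right_comm, ← ENNReal.rpow_add_of_nonneg _ _ (by norm_num) (by norm_num)]
    norm_num
  have e2 : ∀ a, (θ a ^ (2 / 3 : ℝ) * f a ^ 2) ^ (3 / 2 : ℝ) = θ a * f a ^ 3 := by
    intro a
    rw [ENNReal.mul_rpow_of_nonneg _ _ (by norm_num), ← ENNReal.rpow_mul, ← ENNReal.rpow_natCast, ← ENNReal.rpow_mul, ← ENNReal.rpow_natCast]
    norm_num
  have e3 : ∀ a, (θ a ^ (1 / 3 : ℝ)) ^ (3 : ℝ) = θ a := by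
    intro a
    rw [← ENNReal.rpow_mul]
    norm_num
  simp only [e1, e2, e3] at h
  calc (∫⁻ x, θ x * f x ^ 2 ∂μ) ^ (3 / 2 : ℝ)
      ≤ ((∫⁻ a, θ a * f a ^ 3 ∂μ) ^ (1 / (3 / 2) : ℝ) * (∫⁻ a, θ a ∂μ) ^ (1 / 3 : ℝ)) ^ (3 / 2 : ℝ) := by gcongr
    _ = (∫⁻ x, θ x ∂μ) ^ (1 / 2 : ℝ) * ∫⁻ x, θ x * f x ^ 3 ∂μ := by
      rw [ENNReal.mul_rpow_of_nonneg _ _ (by norm_num), ← ENNReal.rpow_mul, ← ENNReal.rpow_mul, mul_comm]
      norm_num

theorem re_sp_young_haar : (volume : Measure ReSp).IsAddHaarMeasure := by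
  rw [Measure.volume_eq_prod]
  have : (volume : Measure (ℝ × ℝ)).IsAddHaarMeasure := by
    rw [Measure.volume_eq_prod]; infer_instance
  infer_instance

theorem re_sp_young_pt {α : Type*} [MeasurableSpace α] (μ : Measure α) (k v : α → ℝ≥0∞) (hk : Measurable k) (hv : Measurable v) :
    (∫⁻ x, k x * v x ∂μ) ^ 3 ≤ (∫⁻ x, k x ∂μ) ^ 2 * ∫⁻ x, k x * v x ^ 3 ∂μ := by
  have h := ENNReal.lintegral_mul_norm_pow_le (μ := μ) (f := k) (g := fun x => k x * v x ^ 3) hk.aemeasurable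
    (hk.mul (hv.pow_const 3)).aemeasurable (p := 2 / 3) (q := 1 / 3) (by norm_num) (by norm_num) (by norm_num)
  have e : ∀ x, k x ^ (2 / 3 : ℝ) * (k x * v x ^ 3) ^ (1 / 3 : ℝ) = k x * v x := by
    intro x
    rw [ENNReal.mul_rpow_of_nonneg _ _ (by norm_num), ← mul_assoc, ← ENNReal.rpow_add_of_nonneg _ _ (by norm_num) (by norm_num),
      ← ENNReal.rpow_natCast, ← ENNReal.rpow_mul]
    norm_num
  simp only [e] at h
  have h3 := pow_le_pow_left₀ (zero_le) h 3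
  refine h3.trans (le_of_eq ?_)
  rw [mul_pow, ← ENNReal.rpow_natCast, ← ENNReal.rpow_natCast, ← ENNReal.rpow_mul, ← ENNReal.rpow_mul, ← ENNReal.rpow_natCast]
  norm_num

/-- **LEAF L-256-RESP-YOUNG: Young's inequality `L¹ * L³ → L³`.**   Pointwise `(∫ K(z-z') u(z'))³ ≤ (∫ K)² ∫ K(z-z') u(z')³` (Hölder as in `re_sp_hold`/`tri_cs` with the measure `K(z - ·) dz'`, `lintegral_sub_left_eq_self`), integrate in `z` (Tonelli `lintegral_lintegral_swap`, `lintegral_sub_right_eq_self`). -/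
theorem re_sp_young (K u : ReSp → ℝ≥0∞) (hK : Measurable K) (hu : Measurable u) :
    ∫⁻ z, (∫⁻ z', K (z - z') * u z') ^ 3 ≤ (∫⁻ w, K w) ^ 3 * ∫⁻ z', u z' ^ 3 := by
  have := re_sp_young_haar
  have h1 : ∀ z, (∫⁻ z', K (z - z') * u z') ^ 3 ≤ (∫⁻ w, K w) ^ 2 * ∫⁻ z', K (z - z') * u z' ^ 3 := by
    intro z
    have h := re_sp_young_pt volume (fun z' => K (z - z')) u (hK.comp (measurable_const.sub measurable_id)) hu
    rwa [lintegral_sub_left_eq_self K z] at h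
  refine (lintegral_mono h1).trans ?_
  have hm : Measurable (Function.uncurry fun (z z' : ReSp) => K (z - z') * u z' ^ 3) :=
    (hK.comp (measurable_fst.sub measurable_snd)).mul ((hu.comp measurable_snd).pow_const 3)
  have hm' : Measurable fun z => ∫⁻ z', K (z - z') * u z' ^ 3 := hm.lintegral_prod_right'
  rw [lintegral_const_mul _ hm', lintegral_lintegral_swap hm.aemeasurable]
  have e : ∀ z', ∫⁻ z, K (z - z') * u z' ^ 3 = (∫⁻ w, K w) * u z' ^ 3 := by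
    intro z'
    have hm2 : Measurable fun z : ReSp => K (z - z') := hK.comp (measurable_id.sub measurable_const)
    rw [lintegral_mul_const _ hm2, lintegral_sub_right_eq_self K z']
  simp_rw [e]
  rw [lintegral_const_mul _ (hu.pow_const 3), ← mul_assoc, ← pow_succ]

theorem re_sp_w3_c1 (t : ℝ) (G : RdWvPar.Mo → ℂ) (hG : Integrable G) : Continuous (reFld t G) := by
  have h := re_sp_fld_cont G hG
  have h2 : Continuous fun z : ReSp => ((t, z) : ℝ × ReSp) := by fun_prop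
  have h3 := Continuous.comp (g := fun x : ℝ × ReSp => reFld x.1 G x.2) (f := fun z : ReSp => ((t, z) : ℝ × ReSp)) h h2
  have e : ((fun x : ℝ × ReSp => reFld x.1 G x.2) ∘ fun z : ReSp => ((t, z) : ℝ × ReSp)) = reFld t G := by
    funext z
    rfl
  rwa [e] at h3

theorem re_sp_w3_c2 (H : ℝ) (hH : 0 < H) (k β : ℕ) (s : ℝ) (A : ℝ × ℝ) : Continuous (reK H k β A s) := by
  have h := re_sp_K_cont H hH k β s
  have h2 : Continuous fun z : ReSp => ((A, z) : (ℝ × ℝ) × ReSp) := by fun_prop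
  have h3 := Continuous.comp (g := fun x : (ℝ × ℝ) × ReSp => reK H k β x.1 s x.2) (f := fun z : ReSp => ((A, z) : (ℝ × ℝ) × ReSp)) h h2
  have e : ((fun x : (ℝ × ℝ) × ReSp => reK H k β x.1 s x.2) ∘ fun z : ReSp => ((A, z) : (ℝ × ℝ) × ReSp)) = reK H k β A s := by
    funext z
    rfl
  rwa [e] at h3

theorem re_sp_w3_in (β : ℕ) (C : ℝ) (hK : ∀ (H : ℝ), 0 < H → ∀ (k : ℕ) (A : ℝ × ℝ) (s : ℝ), |s| ≤ 2 * rdLen k → ∫⁻ w, ‖reK H k β A s w‖ₑ ≤ ENNReal.ofReal C)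
    (p : RdWvPar) (T t : ℝ) (k : ℕ) (G : RdWvPar.Mo → ℂ) (hG : Integrable G) (hTt : |T - t| ≤ 2 * rdLen k) (A : ℝ × ℝ) :
    ∫⁻ z : ReSp, ‖∫ q, p.pk T k β (A, z) q * G q‖ₑ ^ 3 ≤ ENNReal.ofReal C ^ 3 * ∫⁻ z, ‖reFld t G z‖ₑ ^ 3 := by
  have hH := p.H_pos
  have huc : Continuous (reFld t G) := re_sp_w3_c1 t G hG
  have hKc : Continuous (reK p.H k β A (T - t)) := re_sp_w3_c2 p.H hH k β (T - t) A
  have h1 : ∀ z : ReSp, ‖∫ q, p.pk T k β (A, z) q * G q‖ₑ ≤ ∫⁻ z', ‖reK p.H k β A (T - t) (z - z')‖ₑ * ‖reFld t G z'‖ₑ := by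
    intro z
    rw [re_sp_F1 p T t k β G hG A z]
    refine (enorm_integral_le_lintegral_enorm _).trans (le_of_eq ?_)
    refine lintegral_congr fun z' => ?_
    rw [enorm_mul]
  calc ∫⁻ z : ReSp, ‖∫ q, p.pk T k β (A, z) q * G q‖ₑ ^ 3 ≤ ∫⁻ z, (∫⁻ z', ‖reK p.H k β A (T - t) (z - z')‖ₑ * ‖reFld t G z'‖ₑ) ^ 3 :=
        lintegral_mono fun z => pow_le_pow_left₀ (zero_le) (h1 z) 3
    _ ≤ (∫⁻ w, ‖reK p.H k β A (T - t) w‖ₑ) ^ 3 * ∫⁻ z', ‖reFld t G z'‖ₑ ^ 3 :=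
        re_sp_young (fun w => ‖reK p.H k β A (T - t) w‖ₑ) (fun z' => ‖reFld t G z'‖ₑ) hKc.measurable.enorm huc.measurable.enorm
    _ ≤ _ := mul_le_mul_left (pow_le_pow_left₀ (zero_le) (hK p.H hH k A (T - t) hTt) 3) _

/-- **LEAF L-256-RESP-W3: the cubic norm of the rows is bounded by the cubic norm of the field at any nearby time.**
PLAN.  `ρ = ofReal (d²)⁻¹ • (dA ⊗ dz)` (Tonelli).   For fixed `A`: `re_sp_F1`, `‖row (A, z)‖ₑ ≤ ∫⁻ ‖reK .. (T-t) (z-z')‖ₑ ‖u_t z'‖ₑ`, `re_sp_young`, `re_sp_kl1`: `∫⁻ z ‖row (A,z)‖ₑ³ ≤ C³ ∫⁻ ‖u_t‖ₑ³`.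
`row (A, ·) = 0` unless `rtSq (A - As) ≤ ((M+2) d)²` (`re_sp_row_van`): area `≤ 4 (M+2)² d² ≤ 36 M² d²`. -/
theorem re_sp_w3 (β : ℕ) : ∃ C : ℝ, 0 ≤ C ∧ ∀ (p : RdWvPar) (T t : ℝ) (k : ℕ) (As : ℝ × ℝ) (M : ℝ) (G : RdWvPar.Mo → ℂ), Integrable G → 1 ≤ M → |T - t| ≤ 2 * rdLen k →
    (∀ᵐ q ∂(volume : Measure RdWvPar.Mo), G q ≠ 0 → rtSq ((2 * q.2)⁻¹ • q.1 - As) ≤ (M * rdD p.H k) ^ 2) →
    ∫⁻ x, ‖∫ q, p.pk T k β x q * G q‖ₑ ^ 3 ∂(p.rw k) ≤ ENNReal.ofReal (C * M ^ 2) * ∫⁻ z, ‖reFld t G z‖ₑ ^ 3 := by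
  obtain ⟨C, hC, hK⟩ := re_sp_kl1 β
  refine ⟨36 * C ^ 3, by positivity, fun p T t k As M G hG hM hTt hsp => ?_⟩
  obtain ⟨hd, -, -, -, hd2, -⟩ := re_sp_dq p.H p.H_pos k
  have hH := p.H_pos
  have hl := rdLen_pos k
  set d := rdD p.H k with hdd
  have hRc : Continuous fun x : RdWvPar.Ph => ∫ q, p.pk T k β x q * G q := re_sp_row_cont p T k β G hG
  set U := ∫⁻ z, ‖reFld t G z‖ₑ ^ 3 with hU
  set ρ : ℝ := (M + 2) * d with hρ
  have hρ0 : 0 < ρ := by positivity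
  set Sq : Set (ℝ × ℝ) := Set.Icc (As.1 - ρ) (As.1 + ρ) ×ˢ Set.Icc (As.2 - ρ) (As.2 + ρ) with hSq
  have hSqm : MeasurableSet Sq := measurableSet_Icc.prod measurableSet_Icc
  have hin : ∀ A, ∫⁻ z : ReSp, ‖∫ q, p.pk T k β (A, z) q * G q‖ₑ ^ 3 ≤ Sq.indicator (fun _ => ENNReal.ofReal C ^ 3 * U) A := by
    intro A
    by_cases hA : A ∈ Sq
    · rw [Set.indicator_of_mem hA]
      exact re_sp_w3_in β C hK p T t k G hG hTt A
    · rw [Set.indicator_of_notMem hA, nonpos_iff_eq_zero]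
      have hfar : (M * d + 2 * d) ^ 2 < rtSq (A - As) := by
        have e : M * d + 2 * d = ρ := by rw [hρ]; ring
        rw [e]
        unfold rtSq
        simp only [Prod.fst_sub, Prod.snd_sub]
        by_contra hcon
        apply hA
        obtain ⟨a1, a2⟩ := re_sp_vol_sq hρ0.le (not_lt.1 hcon)
        rw [abs_le] at a1 a2
        exact ⟨⟨by linarith [a1.1], by linarith [a1.2]⟩, ⟨by linarith [a2.1], by linarith [a2.2]⟩⟩
      have h0 : ∀ z : ReSp, ‖∫ q, p.pk T k β (A, z) q * G q‖ₑ ^ 3 = 0 := by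
        intro z
        rw [re_sp_row_van p T k β G As (M * d) (by positivity) hsp A z hfar]
        simp
      simp_rw [h0]
      exact lintegral_zero
  have hm : Measurable fun x : RdWvPar.Ph => ‖∫ q, p.pk T k β x q * G q‖ₑ ^ 3 := hRc.measurable.enorm.pow_const 3
  unfold RdWvPar.rw
  rw [lintegral_smul_measure, smul_eq_mul, Measure.volume_eq_prod, lintegral_prod _ hm.aemeasurable]
  calc ENNReal.ofReal (rdLen k / p.H) * ∫⁻ A, ∫⁻ z : ReSp, ‖∫ q, p.pk T k β (A, z) q * G q‖ₑ ^ 3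
      ≤ ENNReal.ofReal (rdLen k / p.H) * ∫⁻ A, Sq.indicator (fun _ => ENNReal.ofReal C ^ 3 * U) A := mul_le_mul_right (lintegral_mono hin) _
    _ = ENNReal.ofReal (rdLen k / p.H) * ((ENNReal.ofReal C ^ 3 * U) * (ENNReal.ofReal (2 * ρ) * ENNReal.ofReal (2 * ρ))) := by
        rw [lintegral_indicator hSqm, setLIntegral_const, hSq, re_sp_vol_square]
    _ = ENNReal.ofReal (rdLen k / p.H * (2 * ρ) * (2 * ρ) * C ^ 3) * U := by
        have e1 : ENNReal.ofReal (rdLen k / p.H * (2 * ρ) * (2 * ρ) * C ^ 3)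
            = ENNReal.ofReal (rdLen k / p.H) * ENNReal.ofReal (2 * ρ) * ENNReal.ofReal (2 * ρ) * ENNReal.ofReal C ^ 3 := by
          rw [ENNReal.ofReal_mul (by positivity), ENNReal.ofReal_mul (by positivity), ENNReal.ofReal_mul (by positivity), ENNReal.ofReal_pow hC]
        rw [e1]
        ring
    _ ≤ _ := by
        apply mul_le_mul_left
        apply ENNReal.ofReal_le_ofReal
        have e : rdLen k / p.H * (2 * ρ) * (2 * ρ) * C ^ 3 = 4 * (M + 2) ^ 2 * C ^ 3 := by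
          rw [hρ]
          have : rdLen k / p.H * d ^ 2 = 1 := by rw [hd2]; field_simp
          calc rdLen k / p.H * (2 * ((M + 2) * d)) * (2 * ((M + 2) * d)) * C ^ 3 = 4 * (M + 2) ^ 2 * C ^ 3 * (rdLen k / p.H * d ^ 2) := by ring
            _ = _ := by rw [this, mul_one]
        rw [e]
        have h3 : (M + 2) ^ 2 ≤ 9 * M ^ 2 := by nlinarith
        have h4 : 0 ≤ C ^ 3 := by positivity
        nlinarith

/-- one label -/
theorem re_sp_rd3_one (η : ℝ) (hη0 : 0 < η) (hη1 : η < 1) (p : RdWvPar) (E : Xp (p.sys η)) (bm : ℕ) (Kp : ℝ) (φ : RdFrm) (h : ReStep η p E bm Kp φ)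
    (hG : Integrable (reV E : RdWvPar.Mo → ℂ)) (l : Fin E.L) :
    ENNReal.ofReal (E.m l ^ (3 / 2 : ℝ) / Real.sqrt (E.w l)) ≤ ENNReal.ofReal (Real.sqrt (32 * Kp ^ 4 * rdLen E.kf ^ 3)) *
      ∫⁻ x : RdWvPar.Ph, ENNReal.ofReal (E.th l x) * ‖p.row (tmL E.kf (E.iv l)) E.kf E.bT E.v x‖ₑ ^ 3 ∂(p.rw E.kf) := by
  have hv := h.valid
  have hf := h.free
  obtain ⟨-, -, -, -, -, -, -, hpar, -⟩ := re_sp_step_par η hη0 hη1 p E bm Kp φ h
  obtain ⟨-, hr, hvw⟩ := hpar l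
  have hw : 0 < E.w l := hv.w_pos l
  have hK0 : 0 < Kp := by linarith [h.Kp_ge]
  set T := tmL E.kf (E.iv l) with hT
  set k := E.kf with hk
  set Q : RdTst := rwT (E.ts l) with hQ
  set θ : RdWvPar.Ph → ℝ := E.th l with hθ
  set F : Lp ℂ 2 (p.rw k) := p.an T k E.bT E.v with hF
  set W : RdWvPar.Ph → ℂ := p.row T k E.bT E.v with hW
  set S : Set RdWvPar.Ph := {x : RdWvPar.Ph | RdWvPar.co T x ∈ Q.rows k} with hS
  have hl := rdLen_pos k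
  have hWc : Continuous W := re_sp_row_cont p T k E.bT (reV E : RdWvPar.Mo → ℂ) hG
  have hm : E.m l = ∫ x, θ x * ‖(F : RdWvPar.Ph → ℂ) x‖ ^ 2 ∂(p.rw k) := by
    unfold Xp.m
    rw [re_sp_free E hf]
    rfl
  have hθm : Measurable θ := hv.th_meas l
  have hθ0 : ∀ x, 0 ≤ θ x := hv.th_nn l
  have hθ1 : ∀ x, θ x ≤ 1 := re_sp_th_le E hv l
  have hθs : ∀ x, θ x ≠ 0 → x ∈ S := hv.th_supp l
  have hvol := re_sp_cell_vol p T k Q hr
  have hnn : ∀ x, 0 ≤ θ x * ‖(F : RdWvPar.Ph → ℂ) x‖ ^ 2 := fun x => mul_nonneg (hθ0 x) (by positivity)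
  have hm0 : 0 ≤ E.m l := by rw [hm]; exact integral_nonneg hnn
  have hasm : AEStronglyMeasurable (fun x => θ x * ‖(F : RdWvPar.Ph → ℂ) x‖ ^ 2) (p.rw k) :=
    hθm.aestronglyMeasurable.mul ((Lp.aestronglyMeasurable F).norm.pow 2)
  have h1 : ENNReal.ofReal (E.m l) ≤ ∫⁻ x, ENNReal.ofReal (θ x) * ‖W x‖ₑ ^ 2 ∂(p.rw k) := by
    rw [hm, integral_eq_lintegral_of_nonneg_ae (Filter.Eventually.of_forall hnn) hasm]
    refine ENNReal.ofReal_toReal_le.trans (le_of_eq ?_)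
    refine lintegral_congr_ae ?_
    filter_upwards [re_sp_an_spec p T k E.bT E.v] with x hx
    rw [ENNReal.ofReal_mul (hθ0 x), ENNReal.ofReal_pow (norm_nonneg _), ofReal_norm, hF, hx]
  have h2 : ∫⁻ x, ENNReal.ofReal (θ x) ∂(p.rw k) ≤ ENNReal.ofReal (32 * Kp ^ 4 * rdLen k ^ 3 * E.w l) := by
    calc ∫⁻ x, ENNReal.ofReal (θ x) ∂(p.rw k) ≤ ∫⁻ x, S.indicator 1 x ∂(p.rw k) := by
          refine lintegral_mono fun x => ?_
          by_cases hxS : x ∈ S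
          · rw [Set.indicator_of_mem hxS, Pi.one_apply, ← ENNReal.ofReal_one]
            exact ENNReal.ofReal_le_ofReal (hθ1 x)
          · have h3 : θ x = 0 := by
              by_contra hne
              exact hxS (hθs x hne)
            rw [h3, ENNReal.ofReal_zero]
            exact zero_le
      _ ≤ (p.rw k) S := lintegral_indicator_one_le S
      _ ≤ _ := hvol.trans (ENNReal.ofReal_le_ofReal hvw)
  have h3 := re_sp_hold (p.rw k) (fun x => ENNReal.ofReal (θ x)) (fun x => ‖W x‖ₑ) (ENNReal.measurable_ofReal.comp hθm) hWc.measurable.enorm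
  set J := ∫⁻ x, ENNReal.ofReal (θ x) * ‖W x‖ₑ ^ 3 ∂(p.rw k) with hJ
  have h4 : ENNReal.ofReal (E.m l ^ (3 / 2 : ℝ)) ≤ ENNReal.ofReal (Real.sqrt (32 * Kp ^ 4 * rdLen k ^ 3)) * ENNReal.ofReal (Real.sqrt (E.w l)) * J := by
    rw [← ENNReal.ofReal_rpow_of_nonneg hm0 (by norm_num)]
    refine (ENNReal.rpow_le_rpow h1 (by norm_num)).trans (h3.trans (mul_le_mul_left ?_ _))
    refine (ENNReal.rpow_le_rpow h2 (by norm_num)).trans (le_of_eq ?_)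
    rw [ENNReal.ofReal_rpow_of_nonneg (by positivity) (by norm_num), ← Real.sqrt_eq_rpow, Real.sqrt_mul (by positivity),
      ENNReal.ofReal_mul (Real.sqrt_nonneg _)]
  have hsw : 0 < Real.sqrt (E.w l) := Real.sqrt_pos.2 hw
  rw [div_eq_mul_inv, ENNReal.ofReal_mul (by positivity)]
  calc ENNReal.ofReal (E.m l ^ (3 / 2 : ℝ)) * ENNReal.ofReal (Real.sqrt (E.w l))⁻¹
      ≤ (ENNReal.ofReal (Real.sqrt (32 * Kp ^ 4 * rdLen k ^ 3)) * ENNReal.ofReal (Real.sqrt (E.w l)) * J) * ENNReal.ofReal (Real.sqrt (E.w l))⁻¹ :=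
        mul_le_mul_left h4 _
    _ = (ENNReal.ofReal (Real.sqrt (E.w l)) * ENNReal.ofReal (Real.sqrt (E.w l))⁻¹) * (ENNReal.ofReal (Real.sqrt (32 * Kp ^ 4 * rdLen k ^ 3)) * J) := by ring
    _ = _ := by
        rw [← ENNReal.ofReal_mul hsw.le, mul_inv_cancel₀ hsw.ne', ENNReal.ofReal_one, one_mul]

/-- **LEAF L-256-RESP-RD3: the cubic readout is bounded by the cubic norms of the rows.**
PLAN.  `ofReal (m_l^{3/2}) = (∫⁻ θ_l ‖W‖ₑ² dρ_f)^{3/2} ≤ (∫⁻ θ_l)^{1/2} ∫⁻ θ_l ‖W‖ₑ³` (`re_sp_hold`; `re_sp_an_spec`, `re_sp_free`), `∫⁻ θ_l ≤ ρ_f cell_l ≤ 32 Kp⁴ ℓ_f³ w_l` (`re_sp_cell_vol`, `re_sp_step_par`);   divide by `√w_l`;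
group by `i = iv l ∈ I = Ico (i0 2^n) ((i0+1) 2^n)`, `∑_{l, iv l = i} θ_l ≤ 1`. -/
theorem re_sp_rd3 (η : ℝ) (hη0 : 0 < η) (hη1 : η < 1) (p : RdWvPar) (E : Xp (p.sys η)) (bm : ℕ) (Kp : ℝ) (φ : RdFrm) (h : ReStep η p E bm Kp φ)
    (hG : Integrable (reV E : RdWvPar.Mo → ℂ)) :
    ENNReal.ofReal E.rd ≤ ENNReal.ofReal (Real.sqrt (32 * Kp ^ 4 * rdLen E.kf ^ 3)) *
      ∑ i ∈ Finset.Ico (E.i0 * 2 ^ E.n) ((E.i0 + 1) * 2 ^ E.n), ∫⁻ x, ‖p.row (tmL E.kf i) E.kf E.bT E.v x‖ₑ ^ 3 ∂(p.rw E.kf) := by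
  classical
  have hv := h.valid
  obtain ⟨I, hI⟩ : ∃ I : Finset ℕ, I = Finset.Ico (E.i0 * 2 ^ E.n) ((E.i0 + 1) * 2 ^ E.n) := ⟨_, rfl⟩
  rw [← hI]
  set c := ENNReal.ofReal (Real.sqrt (32 * Kp ^ 4 * rdLen E.kf ^ 3)) with hc
  set W : ℕ → RdWvPar.Ph → ℂ := fun i => p.row (tmL E.kf i) E.kf E.bT E.v with hW
  have hWc : ∀ i, Continuous (W i) := fun i => re_sp_row_cont p (tmL E.kf i) E.kf E.bT (reV E : RdWvPar.Mo → ℂ) hG
  have hθm : ∀ l, Measurable fun x : RdWvPar.Ph => ENNReal.ofReal (E.th l x) := fun l => ENNReal.measurable_ofReal.comp (hv.th_meas l)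
  set g : Fin E.L → ℕ → RdWvPar.Ph → ℝ≥0∞ := fun l i x => (if E.iv l = i then ENNReal.ofReal (E.th l x) else 0) * ‖W i x‖ₑ ^ 3 with hg
  have hgm : ∀ l i, Measurable (g l i) := fun l i =>
    (Measurable.ite (MeasurableSet.const _) (hθm l) measurable_const).mul ((hWc i).measurable.enorm.pow_const 3)
  have h1 : ENNReal.ofReal E.rd ≤ ∑ l, ENNReal.ofReal (E.m l ^ (3 / 2 : ℝ) / Real.sqrt (E.w l)) := by
    unfold Xp.rd
    rw [ENNReal.ofReal_sum_of_nonneg]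
    intro l _
    have hm0 : 0 ≤ E.m l := by
      unfold Xp.m PkSys.en
      exact integral_nonneg fun x => mul_nonneg (hv.th_nn l x) (by positivity)
    positivity
  have h2 : ∀ l, ∫⁻ x : RdWvPar.Ph, ENNReal.ofReal (E.th l x) * ‖W (E.iv l) x‖ₑ ^ 3 ∂(p.rw E.kf) = ∑ i ∈ I, ∫⁻ x, g l i x ∂(p.rw E.kf) := by
    intro l
    rw [Finset.sum_eq_single (E.iv l)]
    · simp [hg]
    · intro i _ hne
      simp [hg, Ne.symm hne]
    · intro hni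
      exact absurd (hI ▸ re_sp_iv_mem E hv l) hni
  have h3 : ∀ i x, ∑ l, g l i x ≤ ‖W i x‖ₑ ^ 3 := by
    intro i x
    simp only [hg]
    rw [← Finset.sum_mul]
    have h4 : ∑ l, (if E.iv l = i then ENNReal.ofReal (E.th l x) else 0) ≤ 1 := by
      have e : ∀ l, (if E.iv l = i then ENNReal.ofReal (E.th l x) else 0) = ENNReal.ofReal (if E.iv l = i then E.th l x else 0) := by
        intro l
        split_ifs
        · rfl
        · rw [ENNReal.ofReal_zero]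
      simp_rw [e]
      rw [← ENNReal.ofReal_sum_of_nonneg, ← ENNReal.ofReal_one]
      · exact ENNReal.ofReal_le_ofReal (hv.th_sum i x)
      · intro l _
        split_ifs
        · exact hv.th_nn l x
        · exact le_rfl
    calc (∑ l, (if E.iv l = i then ENNReal.ofReal (E.th l x) else 0)) * ‖W i x‖ₑ ^ 3 ≤ 1 * ‖W i x‖ₑ ^ 3 := mul_le_mul_left h4 _
      _ = _ := one_mul _
  calc ENNReal.ofReal E.rd ≤ ∑ l, ENNReal.ofReal (E.m l ^ (3 / 2 : ℝ) / Real.sqrt (E.w l)) := h1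
    _ ≤ ∑ l, c * ∫⁻ x : RdWvPar.Ph, ENNReal.ofReal (E.th l x) * ‖W (E.iv l) x‖ₑ ^ 3 ∂(p.rw E.kf) :=
        Finset.sum_le_sum fun l _ => re_sp_rd3_one η hη0 hη1 p E bm Kp φ h hG l
    _ = c * ∑ i ∈ I, ∑ l, ∫⁻ x, g l i x ∂(p.rw E.kf) := by
        rw [← Finset.mul_sum]
        simp_rw [h2]
        rw [Finset.sum_comm]
    _ = c * ∑ i ∈ I, ∫⁻ x, ∑ l, g l i x ∂(p.rw E.kf) := by
        congr 1
        refine Finset.sum_congr rfl fun i _ => ?_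
        rw [lintegral_finsetSum _ fun l _ => hgm l i]
    _ ≤ c * ∑ i ∈ I, ∫⁻ x, ‖W i x‖ₑ ^ 3 ∂(p.rw E.kf) :=
        mul_le_mul_right (Finset.sum_le_sum fun i _ => lintegral_mono (h3 i)) _

theorem re_sp_tmL_succ (k i : ℕ) : tmL k i + rdLen k = tmL k (i + 1) := by
  unfold tmL rdLen
  rw [inv_pow]
  push_cast
  field_simp

theorem re_sp_tmL_mono (k : ℕ) {i j : ℕ} (h : i ≤ j) : tmL k i ≤ tmL k j := by
  unfold tmL
  have : (i : ℝ) ≤ j := by exact_mod_cast h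
  gcongr

theorem re_sp_tmL_mul (k0 n i0 : ℕ) : tmL (k0 + n) (i0 * 2 ^ n) = tmL k0 i0 := by
  unfold tmL
  push_cast
  rw [pow_add]
  field_simp

/-- **LEAF L-256-RESP-TILE: time average.**   The intervals `[T_i, T_i + ℓ_f)`, `i ∈ Ico (i0 2^n) ((i0+1) 2^n)`, are disjoint and contained in `[T₀, T₀ + ℓ₀)`;   if `a i ≤ c g t` for all `t` in the `i`-th interval then `ℓ_f a i ≤ c ∫⁻_{i-th} g` (`setLIntegral_mono`, `lintegral_const_mul'` with `hc`, `Real.volume_Ico`), sum (`lintegral_biUnion_finset`/`lintegral_finset..`, `lintegral_mono_set`). -/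
theorem re_sp_tile (k0 i0 n : ℕ) (a : ℕ → ℝ≥0∞) (c : ℝ≥0∞) (hc : c ≠ ∞) (g : ℝ → ℝ≥0∞)
    (h : ∀ i ∈ Finset.Ico (i0 * 2 ^ n) ((i0 + 1) * 2 ^ n), ∀ t ∈ Set.Ico (tmL (k0 + n) i) (tmL (k0 + n) i + rdLen (k0 + n)), a i ≤ c * g t) :
    ENNReal.ofReal (rdLen (k0 + n)) * ∑ i ∈ Finset.Ico (i0 * 2 ^ n) ((i0 + 1) * 2 ^ n), a i ≤ c * ∫⁻ t in Set.Ico (tmL k0 i0) (tmL k0 i0 + rdLen k0), g t := by
  have h1 : ∀ i ∈ Finset.Ico (i0 * 2 ^ n) ((i0 + 1) * 2 ^ n),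
      ENNReal.ofReal (rdLen (k0 + n)) * a i ≤ c * ∫⁻ t in Set.Ico (tmL (k0 + n) i) (tmL (k0 + n) i + rdLen (k0 + n)), g t := by
    intro i hi
    rw [← lintegral_const_mul' c _ hc]
    calc ENNReal.ofReal (rdLen (k0 + n)) * a i = ∫⁻ _ in Set.Ico (tmL (k0 + n) i) (tmL (k0 + n) i + rdLen (k0 + n)), a i := by
          rw [setLIntegral_const, Real.volume_Ico, mul_comm]
          congr 2
          ring
      _ ≤ _ := setLIntegral_mono' measurableSet_Ico (fun t ht => h i hi t ht)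
  rw [Finset.mul_sum]
  refine (Finset.sum_le_sum h1).trans ?_
  rw [← Finset.mul_sum]
  gcongr
  rw [← lintegral_biUnion_finset _ (fun i _ => measurableSet_Ico)]
  · refine lintegral_mono_set ?_
    intro t ht
    simp only [Set.mem_iUnion] at ht
    obtain ⟨i, hi, ht1, ht2⟩ := ht
    rw [Finset.mem_Ico] at hi
    rw [re_sp_tmL_succ] at ht2
    constructor
    · rw [← re_sp_tmL_mul k0 n i0]
      exact (re_sp_tmL_mono _ hi.1).trans ht1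
    · rw [re_sp_tmL_succ, ← re_sp_tmL_mul k0 n (i0 + 1)]
      exact ht2.trans_le (re_sp_tmL_mono _ hi.2)
  · intro i _ j _ hij
    simp only [Function.onFun]
    rw [Set.disjoint_left]
    intro t hti htj
    rw [re_sp_tmL_succ] at hti htj
    rcases Nat.lt_or_gt_of_ne hij with hlt | hlt
    · exact absurd (hti.2.trans_le (re_sp_tmL_mono _ hlt)) (not_lt.mpr htj.1)
    · exact absurd (htj.2.trans_le (re_sp_tmL_mono _ hlt)) (not_lt.mpr hti.1)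

/-- **LEAF L-256-RESP-READOUT (glue) = EXIT for PLANE-B: (space-3), lem:rt-spatial-readout, exact form.**
PLAN.  `re_sp_L1`;  `re_sp_rd3`;  `re_sp_w3 E.bT` with `M = Kp²` (`re_sp_step_par`: `(Kp r)² ≤ (Kp² d_f)²`), `T = T_i`, `t ∈ [T_i, T_i + ℓ_f)`;  `re_sp_tile`;   `√(32 Kp⁴ ℓ_f³) · C Kp⁴ · ℓ_f⁻¹ = √32 C Kp⁶ √ℓ_f`;   `val = (√Δ)⁻¹/(e√κ) rd`, `√ℓ_f/√Δ = √ℓ₀`.   `C = √32 ∑_{β ≤ bm} C_β`. -/
theorem re_sp_readout (bm : ℕ) : ∃ C : ℝ, 0 ≤ C ∧ ∀ (η : ℝ), 0 < η → η < 1 → ∀ (p : RdWvPar) (E : Xp (p.sys η)) (Kp : ℝ) (φ : RdFrm), ReStep η p E bm Kp φ →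
    reAngIn {A | rtSq (A - φ.As) ≤ (Kp * φ.r) ^ 2} E.v →
    ENNReal.ofReal E.val ≤ ENNReal.ofReal (C * Kp ^ 6 * Real.sqrt (rdLen E.k0) / (E.e * Real.sqrt E.ka)) *
      ∫⁻ t in Set.Ico (tmL E.k0 E.i0) (tmL E.k0 E.i0 + rdLen E.k0), ∫⁻ z, ‖reFld t (reV E) z‖ₑ ^ 3 := by
  choose Cf hCf hw3 using re_sp_w3
  obtain ⟨S, hS⟩ : ∃ S : ℝ, S = ∑ β ∈ Finset.range (bm + 1), Cf β := ⟨_, rfl⟩
  have hS0 : 0 ≤ S := hS ▸ Finset.sum_nonneg fun β _ => hCf β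
  have hSle : ∀ β, β ≤ bm → Cf β ≤ S := fun β hβ => by
    rw [hS]
    exact Finset.single_le_sum (f := Cf) (fun i _ => hCf i) (Finset.mem_range.mpr (by omega))
  refine ⟨Real.sqrt 32 * S, by positivity, ?_⟩
  intro η hη0 hη1 p E Kp φ h hang
  obtain ⟨e1, hs0, hs1, e4, e5, -, a2, hlab, htime⟩ := re_sp_step_par η hη0 hη1 p E bm Kp φ h
  have hv := h.valid
  have hK : 1 ≤ Kp := h.Kp_ge
  have hK0 : 0 < Kp := by linarith
  have hl0 : 0 < rdLen E.k0 := rdLen_pos _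
  have hlf : 0 < rdLen E.kf := rdLen_pos _
  have hka : 0 < E.ka := hv.ka_pos
  have he : 0 < E.e := hv.e_pos
  have hang' : ∀ᵐ q ∂(volume : Measure RdWvPar.Mo), (reV E : RdWvPar.Mo → ℂ) q ≠ 0 →
      rtSq ((2 * q.2)⁻¹ • q.1 - φ.As) ≤ (Kp ^ 2 * rdD p.H E.kf) ^ 2 := by
    refine Filter.Eventually.mono hang fun q hq hne => ?_
    exact (hq hne).trans a2
  have hGint : Integrable (reV E : RdWvPar.Mo → ℂ) := re_sp_L1 p E.b0 φ.As _ (reV E) h.spec hang'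
  have hrd := re_sp_rd3 η hη0 hη1 p E bm Kp φ h hGint
  have htile := re_sp_tile E.k0 E.i0 E.n (fun i => ∫⁻ x, ‖p.row (tmL E.kf i) E.kf E.bT E.v x‖ₑ ^ 3 ∂(p.rw E.kf))
    (ENNReal.ofReal (Cf E.bT * (Kp ^ 2) ^ 2)) ENNReal.ofReal_ne_top (fun t => ∫⁻ z, ‖reFld t (reV E) z‖ₑ ^ 3) (by
      intro i _ t ht
      refine hw3 E.bT p (tmL E.kf i) t E.kf φ.As (Kp ^ 2) (reV E) hGint (one_le_pow₀ hK) ?_ hang'
      have h1 : tmL E.kf i ≤ t := ht.1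
      have h2 : t < tmL E.kf i + rdLen E.kf := ht.2
      rw [abs_le]
      constructor <;> linarith)
  obtain ⟨Sa, hSa⟩ : ∃ Sa : ℝ≥0∞, Sa = ∑ i ∈ Finset.Ico (E.i0 * 2 ^ E.n) ((E.i0 + 1) * 2 ^ E.n), ∫⁻ x, ‖p.row (tmL E.kf i) E.kf E.bT E.v x‖ₑ ^ 3 ∂(p.rw E.kf) := ⟨_, rfl⟩
  obtain ⟨I, hI⟩ : ∃ I : ℝ≥0∞, I = ∫⁻ t in Set.Ico (tmL E.k0 E.i0) (tmL E.k0 E.i0 + rdLen E.k0), ∫⁻ z, ‖reFld t (reV E) z‖ₑ ^ 3 := ⟨_, rfl⟩
  rw [← hSa] at hrd
  have htile' : ENNReal.ofReal (rdLen E.kf) * Sa ≤ ENNReal.ofReal (Cf E.bT * (Kp ^ 2) ^ 2) * I := by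
    rw [hSa, hI]; exact htile
  rw [← hI]
  have hSale : Sa ≤ ENNReal.ofReal ((rdLen E.kf)⁻¹) * (ENNReal.ofReal (Cf E.bT * (Kp ^ 2) ^ 2) * I) := by
    calc Sa = ENNReal.ofReal ((rdLen E.kf)⁻¹) * (ENNReal.ofReal (rdLen E.kf) * Sa) := by
          rw [← mul_assoc, ← ENNReal.ofReal_mul (by positivity), inv_mul_cancel₀ hlf.ne', ENNReal.ofReal_one, one_mul]
      _ ≤ _ := by gcongr
  have hsk : 0 < Real.sqrt E.ka := Real.sqrt_pos.mpr hka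
  have hss : 0 < Real.sqrt E.s := Real.sqrt_pos.mpr hs0
  have hval : E.val = (Real.sqrt E.s)⁻¹ / (E.e * Real.sqrt E.ka) * E.rd := by
    unfold Xp.val; rw [e4]
  have hsq : Real.sqrt (32 * Kp ^ 4 * rdLen E.kf ^ 3) = Real.sqrt 32 * Kp ^ 2 * rdLen E.kf * (Real.sqrt (rdLen E.k0) * Real.sqrt E.s) := by
    have : 32 * Kp ^ 4 * rdLen E.kf ^ 3 = 32 * (rdLen E.k0 * E.s) * (Kp ^ 2 * rdLen E.kf) ^ 2 := by
      rw [← e1]; ring
    rw [this, Real.sqrt_mul (by positivity), Real.sqrt_sq (by positivity), Real.sqrt_mul (by norm_num), Real.sqrt_mul hl0.le]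
    ring
  rw [hval, ENNReal.ofReal_mul (by positivity)]
  calc ENNReal.ofReal ((Real.sqrt E.s)⁻¹ / (E.e * Real.sqrt E.ka)) * ENNReal.ofReal E.rd
      ≤ ENNReal.ofReal ((Real.sqrt E.s)⁻¹ / (E.e * Real.sqrt E.ka)) * (ENNReal.ofReal (Real.sqrt (32 * Kp ^ 4 * rdLen E.kf ^ 3)) *
          (ENNReal.ofReal ((rdLen E.kf)⁻¹) * (ENNReal.ofReal (Cf E.bT * (Kp ^ 2) ^ 2) * I))) := by
        gcongr
        exact hrd.trans (by gcongr)
    _ = ENNReal.ofReal ((Real.sqrt E.s)⁻¹ / (E.e * Real.sqrt E.ka) * (Real.sqrt (32 * Kp ^ 4 * rdLen E.kf ^ 3) * ((rdLen E.kf)⁻¹ * (Cf E.bT * (Kp ^ 2) ^ 2)))) * I := by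
        have e : ∀ a b c d : ℝ, 0 ≤ a → 0 ≤ b → 0 ≤ c →
            ENNReal.ofReal (a * (b * (c * d))) = ENNReal.ofReal a * (ENNReal.ofReal b * (ENNReal.ofReal c * ENNReal.ofReal d)) := by
          intro a b c d ha hb hc
          rw [ENNReal.ofReal_mul ha, ENNReal.ofReal_mul hb, ENNReal.ofReal_mul hc]
        rw [e _ _ _ _ (by positivity) (by positivity) (by positivity)]
        ring
    _ ≤ ENNReal.ofReal (Real.sqrt 32 * S * Kp ^ 6 * Real.sqrt (rdLen E.k0) / (E.e * Real.sqrt E.ka)) * I := by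
        gcongr
        rw [hsq]
        have e : (Real.sqrt E.s)⁻¹ / (E.e * Real.sqrt E.ka) * (Real.sqrt 32 * Kp ^ 2 * rdLen E.kf * (Real.sqrt (rdLen E.k0) * Real.sqrt E.s) * ((rdLen E.kf)⁻¹ * (Cf E.bT * (Kp ^ 2) ^ 2)))
            = Real.sqrt 32 * Cf E.bT * Kp ^ 6 * Real.sqrt (rdLen E.k0) / (E.e * Real.sqrt E.ka) := by
          field_simp
        rw [e]
        have := hSle E.bT h.gen.2
        gcongr

end Claimed.Agent.R256
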