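-- KEEP
import Claimed.Agent.R256.Re.SecTri
import Claimed.Agent.R256.Re.SecRow
import Claimed.Agent.R256.Re.SpaMain

/-!
# Row 256, unit RE, block PLANE-B, file 5: TILE, PATCH, PATCHES, EXIT            (architect helper290)            CONTRACT
**EXIT:**   `re_sc_planeB (η) : RePlaneB η`   (discharges `re_planeB` of `Re/Contract.lean`).
CHAIN:   `re_sc_tile` → `re_sc_slabK` → (`re_sc_slab`, `re_sc_avg`, `re_sc_en`, `re_sc_lhs`) → `re_sc_patch_abs` → (`re_sc_num`) → `re_sc_patch` → (`re_sc_squares`, `re_sc_exact`, `re_sc_patch_mk`) → `re_sc_core_small`;   `re_sc_core_large` (`re_sp_sup`);   `re_sp_readout`   →   `re_sc_planeB`.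
UNITS.  `ℓ = c.l`, `h = c.h = H/(ℓ r²)`, `d² = H/ℓ = h r²`;  Jacobian of the chart `ℓ⁴ r⁴`;  normalised regularity `κ/ℓ³`.
Every `sorry` is a leaf `L-256-SEC-*` (name in the docstring).   Statements FROZEN; auxiliary lemmas directly above your theorem, prefix `re_sc_`; edit only your block.
-/

set_option autoImplicit false

namespace Claimed.Agent.R256

open MeasureTheory
open scoped ENNReal FourierTransform InnerProductSpace BigOperators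

/-! ## 1. The tile bound -/

theorem re_sc_wt_meas_tc (x0 r R : ℝ) : Continuous (tcoord x0 r R) := by
  unfold tcoord tvec
  have h : Continuous fun p : TV => (![p 0 / r, (p 1 - x0 * p 0) / (r * R), (p 2 - 2 * x0 * p 1 + x0 ^ 2 * p 0) / (r * R ^ 2)] : Fin 3 → ℝ) := by
    apply continuous_pi
    intro i
    fin_cases i <;> simp <;> fun_prop
  exact (PiLp.continuous_toLp 2 _).comp h

theorem re_sc_wt_meas_pw {X : Type*} [TopologicalSpace X] (f : X → ℝ) (hf : Continuous f) (h0 : ∀ x, 0 ≤ f x) (a : ℝ) :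
    Continuous fun x => ENNReal.ofReal ((1 + f x) ^ a) := by
  apply ENNReal.continuous_ofReal.comp
  apply Continuous.rpow_const (by fun_prop)
  intro x
  left
  have := h0 x
  positivity
/-- **LEAF L-256-SEC-WTM.**  `c.wt ..` is measurable (continuous functions of `c.Lm x`, `c.uo x.1`: `re_sc_Lm_cont`; `tW` unfolded: `tcoord` is continuous; `ENNReal.continuous_ofReal`, `Real.continuous_rpow..`/`Continuous.rpow_const` with base `≥ 1`). -/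
theorem re_sc_wt_meas (c : SecPt) (N Mt : ℕ) (ℓE Bf R x0 : ℝ) (c' : TV) (s0 : ℝ) : Measurable (c.wt N Mt ℓE Bf R x0 c' s0) := by
  have hL := re_sc_Lm_cont c
  unfold SecPt.wt tW
  have h1 : Continuous fun x : ℝ × ReSp => ENNReal.ofReal ((1 + |c.uo x.1|) ^ (-(Mt : ℝ))) := by
    apply re_sc_wt_meas_pw _ _ (fun x => abs_nonneg _)
    unfold SecPt.uo
    fun_prop
  have h2 : Continuous fun x : ℝ × ReSp => ENNReal.ofReal ((1 + ‖tcoord x0 ℓE R ((c.Lm x).1 - c')‖) ^ (-(N : ℝ))) := by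
    apply re_sc_wt_meas_pw _ _ (fun x => norm_nonneg _)
    exact ((re_sc_wt_meas_tc x0 ℓE R).comp ((continuous_fst.comp hL).sub continuous_const)).norm
  have h3 : Measurable fun x : ℝ × ReSp => ENNReal.ofReal ((1 + Bf * |(c.Lm x).2 - s0|) ^ (-(N : ℝ))) := by
    apply ENNReal.measurable_ofReal.comp
    apply Measurable.pow_const
    have : Continuous fun x : ℝ × ReSp => 1 + Bf * |(c.Lm x).2 - s0| :=
      continuous_const.add (continuous_const.mul ((continuous_snd.comp hL).sub continuous_const).abs)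
    exact this.measurable
  exact (h1.measurable.mul h2.measurable).mul h3

/-- the rows of an enlarged test form a measurable set -/
theorem re_sc_tile_set_meas (τ : RtTest) (T M : ℝ) : MeasurableSet {y : RdWvPar.Ph | RdWvPar.co T y ∈ τ.set M} := by
  have hsq : Continuous rtSq := by unfold rtSq; fun_prop
  have hip : Continuous fun u : (ℝ × ℝ) × (ℝ × ℝ) => rtIp u.1 u.2 := by unfold rtIp; fun_prop
  have hx : Continuous fun y : RdWvPar.Ph => τ.x (RdWvPar.co T y) := by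
    unfold RtTest.x RdWvPar.co; fun_prop
  have hz : Continuous fun y : RdWvPar.Ph => τ.z (RdWvPar.co T y) := by
    unfold RtTest.z RdWvPar.co rtIp; fun_prop
  have hV : Continuous fun y : RdWvPar.Ph => τ.V (RdWvPar.co T y) := by
    unfold RtTest.V RdWvPar.co; fun_prop
  have hF : Continuous fun y : RdWvPar.Ph => τ.Fv (RdWvPar.co T y) := by
    unfold RtTest.Fv RtPoly.F rtIp rtSq; fun_prop
  have hG : Continuous fun y : RdWvPar.Ph => τ.Gv (RdWvPar.co T y) := by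
    unfold RtTest.Gv RtPoly.G rtIp rtSq; fun_prop
  have hcl : IsClosed {y : RdWvPar.Ph | RdWvPar.co T y ∈ τ.set M} := by
    have h1 : IsClosed {y : RdWvPar.Ph | rtSq (τ.x (RdWvPar.co T y)) ≤ M ^ 2} := isClosed_le (hsq.comp hx) continuous_const
    have h2 : IsClosed {y : RdWvPar.Ph | |τ.z (RdWvPar.co T y)| ≤ M} := isClosed_le hz.abs continuous_const
    have h3 : IsClosed {y : RdWvPar.Ph | rtSq (τ.V (RdWvPar.co T y)) ≤ M ^ 2} := isClosed_le (hsq.comp hV) continuous_const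
    have h4 : IsClosed {y : RdWvPar.Ph | |τ.Fv (RdWvPar.co T y)| ≤ M * τ.f} := isClosed_le hF.abs continuous_const
    have h5 : IsClosed {y : RdWvPar.Ph | |τ.Gv (RdWvPar.co T y)| ≤ M * τ.f} := isClosed_le hG.abs continuous_const
    exact (h1.and (h2.and h3)).and (h4.and h5)
  exact hcl.measurableSet

/-- Tonelli for a weighted series of indicators -/
theorem re_sc_tile_sum {α : Type*} [MeasurableSpace α] (μ : Measure α) (f : α → ℝ≥0∞) (hf : Measurable f) (K : ℝ≥0∞) (w : ℕ → ℝ≥0∞)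
    (T : ℕ → Set α) (hT : ∀ j, MeasurableSet (T j)) :
    ∫⁻ y, f y * (K * ∑' j, w j * (T j).indicator 1 y) ∂μ = K * ∑' j, w j * ∫⁻ y in T j, f y ∂μ := by
  have e : ∀ y, f y * (K * ∑' j, w j * (T j).indicator 1 y) = K * ∑' j, w j * (T j).indicator f y := by
    intro y
    rw [mul_left_comm, ← ENNReal.tsum_mul_left]
    congr 1
    refine tsum_congr fun j => ?_
    rw [mul_left_comm]
    congr 1
    by_cases hy : y ∈ T j <;> simp [hy]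
  simp_rw [e]
  rw [lintegral_const_mul _ (Measurable.ennreal_tsum fun j => (hf.indicator (hT j)).const_mul _),
    lintegral_tsum (fun j => ((hf.indicator (hT j)).const_mul _).aemeasurable)]
  congr 1
  refine tsum_congr fun j => ?_
  rw [lintegral_const_mul _ (hf.indicator (hT j)), lintegral_indicator (hT j)]

/-- the geometric series of the shells -/
theorem re_sc_tile_geom (n : ℕ) (Cg κ Λ W : ℝ) (hCg : 0 < Cg) (hn : Cg ≤ n) (hκ : 0 ≤ κ) (hΛ : 1 ≤ Λ) (hW : 0 ≤ W) :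
    ∑' j : ℕ, ENNReal.ofReal ((2 : ℝ)⁻¹ ^ ((n + 1) * j)) * ENNReal.ofReal (κ * ((22 * Λ * 2 ^ j) ^ Cg * W))
      ≤ ENNReal.ofReal (2 * κ * 22 ^ Cg * Λ ^ Cg * W) := by
  have hΛ0 : 0 < Λ := by linarith
  set A : ℝ := κ * 22 ^ Cg * Λ ^ Cg * W with hA
  have hA0 : 0 ≤ A := by positivity
  have hterm : ∀ j : ℕ, ENNReal.ofReal ((2 : ℝ)⁻¹ ^ ((n + 1) * j)) * ENNReal.ofReal (κ * ((22 * Λ * 2 ^ j) ^ Cg * W))
      ≤ ENNReal.ofReal A * (2⁻¹ : ℝ≥0∞) ^ j := by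
    intro j
    have e2 : (2⁻¹ : ℝ≥0∞) ^ j = ENNReal.ofReal ((2 : ℝ)⁻¹ ^ j) := by
      rw [ENNReal.ofReal_pow (by positivity), ENNReal.ofReal_inv_of_pos two_pos, ENNReal.ofReal_ofNat]
    rw [e2, ← ENNReal.ofReal_mul (by positivity), ← ENNReal.ofReal_mul hA0]
    apply ENNReal.ofReal_le_ofReal
    set u : ℝ := 2 ^ j with hu
    have hu1 : 1 ≤ u := one_le_pow₀ (by norm_num)
    have hu0 : 0 < u := by linarith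
    have e3 : (22 * Λ * u) ^ Cg = 22 ^ Cg * Λ ^ Cg * u ^ Cg := by
      rw [Real.mul_rpow (by positivity) hu0.le, Real.mul_rpow (by norm_num) hΛ0.le]
    have e4 : u ^ Cg ≤ u ^ n := by
      rw [← Real.rpow_natCast]
      exact Real.rpow_le_rpow_of_exponent_le hu1 hn
    have e5 : (2 : ℝ)⁻¹ ^ ((n + 1) * j) = (u⁻¹) ^ (n + 1) := by
      rw [pow_mul', hu, inv_pow]
    have e6 : (2 : ℝ)⁻¹ ^ j = u⁻¹ := by rw [hu, inv_pow]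
    have e7 : (u⁻¹) ^ (n + 1) * u ^ n = u⁻¹ := by
      rw [pow_succ, inv_pow]
      field_simp
    rw [e3, e5, e6]
    calc u⁻¹ ^ (n + 1) * (κ * (22 ^ Cg * Λ ^ Cg * u ^ Cg * W))
        = A * (u⁻¹ ^ (n + 1) * u ^ Cg) := by rw [hA]; ring
      _ ≤ A * (u⁻¹ ^ (n + 1) * u ^ n) := by gcongr
      _ = A * u⁻¹ := by rw [e7]
  calc ∑' j : ℕ, ENNReal.ofReal ((2 : ℝ)⁻¹ ^ ((n + 1) * j)) * ENNReal.ofReal (κ * ((22 * Λ * 2 ^ j) ^ Cg * W))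
      ≤ ∑' j : ℕ, ENNReal.ofReal A * (2⁻¹ : ℝ≥0∞) ^ j := ENNReal.tsum_le_tsum hterm
    _ = ENNReal.ofReal A * 2 := by
        rw [ENNReal.tsum_mul_left, ENNReal.tsum_geometric, ENNReal.one_sub_inv_two, inv_inv]
    _ = ENNReal.ofReal (2 * κ * 22 ^ Cg * Λ ^ Cg * W) := by
        rw [← ENNReal.ofReal_ofNat 2, ← ENNReal.ofReal_mul hA0]
        congr 1
        rw [hA]; ring

/-- the packet width in the units of the patch -/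
theorem re_sc_tile_d (c : SecPt) (hc : c.Ok) : rdD c.H c.k ^ 2 = c.h * c.r ^ 2 ∧ rdD c.H c.k = c.r * √c.h := by
  obtain ⟨hd, -, -, -, hd2, -⟩ := re_sp_dq c.H hc.H_pos c.k
  have hℓ := rdLen_pos c.k
  have hr := hc.r_pos
  have hH := hc.H_pos
  have e1 : rdD c.H c.k ^ 2 = c.h * c.r ^ 2 := by
    rw [hd2]
    unfold SecPt.h SecPt.l
    field_simp
  refine ⟨e1, ?_⟩
  have hh : 0 ≤ c.h := by
    unfold SecPt.h SecPt.l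
    positivity
  have e2 : (c.r * √c.h) ^ 2 = rdD c.H c.k ^ 2 := by
    rw [mul_pow, Real.sq_sqrt hh, e1]; ring
  exact ((pow_left_inj₀ (by positivity) hd.le two_ne_zero).1 e2).symm

set_option maxHeartbeats 1600000 in
/-- **LEAF L-256-SEC-TILE (glue) = (tile), 08 l.455-480.**      `N' = ⌈Cg⌉₊ + 1`, `Cg` of `re_sc_mass`.
PLAN.  `τ = c.test R x0 c' s0 (2Λ√h/R)`, `a = 16 (δ² + 16Λ²h)/h`, `d² = rdD H k ² = h r²` (`re_sp_dq`).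
 1. for each `x'`: `re_sc_wen β (N'+4)` with `S = c.cap S δ x'` (`re_sc_caps`, `re_sc_cap_vol`), `Ω = c.wt ..` (`re_sc_wt_meas`), `T = c.T0`, `k = c.k`.
 2. sum over `x'` (`lintegral_finset_sum`, `Finset.mul_sum`); the sets `{y | y.1 ∈ cap x'}` are disjoint: `∑ ∫⁻_{cap x'} f = ∫⁻_{⋃} f` (`lintegral_biUnion_finset`).
 3. on the union: `y.1 ∈ S`, `|c.X y.1 - x0| ≤ R + δ ≤ 2R`, `1/2 ≤ D` (`re_sc_D_bd`);  `re_sc_shell N'`;  `lintegral_tsum`;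
 4. `shell (2^j) ∩ {..} ⊆ {y | co y ∈ τ.set (22 Λ 2^j)}` (`re_sc_geo`), `τ.Adm (22 Λ 2^j)` (`re_sc_test_adm`), `τ.unc = 2Λ r √h ≥ d`, `re_sc_mass`:  mass `≤ κ (22Λ2^j)^Cg τ.w η`, `τ.w η = (R r)⁴ (2Λ√h/R)^{1-η}`.
 5. `∑_j 2^{-N'j} 2^{Cg j} ≤ ∑_j 2^{-j} = 2` (`ENNReal.tsum_mul_left`, `tsum_geometric_two`-type in `ENNReal`: bound each term by `ofReal`, `ENNReal.ofReal_tsum_of_nonneg`). -/
theorem re_sc_tile (η : ℝ) (h0 : 0 < η) (h1 : η < 1) : ∃ (N' : ℕ) (Cg : ℝ), 0 < Cg ∧ ∀ β : ℕ, ∃ C : ℝ, 0 ≤ C ∧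
    ∀ (c : SecPt) (p : RdWvPar), c.Ok → p.H = c.H → ∀ (G : RdWvPar.Mo → ℂ), Integrable G → (∀ᵐ q ∂(volume : Measure RdWvPar.Mo), G q ≠ 0 → p.H * q.2 ∈ rdPlat β) →
    ∀ κ : ℝ, 0 ≤ κ → SecReg η p c.T0 c.k β G κ →
    ∀ (Λ δ ℓE Bf R x0 s0 : ℝ) (c' : TV) (S : Set (ℝ × ℝ)), c.Pat Λ S → 1 ≤ Λ → |c.bt| ≤ Λ → 0 < c.h → 0 < δ → δ ≤ 1 / 2 → δ ≤ R → 0 < ℓE → ℓE * (1 + 16 * c.bt ^ 2) ≤ 1 →
    2 * |c.bt| ≤ Bf → 1 ≤ Bf * (2 * Λ * √c.h) → 2 * Λ * √c.h ≤ R → R ≤ 1 →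
    ∫⁻ x : ℝ × ReSp, c.wt (N' + 2) (2 * N' + 8) ℓE Bf R x0 c' s0 x *
        ∑ x' ∈ (secGrid δ).filter (fun x' => |x' - x0| ≤ R), ‖reFld x.1 (secG c.H c.k (c.cap S δ x') G) x.2‖ₑ ^ 2
      ≤ ENNReal.ofReal (C * Λ ^ Cg * ((δ ^ 2 + 16 * Λ ^ 2 * c.h) / c.h) * ℓE * c.l * κ * ((R * c.r) ^ 4 * (2 * Λ * √c.h / R) ^ (1 - η))) := by
  obtain ⟨Cg, hCg, hmass⟩ := re_sc_mass η h0 h1
  obtain ⟨n, hn⟩ : ∃ n : ℕ, n = ⌈Cg⌉₊ := ⟨_, rfl⟩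
  have hnC : Cg ≤ n := hn ▸ Nat.le_ceil Cg
  refine ⟨n + 1, Cg, hCg, fun β => ?_⟩
  obtain ⟨Cw, hCw, hwen⟩ := re_sc_wen β (n + 1 + 4)
  obtain ⟨Cs, hCs, hshell⟩ := re_sc_shell (n + 1)
  refine ⟨32 * Cw * Cs * 22 ^ Cg, by positivity, ?_⟩
  intro c p hc hpH G hG hpl κ hκ hreg Λ δ ℓE Bf R x0 s0 c' S hS hΛ hbt hh hδ hδ2 hδR hℓ0 hℓ hB1 hB2 hR0 hR1
  have hΛ0 : 0 < Λ := by linarith
  have hRp : 0 < R := lt_of_lt_of_le hδ hδR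
  have hsh : 0 < √c.h := Real.sqrt_pos.2 hh
  have hWp : 0 < 2 * Λ * √c.h := by positivity
  have hBf : 0 < Bf := by
    by_contra hneg
    have : Bf * (2 * Λ * √c.h) ≤ 0 := mul_nonpos_of_nonpos_of_nonneg (not_lt.1 hneg) hWp.le
    linarith
  have hr := hc.r_pos
  have hl : 0 < c.l := rdLen_pos c.k
  obtain ⟨hd2, hd1⟩ := re_sc_tile_d c hc
  obtain ⟨hcm, -, hcd, -⟩ := re_sc_caps c Λ δ S hS hδ hδ2
  -- abbreviations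
  obtain ⟨Ω, hΩ⟩ : ∃ Ω : ℝ × ReSp → ℝ≥0∞, Ω = c.wt (n + 1 + 2) (2 * (n + 1) + 8) ℓE Bf R x0 c' s0 := ⟨_, rfl⟩
  obtain ⟨Y, hY⟩ : ∃ Y : Finset ℝ, Y = (secGrid δ).filter (fun x' => |x' - x0| ≤ R) := ⟨_, rfl⟩
  obtain ⟨τ, hτ⟩ : ∃ τ : RtTest, τ = c.test R x0 c' s0 (2 * Λ * √c.h / R) := ⟨_, rfl⟩
  obtain ⟨W, hW⟩ : ∃ W : ℝ, W = (R * c.r) ^ 4 * (2 * Λ * √c.h / R) ^ (1 - η) := ⟨_, rfl⟩
  obtain ⟨a, ha⟩ : ∃ a : ℝ, a = 16 * ((δ ^ 2 + 16 * Λ ^ 2 * c.h) / c.h) := ⟨_, rfl⟩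
  have hW0 : 0 ≤ W := by rw [hW]; positivity
  have ha0 : 0 ≤ a := by rw [ha]; positivity
  rw [← hΩ, ← hY, ← hW]
  have hΩm : Measurable Ω := hΩ ▸ re_sc_wt_meas c _ _ _ _ _ _ _ _
  have hGi : ∀ x', Integrable (secG c.H c.k (c.cap S δ x') G) := fun x' => (re_sc_G c.H hc.H_pos c.k G hG).1 _ (hcm x')
  have hfm : ∀ x', Measurable (fun x : ℝ × ReSp => ‖reFld x.1 (secG c.H c.k (c.cap S δ x') G) x.2‖ₑ ^ 2) :=
    fun x' => (re_sp_fld_cont _ (hGi x')).enorm.measurable.pow_const 2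
  have hrowm : Measurable (fun y : RdWvPar.Ph => ‖secRow p c.T0 c.k β G y‖ₑ ^ 2) :=
    (re_sp_row_cont p c.T0 c.k β G hG).enorm.measurable.pow_const 2
  -- the sets
  obtain ⟨E, hE⟩ : ∃ E : ℝ → Set RdWvPar.Ph, E = fun x' => {y : RdWvPar.Ph | y.1 ∈ c.cap S δ x'} := ⟨_, rfl⟩
  have hEm : ∀ x', MeasurableSet (E x') := fun x' => by rw [hE]; exact measurable_fst (hcm x')
  have hEd : Set.PairwiseDisjoint (↑Y) E := by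
    intro x1 h1' x2 h2' hne
    rw [hY] at h1' h2'
    have := hcd x1 (Finset.mem_filter.1 h1').1 x2 (Finset.mem_filter.1 h2').1 hne
    rw [hE]
    exact this.preimage Prod.fst
  obtain ⟨U, hU⟩ : ∃ U : Set RdWvPar.Ph, U = ⋃ x' ∈ Y, E x' := ⟨_, rfl⟩
  have hUm : MeasurableSet U := by rw [hU]; exact Finset.measurableSet_biUnion Y fun x' _ => hEm x'
  obtain ⟨Tj, hTj⟩ : ∃ Tj : ℕ → Set RdWvPar.Ph, Tj = fun j => {y : RdWvPar.Ph | RdWvPar.co c.T0 y ∈ τ.set (22 * Λ * 2 ^ j)} := ⟨_, rfl⟩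
  have hTm : ∀ j, MeasurableSet (Tj j) := fun j => by rw [hTj]; exact re_sc_tile_set_meas τ c.T0 _
  -- step 1, 2
  have e1 : ∫⁻ x : ℝ × ReSp, Ω x * ∑ x' ∈ Y, ‖reFld x.1 (secG c.H c.k (c.cap S δ x') G) x.2‖ₑ ^ 2
      = ∑ x' ∈ Y, ∫⁻ x : ℝ × ReSp, Ω x * ‖reFld x.1 (secG c.H c.k (c.cap S δ x') G) x.2‖ₑ ^ 2 := by
    simp_rw [Finset.mul_sum]
    exact lintegral_finsetSum _ (fun x' _ => hΩm.mul (hfm x'))
  have e2 : ∀ x' ∈ Y, ∫⁻ x : ℝ × ReSp, Ω x * ‖reFld x.1 (secG c.H c.k (c.cap S δ x') G) x.2‖ₑ ^ 2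
      ≤ ENNReal.ofReal (Cw * a) * ∫⁻ y in E x', ‖secRow p c.T0 c.k β G y‖ₑ ^ 2 * secFl c.H c.k c.T0 (n + 1 + 4) Ω y ∂(p.rw c.k) := by
    intro x' _
    have hvol : volume (c.cap S δ x') ≤ ENNReal.ofReal (a * rdD p.H c.k ^ 2) := by
      refine (re_sc_cap_vol c hc Λ δ x' S hS hΛ0.le hδ hh).trans (le_of_eq ?_)
      congr 1
      rw [hpH, hd2, ha]
      field_simp
    have := hwen p c.T0 c.k G hG hpl (c.cap S δ x') (hcm x') a ha0 hvol Ω hΩm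
    rw [hpH] at this
    rw [hE]
    exact this
  -- step 3
  have hUprop : ∀ y ∈ U, rtSq (c.ang y.1) * (1 + |c.bt|) ^ 2 ≤ 1 / 64 ∧ |c.F (c.ang y.1)| ≤ Λ * √c.h ∧ |c.X y.1 - x0| ≤ 2 * R := by
    intro y hy
    rw [hU] at hy
    simp only [Set.mem_iUnion] at hy
    obtain ⟨x', hx', hy'⟩ := hy
    rw [hE] at hy'
    obtain ⟨hyS, hy1, hy2⟩ : y.1 ∈ S ∧ x' ≤ c.X y.1 ∧ c.X y.1 < x' + δ := hy'
    rw [hY] at hx'
    have hx0 := (Finset.mem_filter.1 hx').2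
    refine ⟨hS.small _ hyS, hS.sec _ hyS, ?_⟩
    rw [abs_le] at hx0 ⊢
    constructor <;> linarith [hx0.1, hx0.2]
  have e3 : ∫⁻ y in U, ‖secRow p c.T0 c.k β G y‖ₑ ^ 2 * secFl c.H c.k c.T0 (n + 1 + 4) Ω y ∂(p.rw c.k)
      ≤ ∫⁻ y in U, ‖secRow p c.T0 c.k β G y‖ₑ ^ 2 * (ENNReal.ofReal (Cs * ℓE * c.l) *
          ∑' j : ℕ, ENNReal.ofReal ((2 : ℝ)⁻¹ ^ ((n + 1) * j)) * (Tj j).indicator 1 y) ∂(p.rw c.k) := by
    refine setLIntegral_mono' hUm fun y hy => ?_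
    obtain ⟨hy1, hy2, hy3⟩ := hUprop y hy
    have hD : 1 / 2 ≤ c.D (c.ang y.1) := (re_sc_D_bd c (c.ang y.1) (hy1.trans (by norm_num))).1
    refine mul_le_mul' le_rfl ?_
    rw [hΩ]
    refine (hshell c hc ℓE Bf R x0 s0 c' hℓ0 hBf hRp y hD).trans ?_
    refine mul_le_mul' le_rfl (ENNReal.tsum_le_tsum fun j => mul_le_mul' le_rfl ?_)
    by_cases hys : y ∈ c.shell ℓE Bf R x0 c' s0 (2 ^ j)
    · have hmem : y ∈ Tj j := by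
        rw [hTj, hτ]
        exact re_sc_geo c hc Λ ℓE Bf R x0 s0 (2 ^ j) c' hΛ hbt hh hℓ0 hℓ hB1 hB2 hR0 hR1 (one_le_pow₀ (by norm_num)) y hys hy1 hy2 hy3
      rw [Set.indicator_of_mem hys, Set.indicator_of_mem hmem]
    · rw [Set.indicator_of_notMem hys]
      exact zero_le
  -- step 4
  have hf0 : 0 < 2 * Λ * √c.h / R := by positivity
  have hf1 : 2 * Λ * √c.h / R ≤ 1 := (div_le_one hRp).2 hR0
  have e4 : ∀ j : ℕ, ∫⁻ y in Tj j, ‖secRow p c.T0 c.k β G y‖ₑ ^ 2 ∂(p.rw c.k) ≤ ENNReal.ofReal (κ * ((22 * Λ * 2 ^ j) ^ Cg * W)) := by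
    intro j
    have h2j : (1 : ℝ) ≤ 2 ^ j := one_le_pow₀ (by norm_num)
    have hM1 : Λ ≤ 22 * Λ * 2 ^ j := by nlinarith
    have hM2 : (2 : ℝ) ≤ 22 * Λ * 2 ^ j := by nlinarith
    have hadm : τ.Adm (22 * Λ * 2 ^ j) := hτ ▸ re_sc_test_adm c hc Λ R x0 s0 _ _ c' hΛ hbt hRp hR1 hf0 hf1 hM1
    have hlen : τ.l = rdLen c.k := by rw [hτ]; rfl
    have hunc : rdD p.H c.k ≤ τ.unc := by
      rw [hpH, hd1, hτ]
      show c.r * √c.h ≤ R * c.r * (2 * Λ * √c.h / R)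
      have : R * c.r * (2 * Λ * √c.h / R) = c.r * √c.h * (2 * Λ) := by field_simp
      rw [this]
      have : 0 < c.r * √c.h := by positivity
      nlinarith
    have := hmass p c.T0 c.k β G κ hκ hreg (22 * Λ * 2 ^ j) τ hM2 hadm hlen hunc
    have hw : τ.w η = W := by rw [hτ, hW]; rfl
    rw [hw] at this
    rw [hTj]
    exact this
  calc ∫⁻ x : ℝ × ReSp, Ω x * ∑ x' ∈ Y, ‖reFld x.1 (secG c.H c.k (c.cap S δ x') G) x.2‖ₑ ^ 2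
      = ∑ x' ∈ Y, ∫⁻ x : ℝ × ReSp, Ω x * ‖reFld x.1 (secG c.H c.k (c.cap S δ x') G) x.2‖ₑ ^ 2 := e1
    _ ≤ ∑ x' ∈ Y, ENNReal.ofReal (Cw * a) * ∫⁻ y in E x', ‖secRow p c.T0 c.k β G y‖ₑ ^ 2 * secFl c.H c.k c.T0 (n + 1 + 4) Ω y ∂(p.rw c.k) :=
        Finset.sum_le_sum e2
    _ = ENNReal.ofReal (Cw * a) * ∫⁻ y in U, ‖secRow p c.T0 c.k β G y‖ₑ ^ 2 * secFl c.H c.k c.T0 (n + 1 + 4) Ω y ∂(p.rw c.k) := by
        rw [← Finset.mul_sum, hU, lintegral_biUnion_finset hEd (fun x' _ => hEm x')]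
    _ ≤ ENNReal.ofReal (Cw * a) * ∫⁻ y in U, ‖secRow p c.T0 c.k β G y‖ₑ ^ 2 * (ENNReal.ofReal (Cs * ℓE * c.l) *
          ∑' j : ℕ, ENNReal.ofReal ((2 : ℝ)⁻¹ ^ ((n + 1) * j)) * (Tj j).indicator 1 y) ∂(p.rw c.k) := mul_le_mul' le_rfl e3
    _ ≤ ENNReal.ofReal (Cw * a) * ∫⁻ y, ‖secRow p c.T0 c.k β G y‖ₑ ^ 2 * (ENNReal.ofReal (Cs * ℓE * c.l) *
          ∑' j : ℕ, ENNReal.ofReal ((2 : ℝ)⁻¹ ^ ((n + 1) * j)) * (Tj j).indicator 1 y) ∂(p.rw c.k) :=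
        mul_le_mul' le_rfl (setLIntegral_le_lintegral _ _)
    _ = ENNReal.ofReal (Cw * a) * (ENNReal.ofReal (Cs * ℓE * c.l) *
          ∑' j : ℕ, ENNReal.ofReal ((2 : ℝ)⁻¹ ^ ((n + 1) * j)) * ∫⁻ y in Tj j, ‖secRow p c.T0 c.k β G y‖ₑ ^ 2 ∂(p.rw c.k)) := by
        rw [re_sc_tile_sum (p.rw c.k) _ hrowm _ _ Tj hTm]
    _ ≤ ENNReal.ofReal (Cw * a) * (ENNReal.ofReal (Cs * ℓE * c.l) *
          ∑' j : ℕ, ENNReal.ofReal ((2 : ℝ)⁻¹ ^ ((n + 1) * j)) * ENNReal.ofReal (κ * ((22 * Λ * 2 ^ j) ^ Cg * W))) :=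
        mul_le_mul' le_rfl (mul_le_mul' le_rfl (ENNReal.tsum_le_tsum fun j => mul_le_mul' le_rfl (e4 j)))
    _ ≤ ENNReal.ofReal (Cw * a) * (ENNReal.ofReal (Cs * ℓE * c.l) * ENNReal.ofReal (2 * κ * 22 ^ Cg * Λ ^ Cg * W)) :=
        mul_le_mul' le_rfl (mul_le_mul' le_rfl (re_sc_tile_geom n Cg κ Λ W hCg hnC hκ hΛ hW0))
    _ = ENNReal.ofReal (32 * Cw * Cs * 22 ^ Cg * Λ ^ Cg * ((δ ^ 2 + 16 * Λ ^ 2 * c.h) / c.h) * ℓE * c.l * κ * W) := by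
        rw [← ENNReal.ofReal_mul (by positivity), ← ENNReal.ofReal_mul (by positivity)]
        congr 1
        rw [ha]
        ring

/-! ## 2. One patch -/

/-- the scales of a patch and the inequalities between them -/
structure SecSc (c : SecPt) (bm B m : ℕ) (Λ δ ℓE rE Bf : ℝ) : Prop where
  Λ1 : 1 ≤ Λ
  bt : |c.bt| ≤ Λ
  hpos : 0 < c.h
  B1 : 1 ≤ B
  δ0 : 0 < δ
  δ1 : δ ≤ 1 / 2
  ℓ0 : 0 < ℓE
  ℓ1 : ℓE * (1 + 16 * c.bt ^ 2) ≤ 1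
  r2 : 2 ≤ rE
  Bf1 : 2 * |c.bt| ≤ Bf
  Bf2 : 1 ≤ Bf * (2 * Λ * √c.h)
  sm : 128 * c.h * (1 + |c.bt|) ^ 2 ≤ 1
  p1 : 2 ^ (bm + 5) / (2 * Real.pi * c.h) * ((δ + 3 * √c.h) ^ 2 + 25 * Λ ^ 2 * c.h) ≤ 1 / ℓE
  p2 : 2 ^ (bm + 5) / (Real.pi * c.h) * (δ + 3 * √c.h) ≤ √rE / ℓE
  p3 : 2 * (rE / ℓE) ≤ (2 : ℝ)⁻¹ ^ (bm + 5) / (2 * Real.pi * c.h)
  p4 : 2 ^ (bm + 5) / (2 * Real.pi * c.h) ≤ 2 ^ (B - 1) * (rE / ℓE)
  p5 : 2 ^ (bm + 5) / (Real.pi * c.h) * (5 * Λ * √c.h) ≤ Bf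
  mult : 2 * (2 / √rE) / δ + 1 ≤ m
  Rδ : δ ≤ 1 / √(2 ^ B * rE)
  RW : 2 * Λ * √c.h ≤ 1 / √(2 ^ B * rE)

theorem re_sc_num_a (t Λ h : ℝ) (ht : 1 ≤ t) (hΛ : 1 ≤ Λ) (hh : 0 < h) (hsm : h * (2 ^ 40 * t ^ 4 * Λ ^ 4) ≤ 1) :
    h * (2 ^ 22 * t ^ 3 * Λ ^ 2) * (2 ^ 18 * t) ≤ 1 := by
  have h1 : Λ ^ 2 ≤ Λ ^ 4 := pow_le_pow_right₀ hΛ (by norm_num)
  have ht0 : 0 < t := by linarith
  calc h * (2 ^ 22 * t ^ 3 * Λ ^ 2) * (2 ^ 18 * t) = h * (2 ^ 40 * t ^ 4 * Λ ^ 2) := by ring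
    _ ≤ h * (2 ^ 40 * t ^ 4 * Λ ^ 4) := by gcongr
    _ ≤ 1 := hsm

theorem re_sc_num_h (t Λ h : ℝ) (ht : 1 ≤ t) (hΛ : 1 ≤ Λ) (hh : 0 < h) (hsm : h * (2 ^ 40 * t ^ 4 * Λ ^ 4) ≤ 1) :
    h * (2 ^ 40 * Λ ^ 2) ≤ 1 := by
  have h1 : Λ ^ 2 ≤ Λ ^ 4 := pow_le_pow_right₀ hΛ (by norm_num)
  have h2 : 1 ≤ t ^ 4 := one_le_pow₀ ht
  have hΛ0 : 0 < Λ := by linarith
  calc h * (2 ^ 40 * Λ ^ 2) = h * (2 ^ 40 * 1 * Λ ^ 2) := by ring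
    _ ≤ h * (2 ^ 40 * t ^ 4 * Λ ^ 4) := by gcongr
    _ ≤ 1 := hsm

theorem re_sc_num_sh (t Λ h : ℝ) (ht : 1 ≤ t) (hΛ : 1 ≤ Λ) (hh : 0 < h) (hsm : h * (2 ^ 40 * t ^ 4 * Λ ^ 4) ≤ 1) :
    √h ≤ 1 := by
  apply Real.sqrt_le_one.mpr
  have := re_sc_num_h t Λ h ht hΛ hh hsm
  have h1 : 1 ≤ Λ ^ 2 := one_le_pow₀ hΛ
  have h2 : (1:ℝ) ≤ 2 ^ 40 * Λ ^ 2 := by nlinarith
  calc h = h * 1 := (mul_one h).symm
    _ ≤ h * (2 ^ 40 * Λ ^ 2) := by gcongr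
    _ ≤ 1 := this

theorem re_sc_num_d (t Λ h : ℝ) (ht : 1 ≤ t) (hΛ : 1 ≤ Λ) (hh : 0 < h) :
    (2 ^ 10 * t ^ 2)⁻¹ * √(h * (2 ^ 22 * t ^ 3 * Λ ^ 2)) ≤ 2 * Λ * √h := by
  have ht0 : 0 < t := by linarith
  have hΛ0 : 0 < Λ := by linarith
  rw [inv_mul_le_iff₀ (by positivity)]
  have e : 2 ^ 10 * t ^ 2 * (2 * Λ * √h) = √(h * (2 ^ 22 * t ^ 4 * Λ ^ 2)) := by
    have : h * (2 ^ 22 * t ^ 4 * Λ ^ 2) = h * (2 ^ 11 * t ^ 2 * Λ) ^ 2 := by ring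
    rw [this, Real.sqrt_mul hh.le, Real.sqrt_sq (by positivity)]; ring
  rw [e]
  apply Real.sqrt_le_sqrt
  have : t ^ 3 ≤ t ^ 4 := pow_le_pow_right₀ ht (by norm_num)
  gcongr

theorem re_sc_num_d1 (t Λ h : ℝ) (ht : 1 ≤ t) (hΛ : 1 ≤ Λ) (hh : 0 < h) (hsm : h * (2 ^ 40 * t ^ 4 * Λ ^ 4) ≤ 1) :
    (2 ^ 10 * t ^ 2)⁻¹ * √(h * (2 ^ 22 * t ^ 3 * Λ ^ 2)) ≤ 1 / 2 := by
  have ht0 : 0 < t := by linarith
  have hΛ0 : 0 < Λ := by linarith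
  have h0 := re_sc_num_a t Λ h ht hΛ hh hsm
  have h1 : √(h * (2 ^ 22 * t ^ 3 * Λ ^ 2)) ≤ 1 := by
    apply Real.sqrt_le_one.mpr
    have h2 : (1:ℝ) ≤ 2 ^ 18 * t := by nlinarith
    calc h * (2 ^ 22 * t ^ 3 * Λ ^ 2) = h * (2 ^ 22 * t ^ 3 * Λ ^ 2) * 1 := (mul_one _).symm
      _ ≤ h * (2 ^ 22 * t ^ 3 * Λ ^ 2) * (2 ^ 18 * t) := by gcongr
      _ ≤ 1 := h0
  have h3 : (2 ^ 10 * t ^ 2)⁻¹ ≤ (2:ℝ)⁻¹ := by
    apply inv_anti₀ (by norm_num)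
    have : 1 ≤ t ^ 2 := one_le_pow₀ ht
    nlinarith
  calc _ ≤ (2:ℝ)⁻¹ * 1 := mul_le_mul h3 h1 (Real.sqrt_nonneg _) (by norm_num)
    _ = 1 / 2 := by norm_num

theorem re_sc_num_l1 (t Λ b : ℝ) (ht : 1 ≤ t) (hΛ : 1 ≤ Λ) (hb : |b| ≤ Λ) :
    (2 ^ 22 * t ^ 3 * Λ ^ 2)⁻¹ * (1 + 16 * b ^ 2) ≤ 1 := by
  have ht0 : 0 < t := by linarith
  have hΛ0 : 0 < Λ := by linarith
  rw [inv_mul_le_iff₀ (by positivity), mul_one]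
  have h1 : b ^ 2 ≤ Λ ^ 2 := by rw [← sq_abs b]; exact pow_le_pow_left₀ (abs_nonneg b) hb 2
  have h2 : 1 ≤ Λ ^ 2 := one_le_pow₀ hΛ
  have h3 : 1 ≤ t ^ 3 := one_le_pow₀ ht
  calc 1 + 16 * b ^ 2 ≤ 17 * Λ ^ 2 := by linarith
    _ ≤ 2 ^ 22 * 1 * Λ ^ 2 := by nlinarith
    _ ≤ 2 ^ 22 * t ^ 3 * Λ ^ 2 := by gcongr

theorem re_sc_num_rE (t Λ h p : ℝ) (ht : 1 ≤ t) (hΛ : 1 ≤ Λ) (hh : 0 < h) (hp : 3 < p) :
    (2 ^ 7 * t)⁻¹ / (2 * p * h) * (2 ^ 22 * t ^ 3 * Λ ^ 2)⁻¹ = (2 ^ 30 * t ^ 4 * Λ ^ 2 * p * h)⁻¹ := by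
  have ht0 : 0 < t := by linarith
  have hΛ0 : 0 < Λ := by linarith
  have hp0 : 0 < p := by linarith
  field_simp

theorem re_sc_num_r2 (t Λ h p : ℝ) (ht : 1 ≤ t) (hΛ : 1 ≤ Λ) (hh : 0 < h) (hsm : h * (2 ^ 40 * t ^ 4 * Λ ^ 4) ≤ 1) (hp : 3 < p) (hp4 : p < 4) :
    2 ≤ (2 ^ 7 * t)⁻¹ / (2 * p * h) * (2 ^ 22 * t ^ 3 * Λ ^ 2)⁻¹ := by
  have ht0 : 0 < t := by linarith
  have hΛ0 : 0 < Λ := by linarith
  have hp0 : 0 < p := by linarith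
  rw [re_sc_num_rE t Λ h p ht hΛ hh hp]
  rw [le_inv_comm₀ (by norm_num) (by positivity)]
  have h0 := re_sc_num_a t Λ h ht hΛ hh hsm
  have h5 : 0 < t ^ 4 * Λ ^ 2 * h := by positivity
  calc 2 ^ 30 * t ^ 4 * Λ ^ 2 * p * h = 2 ^ 30 * (t ^ 4 * Λ ^ 2 * h) * p := by ring
    _ ≤ 2 ^ 30 * (t ^ 4 * Λ ^ 2 * h) * 4 := by gcongr
    _ = 2⁻¹ * 2⁻¹ ^ 7 * (h * (2 ^ 22 * t ^ 3 * Λ ^ 2) * (2 ^ 18 * t)) := by ring
    _ ≤ 2⁻¹ * 2⁻¹ ^ 7 * 1 := by gcongr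
    _ ≤ 2⁻¹ := by norm_num

theorem re_sc_num_Bf1 (t Λ h b : ℝ) (ht : 1 ≤ t) (hΛ : 1 ≤ Λ) (hb : |b| ≤ Λ) (hh : 0 < h) (hsm : h * (2 ^ 40 * t ^ 4 * Λ ^ 4) ≤ 1) :
    2 * |b| ≤ 2 ^ 6 * t * Λ / √h := by
  have hs := re_sc_num_sh t Λ h ht hΛ hh hsm
  have hs0 : 0 < √h := Real.sqrt_pos.mpr hh
  have hΛ0 : 0 < Λ := by linarith
  rw [le_div_iff₀ hs0]
  calc 2 * |b| * √h ≤ 2 * Λ * 1 := by gcongr
    _ = 2 * 1 * Λ := by ring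
    _ ≤ 2 ^ 6 * t * Λ := by gcongr; norm_num

theorem re_sc_num_Bf2 (t Λ h : ℝ) (ht : 1 ≤ t) (hΛ : 1 ≤ Λ) (hh : 0 < h) :
    1 ≤ 2 ^ 6 * t * Λ / √h * (2 * Λ * √h) := by
  have hs0 : 0 < √h := Real.sqrt_pos.mpr hh
  have e : 2 ^ 6 * t * Λ / √h * (2 * Λ * √h) = 2 ^ 7 * t * Λ ^ 2 := by
    field_simp
  rw [e]
  have h2 : 1 ≤ Λ ^ 2 := one_le_pow₀ hΛ
  calc (1:ℝ) ≤ 2 ^ 7 * 1 * 1 := by norm_num
    _ ≤ 2 ^ 7 * t * Λ ^ 2 := by gcongr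

theorem re_sc_num_sm (t Λ h b : ℝ) (ht : 1 ≤ t) (hΛ : 1 ≤ Λ) (hb : |b| ≤ Λ) (hh : 0 < h) (hsm : h * (2 ^ 40 * t ^ 4 * Λ ^ 4) ≤ 1) :
    128 * h * (1 + |b|) ^ 2 ≤ 1 := by
  have h0 := re_sc_num_h t Λ h ht hΛ hh hsm
  have h1 : (1 + |b|) ^ 2 ≤ (2 * Λ) ^ 2 := pow_le_pow_left₀ (by positivity) (by linarith) 2
  have hΛ0 : 0 < Λ := by linarith
  calc 128 * h * (1 + |b|) ^ 2 ≤ 128 * h * (2 * Λ) ^ 2 := by gcongr
    _ = h * (2 ^ 9 * Λ ^ 2) := by ring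
    _ ≤ h * (2 ^ 40 * Λ ^ 2) := by gcongr <;> norm_num
    _ ≤ 1 := h0

theorem re_sc_num_d5 (t Λ h : ℝ) (ht : 1 ≤ t) (hΛ : 1 ≤ Λ) (hh : 0 < h) :
    (2 ^ 10 * t ^ 2)⁻¹ * √(h * (2 ^ 22 * t ^ 3 * Λ ^ 2)) + 3 * √h ≤ 5 * Λ * √h := by
  have h1 := re_sc_num_d t Λ h ht hΛ hh
  have hs0 : 0 < √h := Real.sqrt_pos.mpr hh
  have : 3 * √h ≤ 3 * Λ * √h := by nlinarith
  linarith

theorem re_sc_num_p1 (t Λ h p : ℝ) (ht : 1 ≤ t) (hΛ : 1 ≤ Λ) (hh : 0 < h) (hp : 3 < p) :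
    2 ^ 5 * t / (2 * p * h) * (((2 ^ 10 * t ^ 2)⁻¹ * √(h * (2 ^ 22 * t ^ 3 * Λ ^ 2)) + 3 * √h) ^ 2 + 25 * Λ ^ 2 * h) ≤ 1 / (2 ^ 22 * t ^ 3 * Λ ^ 2)⁻¹ := by
  have ht0 : 0 < t := by linarith
  have hΛ0 : 0 < Λ := by linarith
  have hp0 : 0 < p := by linarith
  have h1 := re_sc_num_d5 t Λ h ht hΛ hh
  have hs0 : 0 < √h := Real.sqrt_pos.mpr hh
  have h2 : ((2 ^ 10 * t ^ 2)⁻¹ * √(h * (2 ^ 22 * t ^ 3 * Λ ^ 2)) + 3 * √h) ^ 2 ≤ 25 * Λ ^ 2 * h := by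
    calc _ ≤ (5 * Λ * √h) ^ 2 := pow_le_pow_left₀ (by positivity) h1 2
      _ = 25 * Λ ^ 2 * h := by rw [mul_pow, Real.sq_sqrt hh.le]; ring
  rw [one_div, inv_inv]
  have h3 : t ≤ t ^ 3 := by
    calc t = t ^ 1 := (pow_one t).symm
      _ ≤ t ^ 3 := pow_le_pow_right₀ ht (by norm_num)
  calc _ ≤ 2 ^ 5 * t / (2 * p * h) * (25 * Λ ^ 2 * h + 25 * Λ ^ 2 * h) := by gcongr
    _ = 2 ^ 5 * 25 * t * Λ ^ 2 / p := by field_simp; ring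
    _ ≤ 2 ^ 5 * 25 * t * Λ ^ 2 / 1 := by gcongr; linarith
    _ = 800 * t * Λ ^ 2 := by ring
    _ ≤ 2 ^ 22 * t ^ 3 * Λ ^ 2 := by gcongr; norm_num

theorem re_sc_num_p2 (t Λ h p : ℝ) (ht : 1 ≤ t) (hΛ : 1 ≤ Λ) (hh : 0 < h) (hp : 3 < p) :
    2 ^ 5 * t / (p * h) * ((2 ^ 10 * t ^ 2)⁻¹ * √(h * (2 ^ 22 * t ^ 3 * Λ ^ 2)) + 3 * √h)
      ≤ √((2 ^ 7 * t)⁻¹ / (2 * p * h) * (2 ^ 22 * t ^ 3 * Λ ^ 2)⁻¹) / (2 ^ 22 * t ^ 3 * Λ ^ 2)⁻¹ := by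
  have ht0 : 0 < t := by linarith
  have hΛ0 : 0 < Λ := by linarith
  have hp0 : 0 < p := by linarith
  have h1 := re_sc_num_d5 t Λ h ht hΛ hh
  have hs0 : 0 < √h := Real.sqrt_pos.mpr hh
  rw [div_inv_eq_mul, re_sc_num_rE t Λ h p ht hΛ hh hp]
  have e : √((2 ^ 30 * t ^ 4 * Λ ^ 2 * p * h)⁻¹) * (2 ^ 22 * t ^ 3 * Λ ^ 2) = √((2 ^ 30 * t ^ 4 * Λ ^ 2 * p * h)⁻¹ * (2 ^ 22 * t ^ 3 * Λ ^ 2) ^ 2) := by
    rw [Real.sqrt_mul (by positivity), Real.sqrt_sq (by positivity)]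
  rw [e]
  apply Real.le_sqrt_of_sq_le
  calc _ ≤ (2 ^ 5 * t / (p * h) * (5 * Λ * √h)) ^ 2 := by
        apply pow_le_pow_left₀ (by positivity)
        gcongr
    _ = 25600 * t ^ 2 * Λ ^ 2 / (p ^ 2 * h) := by
        rw [mul_pow, mul_pow _ (√h), Real.sq_sqrt hh.le]; field_simp; ring
    _ ≤ 2 ^ 14 * t ^ 2 * Λ ^ 2 / (p * h) := by
        rw [div_le_div_iff₀ (by positivity) (by positivity)]
        have : 0 < t ^ 2 * Λ ^ 2 * p * h := by positivity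
        nlinarith
    _ = _ := by field_simp

theorem re_sc_num_z0 (t Λ h p : ℝ) (ht : 1 ≤ t) (hΛ : 1 ≤ Λ) :
    (2 ^ 7 * t)⁻¹ / (2 * p * h) * (2 ^ 22 * t ^ 3 * Λ ^ 2)⁻¹ / (2 ^ 22 * t ^ 3 * Λ ^ 2)⁻¹ = (2 ^ 7 * t)⁻¹ / (2 * p * h) := by
  have ht0 : 0 < t := by linarith
  have hΛ0 : 0 < Λ := by linarith
  rw [mul_div_assoc, div_self (by positivity), mul_one]

theorem re_sc_num_p3 (t Λ h p : ℝ) (ht : 1 ≤ t) (hΛ : 1 ≤ Λ) (hh : 0 < h) (hp : 3 < p) :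
    2 * ((2 ^ 7 * t)⁻¹ / (2 * p * h) * (2 ^ 22 * t ^ 3 * Λ ^ 2)⁻¹ / (2 ^ 22 * t ^ 3 * Λ ^ 2)⁻¹) ≤ (2 ^ 5 * t)⁻¹ / (2 * p * h) := by
  have ht0 : 0 < t := by linarith
  have hp0 : 0 < p := by linarith
  rw [re_sc_num_z0 t Λ h p ht hΛ, ← mul_div_assoc]
  apply div_le_div_of_nonneg_right _ (by positivity)
  have : (2 ^ 7 * t)⁻¹ = (2 ^ 5 * t)⁻¹ / 4 := by field_simp; norm_num
  rw [this]
  have : 0 < (2 ^ 5 * t)⁻¹ := by positivity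
  linarith

theorem re_sc_num_p4 (t Λ h p : ℝ) (ht : 1 ≤ t) (hΛ : 1 ≤ Λ) (hh : 0 < h) (hp : 3 < p) :
    2 ^ 5 * t / (2 * p * h) ≤ 2 ^ 12 * t ^ 2 * ((2 ^ 7 * t)⁻¹ / (2 * p * h) * (2 ^ 22 * t ^ 3 * Λ ^ 2)⁻¹ / (2 ^ 22 * t ^ 3 * Λ ^ 2)⁻¹) := by
  have ht0 : 0 < t := by linarith
  have hp0 : 0 < p := by linarith
  rw [re_sc_num_z0 t Λ h p ht hΛ]
  apply le_of_eq
  field_simp

theorem re_sc_num_p5 (t Λ h p : ℝ) (ht : 1 ≤ t) (hΛ : 1 ≤ Λ) (hh : 0 < h) (hp : 3 < p) :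
    2 ^ 5 * t / (p * h) * (5 * Λ * √h) ≤ 2 ^ 6 * t * Λ / √h := by
  have ht0 : 0 < t := by linarith
  have hΛ0 : 0 < Λ := by linarith
  have hp0 : 0 < p := by linarith
  have hs0 : 0 < √h := Real.sqrt_pos.mpr hh
  have hs2 : √h * √h = h := Real.mul_self_sqrt hh.le
  rw [le_div_iff₀ hs0]
  calc 2 ^ 5 * t / (p * h) * (5 * Λ * √h) * √h = 2 ^ 5 * t / (p * h) * (5 * Λ * (√h * √h)) := by ring
    _ = 2 ^ 5 * 5 * t * Λ / p := by rw [hs2]; field_simp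
    _ ≤ 2 ^ 6 * t * Λ := by
        rw [div_le_iff₀ hp0]
        have : 0 < t * Λ := by positivity
        nlinarith

theorem re_sc_num_dv (t Λ h p : ℝ) (ht : 1 ≤ t) (hΛ : 1 ≤ Λ) (hh : 0 < h) (hp : 3 < p) :
    (2 ^ 10 * t ^ 2)⁻¹ * √(h * (2 ^ 22 * t ^ 3 * Λ ^ 2)) * √((2 ^ 7 * t)⁻¹ / (2 * p * h) * (2 ^ 22 * t ^ 3 * Λ ^ 2)⁻¹)
      = (2 ^ 10 * t ^ 2)⁻¹ * √((2 ^ 8 * t * p)⁻¹) := by
  have ht0 : 0 < t := by linarith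
  have hΛ0 : 0 < Λ := by linarith
  have hp0 : 0 < p := by linarith
  rw [mul_assoc, ← Real.sqrt_mul (by positivity)]
  congr 2
  field_simp

theorem re_sc_num_mult (t Λ h p : ℝ) (ht : 1 ≤ t) (hΛ : 1 ≤ Λ) (hh : 0 < h) (hp : 3 < p) (hp4 : p < 4) :
    2 * (2 / √((2 ^ 7 * t)⁻¹ / (2 * p * h) * (2 ^ 22 * t ^ 3 * Λ ^ 2)⁻¹)) / ((2 ^ 10 * t ^ 2)⁻¹ * √(h * (2 ^ 22 * t ^ 3 * Λ ^ 2))) + 1 ≤ 2 ^ 18 * t ^ 3 := by
  have ht0 : 0 < t := by linarith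
  have hΛ0 : 0 < Λ := by linarith
  have hp0 : 0 < p := by linarith
  have e := re_sc_num_dv t Λ h p ht hΛ hh hp
  have hv0 : 0 < √((2 ^ 7 * t)⁻¹ / (2 * p * h) * (2 ^ 22 * t ^ 3 * Λ ^ 2)⁻¹) := Real.sqrt_pos.mpr (by positivity)
  have hd0 : 0 < (2 ^ 10 * t ^ 2)⁻¹ * √(h * (2 ^ 22 * t ^ 3 * Λ ^ 2)) := mul_pos (by positivity) (Real.sqrt_pos.mpr (by positivity))
  have e2 : 2 * (2 / √((2 ^ 7 * t)⁻¹ / (2 * p * h) * (2 ^ 22 * t ^ 3 * Λ ^ 2)⁻¹)) / ((2 ^ 10 * t ^ 2)⁻¹ * √(h * (2 ^ 22 * t ^ 3 * Λ ^ 2)))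
      = 4 / ((2 ^ 10 * t ^ 2)⁻¹ * √(h * (2 ^ 22 * t ^ 3 * Λ ^ 2)) * √((2 ^ 7 * t)⁻¹ / (2 * p * h) * (2 ^ 22 * t ^ 3 * Λ ^ 2)⁻¹)) := by
    generalize √((2 ^ 7 * t)⁻¹ / (2 * p * h) * (2 ^ 22 * t ^ 3 * Λ ^ 2)⁻¹) = v at *
    generalize (2 ^ 10 * t ^ 2)⁻¹ * √(h * (2 ^ 22 * t ^ 3 * Λ ^ 2)) = d at *
    field_simp
    norm_num
  rw [e2, e]
  have h1 : (2 ^ 5 * t)⁻¹ ≤ √((2 ^ 8 * t * p)⁻¹) := by
    apply Real.le_sqrt_of_sq_le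
    rw [inv_pow]
    apply inv_anti₀ (by positivity)
    calc 2 ^ 8 * t * p ≤ 2 ^ 8 * t * 4 := by gcongr
      _ = 2 ^ 10 * t * 1 := by ring
      _ ≤ 2 ^ 10 * t * t := by gcongr
      _ = (2 ^ 5 * t) ^ 2 := by ring
  have h2 : (2 ^ 15 * t ^ 3)⁻¹ ≤ (2 ^ 10 * t ^ 2)⁻¹ * √((2 ^ 8 * t * p)⁻¹) := by
    calc (2 ^ 15 * t ^ 3)⁻¹ = (2 ^ 10 * t ^ 2)⁻¹ * (2 ^ 5 * t)⁻¹ := by rw [← mul_inv]; congr 1; ring
      _ ≤ _ := by gcongr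
  have h3 : 4 / ((2 ^ 10 * t ^ 2)⁻¹ * √((2 ^ 8 * t * p)⁻¹)) ≤ 4 / (2 ^ 15 * t ^ 3)⁻¹ := by
    apply div_le_div_of_nonneg_left (by norm_num) (by positivity) h2
  have h4 : 4 / (2 ^ 15 * t ^ 3)⁻¹ = 2 ^ 17 * t ^ 3 := by rw [div_inv_eq_mul]; ring
  have h5 : 1 ≤ t ^ 3 := one_le_pow₀ ht
  rw [h4] at h3
  linarith

theorem re_sc_num_Rd (t Λ h p : ℝ) (ht : 1 ≤ t) (hΛ : 1 ≤ Λ) (hh : 0 < h) (hp : 3 < p) :
    (2 ^ 10 * t ^ 2)⁻¹ * √(h * (2 ^ 22 * t ^ 3 * Λ ^ 2)) ≤ 1 / √(2 ^ 13 * t ^ 2 * ((2 ^ 7 * t)⁻¹ / (2 * p * h) * (2 ^ 22 * t ^ 3 * Λ ^ 2)⁻¹)) := by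
  have ht0 : 0 < t := by linarith
  have hΛ0 : 0 < Λ := by linarith
  have hp0 : 0 < p := by linarith
  rw [le_div_iff₀ (Real.sqrt_pos.mpr (by positivity)), mul_assoc, ← Real.sqrt_mul (by positivity), inv_mul_le_iff₀ (by positivity), mul_one]
  apply Real.sqrt_le_iff.mpr ⟨by positivity, ?_⟩
  have e : h * (2 ^ 22 * t ^ 3 * Λ ^ 2) * (2 ^ 13 * t ^ 2 * ((2 ^ 7 * t)⁻¹ / (2 * p * h) * (2 ^ 22 * t ^ 3 * Λ ^ 2)⁻¹)) = 2 ^ 5 * t / p := by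
    field_simp
  rw [e, div_le_iff₀ hp0]
  have h4 : t ≤ t ^ 4 := by
    calc t = t ^ 1 := (pow_one t).symm
      _ ≤ t ^ 4 := pow_le_pow_right₀ ht (by norm_num)
  calc 2 ^ 5 * t ≤ 2 ^ 20 * t ^ 4 * 1 := by nlinarith
    _ ≤ 2 ^ 20 * t ^ 4 * p := by gcongr; linarith
    _ = (2 ^ 10 * t ^ 2) ^ 2 * p := by ring

theorem re_sc_num_RW (t Λ h p : ℝ) (ht : 1 ≤ t) (hΛ : 1 ≤ Λ) (hh : 0 < h) (hp : 3 < p) :
    2 * Λ * √h ≤ 1 / √(2 ^ 13 * t ^ 2 * ((2 ^ 7 * t)⁻¹ / (2 * p * h) * (2 ^ 22 * t ^ 3 * Λ ^ 2)⁻¹)) := by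
  have ht0 : 0 < t := by linarith
  have hΛ0 : 0 < Λ := by linarith
  have hp0 : 0 < p := by linarith
  rw [le_div_iff₀ (Real.sqrt_pos.mpr (by positivity)), mul_assoc, ← Real.sqrt_mul hh.le]
  have e : h * (2 ^ 13 * t ^ 2 * ((2 ^ 7 * t)⁻¹ / (2 * p * h) * (2 ^ 22 * t ^ 3 * Λ ^ 2)⁻¹)) = (2 ^ 17 * t ^ 2 * Λ ^ 2 * p)⁻¹ := by
    field_simp
  rw [e]
  have h1 : √((2 ^ 17 * t ^ 2 * Λ ^ 2 * p)⁻¹) ≤ (2 * Λ)⁻¹ := by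
    apply Real.sqrt_le_iff.mpr ⟨by positivity, ?_⟩
    rw [inv_pow]
    apply inv_anti₀ (by positivity)
    have h2 : 1 ≤ t ^ 2 := one_le_pow₀ ht
    calc (2 * Λ) ^ 2 = 4 * 1 * Λ ^ 2 * 1 := by ring
      _ ≤ 2 ^ 17 * t ^ 2 * Λ ^ 2 * p := by
          have hp1 : 1 ≤ p := by linarith
          gcongr; norm_num
  calc 2 * Λ * √((2 ^ 17 * t ^ 2 * Λ ^ 2 * p)⁻¹) ≤ 2 * Λ * (2 * Λ)⁻¹ := by gcongr
    _ = 1 := mul_inv_cancel₀ (by positivity)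

/-- **LEAF L-256-SEC-NUM: the explicit scales.**      (all 20 inequalities checked numerically)
`ΛE = 2^(3bm+22) Λ²`, `ℓE = 1/ΛE`, `z0 = rE/ℓE = 2^-(bm+7)/(2πh)`, `δ = 2^-(2bm+10) √(h ΛE)`, `Bf = 2^(bm+6) Λ/√h`.   Use `3 < π < 4` (`Real.pi_gt_three`, `Real.pi_lt_four`), `h ΛE ≤ 2^-(bm+18)`, `√` monotone;  work with squares.
`p2`: `√rE/ℓE = √(z0 ΛE)`;  both `2^(bm+5) δ/(πh)` and `3·2^(bm+5)/(π√h)` are `≤ √(z0 ΛE)/2`.   `p4`: equality.   `mult`: `δ √rE = 2^-(2bm+10) √(h z0) = 2^-(2bm+10) √(2^-(bm+7)/(2π)) ≥ 2^-(3bm+15)`. -/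
theorem re_sc_num (c : SecPt) (bm : ℕ) (Λ : ℝ) (hΛ : 1 ≤ Λ) (hbt : |c.bt| ≤ Λ) (hh : 0 < c.h) (hsm : c.h * (2 ^ (4 * bm + 40) * Λ ^ 4) ≤ 1) :
    SecSc c bm (2 * bm + 13) (2 ^ (3 * bm + 18)) Λ ((2 : ℝ)⁻¹ ^ (2 * bm + 10) * √(c.h * (2 ^ (3 * bm + 22) * Λ ^ 2))) (2 ^ (3 * bm + 22) * Λ ^ 2)⁻¹
      ((2 : ℝ)⁻¹ ^ (bm + 7) / (2 * Real.pi * c.h) * (2 ^ (3 * bm + 22) * Λ ^ 2)⁻¹) (2 ^ (bm + 6) * Λ / √c.h) := by
  obtain ⟨t, ht⟩ : ∃ t : ℝ, t = 2 ^ bm := ⟨_, rfl⟩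
  have ht1 : 1 ≤ t := by rw [ht]; exact one_le_pow₀ (by norm_num)
  have ht0 : 0 < t := by linarith
  have hΛ0 : 0 < Λ := by linarith
  have e1 : (2:ℝ) ^ (3 * bm + 22) = 2 ^ 22 * t ^ 3 := by rw [ht, pow_add, pow_mul']; ring
  have e2 : (2:ℝ)⁻¹ ^ (2 * bm + 10) = (2 ^ 10 * t ^ 2)⁻¹ := by rw [ht, inv_pow, pow_add, pow_mul']; ring
  have e3 : (2:ℝ)⁻¹ ^ (bm + 7) = (2 ^ 7 * t)⁻¹ := by rw [ht, inv_pow, pow_add]; ring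
  have e4 : (2:ℝ) ^ (bm + 6) = 2 ^ 6 * t := by rw [ht, pow_add]; ring
  have e5 : (2:ℝ) ^ (bm + 5) = 2 ^ 5 * t := by rw [ht, pow_add]; ring
  have e6 : (2:ℝ)⁻¹ ^ (bm + 5) = (2 ^ 5 * t)⁻¹ := by rw [ht, inv_pow, pow_add]; ring
  have e7 : (2:ℝ) ^ (2 * bm + 13) = 2 ^ 13 * t ^ 2 := by rw [ht, pow_add, pow_mul']; ring
  have e8 : (2:ℝ) ^ (2 * bm + 13 - 1) = 2 ^ 12 * t ^ 2 := by
    have : 2 * bm + 13 - 1 = 2 * bm + 12 := by omega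
    rw [this, ht, pow_add, pow_mul']; ring
  have e9 : ((2 ^ (3 * bm + 18) : ℕ) : ℝ) = 2 ^ 18 * t ^ 3 := by
    push_cast
    rw [ht, pow_add, pow_mul']; ring
  have e10 : (2:ℝ) ^ (4 * bm + 40) = 2 ^ 40 * t ^ 4 := by rw [ht, pow_add, pow_mul']; ring
  rw [e10] at hsm
  rw [e1, e2, e3, e4]
  have hp := Real.pi_gt_three
  have hp4 := Real.pi_lt_four
  exact
    { Λ1 := hΛ
      bt := hbt
      hpos := hh
      B1 := by omega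
      δ0 := mul_pos (by positivity) (Real.sqrt_pos.mpr (by positivity))
      δ1 := re_sc_num_d1 t Λ c.h ht1 hΛ hh hsm
      ℓ0 := by positivity
      ℓ1 := re_sc_num_l1 t Λ c.bt ht1 hΛ hbt
      r2 := re_sc_num_r2 t Λ c.h Real.pi ht1 hΛ hh hsm hp hp4
      Bf1 := re_sc_num_Bf1 t Λ c.h c.bt ht1 hΛ hbt hh hsm
      Bf2 := re_sc_num_Bf2 t Λ c.h ht1 hΛ hh
      sm := re_sc_num_sm t Λ c.h c.bt ht1 hΛ hbt hh hsm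
      p1 := by rw [e5]; exact re_sc_num_p1 t Λ c.h Real.pi ht1 hΛ hh hp
      p2 := by rw [e5]; exact re_sc_num_p2 t Λ c.h Real.pi ht1 hΛ hh hp
      p3 := by rw [e6]; exact re_sc_num_p3 t Λ c.h Real.pi ht1 hΛ hh hp
      p4 := by rw [e5, e8]; exact re_sc_num_p4 t Λ c.h Real.pi ht1 hΛ hh hp
      p5 := by rw [e5]; exact re_sc_num_p5 t Λ c.h Real.pi ht1 hΛ hh hp
      mult := by rw [e9]; exact re_sc_num_mult t Λ c.h Real.pi ht1 hΛ hh hp hp4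
      Rδ := by rw [e7]; exact re_sc_num_Rd t Λ c.h Real.pi ht1 hΛ hh hp
      RW := by rw [e7]; exact re_sc_num_RW t Λ c.h Real.pi ht1 hΛ hh hp }

/-- the plane wave amplitudes of the caps -/
noncomputable def SecPt.gx (c : SecPt) (S : Set (ℝ × ℝ)) (δ : ℝ) (G : RdWvPar.Mo → ℂ) (x : ℝ) : RdWvPar.Mo → ℂ := secg c.T0 (secG c.H c.k (c.cap S δ x) G)

theorem re_sc_gx_eqns_cite : True := by
  have := @SecPt.gx.eq_1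
  trivial

/-- **LEAF L-256-SEC-GX: the amplitudes.**   `‖secg T0 F q‖ = reC3 ‖F q‖`;  integrable (`re_sc_G`, `Integrable.bdd_mul`, conjugation: `Integrable.star`/`(Complex.conjCLE ..).integrable_comp_iff`);  support: `gx q ≠ 0 → G q ≠ 0 ∧ secM ≠ 0`, `re_sc_M_supp`, `re_sc_plank` (`rd_plat_mono`). -/
theorem re_sc_gx (c : SecPt) (hc : c.Ok) (bm B m β : ℕ) (hβ : β ≤ bm) (Λ δ ℓE rE Bf : ℝ) (S : Set (ℝ × ℝ)) (hS : c.Pat Λ S) (hsc : SecSc c bm B m Λ δ ℓE rE Bf) (G : RdWvPar.Mo → ℂ) (hG : Integrable G)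
    (hpl : ∀ q, G q ≠ 0 → c.H * q.2 ∈ rdPlat β) (x : ℝ) :
    Integrable (c.gx S δ G x) ∧ ∀ q, c.gx S δ G x q ≠ 0 → c.Th q ∈ tPl x (1 / ℓE) (√rE / ℓE) (2 * (rE / ℓE)) (2 ^ (B - 1) * (rE / ℓE)) ∧ |c.th q| ≤ Bf := by
  have hcapm := (re_sc_caps c Λ δ S hS hsc.δ0 hsc.δ1).1 x
  have hF : Integrable (secG c.H c.k (c.cap S δ x) G) := (re_sc_G c.H hc.H_pos c.k G hG).1 _ hcapm
  refine ⟨?_, fun q hq => ?_⟩
  · have h1 : Integrable (fun q => (starRingEnd ℂ) (secG c.H c.k (c.cap S δ x) G q)) :=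
      (Complex.conjCLE : ℂ ≃L[ℝ] ℂ).toContinuousLinearMap.integrable_comp hF
    unfold SecPt.gx secg
    refine h1.bdd_mul (c := |reC3|) ?_ (Filter.Eventually.of_forall fun q => ?_)
    · refine Measurable.aestronglyMeasurable ?_
      unfold reOm rtSq
      fun_prop
    · rw [norm_mul, Complex.norm_real, Real.norm_eq_abs, mul_comm Complex.I, Complex.norm_exp_ofReal_mul_I, mul_one]
  · unfold SecPt.gx secg at hq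
    have h1 : secG c.H c.k (c.cap S δ x) G q ≠ 0 := by
      intro h0
      apply hq
      rw [h0]
      simp
    unfold secG at h1
    have h2 : secM c.H c.k (c.cap S δ x) ((2 * q.2)⁻¹ • q.1) ≠ 0 := by
      intro h0
      apply h1
      rw [h0]
      simp
    have h3 : G q ≠ 0 := by
      intro h0
      apply h1
      rw [h0]
      simp
    obtain ⟨A, hA, hAq⟩ := re_sc_M_supp c.H hc.H_pos c.k _ _ h2
    obtain ⟨hAS, hx1, hx2⟩ := hA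
    exact re_sc_plank c hc bm B Λ δ ℓE rE Bf x A q hsc.Λ1 hsc.δ0 hsc.hpos (hS.small A hAS) (hS.sec A hAS) ⟨hx1, hx2⟩
      (rd_plat_mono hβ (hpl q h3)) hAq hsc.sm hsc.p1 hsc.p2 hsc.p3 hsc.p4 hsc.p5

/-- coordinates on `TV` are continuous -/
theorem re_sc_slabK_coord (i : Fin 3) : Continuous fun p : TV => p i := by
  fun_prop

/-- `tvec` of continuous functions -/
theorem re_sc_slabK_tvec {X : Type*} [TopologicalSpace X] (a b d : X → ℝ) (ha : Continuous a) (hb : Continuous b) (hd : Continuous d) :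
    Continuous fun x => tvec (a x) (b x) (d x) := by
  unfold tvec
  refine (PiLp.continuous_toLp 2 _).comp (continuous_pi fun i => ?_)
  fin_cases i
  · simpa using ha
  · simpa using hb
  · simpa using hd

/-- the tile weight is measurable -/
theorem re_sc_slabK_tW (N : ℕ) (x0 r R : ℝ) (c' : TV) : Measurable (tW N x0 r R c') := by
  have h0 := re_sc_slabK_coord 0
  have h1 := re_sc_slabK_coord 1
  have h2 := re_sc_slabK_coord 2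
  have hs : Continuous fun p : TV => p - c' := continuous_id.sub continuous_const
  have hc : Continuous fun p : TV => tcoord x0 r R (p - c') := by
    unfold tcoord
    refine re_sc_slabK_tvec _ _ _ ?_ ?_ ?_
    · exact (h0.comp hs).div_const _
    · exact ((h1.comp hs).sub (continuous_const.mul (h0.comp hs))).div_const _
    · exact (((h2.comp hs).sub (continuous_const.mul (h1.comp hs))).add (continuous_const.mul (h0.comp hs))).div_const _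
  unfold tW
  exact ENNReal.measurable_ofReal.comp ((measurable_const.add hc.norm.measurable).pow_const _)

/-- the amplitude of the conjugate wave is integrable -/
theorem re_sc_slabK_secg (T0 : ℝ) (F : RdWvPar.Mo → ℂ) (hF : Integrable F) : Integrable (secg T0 F) := by
  have h1 : Integrable (fun q => (starRingEnd ℂ) (F q)) := by
    have := Complex.conjCLE.toContinuousLinearMap.integrable_comp hF
    exact this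
  have hm : Measurable fun q : RdWvPar.Mo => (reC3 : ℂ) * Complex.exp (Complex.I * ((T0 * reOm q : ℝ) : ℂ)) := by
    have : Measurable reOm := by
      unfold reOm rtSq
      fun_prop
    fun_prop
  unfold secg
  refine h1.bdd_mul (c := |reC3|) hm.aestronglyMeasurable (Filter.Eventually.of_forall fun q => ?_)
  rw [norm_mul, Complex.norm_real, Real.norm_eq_abs, mul_comm Complex.I, Complex.norm_exp_ofReal_mul_I, mul_one]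

/-- the arithmetic of the tile hypothesis -/
theorem re_sc_slabK_arith (η : ℝ) (h0 : 0 < η) (P0 l r R W ℓE Bf : ℝ) (hP : 0 ≤ P0) (hl : 0 < l) (hr : 0 < r) (hR : 0 < R) (hR1 : R ≤ 1)
    (hW : 0 < W) (hℓ : 0 < ℓE) (hB : 0 < Bf) (κ : ℝ) (hκ : 0 ≤ κ) :
    (l ^ 4 * r ^ 4)⁻¹ * (P0 * ℓE * l * κ * ((R * r) ^ 4 * (W / R) ^ (1 - η)))
      ≤ P0 * (κ / l ^ 3) * W ^ (1 - η) * Bf / ℓE ^ 2 * (ℓE ^ 3 * R ^ 3 / Bf) := by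
  have hRη : 0 < R ^ (1 - η) := Real.rpow_pos_of_pos hR _
  have hWη : 0 < W ^ (1 - η) := Real.rpow_pos_of_pos hW _
  have h1 : R ≤ R ^ (1 - η) := by
    have := Real.rpow_le_rpow_of_exponent_ge hR hR1 (show 1 - η ≤ 1 by linarith)
    rwa [Real.rpow_one] at this
  have key : R ^ 4 * (W / R) ^ (1 - η) ≤ W ^ (1 - η) * R ^ 3 := by
    rw [Real.div_rpow hW.le hR.le]
    have : R ^ 4 * (W ^ (1 - η) / R ^ (1 - η)) = W ^ (1 - η) * R ^ 3 * (R / R ^ (1 - η)) := by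
      field_simp
    rw [this]
    have h2 : R / R ^ (1 - η) ≤ 1 := (div_le_one hRη).2 h1
    have h3 : 0 ≤ W ^ (1 - η) * R ^ 3 := by positivity
    nlinarith
  have e1 : (l ^ 4 * r ^ 4)⁻¹ * (P0 * ℓE * l * κ * ((R * r) ^ 4 * (W / R) ^ (1 - η)))
      = P0 * ℓE * (κ / l ^ 3) * (R ^ 4 * (W / R) ^ (1 - η)) := by
    field_simp
  have e2 : P0 * (κ / l ^ 3) * W ^ (1 - η) * Bf / ℓE ^ 2 * (ℓE ^ 3 * R ^ 3 / Bf)
      = P0 * ℓE * (κ / l ^ 3) * (W ^ (1 - η) * R ^ 3) := by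
    field_simp
  rw [e1, e2]
  exact mul_le_mul_of_nonneg_left key (by positivity)

set_option maxHeartbeats 1600000 in
/-- **LEAF L-256-SEC-SLABK: the tile hypothesis of the slab theorem.**      `N = N'+2`, `Mt = 2N'+8`.
PLAN.  `∫⁻ p ∫⁻ s = ∫⁻ P : TV × ℝ` (`lintegral_prod`, `Measure.volume_eq_prod`; measurable integrand: `re_sc_V_cont`, `tW`, `tWt` continuous).   `re_sc_wt` (`(1 + bt²) ℓE ≤ 1` from `ℓ1`).   `re_sc_jac` backwards: `∫⁻ P, f P = ofReal (ℓ⁴r⁴)⁻¹ ∫⁻ x, f (c.Lm x)`;  `f (c.Lm x) = c.wt .. x * ∑ ‖reFld ..‖²` (`re_sc_tm_Lm`, `re_sc_fld`: `‖conj w‖ₑ = ‖w‖ₑ`).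
`htile` at `R` (`δ ≤ R`, `2Λ√h ≤ R` from `Rδ`, `RW`).   Arithmetic:  `(ℓ⁴r⁴)⁻¹ ℓE ℓ κ (R r)⁴ (W/R)^{1-η} = ℓE (κ/ℓ³) W^{1-η} R^{3+η} ≤ ℓE (κ/ℓ³) W^{1-η} R³` (`Real.div_rpow`, `R^η ≤ 1`), and `(Bf/ℓE²)(ℓE³R³/Bf) = ℓE R³`. -/
theorem re_sc_slabK (η : ℝ) (h0 : 0 < η) (h1 : η < 1) (N' : ℕ) (Cg Ct κ : ℝ) (hCt : 0 ≤ Ct) (hκ : 0 ≤ κ) (c : SecPt) (hc : c.Ok) (bm B m : ℕ) (Λ δ ℓE rE Bf : ℝ) (S : Set (ℝ × ℝ)) (hsc : SecSc c bm B m Λ δ ℓE rE Bf)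
    (G : RdWvPar.Mo → ℂ) (hG : Integrable G) (hS : c.Pat Λ S)
    (htile : ∀ (R x0 s0 : ℝ) (c' : TV), δ ≤ R → 2 * Λ * √c.h ≤ R → R ≤ 1 →
      ∫⁻ x : ℝ × ReSp, c.wt (N' + 2) (2 * N' + 8) ℓE Bf R x0 c' s0 x *
        ∑ x' ∈ (secGrid δ).filter (fun x' => |x' - x0| ≤ R), ‖reFld x.1 (secG c.H c.k (c.cap S δ x') G) x.2‖ₑ ^ 2
      ≤ ENNReal.ofReal (Ct * Λ ^ Cg * ((δ ^ 2 + 16 * Λ ^ 2 * c.h) / c.h) * ℓE * c.l * κ * ((R * c.r) ^ 4 * (2 * Λ * √c.h / R) ^ (1 - η))))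
    (c₀ : TV) (s0 : ℝ) (hc0 : -1 ≤ c.tm (c₀, s0)) (hc1 : c.tm (c₀, s0) ≤ 2) (R : ℝ) (hR0 : 1 / √(2 ^ B * rE) ≤ R) (hR1 : R ≤ 1) (x0 : ℝ) (c' : TV) :
    ∫⁻ p : TV, ∫⁻ s : ℝ, tW (N' + 2) x0 ℓE R c' p * tWt (2 * N' + 8) ℓE c₀ p * ENNReal.ofReal ((1 + Bf * |s - s0|) ^ (-((N' + 2 + (2 * N' + 8) : ℕ) : ℝ))) *
        ∑ x ∈ (secGrid δ).filter (fun x => |x - x0| ≤ R), ‖secV (c.gx S δ G x) c.Th c.th p s‖ₑ ^ 2
      ≤ ENNReal.ofReal (3 ^ (2 * N' + 8) * Ct * Λ ^ Cg * ((δ ^ 2 + 16 * Λ ^ 2 * c.h) / c.h) * (κ / c.l ^ 3) * (2 * Λ * √c.h) ^ (1 - η) * Bf / ℓE ^ 2) * ENNReal.ofReal (ℓE ^ 3 * R ^ 3 / Bf) := by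
  have hΛ0 : 0 < Λ := by linarith [hsc.Λ1]
  have hh := hsc.hpos
  have hℓ0 := hsc.ℓ0
  have hδR : δ ≤ R := hsc.Rδ.trans hR0
  have hWR : 2 * Λ * √c.h ≤ R := hsc.RW.trans hR0
  have hRp : 0 < R := lt_of_lt_of_le hsc.δ0 hδR
  have hsh : 0 < √c.h := Real.sqrt_pos.2 hh
  have hWp : 0 < 2 * Λ * √c.h := by positivity
  have hBf : 0 < Bf := by
    by_contra hneg
    have : Bf * (2 * Λ * √c.h) ≤ 0 := mul_nonpos_of_nonpos_of_nonneg (not_lt.1 hneg) hWp.le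
    linarith [hsc.Bf2]
  have hr := hc.r_pos
  have hl : 0 < c.l := rdLen_pos c.k
  have hℓ1' : (1 + c.bt ^ 2) * ℓE ≤ 1 := by nlinarith [hsc.ℓ1, sq_nonneg c.bt]
  obtain ⟨hcm, -, -, -⟩ := re_sc_caps c Λ δ S hS hsc.δ0 hsc.δ1
  obtain ⟨hThm, hthm⟩ := re_sc_Th_meas c
  have hgi : ∀ x, Integrable (c.gx S δ G x) := fun x =>
    re_sc_slabK_secg c.T0 _ ((re_sc_G c.H hc.H_pos c.k G hG).1 _ (hcm x))
  have hVc : ∀ x, Continuous fun P : TV × ℝ => secV (c.gx S δ G x) c.Th c.th P.1 P.2 := fun x =>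
    re_sc_V_cont _ (hgi x) _ hThm _ hthm
  obtain ⟨Y, hY⟩ : ∃ Y : Finset ℝ, Y = (secGrid δ).filter (fun x => |x - x0| ≤ R) := ⟨_, rfl⟩
  obtain ⟨F, hF⟩ : ∃ F : TV × ℝ → ℝ≥0∞, F = fun P => ENNReal.ofReal ((1 + |c.tm P|) ^ (-((2 * N' + 8 : ℕ) : ℝ))) * tW (N' + 2) x0 ℓE R c' P.1
      * ENNReal.ofReal ((1 + Bf * |P.2 - s0|) ^ (-((N' + 2 : ℕ) : ℝ))) * ∑ x ∈ Y, ‖secV (c.gx S δ G x) c.Th c.th P.1 P.2‖ₑ ^ 2 := ⟨_, rfl⟩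
  have htm : Continuous c.tm := by
    unfold SecPt.tm
    have a0 : Continuous fun P : TV × ℝ => P.1 0 := (re_sc_slabK_coord 0).comp continuous_fst
    have a2 : Continuous fun P : TV × ℝ => P.1 2 := (re_sc_slabK_coord 2).comp continuous_fst
    exact (a0.sub (continuous_const.mul continuous_snd)).add (continuous_const.mul a2)
  have hFm : Measurable F := by
    rw [hF]
    have m1 : Measurable fun P : TV × ℝ => ENNReal.ofReal ((1 + |c.tm P|) ^ (-((2 * N' + 8 : ℕ) : ℝ))) :=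
      ENNReal.measurable_ofReal.comp ((measurable_const.add htm.abs.measurable).pow_const _)
    have m2 : Measurable fun P : TV × ℝ => tW (N' + 2) x0 ℓE R c' P.1 := (re_sc_slabK_tW _ _ _ _ _).comp measurable_fst
    have m3 : Measurable fun P : TV × ℝ => ENNReal.ofReal ((1 + Bf * |P.2 - s0|) ^ (-((N' + 2 : ℕ) : ℝ))) :=
      ENNReal.measurable_ofReal.comp
        ((measurable_const.add (measurable_const.mul (measurable_snd.sub_const s0).abs)).pow_const _)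
    have m4 : Measurable fun P : TV × ℝ => ∑ x ∈ Y, ‖secV (c.gx S δ G x) c.Th c.th P.1 P.2‖ₑ ^ 2 :=
      Finset.measurable_fun_sum Y fun x _ => (hVc x).enorm.measurable.pow_const 2
    exact ((m1.mul m2).mul m3).mul m4
  have hFL : ∀ x : ℝ × ReSp, F (c.Lm x) = c.wt (N' + 2) (2 * N' + 8) ℓE Bf R x0 c' s0 x *
      ∑ x' ∈ Y, ‖reFld x.1 (secG c.H c.k (c.cap S δ x') G) x.2‖ₑ ^ 2 := by
    intro x
    rw [hF]
    simp only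
    rw [re_sc_tm_Lm]
    unfold SecPt.wt
    congr 1
    refine Finset.sum_congr rfl fun x' _ => ?_
    have := re_sc_fld c hc (secG c.H c.k (c.cap S δ x') G) x.1 x.2
    rw [Prod.mk.eta] at this
    unfold SecPt.gx
    rw [← this, ← ofReal_norm, ← ofReal_norm, RCLike.norm_conj]
  have hK : ENNReal.ofReal (3 ^ (2 * N' + 8)) ≠ ⊤ := ENNReal.ofReal_ne_top
  have hpt : ∀ (p : TV) (s : ℝ), tW (N' + 2) x0 ℓE R c' p * tWt (2 * N' + 8) ℓE c₀ p * ENNReal.ofReal ((1 + Bf * |s - s0|) ^ (-((N' + 2 + (2 * N' + 8) : ℕ) : ℝ))) *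
        ∑ x ∈ Y, ‖secV (c.gx S δ G x) c.Th c.th p s‖ₑ ^ 2 ≤ ENNReal.ofReal (3 ^ (2 * N' + 8)) * F (p, s) := by
    intro p s
    have hwt := re_sc_wt c (N' + 2) (2 * N' + 8) ℓE Bf hℓ0 hℓ1' hsc.Bf1 c₀ s0 hc0 hc1 p s
    rw [hF]
    simp only
    calc tW (N' + 2) x0 ℓE R c' p * tWt (2 * N' + 8) ℓE c₀ p * ENNReal.ofReal ((1 + Bf * |s - s0|) ^ (-((N' + 2 + (2 * N' + 8) : ℕ) : ℝ))) *
          ∑ x ∈ Y, ‖secV (c.gx S δ G x) c.Th c.th p s‖ₑ ^ 2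
        = tW (N' + 2) x0 ℓE R c' p * (tWt (2 * N' + 8) ℓE c₀ p * ENNReal.ofReal ((1 + Bf * |s - s0|) ^ (-((N' + 2 + (2 * N' + 8) : ℕ) : ℝ)))) *
          ∑ x ∈ Y, ‖secV (c.gx S δ G x) c.Th c.th p s‖ₑ ^ 2 := by ring
      _ ≤ tW (N' + 2) x0 ℓE R c' p * (ENNReal.ofReal (3 ^ (2 * N' + 8)) * (ENNReal.ofReal ((1 + |c.tm (p, s)|) ^ (-((2 * N' + 8 : ℕ) : ℝ))) * ENNReal.ofReal ((1 + Bf * |s - s0|) ^ (-((N' + 2 : ℕ) : ℝ))))) *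
          ∑ x ∈ Y, ‖secV (c.gx S δ G x) c.Th c.th p s‖ₑ ^ 2 := by gcongr
      _ = _ := by ring
  have hprod : ∫⁻ p : TV, ∫⁻ s : ℝ, F (p, s) = ∫⁻ P : TV × ℝ, F P := by
    have hv : (volume : Measure (TV × ℝ)) = (volume : Measure TV).prod (volume : Measure ℝ) := Measure.volume_eq_prod _ _
    rw [hv]
    exact (lintegral_prod F hFm.aemeasurable).symm
  have hJ : 0 < c.l ^ 4 * c.r ^ 4 := by positivity
  have hjac : ∫⁻ P : TV × ℝ, F P = ENNReal.ofReal ((c.l ^ 4 * c.r ^ 4)⁻¹) * ∫⁻ x : ℝ × ReSp, F (c.Lm x) := by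
    rw [re_sc_jac c hc F hFm, ← mul_assoc, ← ENNReal.ofReal_mul (by positivity), inv_mul_cancel₀ hJ.ne', ENNReal.ofReal_one, one_mul]
  have ht := htile R x0 s0 c' hδR hWR hR1
  rw [← hY] at ht ⊢
  calc ∫⁻ p : TV, ∫⁻ s : ℝ, tW (N' + 2) x0 ℓE R c' p * tWt (2 * N' + 8) ℓE c₀ p * ENNReal.ofReal ((1 + Bf * |s - s0|) ^ (-((N' + 2 + (2 * N' + 8) : ℕ) : ℝ))) *
        ∑ x ∈ Y, ‖secV (c.gx S δ G x) c.Th c.th p s‖ₑ ^ 2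
      ≤ ∫⁻ p : TV, ∫⁻ s : ℝ, ENNReal.ofReal (3 ^ (2 * N' + 8)) * F (p, s) :=
        lintegral_mono fun p => lintegral_mono fun s => hpt p s
    _ = ENNReal.ofReal (3 ^ (2 * N' + 8)) * ∫⁻ P : TV × ℝ, F P := by
        simp_rw [lintegral_const_mul' _ _ hK]
        rw [hprod]
    _ = ENNReal.ofReal (3 ^ (2 * N' + 8)) * (ENNReal.ofReal ((c.l ^ 4 * c.r ^ 4)⁻¹) * ∫⁻ x : ℝ × ReSp, c.wt (N' + 2) (2 * N' + 8) ℓE Bf R x0 c' s0 x *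
          ∑ x' ∈ Y, ‖reFld x.1 (secG c.H c.k (c.cap S δ x') G) x.2‖ₑ ^ 2) := by
        rw [hjac]
        simp_rw [hFL]
    _ ≤ ENNReal.ofReal (3 ^ (2 * N' + 8)) * (ENNReal.ofReal ((c.l ^ 4 * c.r ^ 4)⁻¹) *
          ENNReal.ofReal (Ct * Λ ^ Cg * ((δ ^ 2 + 16 * Λ ^ 2 * c.h) / c.h) * ℓE * c.l * κ * ((R * c.r) ^ 4 * (2 * Λ * √c.h / R) ^ (1 - η)))) :=
        mul_le_mul' le_rfl (mul_le_mul' le_rfl ht)
    _ ≤ _ := by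
        rw [← ENNReal.ofReal_mul (by positivity), ← ENNReal.ofReal_mul (by positivity), ← ENNReal.ofReal_mul (by positivity)]
        apply ENNReal.ofReal_le_ofReal
        have hP : 0 ≤ Ct * Λ ^ Cg * ((δ ^ 2 + 16 * Λ ^ 2 * c.h) / c.h) := by positivity
        have := re_sc_slabK_arith η h0 (Ct * Λ ^ Cg * ((δ ^ 2 + 16 * Λ ^ 2 * c.h) / c.h)) c.l c.r R (2 * Λ * √c.h) ℓE Bf hP hl hr hRp hR1 hWp hℓ0 hBf κ hκ
        have h3 : (0 : ℝ) ≤ 3 ^ (2 * N' + 8) := by positivity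
        calc 3 ^ (2 * N' + 8) * ((c.l ^ 4 * c.r ^ 4)⁻¹ * (Ct * Λ ^ Cg * ((δ ^ 2 + 16 * Λ ^ 2 * c.h) / c.h) * ℓE * c.l * κ * ((R * c.r) ^ 4 * (2 * Λ * √c.h / R) ^ (1 - η))))
            ≤ 3 ^ (2 * N' + 8) * (Ct * Λ ^ Cg * ((δ ^ 2 + 16 * Λ ^ 2 * c.h) / c.h) * (κ / c.l ^ 3) * (2 * Λ * √c.h) ^ (1 - η) * Bf / ℓE ^ 2 * (ℓE ^ 3 * R ^ 3 / Bf)) :=
              mul_le_mul_of_nonneg_left this h3
          _ = _ := by ring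

theorem re_sc_en_l_pos (c : SecPt) : 0 < c.l := by
  unfold SecPt.l rdLen
  positivity

theorem re_sc_en_tm_cont (c : SecPt) : Continuous fun P : TV × ℝ => P.1 0 - 2 * c.bt * P.2 + c.bt ^ 2 * P.1 2 := by
  fun_prop

theorem re_sc_en_set_meas (c : SecPt) (a b : ℝ) :
    MeasurableSet {P : TV × ℝ | a ≤ P.1 0 - 2 * c.bt * P.2 + c.bt ^ 2 * P.1 2 ∧ P.1 0 - 2 * c.bt * P.2 + c.bt ^ 2 * P.1 2 ≤ b} := by
  have h := (re_sc_en_tm_cont c).measurable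
  exact (measurableSet_le measurable_const h).inter (measurableSet_le h measurable_const)

theorem re_sc_en_mem (c : SecPt) (a b t : ℝ) (z : ReSp) :
    c.Lm (t, z) ∈ {P : TV × ℝ | a ≤ P.1 0 - 2 * c.bt * P.2 + c.bt ^ 2 * P.1 2 ∧ P.1 0 - 2 * c.bt * P.2 + c.bt ^ 2 * P.1 2 ≤ b}
      ↔ t ∈ Set.Icc (c.T0 + c.l * a) (c.T0 + c.l * b) := by
  have hl := re_sc_en_l_pos c
  have h1 : (c.Lm (t, z)).1 0 - 2 * c.bt * (c.Lm (t, z)).2 + c.bt ^ 2 * (c.Lm (t, z)).1 2 = (t - c.T0) / c.l :=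
    re_sc_tm_Lm c (t, z)
  show (a ≤ (c.Lm (t, z)).1 0 - 2 * c.bt * (c.Lm (t, z)).2 + c.bt ^ 2 * (c.Lm (t, z)).1 2 ∧
    (c.Lm (t, z)).1 0 - 2 * c.bt * (c.Lm (t, z)).2 + c.bt ^ 2 * (c.Lm (t, z)).1 2 ≤ b) ↔ _
  rw [h1, le_div_iff₀ hl, div_le_iff₀ hl, Set.mem_Icc]
  constructor
  · rintro ⟨h2, h3⟩
    exact ⟨by linarith, by linarith⟩
  · rintro ⟨h2, h3⟩
    exact ⟨by linarith, by linarith⟩

/-- an integral over a time slab of the chart, in the old coordinates -/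
theorem re_sc_en_slab (c : SecPt) (hc : c.Ok) (a b : ℝ) (Φ : TV × ℝ → ℝ≥0∞) (hΦ : Measurable Φ) :
    ENNReal.ofReal (c.l ^ 4 * c.r ^ 4) * ∫⁻ P : TV × ℝ,
        ({P : TV × ℝ | a ≤ P.1 0 - 2 * c.bt * P.2 + c.bt ^ 2 * P.1 2 ∧ P.1 0 - 2 * c.bt * P.2 + c.bt ^ 2 * P.1 2 ≤ b}.indicator 1 P) * Φ P
      = ∫⁻ t in Set.Icc (c.T0 + c.l * a) (c.T0 + c.l * b), ∫⁻ z, Φ (c.Lm (t, z)) := by
  have hf : Measurable fun P : TV × ℝ =>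
      ({P : TV × ℝ | a ≤ P.1 0 - 2 * c.bt * P.2 + c.bt ^ 2 * P.1 2 ∧ P.1 0 - 2 * c.bt * P.2 + c.bt ^ 2 * P.1 2 ≤ b}.indicator
        (1 : TV × ℝ → ℝ≥0∞) P) * Φ P :=
    (measurable_one.indicator (re_sc_en_set_meas c a b)).mul hΦ
  have hfL : Measurable fun x : ℝ × ReSp =>
      ({P : TV × ℝ | a ≤ P.1 0 - 2 * c.bt * P.2 + c.bt ^ 2 * P.1 2 ∧ P.1 0 - 2 * c.bt * P.2 + c.bt ^ 2 * P.1 2 ≤ b}.indicator
        (1 : TV × ℝ → ℝ≥0∞) (c.Lm x)) * Φ (c.Lm x) := hf.comp (re_sc_Lm_cont c).measurable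
  rw [← re_sc_jac c hc _ hf, Measure.volume_eq_prod, lintegral_prod _ hfL.aemeasurable,
    ← lintegral_indicator measurableSet_Icc]
  refine lintegral_congr fun t => ?_
  by_cases ht : t ∈ Set.Icc (c.T0 + c.l * a) (c.T0 + c.l * b)
  · rw [Set.indicator_of_mem ht]
    refine lintegral_congr fun z => ?_
    rw [Set.indicator_of_mem ((re_sc_en_mem c a b t z).2 ht), Pi.one_apply, one_mul]
  · rw [Set.indicator_of_notMem ht]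
    have : ∀ z : ReSp, ({P : TV × ℝ | a ≤ P.1 0 - 2 * c.bt * P.2 + c.bt ^ 2 * P.1 2 ∧ P.1 0 - 2 * c.bt * P.2 + c.bt ^ 2 * P.1 2 ≤ b}.indicator
        (1 : TV × ℝ → ℝ≥0∞) (c.Lm (t, z))) * Φ (c.Lm (t, z)) = 0 := by
      intro z
      rw [Set.indicator_of_notMem (fun h => ht ((re_sc_en_mem c a b t z).1 h)), zero_mul]
    simp_rw [this]
    exact lintegral_zero

theorem re_sc_en_secg_int (T0 : ℝ) (F : RdWvPar.Mo → ℂ) (h1 : Integrable F) : Integrable (secg T0 F) := by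
  have h2 : Integrable fun q => (starRingEnd ℂ) (F q) := (Complex.conjCLE : ℂ →L[ℝ] ℂ).integrable_comp h1
  have hm : Measurable fun q : RdWvPar.Mo => (reC3 : ℂ) * Complex.exp (Complex.I * ((T0 * reOm q : ℝ) : ℂ)) := by
    unfold reOm rtSq
    fun_prop
  refine h2.bdd_mul hm.aestronglyMeasurable (c := |reC3|) ?_
  refine Filter.Eventually.of_forall fun q => ?_
  rw [norm_mul, mul_comm Complex.I, Complex.norm_exp_ofReal_mul_I, mul_one, Complex.norm_real, Real.norm_eq_abs]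

theorem re_sc_en_conj (w : ℂ) : ‖(starRingEnd ℂ) w‖ₑ = ‖w‖ₑ := by
  rw [← ofReal_norm, ← ofReal_norm, RCLike.norm_conj]

/-- **LEAF L-256-SEC-ENP: energy in a time slab of the chart.**   `re_sc_jac` backwards, `re_sc_tm_Lm`, `re_sc_fld`;  `∫⁻ (t, z) = ∫⁻ t ∫⁻ z` (`lintegral_prod`), `re_sc_energy` for each `t`;  `{t | a ≤ (t - T0)/ℓ ≤ a + 3}` is an interval of length `3ℓ` (`Real.volume_Icc`). -/
theorem re_sc_en (c : SecPt) (hc : c.Ok) (F : RdWvPar.Mo → ℂ) (h1 : Integrable F) (h2 : MemLp F 2 volume) (a : ℝ) :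
    ∫⁻ P : TV × ℝ, ({P : TV × ℝ | a ≤ P.1 0 - 2 * c.bt * P.2 + c.bt ^ 2 * P.1 2 ∧ P.1 0 - 2 * c.bt * P.2 + c.bt ^ 2 * P.1 2 ≤ a + 3}.indicator 1 P) * ‖secV (secg c.T0 F) c.Th c.th P.1 P.2‖ₑ ^ 2
      ≤ ENNReal.ofReal (3 * c.l / (c.l ^ 4 * c.r ^ 4)) * ∫⁻ q, ‖F q‖ₑ ^ 2 := by
  have hl := re_sc_en_l_pos c
  have hr := hc.r_pos
  obtain ⟨hTh, hth⟩ := re_sc_Th_meas c
  have hV := re_sc_V_cont (secg c.T0 F) (re_sc_en_secg_int c.T0 F h1) c.Th hTh c.th hth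
  have hs := re_sc_en_slab c hc a (a + 3) (fun P => ‖secV (secg c.T0 F) c.Th c.th P.1 P.2‖ₑ ^ 2) (hV.measurable.enorm.pow_const 2)
  have hin : ∀ t : ℝ, ∫⁻ z, ‖secV (secg c.T0 F) c.Th c.th (c.Lm (t, z)).1 (c.Lm (t, z)).2‖ₑ ^ 2 = ∫⁻ q, ‖F q‖ₑ ^ 2 := by
    intro t
    rw [← re_sc_energy F h1 h2 t]
    refine lintegral_congr fun z => ?_
    rw [← re_sc_fld c hc F t z, re_sc_en_conj]
  simp_rw [hin] at hs
  rw [lintegral_const, Measure.restrict_apply_univ, Real.volume_Icc] at hs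
  have hpos : 0 < c.l ^ 4 * c.r ^ 4 := by positivity
  have h0 : ENNReal.ofReal (c.l ^ 4 * c.r ^ 4) ≠ 0 := by
    rw [Ne, ENNReal.ofReal_eq_zero, not_le]
    exact hpos
  refine le_of_eq ?_
  rw [← ENNReal.mul_right_inj h0 ENNReal.ofReal_ne_top, hs, ← mul_assoc, ← ENNReal.ofReal_mul hpos.le, mul_comm]
  congr 2
  field_simp
  ring

/-- **LEAF L-256-SEC-LHS: the cubic integral in the chart.**   `re_sc_jac` with `f P = 1_{0 ≤ tm P ≤ 1} ‖∑ secV ..‖³`;  `∑_x secV (gx x) (Lm (t,z)) = conj (∑_x reFld t (secG (cap x) G) z) = conj (reFld t (secG S G) z)` (`re_sc_fld`, `map_sum`, `re_sc_fld_sum`, `re_sc_G`, `⋃_{x ∈ grid} cap x = S`: `re_sc_caps`);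
`0 ≤ c.uo t ≤ 1 ↔ t ∈ Icc T0 (T0 + ℓ)`;  `lintegral_prod`, `lintegral_indicator`. -/
theorem re_sc_lhs (c : SecPt) (hc : c.Ok) (Λ δ : ℝ) (hδ : 0 < δ) (hδ2 : δ ≤ 1 / 2) (S : Set (ℝ × ℝ)) (hS : c.Pat Λ S) (G : RdWvPar.Mo → ℂ) (hG : Integrable G) :
    ∫⁻ t in Set.Icc c.T0 (c.T0 + c.l), ∫⁻ z, ‖reFld t (secG c.H c.k S G) z‖ₑ ^ 3
      = ENNReal.ofReal (c.l ^ 4 * c.r ^ 4) * ∫⁻ P : TV × ℝ, ({P : TV × ℝ | 0 ≤ P.1 0 - 2 * c.bt * P.2 + c.bt ^ 2 * P.1 2 ∧ P.1 0 - 2 * c.bt * P.2 + c.bt ^ 2 * P.1 2 ≤ 1}.indicator 1 P) *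
          ‖∑ x ∈ secGrid δ, secV (c.gx S δ G x) c.Th c.th P.1 P.2‖ₑ ^ 3 := by
  obtain ⟨hTh, hth⟩ := re_sc_Th_meas c
  obtain ⟨hcm, -, hcd, hcc⟩ := re_sc_caps c Λ δ S hS hδ hδ2
  obtain ⟨hGi, -, hGs⟩ := re_sc_G c.H hc.H_pos c.k G hG
  have hV : ∀ x, Continuous fun P : TV × ℝ => secV (c.gx S δ G x) c.Th c.th P.1 P.2 := fun x =>
    re_sc_V_cont _ (re_sc_en_secg_int c.T0 _ (hGi _ (hcm x))) c.Th hTh c.th hth
  have hΦ : Measurable fun P : TV × ℝ => ‖∑ x ∈ secGrid δ, secV (c.gx S δ G x) c.Th c.th P.1 P.2‖ₑ ^ 3 :=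
    ((continuous_finsetSum _ fun x _ => hV x).measurable.enorm).pow_const 3
  rw [re_sc_en_slab c hc 0 1 _ hΦ, mul_zero, add_zero, mul_one]
  refine lintegral_congr fun t => ?_
  refine lintegral_congr fun z => ?_
  have hU : (⋃ x ∈ secGrid δ, c.cap S δ x) = S := by
    ext A
    simp only [Set.mem_iUnion]
    constructor
    · rintro ⟨x, hx, hA⟩
      exact hA.1
    · intro hA
      obtain ⟨x, hx, hxA⟩ := hcc A hA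
      exact ⟨x, hx, hxA⟩
  have hsum := (hGs (secGrid δ) (fun x => c.cap S δ x) (fun x _ => hcm x) hcd).1
  rw [hU] at hsum
  have h1 := re_sc_fld_sum (secGrid δ) (fun x => secG c.H c.k (c.cap S δ x) G) (fun x _ => hGi _ (hcm x)) (secG c.H c.k S G)
    (Filter.Eventually.of_forall hsum) t z
  have h2 : ∑ x ∈ secGrid δ, secV (c.gx S δ G x) c.Th c.th (c.Lm (t, z)).1 (c.Lm (t, z)).2
      = (starRingEnd ℂ) (reFld t (secG c.H c.k S G) z) := by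
    rw [h1, map_sum]
    refine Finset.sum_congr rfl fun x _ => ?_
    exact (re_sc_fld c hc _ t z).symm
  rw [h2, re_sc_en_conj]

/-- **LEAF L-256-SEC-PATCHABS (glue): one patch, abstract scales.**
PLAN.  `N', Cg, Ct β` from `re_sc_tile`; `Ct = ∑_{β ≤ bm} Ct β`.   `Cs` from `re_sc_slab (N'+2) (2N'+8) (N'+2+(2N'+8)) m B ε`, `Ca` from `re_sc_avg`.   `X = secGrid δ`, `g = c.gx S δ G`, `Θ = c.Th`, `θ = c.th` (`re_sc_Th_meas`).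
`re_sc_lhs`;  `re_sc_avg` with `bt = c.bt`, `ℓ = ℓE`, `v x p s = secV (g x) Θ θ p s` (`re_sc_V_cont`), `Y = ofReal (Cs rE^ε) K^{1/2}`, `K` = the constant of `re_sc_slabK`, `En x = ofReal (3ℓ/(ℓ⁴r⁴)) ∫⁻ ‖secG (cap x) G‖²` (`re_sc_en`; `MemLp`: `‖secG‖ ≤ ‖G‖`, `MemLp.mono`);
hypothesis `hslab` = `re_sc_slab` (`re_sc_gx`, `re_sc_caps`, `re_sc_grid` with `w = 2/√rE`, `re_sc_slabK`);  `∑_x ∫⁻ ‖secG (cap x) G‖² ≤ ∫⁻ ‖G‖²` (`re_sc_G`).   `(ofReal a)^{1/2} = ofReal √a`;  `ℓ⁴r⁴ · 3ℓ/(ℓ⁴r⁴) = 3ℓ`.   `C = 3 Ca Cs √(3^(2N'+8) Ct)`. -/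
theorem re_sc_patch_abs (η : ℝ) (h0 : 0 < η) (h1 : η < 1) : ∃ Cg : ℝ, 0 < Cg ∧ ∀ (bm B m : ℕ) (ε : ℝ), 0 < ε → ∃ C : ℝ, 0 ≤ C ∧
    ∀ (c : SecPt) (p : RdWvPar), c.Ok → p.H = c.H → ∀ β : ℕ, β ≤ bm → ∀ (G : RdWvPar.Mo → ℂ), Integrable G → MemLp G 2 volume → (∀ q, G q ≠ 0 → c.H * q.2 ∈ rdPlat β) →
    ∀ κ : ℝ, 0 ≤ κ → SecReg η p c.T0 c.k β G κ → ∀ (Λ δ ℓE rE Bf : ℝ) (S : Set (ℝ × ℝ)), c.Pat Λ S → SecSc c bm B m Λ δ ℓE rE Bf →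
    ∫⁻ t in Set.Icc c.T0 (c.T0 + c.l), ∫⁻ z, ‖reFld t (secG c.H c.k S G) z‖ₑ ^ 3
      ≤ ENNReal.ofReal (C * rE ^ ε * √(Λ ^ Cg * ((δ ^ 2 + 16 * Λ ^ 2 * c.h) / c.h) * (κ / c.l ^ 3) * (2 * Λ * √c.h) ^ (1 - η) * Bf / ℓE ^ 2) * c.l) * ∫⁻ q, ‖G q‖ₑ ^ 2 := by
  obtain ⟨N', Cg, hCg, htile⟩ := re_sc_tile η h0 h1
  refine ⟨Cg, hCg, fun bm B m ε hε => ?_⟩
  by_cases hB : 1 ≤ B
  swap
  · exact ⟨0, le_rfl, fun c p _ _ β _ G _ _ _ κ _ _ Λ δ ℓE rE Bf S _ hsc => absurd hsc.B1 hB⟩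
  choose Ctf hCtf htile using htile
  obtain ⟨Cs, hCs, hslab⟩ := re_sc_slab (N' + 2) (2 * N' + 8) (N' + 2 + (2 * N' + 8)) m B hB ε hε
  obtain ⟨Ca, hCa, havg⟩ := re_sc_avg
  have hCt0 : 0 ≤ ∑ β ∈ Finset.range (bm + 1), Ctf β := Finset.sum_nonneg fun β _ => hCtf β
  refine ⟨3 * Ca * Cs * √(3 ^ (2 * N' + 8) * ∑ β ∈ Finset.range (bm + 1), Ctf β), by positivity, ?_⟩
  intro c p hc hpH β hβ G hG hG2 hpl κ hκ hreg Λ δ ℓE rE Bf S hS hsc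
  generalize hCt : ∑ β ∈ Finset.range (bm + 1), Ctf β = Ct at hCt0 ⊢
  have hCβ : Ctf β ≤ Ct := by
    rw [← hCt]
    exact Finset.single_le_sum (f := Ctf) (fun b _ => hCtf b) (Finset.mem_range.2 (Nat.lt_succ_of_le hβ))
  have hl := re_sc_en_l_pos c
  have hr := hc.r_pos
  have hΛ0 : 0 < Λ := by linarith [hsc.Λ1]
  have hh := hsc.hpos
  have hsh : 0 < √c.h := Real.sqrt_pos.2 hh
  have hℓ := hsc.ℓ0
  have hδ := hsc.δ0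
  have hBf : 0 < Bf := by
    by_contra hneg
    have h2 : Bf * (2 * Λ * √c.h) ≤ 0 := mul_nonpos_of_nonpos_of_nonneg (not_lt.1 hneg) (by positivity)
    linarith [hsc.Bf2]
  have hrE : 0 < rE := by linarith [hsc.r2]
  obtain ⟨hTh, hth⟩ := re_sc_Th_meas c
  obtain ⟨hcm, hc1, hcd, hcc⟩ := re_sc_caps c Λ δ S hS hδ hsc.δ1
  obtain ⟨hGi, hGle, hGs⟩ := re_sc_G c.H hc.H_pos c.k G hG
  have hgx := fun x => re_sc_gx c hc bm B m β hβ Λ δ ℓE rE Bf S hS hsc G hG hpl x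
  have hV : ∀ x, Continuous fun P : TV × ℝ => secV (c.gx S δ G x) c.Th c.th P.1 P.2 := fun x =>
    re_sc_V_cont _ (hgx x).1 c.Th hTh c.th hth
  -- the constant under the root
  obtain ⟨M, hM⟩ : ∃ M : ℝ, M = Λ ^ Cg * ((δ ^ 2 + 16 * Λ ^ 2 * c.h) / c.h) * (κ / c.l ^ 3) * (2 * Λ * √c.h) ^ (1 - η) * Bf / ℓE ^ 2 := ⟨_, rfl⟩
  have hM0 : 0 ≤ M := by
    rw [hM]
    positivity
  -- the tile hypothesis
  have htile' : ∀ (R x0 s0 : ℝ) (c' : TV), δ ≤ R → 2 * Λ * √c.h ≤ R → R ≤ 1 →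
      ∫⁻ x : ℝ × ReSp, c.wt (N' + 2) (2 * N' + 8) ℓE Bf R x0 c' s0 x *
        ∑ x' ∈ (secGrid δ).filter (fun x' => |x' - x0| ≤ R), ‖reFld x.1 (secG c.H c.k (c.cap S δ x') G) x.2‖ₑ ^ 2
      ≤ ENNReal.ofReal (Ct * Λ ^ Cg * ((δ ^ 2 + 16 * Λ ^ 2 * c.h) / c.h) * ℓE * c.l * κ * ((R * c.r) ^ 4 * (2 * Λ * √c.h / R) ^ (1 - η))) := by
    intro R x0 s0 c' hR1 hR2 hR3
    have hR0 : 0 < R := lt_of_lt_of_le hδ hR1
    refine (htile β c p hc hpH G hG (Filter.Eventually.of_forall fun q hq => by rw [hpH]; exact hpl q hq) κ hκ hreg Λ δ ℓE Bf R x0 s0 c' S hS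
      hsc.Λ1 hsc.bt hh hδ hsc.δ1 hR1 hℓ hsc.ℓ1 hsc.Bf1 hsc.Bf2 hR2 hR3).trans ?_
    apply ENNReal.ofReal_le_ofReal
    gcongr
  -- the slab theorem
  have hY : ∀ (c₀ : TV) (s0 : ℝ), -1 ≤ c₀ 0 - 2 * c.bt * s0 + c.bt ^ 2 * c₀ 2 → c₀ 0 - 2 * c.bt * s0 + c.bt ^ 2 * c₀ 2 ≤ 2 →
      ∫⁻ p, ‖teta ℓE c₀ p * ∑ x ∈ secGrid δ, secV (c.gx S δ G x) c.Th c.th p s0‖ₑ ^ 3
        ≤ (ENNReal.ofReal (Cs * rE ^ ε) * (ENNReal.ofReal (3 ^ (2 * N' + 8) * Ct * Λ ^ Cg * ((δ ^ 2 + 16 * Λ ^ 2 * c.h) / c.h) * (κ / c.l ^ 3) * (2 * Λ * √c.h) ^ (1 - η) * Bf / ℓE ^ 2)) ^ (1 / 2 : ℝ))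
          * ∑ x ∈ secGrid δ, ∫⁻ p, ‖teta ℓE c₀ p * secV (c.gx S δ G x) c.Th c.th p s0‖ₑ ^ 2 := by
    intro c₀ s0 hc0 hc1'
    refine hslab rE ℓE Bf hsc.r2 hℓ hBf (secGrid δ) (c.gx S δ G) c.Th c.th hTh hth (fun x _ => (hgx x).1) hc1
      (fun y => re_sc_grid δ (2 / √rE) y hδ (by positivity) m hsc.mult) (fun x _ => (hgx x).2) c₀ s0 _ ?_
    intro R hR0 hR1 x0 c'
    exact re_sc_slabK η h0 h1 N' Cg Ct κ hCt0 hκ c hc bm B m Λ δ ℓE rE Bf S hsc G hG hS htile' c₀ s0 hc0 hc1' R hR0 hR1 x0 c'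
  -- the energy
  have hEn : ∀ x ∈ secGrid δ, ∀ a : ℝ, ∫⁻ P : TV × ℝ, ({P : TV × ℝ | a ≤ P.1 0 - 2 * c.bt * P.2 + c.bt ^ 2 * P.1 2 ∧ P.1 0 - 2 * c.bt * P.2 + c.bt ^ 2 * P.1 2 ≤ a + 3}.indicator 1 P) * ‖secV (c.gx S δ G x) c.Th c.th P.1 P.2‖ₑ ^ 2
      ≤ ENNReal.ofReal (3 * c.l / (c.l ^ 4 * c.r ^ 4)) * ∫⁻ q, ‖secG c.H c.k (c.cap S δ x) G q‖ₑ ^ 2 := by
    intro x _ a
    exact re_sc_en c hc _ (hGi _ (hcm x)) (hG2.mono (hGi _ (hcm x)).aestronglyMeasurable (Filter.Eventually.of_forall fun q => hGle _ q)) a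
  have hℓ1 : (1 + c.bt ^ 2) * ℓE ≤ 1 := by
    have := hsc.ℓ1
    nlinarith [sq_nonneg c.bt]
  have hA := havg c.bt ℓE hℓ hℓ1 (secGrid δ) (fun x p s => secV (c.gx S δ G x) c.Th c.th p s) (fun x _ => hV x) _
    (fun x => ENNReal.ofReal (3 * c.l / (c.l ^ 4 * c.r ^ 4)) * ∫⁻ q, ‖secG c.H c.k (c.cap S δ x) G q‖ₑ ^ 2) hY hEn
  have hsumE : ∑ x ∈ secGrid δ, ENNReal.ofReal (3 * c.l / (c.l ^ 4 * c.r ^ 4)) * ∫⁻ q, ‖secG c.H c.k (c.cap S δ x) G q‖ₑ ^ 2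
      ≤ ENNReal.ofReal (3 * c.l / (c.l ^ 4 * c.r ^ 4)) * ∫⁻ q, ‖G q‖ₑ ^ 2 := by
    rw [← Finset.mul_sum]
    exact mul_le_mul' le_rfl (hGs (secGrid δ) (fun x => c.cap S δ x) (fun x _ => hcm x) hcd).2
  rw [re_sc_lhs c hc Λ δ hδ hsc.δ1 S hS G hG]
  have hK : 3 ^ (2 * N' + 8) * Ct * Λ ^ Cg * ((δ ^ 2 + 16 * Λ ^ 2 * c.h) / c.h) * (κ / c.l ^ 3) * (2 * Λ * √c.h) ^ (1 - η) * Bf / ℓE ^ 2
      = (3 ^ (2 * N' + 8) * Ct) * M := by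
    rw [hM]
    ring
  rw [hK] at hA
  rw [← hM]
  have hroot : (ENNReal.ofReal ((3 ^ (2 * N' + 8) * Ct) * M)) ^ (1 / 2 : ℝ) = ENNReal.ofReal (√(3 ^ (2 * N' + 8) * Ct) * √M) := by
    rw [ENNReal.ofReal_rpow_of_nonneg (by positivity) (by norm_num), ← Real.sqrt_eq_rpow, Real.sqrt_mul (by positivity)]
  rw [hroot] at hA
  have hpos : 0 < c.l ^ 4 * c.r ^ 4 := by positivity
  calc ENNReal.ofReal (c.l ^ 4 * c.r ^ 4) * ∫⁻ P : TV × ℝ, ({P : TV × ℝ | 0 ≤ P.1 0 - 2 * c.bt * P.2 + c.bt ^ 2 * P.1 2 ∧ P.1 0 - 2 * c.bt * P.2 + c.bt ^ 2 * P.1 2 ≤ 1}.indicator 1 P) *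
          ‖∑ x ∈ secGrid δ, secV (c.gx S δ G x) c.Th c.th P.1 P.2‖ₑ ^ 3
      ≤ ENNReal.ofReal (c.l ^ 4 * c.r ^ 4) * (ENNReal.ofReal Ca * (ENNReal.ofReal (Cs * rE ^ ε) * ENNReal.ofReal (√(3 ^ (2 * N' + 8) * Ct) * √M))
          * (ENNReal.ofReal (3 * c.l / (c.l ^ 4 * c.r ^ 4)) * ∫⁻ q, ‖G q‖ₑ ^ 2)) :=
        mul_le_mul' le_rfl (hA.trans (mul_le_mul' le_rfl hsumE))
    _ = ENNReal.ofReal (3 * Ca * Cs * √(3 ^ (2 * N' + 8) * Ct) * rE ^ ε * √M * c.l) * ∫⁻ q, ‖G q‖ₑ ^ 2 := by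
        rw [← ENNReal.ofReal_mul (by positivity), ← ENNReal.ofReal_mul hCa, ← mul_assoc, ← mul_assoc, ← ENNReal.ofReal_mul hpos.le,
          ← ENNReal.ofReal_mul (by positivity)]
        congr 2
        field_simp

/-- the arithmetic of `re_sc_patch` -/
theorem re_sc_patch_num (η ν Cg C₁ : ℝ) (h0 : 0 < η) (h1 : η < 1) (hν : 0 < ν) (hC₁ : 0 ≤ C₁) (bm : ℕ) (Λ h ℓ κ : ℝ) (hΛ : 1 ≤ Λ) (hh : 0 < h) (hℓ : 0 < ℓ) (hκ : 0 ≤ κ) :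
    C₁ * ((2 : ℝ)⁻¹ ^ (bm + 7) / (2 * Real.pi * h) * (2 ^ (3 * bm + 22) * Λ ^ 2)⁻¹) ^ ν *
      √(Λ ^ Cg * ((((2 : ℝ)⁻¹ ^ (2 * bm + 10) * √(h * (2 ^ (3 * bm + 22) * Λ ^ 2))) ^ 2 + 16 * Λ ^ 2 * h) / h) * (κ / ℓ ^ 3) * (2 * Λ * √h) ^ (1 - η) * (2 ^ (bm + 6) * Λ / √h)
        / ((2 ^ (3 * bm + 22) * Λ ^ 2)⁻¹) ^ 2) * ℓ
      ≤ C₁ * √(40 * 2 ^ (7 * bm + 50)) * Λ ^ ((Cg + 8) / 2) * h ^ (-(η / 4 + ν)) * (√κ / √ℓ) := by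
  have hΛ0 : 0 < Λ := by linarith
  have hπ3 := Real.pi_gt_three
  have hsh : 0 < √h := Real.sqrt_pos.2 hh
  have hshh : √h ^ 2 = h := Real.sq_sqrt hh.le
  set ΛE : ℝ := 2 ^ (3 * bm + 22) * Λ ^ 2 with hΛE
  have hΛE1 : 1 ≤ ΛE := by
    have a1 : (1 : ℝ) ≤ 2 ^ (3 * bm + 22) := one_le_pow₀ (by norm_num)
    have a2 : (1 : ℝ) ≤ Λ ^ 2 := one_le_pow₀ hΛ
    nlinarith
  have hΛE0 : 0 < ΛE := by linarith
  -- rE ≤ 1 / h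
  have hrE0 : 0 < (2 : ℝ)⁻¹ ^ (bm + 7) / (2 * Real.pi * h) * ΛE⁻¹ := by positivity
  have hrE : (2 : ℝ)⁻¹ ^ (bm + 7) / (2 * Real.pi * h) * ΛE⁻¹ ≤ h⁻¹ := by
    have a1 : (2 : ℝ)⁻¹ ^ (bm + 7) ≤ 1 := pow_le_one₀ (by norm_num) (by norm_num)
    have a2 : ΛE⁻¹ ≤ 1 := inv_le_one_of_one_le₀ hΛE1
    have a3 : (2 : ℝ)⁻¹ ^ (bm + 7) / (2 * Real.pi * h) ≤ h⁻¹ := by
      rw [div_le_iff₀ (by positivity)]
      have : h⁻¹ * (2 * Real.pi * h) = 2 * Real.pi := by field_simp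
      rw [this]
      linarith
    calc _ ≤ h⁻¹ * 1 := mul_le_mul a3 a2 (by positivity) (by positivity)
      _ = h⁻¹ := mul_one _
  have hrν : ((2 : ℝ)⁻¹ ^ (bm + 7) / (2 * Real.pi * h) * ΛE⁻¹) ^ ν ≤ h ^ (-ν) := by
    rw [Real.rpow_neg hh.le, ← Real.inv_rpow hh.le]
    exact Real.rpow_le_rpow hrE0.le hrE hν.le
  -- X ≤ 20 Λ²
  have hX : (((2 : ℝ)⁻¹ ^ (2 * bm + 10) * √(h * ΛE)) ^ 2 + 16 * Λ ^ 2 * h) / h ≤ 20 * Λ ^ 2 := by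
    rw [div_le_iff₀ hh, mul_pow, Real.sq_sqrt (by positivity)]
    have e : ((2 : ℝ)⁻¹ ^ (2 * bm + 10)) ^ 2 * (2 : ℝ) ^ (3 * bm + 22) ≤ 4 := by
      have e1 : ((2 : ℝ)⁻¹ ^ (2 * bm + 10)) ^ 2 * (2 : ℝ) ^ (3 * bm + 22) = 4 * (2 : ℝ)⁻¹ ^ bm := by
        rw [← pow_mul, inv_pow, inv_pow]
        have : (2 : ℝ) ^ ((2 * bm + 10) * 2) = 2 ^ (3 * bm + 22) * 2 ^ bm / 4 := by
          rw [← pow_add]
          have : (3 * bm + 22 + bm) = (2 * bm + 10) * 2 + 2 := by ring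
          rw [this, pow_add]
          norm_num
        rw [this]
        field_simp
      rw [e1]
      have : (2 : ℝ)⁻¹ ^ bm ≤ 1 := pow_le_one₀ (by norm_num) (by norm_num)
      linarith
    have hL2 : 0 ≤ Λ ^ 2 * h := by positivity
    calc ((2 : ℝ)⁻¹ ^ (2 * bm + 10)) ^ 2 * (h * ΛE) + 16 * Λ ^ 2 * h
        = (((2 : ℝ)⁻¹ ^ (2 * bm + 10)) ^ 2 * (2 : ℝ) ^ (3 * bm + 22)) * (Λ ^ 2 * h) + 16 * (Λ ^ 2 * h) := by rw [hΛE]; ring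
      _ ≤ 4 * (Λ ^ 2 * h) + 16 * (Λ ^ 2 * h) := by
          have := mul_le_mul_of_nonneg_right e hL2
          linarith
      _ = 20 * Λ ^ 2 * h := by ring
  have hX0 : 0 ≤ (((2 : ℝ)⁻¹ ^ (2 * bm + 10) * √(h * ΛE)) ^ 2 + 16 * Λ ^ 2 * h) / h := by positivity
  -- Y ≤ 2 Λ h^((1-η)/2)
  have hY : (2 * Λ * √h) ^ (1 - η) ≤ 2 * Λ * h ^ ((1 - η) / 2) := by
    rw [Real.mul_rpow (by positivity) hsh.le, Real.sqrt_eq_rpow, ← Real.rpow_mul hh.le]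
    have e : (1 / 2 : ℝ) * (1 - η) = (1 - η) / 2 := by ring
    rw [e]
    have : (2 * Λ) ^ (1 - η) ≤ (2 * Λ) ^ (1 : ℝ) := Real.rpow_le_rpow_of_exponent_le (by linarith) (by linarith)
    rw [Real.rpow_one] at this
    exact mul_le_mul_of_nonneg_right this (Real.rpow_pos_of_pos hh _).le
  have hY0 : 0 ≤ (2 * Λ * √h) ^ (1 - η) := by positivity
  -- Z
  have hZ : 2 ^ (bm + 6) * Λ / √h / (ΛE⁻¹) ^ 2 = 2 ^ (7 * bm + 50) * Λ ^ 5 * h ^ (-(1 / 2) : ℝ) := by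
    rw [Real.rpow_neg hh.le, ← Real.sqrt_eq_rpow, hΛE]
    have : (2 : ℝ) ^ (7 * bm + 50) = 2 ^ (bm + 6) * (2 ^ (3 * bm + 22)) ^ 2 := by
      rw [← pow_mul, ← pow_add]
      congr 1
      ring
    rw [this]
    field_simp
  have hK3 : 0 ≤ κ / ℓ ^ 3 := by positivity
  have hLg : 0 < Λ ^ Cg := Real.rpow_pos_of_pos hΛ0 _
  -- the product under the root
  have hP : Λ ^ Cg * ((((2 : ℝ)⁻¹ ^ (2 * bm + 10) * √(h * ΛE)) ^ 2 + 16 * Λ ^ 2 * h) / h) * (κ / ℓ ^ 3) * (2 * Λ * √h) ^ (1 - η) * (2 ^ (bm + 6) * Λ / √h) / (ΛE⁻¹) ^ 2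
      ≤ (40 * 2 ^ (7 * bm + 50)) * Λ ^ (Cg + 8) * (κ / ℓ ^ 3) * h ^ (-(η / 2)) := by
    have e1 : Λ ^ (Cg + 8) = Λ ^ Cg * Λ ^ 8 := by
      rw [Real.rpow_add hΛ0]
      congr 1
      exact_mod_cast Real.rpow_natCast Λ 8
    have e2 : h ^ (-(η / 2)) = h ^ ((1 - η) / 2) * h ^ (-(1 / 2) : ℝ) := by
      rw [← Real.rpow_add hh]
      congr 1
      ring
    rw [mul_div_assoc, hZ, e1, e2]
    have hz0 : 0 ≤ 2 ^ (7 * bm + 50) * Λ ^ 5 * h ^ (-(1 / 2) : ℝ) := by positivity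
    calc _ ≤ Λ ^ Cg * (20 * Λ ^ 2) * (κ / ℓ ^ 3) * (2 * Λ * h ^ ((1 - η) / 2)) * (2 ^ (7 * bm + 50) * Λ ^ 5 * h ^ (-(1 / 2) : ℝ)) := by
          gcongr
      _ = _ := by ring
  have hsq : √(Λ ^ Cg * ((((2 : ℝ)⁻¹ ^ (2 * bm + 10) * √(h * ΛE)) ^ 2 + 16 * Λ ^ 2 * h) / h) * (κ / ℓ ^ 3) * (2 * Λ * √h) ^ (1 - η) * (2 ^ (bm + 6) * Λ / √h) / (ΛE⁻¹) ^ 2)
      ≤ √(40 * 2 ^ (7 * bm + 50)) * Λ ^ ((Cg + 8) / 2) * √(κ / ℓ ^ 3) * h ^ (-(η / 4)) := by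
    refine (Real.sqrt_le_sqrt hP).trans (le_of_eq ?_)
    rw [Real.sqrt_mul (by positivity), Real.sqrt_mul (by positivity), Real.sqrt_mul (by positivity)]
    congr 1
    · congr 2
      rw [Real.sqrt_eq_rpow, ← Real.rpow_mul hΛ0.le]
      congr 1
      ring
    · rw [Real.sqrt_eq_rpow, ← Real.rpow_mul hh.le]
      congr 1
      ring
  have hκℓ : √(κ / ℓ ^ 3) * ℓ = √κ / √ℓ := by
    have hsl : 0 < √ℓ := Real.sqrt_pos.2 hℓ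
    have e : ℓ ^ 3 = (ℓ * √ℓ) ^ 2 := by
      rw [mul_pow, Real.sq_sqrt hℓ.le]
      ring
    rw [Real.sqrt_div' _ (by positivity), e, Real.sqrt_sq (by positivity)]
    field_simp
  have hhν : h ^ (-(η / 4 + ν)) = h ^ (-ν) * h ^ (-(η / 4)) := by
    rw [← Real.rpow_add hh]
    congr 1
    ring
  calc _ ≤ C₁ * h ^ (-ν) * (√(40 * 2 ^ (7 * bm + 50)) * Λ ^ ((Cg + 8) / 2) * √(κ / ℓ ^ 3) * h ^ (-(η / 4))) * ℓ := by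
        gcongr
    _ = C₁ * √(40 * 2 ^ (7 * bm + 50)) * Λ ^ ((Cg + 8) / 2) * (h ^ (-ν) * h ^ (-(η / 4))) * (√(κ / ℓ ^ 3) * ℓ) := by ring
    _ = _ := by rw [hκℓ, hhν]

/-- **LEAF L-256-SEC-PATCH (glue): one patch.**      `C0 = (Cg + 8)/2`.
PLAN.  `re_sc_patch_abs` with `B = 2bm+13`, `m = 2^(3bm+18)`, `ε = ν`, scales of `re_sc_num`.   `rE ≤ 1/h` so `rE^ν ≤ h^{-ν}`;  `(δ² + 16Λ²h)/h = 2^-(4bm+20) ΛE + 16Λ² ≤ 20 Λ²`;  `(2Λ√h)^{1-η} ≤ 2Λ h^{(1-η)/2}`;  `Bf/ℓE² = 2^(7bm+50) Λ⁵ h^{-1/2}`;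
product under the root `≤ 40 · 2^(7bm+50) Λ^{Cg+8} (κ/ℓ³) h^{-η/2}`;  `√(κ/ℓ³) ℓ = √κ/√ℓ`. -/
theorem re_sc_patch (η : ℝ) (h0 : 0 < η) (h1 : η < 1) : ∃ C0 : ℝ, 0 ≤ C0 ∧ ∀ (ν : ℝ) (bm : ℕ), 0 < ν → ∃ C : ℝ, 0 ≤ C ∧
    ∀ (c : SecPt) (p : RdWvPar), c.Ok → p.H = c.H → ∀ β : ℕ, β ≤ bm → ∀ (G : RdWvPar.Mo → ℂ), Integrable G → MemLp G 2 volume → (∀ q, G q ≠ 0 → c.H * q.2 ∈ rdPlat β) →
    ∀ κ : ℝ, 0 ≤ κ → SecReg η p c.T0 c.k β G κ → ∀ (Λ : ℝ) (S : Set (ℝ × ℝ)), c.Pat Λ S → 1 ≤ Λ → |c.bt| ≤ Λ → 0 < c.h → c.h * (2 ^ (4 * bm + 40) * Λ ^ 4) ≤ 1 →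
    ∫⁻ t in Set.Icc c.T0 (c.T0 + c.l), ∫⁻ z, ‖reFld t (secG c.H c.k S G) z‖ₑ ^ 3
      ≤ ENNReal.ofReal (C * Λ ^ C0 * c.h ^ (-(η / 4 + ν)) * (√κ / √c.l)) * ∫⁻ q, ‖G q‖ₑ ^ 2 := by
  obtain ⟨Cg, hCg, habs⟩ := re_sc_patch_abs η h0 h1
  refine ⟨(Cg + 8) / 2, by positivity, fun ν bm hν => ?_⟩
  obtain ⟨C₁, hC₁, habs⟩ := habs bm (2 * bm + 13) (2 ^ (3 * bm + 18)) ν hν
  refine ⟨C₁ * √(40 * 2 ^ (7 * bm + 50)), by positivity, fun c p hc hpH β hβ G hG hG2 hpl κ hκ hreg Λ S hS hΛ hbt hh hsm => ?_⟩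
  have hl : 0 < c.l := by
    unfold SecPt.l rdLen
    positivity
  refine (habs c p hc hpH β hβ G hG hG2 hpl κ hκ hreg Λ _ _ _ _ S hS (re_sc_num c bm Λ hΛ hbt hh hsm)).trans ?_
  exact mul_le_mul' (ENNReal.ofReal_le_ofReal (re_sc_patch_num η ν Cg C₁ h0 h1 hν hC₁ bm Λ c.h c.l κ hΛ hh hl hκ)) le_rfl

/-! ## 3. Patches -/

theorem re_sc_exact_unit (g1 g2 : ℝ) : ∃ e1 e2 : ℝ, e1 ^ 2 + e2 ^ 2 = 1 ∧ g1 * e1 + g2 * e2 = √(g1 ^ 2 + g2 ^ 2) := by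
  by_cases h : g1 ^ 2 + g2 ^ 2 = 0
  · refine ⟨1, 0, by norm_num, ?_⟩
    have h1 : g1 = 0 := by
      have := sq_nonneg g2
      have h3 : g1 ^ 2 = 0 := le_antisymm (by linarith) (sq_nonneg g1)
      exact pow_eq_zero_iff (by norm_num) |>.mp h3
    rw [h, Real.sqrt_zero, h1]; ring
  · have hp : 0 < g1 ^ 2 + g2 ^ 2 := lt_of_le_of_ne (by positivity) (Ne.symm h)
    have hG : 0 < √(g1 ^ 2 + g2 ^ 2) := Real.sqrt_pos.mpr hp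
    have hG2 : √(g1 ^ 2 + g2 ^ 2) ^ 2 = g1 ^ 2 + g2 ^ 2 := Real.sq_sqrt hp.le
    refine ⟨g1 / √(g1 ^ 2 + g2 ^ 2), g2 / √(g1 ^ 2 + g2 ^ 2), ?_, ?_⟩
    · rw [div_pow, div_pow, hG2, ← add_div, div_self h]
    · rw [mul_div_assoc', mul_div_assoc', ← add_div, div_eq_iff hG.ne']
      rw [Real.mul_self_sqrt hp.le]; ring

theorem re_sc_exact_alg (F be G R : ℝ) (hGR : G + R ≠ 0) (h : G ^ 2 = R ^ 2 + 4 * be * F) :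
    F + (-2 * F / (G + R)) * G + be * (-2 * F / (G + R)) ^ 2 = 0 := by
  have h2 : (G + R) ^ 2 ≠ 0 := pow_ne_zero 2 hGR
  have e : F + (-2 * F / (G + R)) * G + be * (-2 * F / (G + R)) ^ 2 = (F * (R ^ 2 + 4 * be * F - G ^ 2)) / (G + R) ^ 2 := by
    field_simp
    ring
  rw [e, h]; simp
/-- **LEAF L-256-SEC-EXACT: an exact direction of the section near an approximate one.**
PLAN.  `F = d0 + α·Zh + β|Zh|²`, `g = α + 2βZh`, `|g|² = D₀ + 4βF` (`D₀ = |α|² - 4βd0 > 0`), `e = g/|g|` (`(1,0)` if `g = 0`), `s = -2F/(|g| + √D₀)`, `Zo = Zh + s e`:   `F(Zo) = F + s |g| + β s² = 0` (multiply by `(|g| + √D₀)²`; in the case `g = 0`: `4βF = -D₀`).   `|s| ≤ 2|F|/√D₀ ≤ 2P|F|` (`√D₀ ≥ 1/P`: `Real.rpow_neg`, `Real.rpow_two`).   `|α + 2βZo|² = D₀ + 4βF(Zo)`. -/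
theorem re_sc_exact (d0 be P : ℝ) (al Zh : ℝ × ℝ) (hP : 0 < P) (hD : P ^ (-2 : ℝ) ≤ rtSq al - 4 * be * d0) :
    ∃ Zo : ℝ × ℝ, d0 + rtIp al Zo + be * rtSq Zo = 0 ∧ rtSq (Zo - Zh) ≤ (2 * P * |d0 + rtIp al Zh + be * rtSq Zh|) ^ 2 ∧ rtSq (al + (2 * be) • Zo) = rtSq al - 4 * be * d0 := by
  obtain ⟨a1, a2⟩ := al
  obtain ⟨z1, z2⟩ := Zh
  simp only [rtSq, rtIp] at *
  obtain ⟨F, hF⟩ : ∃ F, F = d0 + (a1 * z1 + a2 * z2) + be * (z1 ^ 2 + z2 ^ 2) := ⟨_, rfl⟩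
  obtain ⟨D0, hD0⟩ : ∃ D0, D0 = a1 ^ 2 + a2 ^ 2 - 4 * be * d0 := ⟨_, rfl⟩
  rw [← hF, ← hD0]
  rw [← hD0] at hD
  have hP2 : P ^ (-2 : ℝ) = (P ^ 2)⁻¹ := by
    rw [Real.rpow_neg hP.le]
    norm_num
  rw [hP2] at hD
  have hD0p : 0 < D0 := lt_of_lt_of_le (by positivity) hD
  obtain ⟨e1, e2, he, hge⟩ := re_sc_exact_unit (a1 + 2 * be * z1) (a2 + 2 * be * z2)
  obtain ⟨G, hG⟩ : ∃ G, G = √((a1 + 2 * be * z1) ^ 2 + (a2 + 2 * be * z2) ^ 2) := ⟨_, rfl⟩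
  rw [← hG] at hge
  have hG0 : 0 ≤ G := by rw [hG]; exact Real.sqrt_nonneg _
  have hG2 : G ^ 2 = D0 + 4 * be * F := by
    rw [hG, Real.sq_sqrt (by positivity), hD0, hF]; ring
  obtain ⟨R, hR⟩ : ∃ R, R = √D0 := ⟨_, rfl⟩
  have hR0 : 0 < R := by rw [hR]; exact Real.sqrt_pos.mpr hD0p
  have hR2 : R ^ 2 = D0 := by rw [hR]; exact Real.sq_sqrt hD0p.le
  have hGR : G + R ≠ 0 := by positivity
  obtain ⟨s, hs⟩ : ∃ s, s = -2 * F / (G + R) := ⟨_, rfl⟩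
  have hz := re_sc_exact_alg F be G R hGR (by rw [hG2, hR2])
  rw [← hs] at hz
  have hfirst : d0 + (a1 * (z1 + s * e1) + a2 * (z2 + s * e2)) + be * ((z1 + s * e1) ^ 2 + (z2 + s * e2) ^ 2) = 0 := by
    have : d0 + (a1 * (z1 + s * e1) + a2 * (z2 + s * e2)) + be * ((z1 + s * e1) ^ 2 + (z2 + s * e2) ^ 2)
        = (d0 + (a1 * z1 + a2 * z2) + be * (z1 ^ 2 + z2 ^ 2)) + s * ((a1 + 2 * be * z1) * e1 + (a2 + 2 * be * z2) * e2) + be * s ^ 2 * (e1 ^ 2 + e2 ^ 2) := by ring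
    rw [this, ← hF, hge, he, mul_one]; exact hz
  refine ⟨(z1 + s * e1, z2 + s * e2), hfirst, ?_, ?_⟩
  · simp only [Prod.fst_sub, Prod.snd_sub]
    have : (z1 + s * e1 - z1) ^ 2 + (z2 + s * e2 - z2) ^ 2 = s ^ 2 * (e1 ^ 2 + e2 ^ 2) := by ring
    rw [this, he, mul_one, mul_pow, mul_pow, sq_abs, hs, div_pow]
    rw [div_le_iff₀ (by positivity)]
    have h1 : 1 ≤ P ^ 2 * (G + R) ^ 2 := by
      have h2 : 1 ≤ P ^ 2 * D0 := by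
        have := mul_le_mul_of_nonneg_left hD (by positivity : (0:ℝ) ≤ P ^ 2)
        rwa [mul_inv_cancel₀ (by positivity)] at this
      have h3 : D0 ≤ (G + R) ^ 2 := by
        rw [← hR2]; exact pow_le_pow_left₀ hR0.le (by linarith) 2
      calc 1 ≤ P ^ 2 * D0 := h2
        _ ≤ P ^ 2 * (G + R) ^ 2 := by gcongr
    have h4 : 0 ≤ 4 * F ^ 2 := by positivity
    calc (-2 * F) ^ 2 = 4 * F ^ 2 * 1 := by ring
      _ ≤ 4 * F ^ 2 * (P ^ 2 * (G + R) ^ 2) := by gcongr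
      _ = 2 ^ 2 * P ^ 2 * F ^ 2 * (G + R) ^ 2 := by ring
  · simp only [Prod.fst_add, Prod.snd_add, Prod.smul_fst, Prod.smul_snd, smul_eq_mul]
    rw [hD0]
    linear_combination (4 * be) * hfirst

theorem re_sc_mk_sq_smul (s : ℝ) (g : ℝ × ℝ) : rtSq (s • g) = s ^ 2 * rtSq g := by
  simp only [rtSq, Prod.smul_fst, Prod.smul_snd, smul_eq_mul]
  ring

theorem re_sc_mk_sq_add (u v : ℝ × ℝ) : rtSq (u + v) ≤ 2 * rtSq u + 2 * rtSq v := by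
  simp only [rtSq, Prod.fst_add, Prod.snd_add]
  nlinarith [sq_nonneg (u.1 - v.1), sq_nonneg (u.2 - v.2)]

theorem re_sc_mk_sq_nonneg (u : ℝ × ℝ) : 0 ≤ rtSq u := by
  unfold rtSq
  positivity

/-- Taylor expansion of the section at `Zo` -/
theorem re_sc_mk_taylor (d0 be : ℝ) (al Z Zo : ℝ × ℝ) :
    d0 + rtIp al Z + be * rtSq Z
      = (d0 + rtIp al Zo + be * rtSq Zo) + rtIp (al + (2 * be) • Zo) (Z - Zo) + be * rtSq (Z - Zo) := by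
  simp only [rtSq, rtIp, Prod.fst_add, Prod.snd_add, Prod.fst_sub, Prod.snd_sub, Prod.smul_fst, Prod.smul_snd, smul_eq_mul]
  ring

theorem re_sc_mk_rot_snd (s : ℝ) (g w : ℝ × ℝ) : (rtRot (s • g) w).2 = s * rtIp g w := by
  simp only [rtRot, rtIp, Prod.smul_fst, Prod.smul_snd, smul_eq_mul]
  ring

/-- **LEAF L-256-SEC-MK: patch data of a small set of approximate directions.**
PLAN.  `A₁ ∈ S`, `Zh = r⁻¹(A₁ - As)`, `Zo` from `re_sc_exact`, `D₀ = |α|² - 4βd0`, `c = ⟨H, k, T0, r, As + r Zo, (√D₀)⁻¹ (α + 2βZo), β/√D₀⟩`.   `e_unit`: third clause.   `|bt| ≤ |β| P ≤ P ≤ 8KP` (`|β| ≤ 1` from `hn`).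
`c.ang A = Rot_e (Z - Zo)`, `Z = r⁻¹(A - As)`;  `(Rot_e v).2 = e·v`, `rt_rot_sq`:  `c.F (c.ang A) = (g₀·(Z - Zo) + β|Z - Zo|²)/√D₀ = Fsec(Z)/√D₀` (Taylor at the exact zero `Zo`; `ring`), so `|c.F| ≤ P · 8K√h`.
`√(rtSq (c.ang A)) ≤ |Z - Zh| + |Zh - Zo| ≤ √2 ϱ + 16 P K √h`, `ϱ = 1/(32(1+P))`, `16PK√h (1+P) ≤ 4 (8KP)² √h/8.. ≤ 1/16` by `hsm`;  `(√2/32 + 1/16) ≤ 1/8`. -/
theorem re_sc_patch_mk (H : ℝ) (hH : 0 < H) (k : ℕ) (T0 r d0 be K P : ℝ) (As al : ℝ × ℝ) (hr : 0 < r) (hK : 1 ≤ K) (hP : 2 ≤ P) (hn : rtSq al + be ^ 2 = 1) (hD : P ^ (-2 : ℝ) ≤ rtSq al - 4 * be * d0)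
    (hsm : H / (rdLen k * r ^ 2) * (2 ^ 40 * (8 * K * P) ^ 4) ≤ 1) (S : Set (ℝ × ℝ)) (hS : MeasurableSet S) (hne : S.Nonempty)
    (hdiam : ∀ A ∈ S, ∀ A' ∈ S, rtSq (r⁻¹ • (A - A')) ≤ 2 * (1 / (32 * (1 + P))) ^ 2)
    (hsec : ∀ A ∈ S, |d0 + rtIp al (r⁻¹ • (A - As)) + be * rtSq (r⁻¹ • (A - As))| ≤ 8 * K * √(H / (rdLen k * r ^ 2))) :
    ∃ c : SecPt, c.H = H ∧ c.k = k ∧ c.T0 = T0 ∧ c.r = r ∧ c.Ok ∧ |c.bt| ≤ 8 * K * P ∧ c.Pat (8 * K * P) S := by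
  obtain ⟨A₁, hA₁⟩ := hne
  have hl : 0 < rdLen k := by
    unfold rdLen
    positivity
  have hh0 : 0 < H / (rdLen k * r ^ 2) := by positivity
  generalize hhdef : H / (rdLen k * r ^ 2) = h at hsm hsec hh0
  have hP0 : 0 < P := by linarith
  have hK0 : 0 < K := by linarith
  have hPinv : P ^ (-2 : ℝ) = (P⁻¹) ^ 2 := by
    rw [Real.rpow_neg hP0.le, Real.rpow_two, inv_pow]
  obtain ⟨Zo, hZ1, hZ2, hZ3⟩ := re_sc_exact d0 be P al (r⁻¹ • (A₁ - As)) hP0 hD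
  generalize hD0 : rtSq al - 4 * be * d0 = D0 at hD hZ3
  have hD0pos : 0 < D0 := lt_of_lt_of_le (by positivity) hD
  have hsq : 0 < √D0 := Real.sqrt_pos.2 hD0pos
  obtain ⟨s, hs⟩ : ∃ s : ℝ, s = (√D0)⁻¹ := ⟨_, rfl⟩
  have hs0 : 0 < s := by
    rw [hs]
    exact inv_pos.2 hsq
  have hs2 : s ^ 2 * D0 = 1 := by
    rw [hs, inv_pow, Real.sq_sqrt hD0pos.le, inv_mul_cancel₀ hD0pos.ne']
  have hsP : s ≤ P := by
    have h1 : P⁻¹ ≤ √D0 := by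
      apply Real.le_sqrt_of_sq_le
      rw [← hPinv]
      exact hD
    rw [hs]
    exact inv_le_of_inv_le₀ hP0 h1
  have hbe : |be| ≤ 1 := by
    have h1 := re_sc_mk_sq_nonneg al
    rw [abs_le]
    constructor <;> nlinarith
  have hbt : |be * s| ≤ P := by
    rw [abs_mul, abs_of_pos hs0]
    calc |be| * s ≤ 1 * P := mul_le_mul hbe hsP hs0.le (by norm_num)
      _ = P := one_mul P
  have hP8 : P ≤ 8 * K * P := by nlinarith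
  have he : rtSq (s • (al + (2 * be) • Zo)) = 1 := by
    rw [re_sc_mk_sq_smul, hZ3, hs2]
  -- the normalised angle
  have hang : ∀ A : ℝ × ℝ, r⁻¹ • (A - (As + r • Zo)) = r⁻¹ • (A - As) - Zo := by
    intro A
    rw [← sub_sub, smul_sub, smul_smul, inv_mul_cancel₀ hr.ne', one_smul]
  have hsqh : √h ^ 2 = h := Real.sq_sqrt hh0.le
  have hZo : rtSq (Zo - r⁻¹ • (A₁ - As)) ≤ 256 * P ^ 2 * K ^ 2 * h := by
    refine hZ2.trans ?_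
    have h1 := hsec A₁ hA₁
    have h2 : |d0 + rtIp al (r⁻¹ • (A₁ - As)) + be * rtSq (r⁻¹ • (A₁ - As))| ^ 2 ≤ (8 * K * √h) ^ 2 :=
      pow_le_pow_left₀ (abs_nonneg _) h1 2
    calc (2 * P * |d0 + rtIp al (r⁻¹ • (A₁ - As)) + be * rtSq (r⁻¹ • (A₁ - As))|) ^ 2
        = 4 * P ^ 2 * |d0 + rtIp al (r⁻¹ • (A₁ - As)) + be * rtSq (r⁻¹ • (A₁ - As))| ^ 2 := by ring
      _ ≤ 4 * P ^ 2 * (8 * K * √h) ^ 2 := by gcongr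
      _ = 256 * P ^ 2 * K ^ 2 * √h ^ 2 := by ring
      _ = 256 * P ^ 2 * K ^ 2 * h := by rw [hsqh]
  have hw : ∀ A ∈ S, rtSq (r⁻¹ • (A - As) - Zo) ≤ 4 * (1 / (32 * (1 + P))) ^ 2 + 512 * P ^ 2 * K ^ 2 * h := by
    intro A hA
    have e1 : r⁻¹ • (A - As) - Zo = r⁻¹ • (A - A₁) + (-1 : ℝ) • (Zo - r⁻¹ • (A₁ - As)) := by
      rw [neg_one_smul, neg_sub, smul_sub, smul_sub, smul_sub]
      abel
    have e2 : rtSq ((-1 : ℝ) • (Zo - r⁻¹ • (A₁ - As))) = rtSq (Zo - r⁻¹ • (A₁ - As)) := by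
      rw [re_sc_mk_sq_smul]
      norm_num
    rw [e1]
    have h1 := re_sc_mk_sq_add (r⁻¹ • (A - A₁)) ((-1 : ℝ) • (Zo - r⁻¹ • (A₁ - As)))
    rw [e2] at h1
    have h2 := hdiam A hA A₁ hA₁
    linarith
  refine ⟨⟨H, k, T0, r, As + r • Zo, s • (al + (2 * be) • Zo), be * s⟩, rfl, rfl, rfl, rfl, ⟨hH, hr, he⟩, hbt.trans hP8,
    ⟨hS, ?_, ?_⟩⟩
  · intro A hA
    show rtSq (rtRot (s • (al + (2 * be) • Zo)) (r⁻¹ • (A - (As + r • Zo)))) * (1 + |be * s|) ^ 2 ≤ 1 / 64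
    rw [rt_rot_sq, he, one_mul, hang]
    have h1 := hw A hA
    have h2 : (1 + |be * s|) ^ 2 ≤ (1 + P) ^ 2 := pow_le_pow_left₀ (by positivity) (by linarith) 2
    have h3 : K ^ 4 * P ^ 4 * h ≤ 1 / 2 ^ 52 := by
      have : h * (2 ^ 40 * (8 * K * P) ^ 4) = 2 ^ 52 * (K ^ 4 * P ^ 4 * h) := by ring
      rw [this] at hsm
      rw [le_div_iff₀ (by positivity)]
      linarith
    have h4 : (1 / (32 * (1 + P))) ^ 2 * (1 + P) ^ 2 = 1 / 1024 := by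
      field_simp
      norm_num
    have h5 : P ^ 2 * K ^ 2 * h * (1 + P) ^ 2 ≤ 4 * (K ^ 4 * P ^ 4 * h) := by
      have a1 : (1 + P) ^ 2 ≤ 4 * P ^ 2 := by nlinarith
      have a2 : K ^ 2 ≤ K ^ 4 := pow_le_pow_right₀ hK (by norm_num)
      calc P ^ 2 * K ^ 2 * h * (1 + P) ^ 2 ≤ P ^ 2 * K ^ 4 * h * (4 * P ^ 2) := by gcongr
        _ = 4 * (K ^ 4 * P ^ 4 * h) := by ring
    calc rtSq (r⁻¹ • (A - As) - Zo) * (1 + |be * s|) ^ 2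
        ≤ (4 * (1 / (32 * (1 + P))) ^ 2 + 512 * P ^ 2 * K ^ 2 * h) * (1 + P) ^ 2 :=
          mul_le_mul h1 h2 (by positivity) (by positivity)
      _ = 4 * ((1 / (32 * (1 + P))) ^ 2 * (1 + P) ^ 2) + 512 * (P ^ 2 * K ^ 2 * h * (1 + P) ^ 2) := by ring
      _ ≤ 4 * (1 / 1024) + 512 * (4 * (1 / 2 ^ 52)) := by
          rw [h4]
          have := h5.trans (mul_le_mul_of_nonneg_left h3 (by norm_num : (0 : ℝ) ≤ 4))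
          linarith
      _ ≤ 1 / 64 := by norm_num
  · intro A hA
    show |(rtRot (s • (al + (2 * be) • Zo)) (r⁻¹ • (A - (As + r • Zo)))).2
        + be * s * rtSq (rtRot (s • (al + (2 * be) • Zo)) (r⁻¹ • (A - (As + r • Zo))))| ≤ 8 * K * P * √(H / (rdLen k * r ^ 2))
    rw [rt_rot_sq, he, one_mul, hang, re_sc_mk_rot_snd, hhdef]
    have e1 : s * rtIp (al + (2 * be) • Zo) (r⁻¹ • (A - As) - Zo) + be * s * rtSq (r⁻¹ • (A - As) - Zo)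
        = s * (d0 + rtIp al (r⁻¹ • (A - As)) + be * rtSq (r⁻¹ • (A - As))) := by
      rw [re_sc_mk_taylor d0 be al (r⁻¹ • (A - As)) Zo, hZ1]
      ring
    rw [e1, abs_mul, abs_of_pos hs0]
    calc s * |d0 + rtIp al (r⁻¹ • (A - As)) + be * rtSq (r⁻¹ • (A - As))| ≤ P * (8 * K * √h) :=
          mul_le_mul hsP (hsec A hA) (abs_nonneg _) hP0.le
      _ = 8 * K * P * √h := by ring

theorem re_sc_squares_fl (x y ϱ : ℝ) (hϱ : 0 < ϱ) (i : ℤ) (hx : ⌊x / ϱ⌋ = i) (hy : ⌊y / ϱ⌋ = i) : (x - y) ^ 2 ≤ ϱ ^ 2 := by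
  have h1 := Int.floor_le (x / ϱ)
  have h2 := Int.lt_floor_add_one (x / ϱ)
  have h3 := Int.floor_le (y / ϱ)
  have h4 := Int.lt_floor_add_one (y / ϱ)
  rw [hx] at h1 h2
  rw [hy] at h3 h4
  rw [le_div_iff₀ hϱ] at h1 h3
  rw [div_lt_iff₀ hϱ] at h2 h4
  apply sq_le_sq'
  · linarith
  · linarith

theorem re_sc_squares_rg (x L ϱ : ℝ) (hϱ : 0 < ϱ) (hx : |x| ≤ L) : ⌊x / ϱ⌋ ∈ Finset.Icc (-⌈L / ϱ⌉) ⌈L / ϱ⌉ := by
  rw [Finset.mem_Icc]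
  have h := abs_le.mp hx
  constructor
  · rw [Int.le_floor]
    push_cast
    have h1 := Int.le_ceil (L / ϱ)
    have h2 : -(L / ϱ) ≤ x / ϱ := by
      rw [← neg_div]; exact div_le_div_of_nonneg_right h.1 hϱ.le
    linarith
  · have h1 : (⌊x / ϱ⌋ : ℝ) ≤ (⌈L / ϱ⌉ : ℝ) := by
      calc (⌊x / ϱ⌋ : ℝ) ≤ x / ϱ := Int.floor_le _
        _ ≤ L / ϱ := div_le_div_of_nonneg_right h.2 hϱ.le
        _ ≤ _ := Int.le_ceil _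
    exact_mod_cast h1
/-- **LEAF L-256-SEC-SQ: a bounded measurable set of angles is a disjoint union of small squares.**   `S (i, j) = S0 ∩ {A | iϱ ≤ Z₁ < (i+1)ϱ, jϱ ≤ Z₂ < (j+1)ϱ}`, `Z = r⁻¹(A - As)`, `Y = Icc (-n) n ×ˢ Icc (-n) n`, `n = ⌈L/ϱ⌉`;  `⌊Z_i/ϱ⌋ ∈ [-n, n]`;  card `(2n+1)² ≤ (2L/ϱ + 3)²`. -/
theorem re_sc_squares (r : ℝ) (hr : 0 < r) (As : ℝ × ℝ) (L ϱ : ℝ) (hL : 0 ≤ L) (hϱ : 0 < ϱ) (S0 : Set (ℝ × ℝ)) (hS0 : MeasurableSet S0)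
    (hb : ∀ A ∈ S0, |(r⁻¹ • (A - As)).1| ≤ L ∧ |(r⁻¹ • (A - As)).2| ≤ L) :
    ∃ (Y : Finset (ℤ × ℤ)) (S : ℤ × ℤ → Set (ℝ × ℝ)), (Y.card : ℝ) ≤ (2 * L / ϱ + 3) ^ 2 ∧ (∀ i ∈ Y, MeasurableSet (S i)) ∧ (∀ i ∈ Y, ∀ j ∈ Y, i ≠ j → Disjoint (S i) (S j)) ∧
      (⋃ i ∈ Y, S i) = S0 ∧ ∀ i ∈ Y, ∀ A ∈ S i, ∀ A' ∈ S i, rtSq (r⁻¹ • (A - A')) ≤ 2 * ϱ ^ 2 := by
  refine ⟨Finset.Icc (-⌈L / ϱ⌉) ⌈L / ϱ⌉ ×ˢ Finset.Icc (-⌈L / ϱ⌉) ⌈L / ϱ⌉,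
    fun i => S0 ∩ {A | ⌊(r⁻¹ • (A - As)).1 / ϱ⌋ = i.1 ∧ ⌊(r⁻¹ • (A - As)).2 / ϱ⌋ = i.2}, ?_, ?_, ?_, ?_, ?_⟩
  · rw [Finset.card_product, Int.card_Icc]
    have hn0 : 0 ≤ ⌈L / ϱ⌉ := Int.ceil_nonneg (by positivity)
    have hn1 : (⌈L / ϱ⌉ : ℝ) < L / ϱ + 1 := Int.ceil_lt_add_one _
    have hn0' : (0 : ℝ) ≤ (⌈L / ϱ⌉ : ℝ) := by exact_mod_cast hn0
    have e : (((⌈L / ϱ⌉ + 1 - -⌈L / ϱ⌉).toNat : ℕ) : ℝ) = 2 * (⌈L / ϱ⌉ : ℝ) + 1 := by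
      have : (((⌈L / ϱ⌉ + 1 - -⌈L / ϱ⌉).toNat : ℕ) : ℤ) = 2 * ⌈L / ϱ⌉ + 1 := by
        rw [Int.toNat_of_nonneg (by linarith)]; ring
      have h2 : ((((⌈L / ϱ⌉ + 1 - -⌈L / ϱ⌉).toNat : ℕ) : ℤ) : ℝ) = ((2 * ⌈L / ϱ⌉ + 1 : ℤ) : ℝ) := by rw [this]
      push_cast at h2
      exact h2
    push_cast
    rw [e, ← sq]
    apply pow_le_pow_left₀ (by positivity)
    have : 2 * L / ϱ = 2 * (L / ϱ) := by ring
    rw [this]; linarith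
  · intro i _
    apply hS0.inter
    have m1 : Measurable fun A : ℝ × ℝ => ⌊(r⁻¹ • (A - As)).1 / ϱ⌋ := by
      apply Int.measurable_floor.comp
      fun_prop
    have m2 : Measurable fun A : ℝ × ℝ => ⌊(r⁻¹ • (A - As)).2 / ϱ⌋ := by
      apply Int.measurable_floor.comp
      fun_prop
    exact (m1 (measurableSet_singleton i.1)).inter (m2 (measurableSet_singleton i.2))
  · intro i _ j _ hij
    rw [Set.disjoint_left]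
    rintro A ⟨_, h1, h2⟩ ⟨_, h3, h4⟩
    apply hij
    ext
    · rw [← h1, ← h3]
    · rw [← h2, ← h4]
  · ext A
    simp only [Set.mem_iUnion, Set.mem_inter_iff, exists_prop]
    constructor
    · rintro ⟨i, _, h, _⟩
      exact h
    · intro h
      refine ⟨(⌊(r⁻¹ • (A - As)).1 / ϱ⌋, ⌊(r⁻¹ • (A - As)).2 / ϱ⌋), ?_, h, rfl, rfl⟩
      rw [Finset.mem_product]
      exact ⟨re_sc_squares_rg _ L ϱ hϱ (hb A h).1, re_sc_squares_rg _ L ϱ hϱ (hb A h).2⟩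
  · rintro i _ A ⟨_, h1, h2⟩ A' ⟨_, h3, h4⟩
    have e1 := re_sc_squares_fl _ _ ϱ hϱ i.1 h1 h3
    have e2 := re_sc_squares_fl _ _ ϱ hϱ i.2 h2 h4
    have e : rtSq (r⁻¹ • (A - A')) = ((r⁻¹ • (A - As)).1 - (r⁻¹ • (A' - As)).1) ^ 2 + ((r⁻¹ • (A - As)).2 - (r⁻¹ • (A' - As)).2) ^ 2 := by
      simp only [rtSq, Prod.smul_fst, Prod.smul_snd, Prod.fst_sub, Prod.snd_sub, smul_eq_mul]
      ring
    rw [e]; linarith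

theorem re_sc_nbhd_cs (a b c d : ℝ) : (a * c + b * d) ^ 2 ≤ (a ^ 2 + b ^ 2) * (c ^ 2 + d ^ 2) := by
  nlinarith [sq_nonneg (a * d - b * c)]

theorem re_sc_nbhd_abs (x y : ℝ) (hy : 0 ≤ y) (h : x ^ 2 ≤ y ^ 2) : |x| ≤ y :=
  abs_le.mpr (abs_le_of_sq_le_sq' h hy)

theorem re_sc_nbhd_g (a1 a2 be z1 z2 K : ℝ) (hK : 1 ≤ K) (hn : a1 ^ 2 + a2 ^ 2 + be ^ 2 = 1) (hZ : z1 ^ 2 + z2 ^ 2 ≤ K ^ 2) :
    (a1 + 2 * be * z1) ^ 2 + (a2 + 2 * be * z2) ^ 2 ≤ (1 + 2 * K) ^ 2 := by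
  have ha : a1 ^ 2 + a2 ^ 2 ≤ 1 := by nlinarith [sq_nonneg be]
  have hb2 : be ^ 2 ≤ 1 := by nlinarith [sq_nonneg a1, sq_nonneg a2]
  have h3 : be ^ 2 * (z1 ^ 2 + z2 ^ 2) ≤ K ^ 2 := by
    calc be ^ 2 * (z1 ^ 2 + z2 ^ 2) ≤ 1 * K ^ 2 := by
          apply mul_le_mul hb2 hZ (by positivity) (by norm_num)
      _ = K ^ 2 := one_mul _
  have hcs : (a1 * (be * z1) + a2 * (be * z2)) ^ 2 ≤ K ^ 2 := by
    have h4 : (be * z1) ^ 2 + (be * z2) ^ 2 ≤ K ^ 2 := by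
      have : (be * z1) ^ 2 + (be * z2) ^ 2 = be ^ 2 * (z1 ^ 2 + z2 ^ 2) := by ring
      rw [this]; exact h3
    calc _ ≤ (a1 ^ 2 + a2 ^ 2) * ((be * z1) ^ 2 + (be * z2) ^ 2) := re_sc_nbhd_cs _ _ _ _
      _ ≤ 1 * K ^ 2 := mul_le_mul ha h4 (by positivity) (by norm_num)
      _ = K ^ 2 := one_mul _
  have hcs' : a1 * (be * z1) + a2 * (be * z2) ≤ K := (abs_le_of_sq_le_sq' hcs (by linarith)).2
  have e : (a1 + 2 * be * z1) ^ 2 + (a2 + 2 * be * z2) ^ 2 = (a1 ^ 2 + a2 ^ 2) + 4 * (a1 * (be * z1) + a2 * (be * z2)) + 4 * (be ^ 2 * (z1 ^ 2 + z2 ^ 2)) := by ring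
  rw [e]
  have e2 : (1 + 2 * K) ^ 2 = 1 + 4 * K + 4 * K ^ 2 := by ring
  rw [e2]
  linarith
/-- **LEAF L-256-SEC-NBHD: root angles near the spectrum are approximate directions.**   `Z' = Z + w`, `|w|² < 2h ≤ 2`:   `Fsec(Z') = Fsec(Z) + (α + 2βZ)·w + β|w|²`, `|α + 2βZ| ≤ 1 + 2K`, `|β| ≤ 1`:   `≤ K√h + (1+2K)√(2h) + 2h ≤ 8K√h`;   `|Z'_i| ≤ K + √2 ≤ K + 2`. -/
theorem re_sc_nbhd (d0 be K h : ℝ) (al Z Z' : ℝ × ℝ) (hK : 1 ≤ K) (hh0 : 0 < h) (hh1 : h ≤ 1) (hn : rtSq al + be ^ 2 = 1) (hZ : rtSq Z ≤ K ^ 2) (hF : (d0 + rtIp al Z + be * rtSq Z) ^ 2 ≤ K ^ 2 * h)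
    (hw : rtSq (Z' - Z) < 2 * h) : |d0 + rtIp al Z' + be * rtSq Z'| ≤ 8 * K * √h ∧ |Z'.1| ≤ K + 2 ∧ |Z'.2| ≤ K + 2 := by
  obtain ⟨a1, a2⟩ := al
  obtain ⟨z1, z2⟩ := Z
  obtain ⟨y1, y2⟩ := Z'
  simp only [rtSq, rtIp, Prod.fst_sub, Prod.snd_sub] at *
  obtain ⟨w1, hw1⟩ : ∃ w1, w1 = y1 - z1 := ⟨_, rfl⟩
  obtain ⟨w2, hw2⟩ : ∃ w2, w2 = y2 - z2 := ⟨_, rfl⟩
  rw [← hw1, ← hw2] at hw
  have hy1 : y1 = z1 + w1 := by rw [hw1]; ring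
  have hy2 : y2 = z2 + w2 := by rw [hw2]; ring
  obtain ⟨s, hs⟩ : ∃ s, s = √h := ⟨_, rfl⟩
  rw [← hs]
  have hs0 : 0 < s := by rw [hs]; exact Real.sqrt_pos.mpr hh0
  have hs2 : s ^ 2 = h := by rw [hs]; exact Real.sq_sqrt hh0.le
  have hs1 : s ≤ 1 := by
    rw [hs]; exact Real.sqrt_le_one.mpr hh1
  have hK0 : 0 < K := by linarith
  -- bounds
  have hF' : |d0 + (a1 * z1 + a2 * z2) + be * (z1 ^ 2 + z2 ^ 2)| ≤ K * s := by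
    apply re_sc_nbhd_abs _ _ (by positivity)
    rw [mul_pow, hs2]; exact hF
  have hbe : |be| ≤ 1 := by
    apply re_sc_nbhd_abs _ _ (by norm_num)
    have := sq_nonneg a1
    have := sq_nonneg a2
    rw [one_pow]; linarith
  have hg : ((a1 + 2 * be * z1) * w1 + (a2 + 2 * be * z2) * w2) ^ 2 ≤ ((1 + 2 * K) * (3 / 2 * s)) ^ 2 := by
    calc _ ≤ ((a1 + 2 * be * z1) ^ 2 + (a2 + 2 * be * z2) ^ 2) * (w1 ^ 2 + w2 ^ 2) := re_sc_nbhd_cs _ _ _ _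
      _ ≤ (1 + 2 * K) ^ 2 * (2 * h) := mul_le_mul (re_sc_nbhd_g a1 a2 be z1 z2 K hK hn hZ) hw.le (by positivity) (by positivity)
      _ ≤ ((1 + 2 * K) * (3 / 2 * s)) ^ 2 := by
          rw [mul_pow, mul_pow, hs2]
          have : 0 ≤ (1 + 2 * K) ^ 2 * h := by positivity
          linarith
  have hg' : |(a1 + 2 * be * z1) * w1 + (a2 + 2 * be * z2) * w2| ≤ (1 + 2 * K) * (3 / 2 * s) :=
    re_sc_nbhd_abs _ _ (by positivity) hg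
  have hq : |be * (w1 ^ 2 + w2 ^ 2)| ≤ 2 * s := by
    rw [abs_mul, abs_of_nonneg (by positivity : (0:ℝ) ≤ w1 ^ 2 + w2 ^ 2)]
    calc |be| * (w1 ^ 2 + w2 ^ 2) ≤ 1 * (2 * h) := mul_le_mul hbe hw.le (by positivity) (by norm_num)
      _ = 2 * (s * s) := by rw [← hs2]; ring
      _ ≤ 2 * (s * 1) := by gcongr
      _ = 2 * s := by ring
  refine ⟨?_, ?_, ?_⟩
  · have e : d0 + (a1 * y1 + a2 * y2) + be * (y1 ^ 2 + y2 ^ 2) = (d0 + (a1 * z1 + a2 * z2) + be * (z1 ^ 2 + z2 ^ 2)) + ((a1 + 2 * be * z1) * w1 + (a2 + 2 * be * z2) * w2) + be * (w1 ^ 2 + w2 ^ 2) := by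
      rw [hy1, hy2]; ring
    rw [e]
    have hKs : s ≤ K * s := le_mul_of_one_le_left hs0.le hK
    calc _ ≤ |d0 + (a1 * z1 + a2 * z2) + be * (z1 ^ 2 + z2 ^ 2)| + |(a1 + 2 * be * z1) * w1 + (a2 + 2 * be * z2) * w2| + |be * (w1 ^ 2 + w2 ^ 2)| := abs_add_three _ _ _
      _ ≤ K * s + (1 + 2 * K) * (3 / 2 * s) + 2 * s := by linarith
      _ = 4 * (K * s) + 7 / 2 * s := by ring
      _ ≤ 8 * K * s := by linarith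
  · have h1 : |z1| ≤ K := re_sc_nbhd_abs _ _ hK0.le (by have := sq_nonneg z2; linarith)
    have h2 : |w1| ≤ 2 := re_sc_nbhd_abs _ _ (by norm_num) (by have := sq_nonneg w2; linarith)
    rw [hy1]
    calc |z1 + w1| ≤ |z1| + |w1| := abs_add_le _ _
      _ ≤ K + 2 := by linarith
  · have h1 : |z2| ≤ K := re_sc_nbhd_abs _ _ hK0.le (by have := sq_nonneg z1; linarith)
    have h2 : |w2| ≤ 2 := re_sc_nbhd_abs _ _ (by norm_num) (by have := sq_nonneg w1; linarith)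
    rw [hy2]
    calc |z2 + w2| ≤ |z2| + |w2| := abs_add_le _ _
      _ ≤ K + 2 := by linarith

/-- power mean, exponent `3` -/
theorem re_sc_cube_sum {ι : Type} (s : Finset ι) (f : ι → ℝ≥0∞) : (∑ i ∈ s, f i) ^ 3 ≤ (s.card : ℝ≥0∞) ^ 2 * ∑ i ∈ s, f i ^ 3 := by
  have h := ENNReal.rpow_sum_le_const_mul_sum_rpow s f (p := 3) (by norm_num)
  rw [show ((3 : ℝ) - 1) = ((2 : ℕ) : ℝ) by norm_num, ENNReal.rpow_natCast] at h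
  have h3 : ∀ x : ℝ≥0∞, x ^ (3 : ℝ) = x ^ 3 := fun x => by
    rw [show (3 : ℝ) = ((3 : ℕ) : ℝ) by norm_num, ENNReal.rpow_natCast]
  simpa only [h3] using h

/-- the piece of the empty set of angles -/
theorem re_sc_fld_empty (H : ℝ) (k : ℕ) (G : RdWvPar.Mo → ℂ) (t : ℝ) (z : ReSp) : reFld t (secG H k ∅ G) z = 0 := by
  unfold reFld secG secM
  simp

/-- the number of squares -/
theorem re_sc_card_sq (K P : ℝ) (hK : 1 ≤ K) (hP : 2 ≤ P) : (2 * (K + 2) / (1 / (32 * (1 + P))) + 3) ^ 2 ≤ (300 * K * P) ^ 2 := by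
  have e : 2 * (K + 2) / (1 / (32 * (1 + P))) = 64 * (K + 2) * (1 + P) := by
    field_simp
    ring
  rw [e]
  refine pow_le_pow_left₀ (by positivity) ?_ 2
  nlinarith [mul_nonneg (sub_nonneg.2 hK) (sub_nonneg.2 hP)]

/-- **LEAF L-256-SEC-CORES (glue): CORE for small `h`.**
PLAN.  `h = H/(ℓr²)`, `Λ = 8KP`.   `S0 = {A | |Z₁|, |Z₂| ≤ K+2, |Fsec Z| ≤ 8K√h}` (closed: measurable).   For `G q ≠ 0`: every `A` with `rtSq (a - A) < 2d²` (`d² = h r²`) lies in `S0` (`re_sc_nbhd`), so `secM S0 a = 1` (`re_sc_M_one`): `secG S0 G = G`.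
`re_sc_squares` (`L = K+2`, `ϱ = 1/(32(1+P))`): `G = ∑_{i ∈ Y} secG (S i) G` (`re_sc_G`), `reFld t G = ∑_i reFld t (secG (S i) G)` (`re_sc_fld_sum`).   `‖∑_{i ∈ Y} a_i‖ₑ³ ≤ card² ∑ ‖a_i‖ₑ³` (power mean: `ENNReal.rpow_sum_le_const_mul_sum_rpow`, or `inner_le_nnorm..`-free via `pow_sum_le..`/`inner_le_Lp_mul_Lq`).
Empty `S i`: `secG ∅ G = 0`, the term vanishes.   Nonempty: `re_sc_patch_mk`, `re_sc_patch` (`c.l = rdLen k`, `c.h = h` after rewriting the four equalities; `2^40 ≤ 2^(4bm+40)`).   card `≤ (2(K+2)·32(1+P) + 3)² ≤ (300 K P)²`:  total factor `card³ ≤ 300⁶ (KP)⁶`.   New exponent `C0' = C0 + 6`, `Λ^C0 = 8^C0 K^C0 P^C0` (`Real.mul_rpow`). -/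
theorem re_sc_core_small (η : ℝ) (h0 : 0 < η) (h1 : η < 1) : ∃ C0 : ℝ, 0 ≤ C0 ∧ ∀ (ν : ℝ) (bm : ℕ), 0 < ν → ∃ C : ℝ, 0 ≤ C ∧
    ∀ (p : RdWvPar) (T0 : ℝ) (k β : ℕ) (G : RdWvPar.Mo → ℂ) (κ K P r d0 be : ℝ) (As al : ℝ × ℝ), β ≤ bm → Integrable G → MemLp G 2 volume → 0 < r → 1 ≤ K → 2 ≤ P →
    rtSq al + be ^ 2 = 1 → P ^ (-2 : ℝ) ≤ rtSq al - 4 * be * d0 → 0 ≤ κ → SecReg η p T0 k β G κ →
    (∀ q : RdWvPar.Mo, G q ≠ 0 → p.H * q.2 ∈ rdPlat β ∧ rtSq (r⁻¹ • ((2 * q.2)⁻¹ • q.1 - As)) ≤ K ^ 2 ∧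
      (d0 + rtIp al (r⁻¹ • ((2 * q.2)⁻¹ • q.1 - As)) + be * rtSq (r⁻¹ • ((2 * q.2)⁻¹ • q.1 - As))) ^ 2 ≤ K ^ 2 * (p.H / (rdLen k * r ^ 2))) →
    p.H / (rdLen k * r ^ 2) * (2 ^ (4 * bm + 40) * (8 * K * P) ^ 4) ≤ 1 →
    ∫⁻ t in Set.Icc T0 (T0 + rdLen k), ∫⁻ z, ‖reFld t G z‖ₑ ^ 3
      ≤ ENNReal.ofReal (C * K ^ C0 * P ^ C0 * (p.H / (rdLen k * r ^ 2)) ^ (-(η / 4 + ν)) * (√κ / √(rdLen k))) * ∫⁻ q, ‖G q‖ₑ ^ 2 := by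
  obtain ⟨C0p, hC0p, hpatch⟩ := re_sc_patch η h0 h1
  refine ⟨C0p + 6, by positivity, fun ν bm hν => ?_⟩
  obtain ⟨Cp, hCp, hpat⟩ := hpatch ν bm hν
  refine ⟨300 ^ 6 * 8 ^ C0p * Cp, by positivity, fun p T0 k β G κ K P r d0 be As al hβ hG hG2 hr hK hP hn hD hκ hreg hsp hsm => ?_⟩
  have hH := p.H_pos
  have hl := rdLen_pos k
  have hK0 : 0 < K := by linarith
  have hP0 : 0 < P := by linarith
  set h : ℝ := p.H / (rdLen k * r ^ 2) with hh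
  have hh0 : 0 < h := by positivity
  have h8 : (1 : ℝ) ≤ 8 * K * P := by nlinarith
  have hb4 : (1 : ℝ) ≤ (8 * K * P) ^ 4 := one_le_pow₀ h8
  have hpow : (2 : ℝ) ^ 40 ≤ 2 ^ (4 * bm + 40) := pow_le_pow_right₀ (by norm_num) (by omega)
  have hsm' : h * (2 ^ 40 * (8 * K * P) ^ 4) ≤ 1 := by
    refine le_trans ?_ hsm
    exact mul_le_mul_of_nonneg_left (mul_le_mul_of_nonneg_right hpow (by positivity)) hh0.le
  have hh1 : h ≤ 1 := by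
    refine le_trans ?_ hsm'
    have : (1 : ℝ) ≤ 2 ^ 40 * (8 * K * P) ^ 4 := by
      have : (1 : ℝ) ≤ 2 ^ 40 := by norm_num
      nlinarith
    nlinarith
  have hd2 : rdD p.H k ^ 2 = h * r ^ 2 := by
    rw [(re_sp_dq p.H hH k).2.2.2.2.1, hh]
    field_simp
  set S0 : Set (ℝ × ℝ) := {A | |(r⁻¹ • (A - As)).1| ≤ K + 2 ∧ |(r⁻¹ • (A - As)).2| ≤ K + 2 ∧
    |d0 + rtIp al (r⁻¹ • (A - As)) + be * rtSq (r⁻¹ • (A - As))| ≤ 8 * K * √h} with hS0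
  have hS0m : MeasurableSet S0 := by
    have c1 : IsClosed {A : ℝ × ℝ | |(r⁻¹ • (A - As)).1| ≤ K + 2} := isClosed_le (by fun_prop) continuous_const
    have c2 : IsClosed {A : ℝ × ℝ | |(r⁻¹ • (A - As)).2| ≤ K + 2} := isClosed_le (by fun_prop) continuous_const
    have c3 : IsClosed {A : ℝ × ℝ | |d0 + rtIp al (r⁻¹ • (A - As)) + be * rtSq (r⁻¹ • (A - As))| ≤ 8 * K * √h} := by
      refine isClosed_le ?_ continuous_const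
      unfold rtIp rtSq
      fun_prop
    exact (c1.inter (c2.inter c3)).measurableSet
  have hGS0 : ∀ q, secG p.H k S0 G q = G q := by
    intro q
    by_cases hq : G q = 0
    · unfold secG
      rw [hq, mul_zero]
    · obtain ⟨-, hZ, hF⟩ := hsp q hq
      have h1 : secM p.H k S0 ((2 * q.2)⁻¹ • q.1) = 1 := by
        refine re_sc_M_one p.H hH k S0 _ fun A hA => ?_
        have hw : rtSq (r⁻¹ • (A - As) - r⁻¹ • ((2 * q.2)⁻¹ • q.1 - As)) < 2 * h := by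
          have e : r⁻¹ • (A - As) - r⁻¹ • ((2 * q.2)⁻¹ • q.1 - As) = (-r⁻¹) • ((2 * q.2)⁻¹ • q.1 - A) := by
            module
          rw [e, re_sp_sq_smul, neg_sq, inv_pow, inv_mul_lt_iff₀ (by positivity)]
          rw [hd2] at hA
          linarith
        obtain ⟨a1, a2, a3⟩ := re_sc_nbhd d0 be K h al _ _ hK hh0 hh1 hn hZ hF hw
        exact ⟨a2, a3, a1⟩
      unfold secG
      rw [h1]
      simp
  obtain ⟨Y, S, hcard, hSm, hSd, hSU, hSdiam⟩ := re_sc_squares r hr As (K + 2) (1 / (32 * (1 + P))) (by linarith) (by positivity)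
    S0 hS0m (fun A hA => ⟨hA.1, hA.2.1⟩)
  obtain ⟨hGi, hGle, hGsum⟩ := re_sc_G p.H hH k G hG
  have hsumq : ∀ q, ∑ i ∈ Y, secG p.H k (S i) G q = G q := fun q => by
    rw [(hGsum Y S hSm hSd).1 q, hSU, hGS0]
  have hfld : ∀ t z, reFld t G z = ∑ i ∈ Y, reFld t (secG p.H k (S i) G) z := fun t z =>
    re_sc_fld_sum Y (fun i => secG p.H k (S i) G) (fun i hi => hGi _ (hSm i hi)) G (Filter.Eventually.of_forall hsumq) t z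
  set E : ℝ≥0∞ := ∫⁻ q, ‖G q‖ₑ ^ 2 with hE
  set x0 : ℝ := Cp * (8 * K * P) ^ C0p * h ^ (-(η / 4 + ν)) * (√κ / √(rdLen k)) with hx0
  have hx00 : 0 ≤ x0 := by positivity
  have hterm : ∀ i ∈ Y, ∫⁻ t in Set.Icc T0 (T0 + rdLen k), ∫⁻ z, ‖reFld t (secG p.H k (S i) G) z‖ₑ ^ 3 ≤ ENNReal.ofReal x0 * E := by
    intro i hi
    by_cases hne : (S i).Nonempty
    · have hsub : S i ⊆ S0 := by
        rw [← hSU]
        exact Set.subset_biUnion_of_mem (u := S) hi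
      obtain ⟨c, hcH, hck, hcT, hcr, hcOk, hcbt, hcPat⟩ := re_sc_patch_mk p.H hH k T0 r d0 be K P As al hr hK hP hn hD hsm' (S i)
        (hSm i hi) hne (hSdiam i hi) (fun A hA => (hsub hA).2.2)
      have hcl : c.l = rdLen k := by
        unfold SecPt.l
        rw [hck]
      have hch : c.h = h := by
        unfold SecPt.h
        rw [hcH, hcl, hcr]
      have hp := hpat c p hcOk hcH.symm β hβ G hG hG2 (fun q hq => by rw [hcH]; exact (hsp q hq).1) κ hκ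
        (by rw [hcT, hck]; exact hreg) (8 * K * P) (S i) hcPat h8 hcbt (by rw [hch]; exact hh0) (by rw [hch]; exact hsm)
      rw [hcT, hcl, hcH, hck, hch] at hp
      exact hp
    · rw [Set.not_nonempty_iff_eq_empty] at hne
      rw [hne]
      simp [re_sc_fld_empty]
  have hcont : ∀ i ∈ Y, Continuous (fun x : ℝ × ReSp => reFld x.1 (secG p.H k (S i) G) x.2) := fun i hi =>
    re_sp_fld_cont _ (hGi _ (hSm i hi))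
  have hm1 : ∀ i ∈ Y, Measurable (fun x : ℝ × ReSp => ‖reFld x.1 (secG p.H k (S i) G) x.2‖ₑ ^ 3) := fun i hi =>
    ((hcont i hi).measurable.enorm).pow_const 3
  have hm2 : ∀ i ∈ Y, ∀ t : ℝ, Measurable (fun z : ReSp => ‖reFld t (secG p.H k (S i) G) z‖ₑ ^ 3) := by
    intro i hi t
    have hc : Measurable (fun z : ReSp => ((t, z) : ℝ × ReSp)) := measurable_const.prodMk measurable_id
    have h2 := (hm1 i hi).comp hc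
    simp only [Function.comp_def] at h2
    exact h2
  have hm3 : ∀ i ∈ Y, Measurable (fun t : ℝ => ∫⁻ z, ‖reFld t (secG p.H k (S i) G) z‖ₑ ^ 3) := fun i hi =>
    (hm1 i hi).lintegral_prod_right'
  have hcN : ((Y.card : ℝ≥0∞) ^ 2) ≠ ∞ := by simp
  have hcardE : (Y.card : ℝ≥0∞) ≤ ENNReal.ofReal ((300 * K * P) ^ 2) := by
    rw [← ENNReal.ofReal_natCast]
    exact ENNReal.ofReal_le_ofReal (hcard.trans (re_sc_card_sq K P hK hP))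
  calc ∫⁻ t in Set.Icc T0 (T0 + rdLen k), ∫⁻ z, ‖reFld t G z‖ₑ ^ 3
      ≤ ∫⁻ t in Set.Icc T0 (T0 + rdLen k), ∫⁻ z, (Y.card : ℝ≥0∞) ^ 2 * ∑ i ∈ Y, ‖reFld t (secG p.H k (S i) G) z‖ₑ ^ 3 := by
        refine lintegral_mono fun t => lintegral_mono fun z => ?_
        rw [hfld]
        exact (pow_le_pow_left₀ zero_le (enorm_sum_le _ _) 3).trans (re_sc_cube_sum Y _)
    _ = (Y.card : ℝ≥0∞) ^ 2 * ∑ i ∈ Y, ∫⁻ t in Set.Icc T0 (T0 + rdLen k), ∫⁻ z, ‖reFld t (secG p.H k (S i) G) z‖ₑ ^ 3 := by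
        have e1 : ∀ t : ℝ, ∫⁻ z, (Y.card : ℝ≥0∞) ^ 2 * ∑ i ∈ Y, ‖reFld t (secG p.H k (S i) G) z‖ₑ ^ 3
            = (Y.card : ℝ≥0∞) ^ 2 * ∑ i ∈ Y, ∫⁻ z, ‖reFld t (secG p.H k (S i) G) z‖ₑ ^ 3 := by
          intro t
          rw [lintegral_const_mul' _ _ hcN, lintegral_finsetSum Y (fun i hi => hm2 i hi t)]
        simp only [e1]
        rw [lintegral_const_mul' _ _ hcN, lintegral_finsetSum Y (fun i hi => hm3 i hi)]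
    _ ≤ (Y.card : ℝ≥0∞) ^ 2 * ∑ _i ∈ Y, ENNReal.ofReal x0 * E := mul_le_mul_right (Finset.sum_le_sum hterm) _
    _ = (Y.card : ℝ≥0∞) ^ 3 * (ENNReal.ofReal x0 * E) := by
        rw [Finset.sum_const, nsmul_eq_mul]
        ring
    _ ≤ ENNReal.ofReal ((300 * K * P) ^ 2) ^ 3 * (ENNReal.ofReal x0 * E) := mul_le_mul_left (pow_le_pow_left₀ zero_le hcardE 3) _
    _ = _ := by
        rw [← ENNReal.ofReal_pow (by positivity), ← mul_assoc, ← ENNReal.ofReal_mul (by positivity)]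
        congr 2
        rw [hx0, Real.mul_rpow (by positivity) hP0.le, Real.mul_rpow (by norm_num) hK0.le, Real.rpow_add hK0, Real.rpow_add hP0,
          show (6 : ℝ) = ((6 : ℕ) : ℝ) by norm_num, Real.rpow_natCast, Real.rpow_natCast]
        ring

/-- **LEAF L-256-SEC-COREL: CORE for large `h`** (sup bound of PLANE-A).   `re_sp_sup bm`: `‖u_t z‖² ≤ C Λs⁴ κ/ℓ³` for `|t - T0| ≤ 2ℓ`;  `‖u‖ₑ³ ≤ ofReal (√(CΛs⁴κ/ℓ³)) ‖u‖ₑ²`;  `re_sc_energy` (`re_sp_L1`, `Lp.memLp`);  the interval has length `ℓ`;  `√(κ/ℓ³) ℓ = √κ/√ℓ`. -/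
theorem re_sc_core_large (bm : ℕ) : ∃ C : ℝ, 0 ≤ C ∧ ∀ (η : ℝ) (p : RdWvPar) (T0 : ℝ) (k β : ℕ) (κ Λs : ℝ) (As : ℝ × ℝ) (G : Lp ℂ 2 (volume : Measure RdWvPar.Mo)),
    β ≤ bm → 1 ≤ Λs → 0 ≤ κ → p.Spec β G →
    (∀ᵐ q ∂(volume : Measure RdWvPar.Mo), (G : RdWvPar.Mo → ℂ) q ≠ 0 → rtSq ((2 * q.2)⁻¹ • q.1 - As) ≤ (Λs * rdD p.H k) ^ 2) → (p.sys η).Reg T0 k β κ G →
    ∫⁻ t in Set.Icc T0 (T0 + rdLen k), ∫⁻ z, ‖reFld t G z‖ₑ ^ 3 ≤ ENNReal.ofReal (C * Λs ^ 2 * (√κ / √(rdLen k))) * ∫⁻ q, ‖(G : RdWvPar.Mo → ℂ) q‖ₑ ^ 2 := by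
  obtain ⟨C, hC, hsup⟩ := re_sp_sup bm
  refine ⟨√C, Real.sqrt_nonneg _, fun η p T0 k β κ Λs As G hβ hΛ hκ hS hA hreg => ?_⟩
  have hl := rdLen_pos k
  have hG : Integrable (G : RdWvPar.Mo → ℂ) := re_sp_L1 p β As (Λs * rdD p.H k) G hS hA
  set B : ℝ := C * Λs ^ 4 * κ / rdLen k ^ 3 with hB
  set E : ℝ≥0∞ := ∫⁻ q, ‖(G : RdWvPar.Mo → ℂ) q‖ₑ ^ 2 with hE
  have hin : ∀ t ∈ Set.Icc T0 (T0 + rdLen k), ∫⁻ z, ‖reFld t G z‖ₑ ^ 3 ≤ ENNReal.ofReal (√B) * E := by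
    intro t ht
    have ht' : |t - T0| ≤ 2 * rdLen k := by
      rw [abs_le]
      constructor <;> linarith [ht.1, ht.2]
    rw [hE, ← re_sc_energy G hG (Lp.memLp G) t, ← lintegral_const_mul' _ _ ENNReal.ofReal_ne_top]
    refine lintegral_mono fun z => ?_
    have h1 := hsup η p T0 t k β κ Λs As G hβ hΛ hκ hS hA hreg ht' z
    have h2 : ‖reFld t G z‖ ≤ √B := Real.le_sqrt_of_sq_le h1
    have h3 : ‖reFld t G z‖ₑ ≤ ENNReal.ofReal (√B) := by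
      rw [← ofReal_norm]
      exact ENNReal.ofReal_le_ofReal h2
    calc ‖reFld t G z‖ₑ ^ 3 = ‖reFld t G z‖ₑ * ‖reFld t G z‖ₑ ^ 2 := by ring
      _ ≤ _ := mul_le_mul_left h3 _
  calc ∫⁻ t in Set.Icc T0 (T0 + rdLen k), ∫⁻ z, ‖reFld t G z‖ₑ ^ 3
      ≤ ∫⁻ _t in Set.Icc T0 (T0 + rdLen k), ENNReal.ofReal (√B) * E := setLIntegral_mono' measurableSet_Icc hin
    _ = ENNReal.ofReal (√B) * E * ENNReal.ofReal (rdLen k) := by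
        rw [setLIntegral_const, Real.volume_Icc]
        congr 2
        ring
    _ = ENNReal.ofReal (√B * rdLen k) * E := by
        rw [ENNReal.ofReal_mul (Real.sqrt_nonneg _)]
        ring
    _ = _ := by
        congr 2
        set sl := √(rdLen k) with hsl
        have hsl0 : 0 < sl := Real.sqrt_pos.2 hl
        have hsl2 : rdLen k = sl ^ 2 := (Real.sq_sqrt hl.le).symm
        have e : B = (√C * Λs ^ 2 * √κ / sl ^ 3) ^ 2 := by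
          rw [div_pow, mul_pow, mul_pow, Real.sq_sqrt hC, Real.sq_sqrt hκ, hB, hsl2]
          ring
        rw [e, Real.sqrt_sq (by positivity), hsl2]
        field_simp

/-! ## 4. Exit -/

/-- **LEAF L-256-SEC-REG: regularity of the model in the form `SecReg`**, for any function a.e. equal to the state.   `τ` with `τ.l = rdLen k`: `Q = ⟨τ.r, τ.f, τ.As, τ.bs, τ.ys, τ.n⟩ : RdTst`, `Q.toT k = τ`, `Q.rows k = τ.set 1`, `(p.sys η).ok Q k`, `(p.sys η).wt Q = τ.w η` (`rfl`-type);  `re_sp_cell_mass` (measurability of the cell: closed conditions, as `re_sp_qt_meas`, or `rt_w1_cell_meas`);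
`secRow p T k β G0 x = p.row T k β G x` (`integral_congr_ae`). -/
theorem re_sc_reg (η : ℝ) (p : RdWvPar) (T : ℝ) (k β : ℕ) (κ : ℝ) (G : Lp ℂ 2 (volume : Measure RdWvPar.Mo)) (hreg : (p.sys η).Reg T k β κ G) (G0 : RdWvPar.Mo → ℂ) (h : G0 =ᵐ[volume] (G : RdWvPar.Mo → ℂ)) :
    SecReg η p T k β G0 κ := by
  intro τ hadm hl hunc
  set Q : RdTst := ⟨τ.r, τ.f, τ.As, τ.bs, τ.ys, τ.n⟩ with hQdef
  have hQ : Q.toT k = τ := by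
    unfold RdTst.toT
    rw [← hl]
  have hok : (p.sys η).ok Q k := ⟨by rw [hQ]; exact hadm, hunc⟩
  have hm := rt_w1_cell_meas Q T k
  have h1 := re_sp_cell_mass η p T k β κ G hreg Q hok hm
  have hrows : Q.rows k = τ.set 1 := by
    unfold RdTst.rows
    rw [hQ]
  have hwt : (p.sys η).wt Q = τ.w η := rfl
  have hrow : ∀ x, secRow p T k β G0 x = p.row T k β G x := fun x => by
    unfold secRow RdWvPar.row
    refine integral_congr_ae ?_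
    filter_upwards [h] with q hq
    rw [hq]
  simp only [hrow]
  rw [← hrows, ← hwt]
  exact h1

/-- the energy of a state -/
theorem re_sc_l2_enorm (G : Lp ℂ 2 (volume : Measure RdWvPar.Mo)) : ∫⁻ q, ‖(G : RdWvPar.Mo → ℂ) q‖ₑ ^ 2 = ENNReal.ofReal (‖G‖ ^ 2) := by
  rw [gn_norm_sq, ofReal_integral_eq_lintegral_ofReal (gn_sq_integrable G) (Filter.Eventually.of_forall fun x => by positivity)]
  refine lintegral_congr fun x => ?_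
  rw [ENNReal.ofReal_pow (norm_nonneg _), ofReal_norm]

/-- the negative power of the Planck parameter -/
theorem re_sc_exit_num1 (η ν ν' h Kp : ℝ) (n : ℕ) (hη0 : 0 < η) (hη1 : η < 1) (hν' : 0 < ν') (h1 : ν' ≤ ν) (h2 : ν' ≤ 1) (hK : 1 ≤ Kp)
    (hlo : (2 : ℝ)⁻¹ ^ n / Kp ≤ h) : h ^ (-(η / 4 + ν')) ≤ Kp ^ 2 * 2 ^ ((4 * η + ν) * n) := by
  have hK0 : 0 < Kp := by linarith
  set a : ℝ := η / 4 + ν' with ha
  have ha0 : 0 < a := by positivity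
  have ha2 : a ≤ 2 := by linarith
  have hpos : 0 < (2 : ℝ)⁻¹ ^ n / Kp := by positivity
  have e1 : ((2 : ℝ)⁻¹ ^ n / Kp) ^ (-a) = Kp ^ a * 2 ^ (a * n) := by
    rw [Real.rpow_neg hpos.le, ← Real.inv_rpow hpos.le, inv_div, inv_pow, div_inv_eq_mul, Real.mul_rpow hK0.le (by positivity),
      ← Real.rpow_natCast, ← Real.rpow_mul (by norm_num), mul_comm a]
  calc h ^ (-a) ≤ ((2 : ℝ)⁻¹ ^ n / Kp) ^ (-a) := Real.rpow_le_rpow_of_nonpos hpos hlo (by linarith)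
    _ = Kp ^ a * 2 ^ (a * n) := e1
    _ ≤ Kp ^ 2 * 2 ^ ((4 * η + ν) * n) := by
        refine mul_le_mul ?_ ?_ (by positivity) (by positivity)
        · rw [← Real.rpow_natCast]
          exact Real.rpow_le_rpow_of_exponent_le hK (by simpa using ha2)
        · refine Real.rpow_le_rpow_of_exponent_le (by norm_num) ?_
          refine mul_le_mul_of_nonneg_right ?_ (Nat.cast_nonneg n)
          linarith

/-- bookkeeping of the small case -/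
theorem re_sc_exit_num2 (C0s C0 Cs Cl2 Kp Pp hp T : ℝ) (hC0s : 0 ≤ C0s) (hC0a : 2 * C0s + 8 ≤ C0) (hCs : 0 ≤ Cs) (hCl : 0 ≤ Cl2) (hK : 1 ≤ Kp) (hP : 2 ≤ Pp)
    (hT : 0 ≤ T) (hhp : hp ≤ Kp ^ 2 * T) :
    Cs * (Kp ^ 2) ^ C0s * Pp ^ C0s * hp ≤ (Cs + Cl2) * Kp ^ (C0 - 6) * Pp ^ C0 * T := by
  have hK0 : 0 < Kp := by linarith
  have hP1 : 1 ≤ Pp := by linarith
  have e1 : (Kp ^ 2) ^ C0s * Kp ^ 2 = Kp ^ (2 * C0s + 2) := by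
    rw [← Real.rpow_natCast Kp 2, ← Real.rpow_mul hK0.le, ← Real.rpow_add hK0]
    norm_num
  have e2 : Kp ^ (2 * C0s + 2) ≤ Kp ^ (C0 - 6) := Real.rpow_le_rpow_of_exponent_le hK (by linarith)
  have e3 : Pp ^ C0s ≤ Pp ^ C0 := Real.rpow_le_rpow_of_exponent_le hP1 (by linarith)
  calc Cs * (Kp ^ 2) ^ C0s * Pp ^ C0s * hp ≤ Cs * (Kp ^ 2) ^ C0s * Pp ^ C0s * (Kp ^ 2 * T) :=
        mul_le_mul_of_nonneg_left hhp (by positivity)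
    _ = Cs * ((Kp ^ 2) ^ C0s * Kp ^ 2) * Pp ^ C0s * T := by ring
    _ = Cs * Kp ^ (2 * C0s + 2) * Pp ^ C0s * T := by rw [e1]
    _ ≤ Cs * Kp ^ (C0 - 6) * Pp ^ C0 * T := by
        refine mul_le_mul_of_nonneg_right ?_ hT
        exact mul_le_mul (mul_le_mul_of_nonneg_left e2 hCs) e3 (by positivity) (by positivity)
    _ ≤ (Cs + Cl2) * Kp ^ (C0 - 6) * Pp ^ C0 * T := by
        refine mul_le_mul_of_nonneg_right ?_ hT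
        refine mul_le_mul_of_nonneg_right ?_ (by positivity)
        refine mul_le_mul_of_nonneg_right ?_ (by positivity)
        linarith

/-- bookkeeping of the large case -/
theorem re_sc_exit_num3 (C0 Cs Cl Kp Pp h T : ℝ) (bm : ℕ) (hC0b : 16 ≤ C0) (hCs : 0 ≤ Cs) (hCl : 0 ≤ Cl) (hK : 1 ≤ Kp) (hP : 2 ≤ Pp)
    (hT : 1 ≤ T) (hh0 : 0 < h) (hcase : 1 < h * (2 ^ (4 * bm + 40) * (8 * Kp ^ 2 * Pp) ^ 4)) :
    Cl * (Kp / √h) ^ 2 ≤ (Cs + Cl * 2 ^ (4 * bm + 52)) * Kp ^ (C0 - 6) * Pp ^ C0 * T := by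
  have hK0 : 0 < Kp := by linarith
  have hP1 : 1 ≤ Pp := by linarith
  have hP0 : 0 < Pp := by linarith
  have e1 : (Kp / √h) ^ 2 = Kp ^ 2 / h := by
    rw [div_pow, Real.sq_sqrt hh0.le]
  have e2 : Kp ^ 2 / h ≤ Kp ^ 2 * (2 ^ (4 * bm + 40) * (8 * Kp ^ 2 * Pp) ^ 4) := by
    rw [div_le_iff₀ hh0]
    have : 0 < Kp ^ 2 := by positivity
    nlinarith
  have e3 : Kp ^ 2 * (2 ^ (4 * bm + 40) * (8 * Kp ^ 2 * Pp) ^ 4) = 2 ^ (4 * bm + 52) * Kp ^ 10 * Pp ^ 4 := by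
    rw [show 4 * bm + 52 = (4 * bm + 40) + 12 by ring, pow_add]
    ring
  have e4 : Kp ^ 10 ≤ Kp ^ (C0 - 6) := by
    rw [← Real.rpow_natCast]
    exact Real.rpow_le_rpow_of_exponent_le hK (by push_cast; linarith)
  have e5 : Pp ^ 4 ≤ Pp ^ C0 := by
    rw [← Real.rpow_natCast]
    exact Real.rpow_le_rpow_of_exponent_le hP1 (by push_cast; linarith)
  have p1 : 0 ≤ Kp ^ (C0 - 6) := by positivity
  have p2 : 0 ≤ Pp ^ C0 := by positivity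
  calc Cl * (Kp / √h) ^ 2 ≤ Cl * (2 ^ (4 * bm + 52) * Kp ^ 10 * Pp ^ 4) := by
        rw [e1, ← e3]
        exact mul_le_mul_of_nonneg_left e2 hCl
    _ = (Cl * 2 ^ (4 * bm + 52)) * (Kp ^ 10 * Pp ^ 4) := by ring
    _ ≤ (Cl * 2 ^ (4 * bm + 52)) * (Kp ^ (C0 - 6) * Pp ^ C0) :=
        mul_le_mul_of_nonneg_left (mul_le_mul e4 e5 (by positivity) p1) (by positivity)
    _ ≤ (Cs + Cl * 2 ^ (4 * bm + 52)) * (Kp ^ (C0 - 6) * Pp ^ C0) :=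
        mul_le_mul_of_nonneg_right (by linarith) (mul_nonneg p1 p2)
    _ ≤ (Cs + Cl * 2 ^ (4 * bm + 52)) * (Kp ^ (C0 - 6) * Pp ^ C0) * T :=
        le_mul_of_one_le_right (by positivity) hT
    _ = _ := by ring

/-- **LEAF L-256-SEC-EXIT (glue) = BLOCK PLANE-B.**
PLAN.  `C0s` from `re_sc_core_small`;  `C0 = max (2 C0s + 8) 16`.   Given `ν, bm`: `ν' = min ν 1`, `Cs` from `re_sc_core_small .. ν' bm`, `Cl` from `re_sc_core_large bm`, `Cr` from `re_sp_readout bm`.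
`G = reV E`, `T0 = tmL E.k0 E.i0`, `k = E.k0`, `β = E.b0 ≤ bm`, `κ = E.ka`, `r = φ.r`, `h = H/(ℓ₀r²) ∈ [Δ/Kp, KpΔ]`, `Δ = E.s = 2^-n ≤ 1`, `K = Kp²`, `P = Pp`.
`re_sp_readout` (spectrum: `rtSq (A - As) = r² rtSq Z ≤ (Kp r)²`), `Ico ⊆ Icc` (`lintegral_mono_set`).   `∫⁻ ‖G‖ₑ² = ofReal ‖E.v‖² ≤ ofReal E.e` (`budget`).
SMALL (`h 2^(4bm+40) (8KP)⁴ ≤ 1`): `G0 = Sg.indicator G`, `Sg` = the measurable set of the three conditions; `G0 =ᵐ G` (`spec`, `reAngIn`);  `Kp² Δ ≤ Kp³ h ≤ K² h`;  `re_sc_reg`, integrable: `re_sp_L1`;  `reFld t G0 = reFld t G` (`re_sc_fld_sum` on a singleton / `integral_congr_ae`);  `h^{-(η/4+ν')} ≤ (Kp/Δ)^{η/4+ν'} ≤ Kp² 2^{(4η+ν)n}`.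
LARGE: `Λs = Kp/√h` (`d² = h r²`; `Λs ≥ 1` as `h ≤ Kp`), `Λs² = Kp²/h < Kp² 2^(4bm+40) (8 Kp² Pp)⁴`.
In both cases `val ≤ Cr Kp⁶ √ℓ₀/(e√κ) · X (√κ/√ℓ₀) e = Cr Kp⁶ X`  (`ENNReal.ofReal_le_ofReal_iff`). -/
theorem re_sc_planeB (η : ℝ) (hη0 : 0 < η) (hη1 : η < 1) : RePlaneB η := by
  obtain ⟨C0s, hC0s, hsmall⟩ := re_sc_core_small η hη0 hη1
  refine ⟨max (2 * C0s + 8) 16, fun ν bm hν => ?_⟩
  obtain ⟨C0, hC0⟩ : ∃ C0 : ℝ, C0 = max (2 * C0s + 8) 16 := ⟨_, rfl⟩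
  rw [← hC0]
  have hC0a : 2 * C0s + 8 ≤ C0 := hC0 ▸ le_max_left _ _
  have hC0b : (16 : ℝ) ≤ C0 := hC0 ▸ le_max_right _ _
  have hν' : 0 < min ν 1 := lt_min hν one_pos
  obtain ⟨Cs, hCs, hS⟩ := hsmall (min ν 1) bm hν'
  obtain ⟨Cl, hCl, hL⟩ := re_sc_core_large bm
  obtain ⟨Cr, hCr, hR⟩ := re_sp_readout bm
  refine ⟨Cr * (Cs + Cl * 2 ^ (4 * bm + 52)), fun p E Kp Pp φ d0 be al hst hP hn hD hang => ?_⟩
  obtain ⟨-, hs0, hs1, -, -, -, -, -, -⟩ := re_sp_step_par η hη0 hη1 p E bm Kp φ hst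
  have hH := p.H_pos
  have hK := hst.Kp_ge
  have hK0 : 0 < Kp := by linarith
  have hP0 : 0 < Pp := by linarith
  have hr := hst.r_pos
  have hl := rdLen_pos E.k0
  have he := hst.valid.e_pos
  have hka := hst.valid.ka_pos
  obtain ⟨G, hG⟩ : ∃ G : Lp ℂ 2 (volume : Measure RdWvPar.Mo), G = reV E := ⟨_, rfl⟩
  obtain ⟨T0, hT0⟩ : ∃ T0 : ℝ, T0 = tmL E.k0 E.i0 := ⟨_, rfl⟩
  obtain ⟨h, hh⟩ : ∃ h : ℝ, h = p.H / (rdLen E.k0 * φ.r ^ 2) := ⟨_, rfl⟩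
  have hh0 : 0 < h := by rw [hh]; positivity
  have hlo : E.s / Kp ≤ h := hh ▸ hst.H_lo
  have hhi : h ≤ Kp * E.s := hh ▸ hst.H_hi
  have hβ : E.b0 ≤ bm := hst.gen.1
  have hspec : p.Spec E.b0 G := hG ▸ hst.spec
  have hreg : (p.sys η).Reg T0 E.k0 E.b0 E.ka G := by
    rw [hG, hT0]
    exact hst.valid.reg
  have hang' : ∀ᵐ q ∂(volume : Measure RdWvPar.Mo), (G : RdWvPar.Mo → ℂ) q ≠ 0 →
      rtSq (φ.r⁻¹ • ((2 * q.2)⁻¹ • q.1 - φ.As)) ≤ Kp ^ 2 ∧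
      (d0 + rtIp al (φ.r⁻¹ • ((2 * q.2)⁻¹ • q.1 - φ.As)) + be * rtSq (φ.r⁻¹ • ((2 * q.2)⁻¹ • q.1 - φ.As))) ^ 2 ≤ Kp ^ 2 * E.s := by
    rw [hG]
    exact hang
  have hd2 : rdD p.H E.k0 ^ 2 = h * φ.r ^ 2 := by
    rw [(re_sp_dq p.H hH E.k0).2.2.2.2.1, hh]
    field_simp
  have hang1 : ∀ᵐ q ∂(volume : Measure RdWvPar.Mo), (G : RdWvPar.Mo → ℂ) q ≠ 0 → rtSq ((2 * q.2)⁻¹ • q.1 - φ.As) ≤ (Kp * φ.r) ^ 2 := by
    filter_upwards [hang'] with q hq hne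
    have h1 := (hq hne).1
    rw [re_sp_sq_smul, inv_pow, inv_mul_le_iff₀ (by positivity)] at h1
    nlinarith
  have hGint : Integrable (G : RdWvPar.Mo → ℂ) := re_sp_L1 p E.b0 φ.As (Kp * φ.r) G hspec hang1
  have hEG : ∫⁻ q, ‖(G : RdWvPar.Mo → ℂ) q‖ₑ ^ 2 ≤ ENNReal.ofReal E.e := by
    rw [re_sc_l2_enorm, hG]
    exact ENNReal.ofReal_le_ofReal hst.valid.budget
  have hread := hR η hη0 hη1 p E Kp φ hst (by rw [hG] at hang1; exact hang1)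
  rw [← hG, ← hT0] at hread
  obtain ⟨T, hT⟩ : ∃ T : ℝ, T = 2 ^ ((4 * η + ν) * E.n) := ⟨_, rfl⟩
  have hT1 : 1 ≤ T := by
    rw [hT]
    exact Real.one_le_rpow (by norm_num) (by positivity)
  have key : ∃ W : ℝ, 0 ≤ W ∧ (∫⁻ t in Set.Icc T0 (T0 + rdLen E.k0), ∫⁻ z, ‖reFld t G z‖ₑ ^ 3
        ≤ ENNReal.ofReal (W * (√E.ka / √(rdLen E.k0))) * ∫⁻ q, ‖(G : RdWvPar.Mo → ℂ) q‖ₑ ^ 2) ∧
      W ≤ (Cs + Cl * 2 ^ (4 * bm + 52)) * Kp ^ (C0 - 6) * Pp ^ C0 * T := by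
    by_cases hcase : h * (2 ^ (4 * bm + 40) * (8 * Kp ^ 2 * Pp) ^ 4) ≤ 1
    · obtain ⟨Sg, hSg⟩ : ∃ Sg : Set RdWvPar.Mo, Sg = {q | p.H * q.2 ∈ rdPlat E.b0 ∧ rtSq (φ.r⁻¹ • ((2 * q.2)⁻¹ • q.1 - φ.As)) ≤ (Kp ^ 2) ^ 2 ∧
          (d0 + rtIp al (φ.r⁻¹ • ((2 * q.2)⁻¹ • q.1 - φ.As)) + be * rtSq (φ.r⁻¹ • ((2 * q.2)⁻¹ • q.1 - φ.As))) ^ 2 ≤ (Kp ^ 2) ^ 2 * h} := ⟨_, rfl⟩
      have hG0 : Sg.indicator (G : RdWvPar.Mo → ℂ) =ᵐ[volume] (G : RdWvPar.Mo → ℂ) := by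
        filter_upwards [hspec, hang'] with q h1 h2
        by_cases hq : (G : RdWvPar.Mo → ℂ) q = 0
        · by_cases hm : q ∈ Sg
          · rw [Set.indicator_of_mem hm]
          · rw [Set.indicator_of_notMem hm]
            exact hq.symm
        · refine Set.indicator_of_mem ?_ _
          rw [hSg]
          refine ⟨h1 hq, ?_, ?_⟩
          · refine (h2 hq).1.trans ?_
            nlinarith [pow_le_pow_left₀ zero_le_one hK 2]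
          · refine (h2 hq).2.trans ?_
            have a1 : E.s ≤ Kp * h := by
              rw [div_le_iff₀ hK0] at hlo
              linarith
            have a2 : (1 : ℝ) ≤ Kp ^ 2 := one_le_pow₀ hK
            have a3 : Kp ^ 2 * E.s ≤ Kp ^ 2 * (Kp * h) := mul_le_mul_of_nonneg_left a1 (by positivity)
            have a4 : Kp ^ 2 * (Kp * h) ≤ (Kp ^ 2) ^ 2 * h := by
              have : Kp ^ 2 * (Kp * h) = Kp ^ 3 * h := by ring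
              rw [this]
              refine mul_le_mul_of_nonneg_right ?_ hh0.le
              nlinarith [pow_le_pow_left₀ zero_le_one hK 3]
            exact a3.trans a4
      have hres := hS p T0 E.k0 E.b0 (Sg.indicator (G : RdWvPar.Mo → ℂ)) E.ka (Kp ^ 2) Pp φ.r d0 be φ.As al hβ (hGint.congr hG0.symm)
        ((Lp.memLp G).ae_eq hG0.symm) hr (one_le_pow₀ hK) hP hn hD hka.le (re_sc_reg η p T0 E.k0 E.b0 E.ka G hreg _ hG0)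
        (fun q hq => by
          have hm : q ∈ Sg := by
            by_contra hc
            exact hq (Set.indicator_of_notMem hc _)
          rw [hSg] at hm
          rw [← hh]
          exact hm)
        (by rw [← hh]; exact hcase)
      have hf : ∀ t z, reFld t (Sg.indicator (G : RdWvPar.Mo → ℂ)) z = reFld t G z := by
        intro t z
        unfold reFld
        refine integral_congr_ae ?_
        filter_upwards [hG0] with q hq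
        rw [hq]
      have hn2 : ∫⁻ q, ‖Sg.indicator (G : RdWvPar.Mo → ℂ) q‖ₑ ^ 2 = ∫⁻ q, ‖(G : RdWvPar.Mo → ℂ) q‖ₑ ^ 2 := by
        refine lintegral_congr_ae ?_
        filter_upwards [hG0] with q hq
        rw [hq]
      simp only [hf] at hres
      rw [hn2, ← hh] at hres
      refine ⟨Cs * (Kp ^ 2) ^ C0s * Pp ^ C0s * h ^ (-(η / 4 + min ν 1)), by positivity, hres, ?_⟩
      refine re_sc_exit_num2 C0s C0 Cs _ Kp Pp _ T hC0s hC0a hCs (by positivity) hK hP (by linarith) ?_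
      rw [hT]
      exact re_sc_exit_num1 η ν (min ν 1) h Kp E.n hη0 hη1 hν' (min_le_left _ _) (min_le_right _ _) hK hlo
    · have hsq : 0 < √h := Real.sqrt_pos.2 hh0
      have hΛ : 1 ≤ Kp / √h := by
        rw [one_le_div hsq, Real.sqrt_le_iff]
        refine ⟨hK0.le, ?_⟩
        nlinarith
      have hang2 : ∀ᵐ q ∂(volume : Measure RdWvPar.Mo), (G : RdWvPar.Mo → ℂ) q ≠ 0 →
          rtSq ((2 * q.2)⁻¹ • q.1 - φ.As) ≤ (Kp / √h * rdD p.H E.k0) ^ 2 := by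
        have e : (Kp / √h * rdD p.H E.k0) ^ 2 = (Kp * φ.r) ^ 2 := by
          rw [mul_pow, hd2, div_pow, Real.sq_sqrt hh0.le]
          field_simp
        rw [e]
        exact hang1
      have hres := hL η p T0 E.k0 E.b0 E.ka (Kp / √h) φ.As G hβ hΛ hka.le hspec hang2 hreg
      exact ⟨Cl * (Kp / √h) ^ 2, by positivity, hres,
        re_sc_exit_num3 C0 Cs Cl Kp Pp h T bm hC0b hCs hCl hK hP hT1 hh0 (not_le.1 hcase)⟩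
  obtain ⟨W, hW0, hW1, hW2⟩ := key
  have hsk : 0 < √E.ka := Real.sqrt_pos.2 hka
  have hsl : 0 < √(rdLen E.k0) := Real.sqrt_pos.2 hl
  have hchain : ENNReal.ofReal E.val ≤ ENNReal.ofReal (Cr * Kp ^ 6 * W) := by
    calc ENNReal.ofReal E.val
        ≤ ENNReal.ofReal (Cr * Kp ^ 6 * √(rdLen E.k0) / (E.e * √E.ka)) *
            ∫⁻ t in Set.Ico T0 (T0 + rdLen E.k0), ∫⁻ z, ‖reFld t G z‖ₑ ^ 3 := hread
      _ ≤ ENNReal.ofReal (Cr * Kp ^ 6 * √(rdLen E.k0) / (E.e * √E.ka)) *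
            ∫⁻ t in Set.Icc T0 (T0 + rdLen E.k0), ∫⁻ z, ‖reFld t G z‖ₑ ^ 3 :=
          mul_le_mul_right (lintegral_mono_set Set.Ico_subset_Icc_self) _
      _ ≤ ENNReal.ofReal (Cr * Kp ^ 6 * √(rdLen E.k0) / (E.e * √E.ka)) *
            (ENNReal.ofReal (W * (√E.ka / √(rdLen E.k0))) * ENNReal.ofReal E.e) :=
          mul_le_mul_right (hW1.trans (mul_le_mul_right hEG _)) _
      _ = ENNReal.ofReal (Cr * Kp ^ 6 * W) := by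
          rw [← ENNReal.ofReal_mul (by positivity), ← ENNReal.ofReal_mul (by positivity)]
          congr 1
          field_simp
  have hval : E.val ≤ Cr * Kp ^ 6 * W := (ENNReal.ofReal_le_ofReal_iff (by positivity)).1 hchain
  rw [← hT]
  calc E.val ≤ Cr * Kp ^ 6 * W := hval
    _ ≤ Cr * Kp ^ 6 * ((Cs + Cl * 2 ^ (4 * bm + 52)) * Kp ^ (C0 - 6) * Pp ^ C0 * T) :=
        mul_le_mul_of_nonneg_left hW2 (by positivity)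
    _ = Cr * (Cs + Cl * 2 ^ (4 * bm + 52)) * (Kp ^ 6 * Kp ^ (C0 - 6)) * Pp ^ C0 * T := by ring
    _ = _ := by
        rw [← Real.rpow_natCast Kp 6, ← Real.rpow_add hK0]
        norm_num

end Claimed.Agent.R256
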