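-- KEEP
import Claimed.Agent.R256.Re.Tow
import Claimed.Agent.R256.Rt.Geo
import Claimed.Agent.R256.Rt.Wv1

/-!
# Row 256, unit RE, block (I), file 4: ATOMS VERSUS ROWS      (chief helper223; post BP-256-RE-STATIC; prefix `re_at_`)      CONTRACT

All blocks that speak about `W.doc` (STATIC, RAR, TP, SLB) pass from sets of atoms to measurable sets of rows through this file.
NOTATION   `δ = 2^-B`, `ℓ_i = rdLen (dp i)`, fine widths `(R0 δ, ℓ_i R0 δ, ℓ_i R0² δ)`;   `d_i = rdD H (dp i) = R0 2^(-(q-i) m / 2)`, `q_i = rdQ H (dp i) = ℓ_i d_i`, `H = ℓ_i d_i² = ℓ_q R0²`;   `B ≥ 16 (q+1) (m+1)`.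
  A0  scales            `re_at_R0_pos`, `re_at_d_eq`
  A1  measurability     `re_at_meas_rs`, `re_at_meas_fs`, `re_at_meas_S`
  A2  representatives   `re_at_fc_fp`
  A3  finiteness        `re_at_chg_fin`
  A4  additivity        `re_at_rt_rs`, `re_at_rt_univ`
  A5  the document      `re_at_mass`, `re_at_tot`
  A6  tests             `re_at_test`
  A7  correspondence    `re_at_conn`
  A8  fields of the flattened selection     `re_at_reg`, `re_at_cov`, `re_at_raw_hi`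
LEAVES (architect helper141; EDIT IN PLACE, splice only your theorems, helpers directly above them, prefix `re_at_`; every lemma of this file may be cited as it stands):
  L-256-RE-AT-A0 (A0 + A2)   -A1   -A3   -A4   -A5   -A6P (`re_at_pert`)   -A6 (`re_at_cell_abs`, `re_at_test`)   -A7   -A8 (`re_at_reg`, `re_at_cov`, `re_at_raw_hi`)   -A8C (`re_at_cnt`)
TOOLKIT: `Gen/BasB.lean`: `gn_ms_eq_mu` (`ms = (P.mu ..).real` on measurable sets), `gn_mu_finite`, `gn_ms_mono`, `gn_ms_nonneg`, `gn_ms_empty`, `gn_ms_iUnion(_le)`;   `rt_w1_cell_meas` (cells of tests are measurable);   `RdWvPar.co T x = ⟨x.1, x.2.1, x.2.2⟩` for every `T`;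
`(p.sys η).cell Q T k = {x | co T x ∈ Q.rows k}` and `(p.sys η).ok Q k ↔ (Q.toT k).Adm 1 ∧ rdD p.H k ≤ Q.r * Q.f` by `Iff.rfl` / `show`.
-/

set_option autoImplicit false

namespace Claimed.Agent.R256

open MeasureTheory
open scoped BigOperators
open Classical

variable {η : ℝ} {p : RdWvPar} (W : ReTw η p)

/-! ## A0 -/

theorem re_at_hd_pos (H : ℝ) (hH : 0 < H) (k : ℕ) : 0 < rdD H k := by
  unfold rdD
  exact Real.sqrt_pos.2 (div_pos hH (rdLen_pos k))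

theorem re_at_hH_eq (H : ℝ) (hH : 0 < H) (k : ℕ) : rdLen k * rdD H k ^ 2 = H := by
  unfold rdD
  rw [Real.sq_sqrt (div_pos hH (rdLen_pos k)).le]
  field_simp [(rdLen_pos k).ne']

theorem re_at_len_add (a b : ℕ) : rdLen (a + b) = rdLen a * rdLen b := by
  unfold rdLen
  exact pow_add _ _ _

theorem re_at_len_two (a : ℕ) : 2 ^ a * rdLen a = 1 := by
  unfold rdLen
  rw [← mul_pow]
  norm_num

theorem re_at_dp_add (i : ℕ) (hi : i ≤ W.q) : W.dp W.q = W.dp i + (W.q - i) * W.m := by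
  unfold ReTw.dp
  obtain ⟨d, hd⟩ := Nat.exists_eq_add_of_le hi
  rw [hd, Nat.add_sub_cancel_left]
  ring

theorem re_at_hlR_eq (i : ℕ) (hi : i ≤ W.q) : rdLen (W.dp i) * W.R0 ^ 2 = 2 ^ ((W.q - i) * W.m) * p.H := by
  have h1 := re_at_hH_eq p.H p.H_pos (W.dp W.q)
  have h2 : rdLen (W.dp W.q) = rdLen (W.dp i) * rdLen ((W.q - i) * W.m) := by
    rw [← re_at_len_add, ← re_at_dp_add W i hi]
  have h3 := re_at_len_two ((W.q - i) * W.m)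
  show rdLen (W.dp i) * (rdD p.H (W.dp W.q)) ^ 2 = _
  rw [h2] at h1
  calc rdLen (W.dp i) * (rdD p.H (W.dp W.q)) ^ 2
      = (2 ^ ((W.q - i) * W.m) * rdLen ((W.q - i) * W.m)) * (rdLen (W.dp i) * (rdD p.H (W.dp W.q)) ^ 2) := by rw [h3, one_mul]
    _ = 2 ^ ((W.q - i) * W.m) * (rdLen (W.dp i) * rdLen ((W.q - i) * W.m) * rdD p.H (W.dp W.q) ^ 2) := by ring
    _ = _ := by rw [h1]

/-- `R0² = 2^((q-i) m) d_i²` -/
theorem re_at_R0_sq (i : ℕ) (hi : i ≤ W.q) : W.R0 ^ 2 = 2 ^ ((W.q - i) * W.m) * rdD p.H (W.dp i) ^ 2 := by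
  have h1 := re_at_hlR_eq W i hi
  have h2 := re_at_hH_eq p.H p.H_pos (W.dp i)
  have h3 := rdLen_pos (W.dp i)
  have : rdLen (W.dp i) * W.R0 ^ 2 = rdLen (W.dp i) * (2 ^ ((W.q - i) * W.m) * rdD p.H (W.dp i) ^ 2) := by
    rw [h1]
    calc 2 ^ ((W.q - i) * W.m) * p.H = 2 ^ ((W.q - i) * W.m) * (rdLen (W.dp i) * rdD p.H (W.dp i) ^ 2) := by rw [h2]
      _ = _ := by ring
  exact mul_left_cancel₀ h3.ne' this

theorem re_at_R0_pos : 0 < W.R0 := by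
  exact re_at_hd_pos p.H p.H_pos _

/-- `d_i = R0 2^(-(q-i) m / 2)` -/
theorem re_at_d_eq (i : ℕ) (hi : i ≤ W.q) : rdD p.H (W.dp i) = W.R0 * (2 : ℝ) ^ (-((((W.q - i) * W.m : ℕ) : ℝ) / 2)) := by
  have h1 := re_at_R0_sq W i hi
  have hd := re_at_hd_pos p.H p.H_pos (W.dp i)
  have hR := re_at_R0_pos W
  have hp : 0 < (2 : ℝ) ^ (-((((W.q - i) * W.m : ℕ) : ℝ) / 2)) := Real.rpow_pos_of_pos (by norm_num) _
  have h2 : ((2 : ℝ) ^ (-((((W.q - i) * W.m : ℕ) : ℝ) / 2))) ^ 2 * 2 ^ ((W.q - i) * W.m) = 1 := by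
    rw [← Real.rpow_natCast, ← Real.rpow_natCast, ← Real.rpow_mul (by norm_num), ← Real.rpow_add (by norm_num)]
    have : -((((W.q - i) * W.m : ℕ) : ℝ) / 2) * ((2 : ℕ) : ℝ) + (((W.q - i) * W.m : ℕ) : ℝ) = 0 := by
      push_cast
      ring
    rw [this, Real.rpow_zero]
  have h3 : rdD p.H (W.dp i) ^ 2 = (W.R0 * (2 : ℝ) ^ (-((((W.q - i) * W.m : ℕ) : ℝ) / 2))) ^ 2 := by
    rw [mul_pow, h1]
    calc rdD p.H (W.dp i) ^ 2 = rdD p.H (W.dp i) ^ 2 * (((2 : ℝ) ^ (-((((W.q - i) * W.m : ℕ) : ℝ) / 2))) ^ 2 * 2 ^ ((W.q - i) * W.m)) := by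
          rw [h2, mul_one]
      _ = _ := by ring
  exact (pow_left_inj₀ hd.le (mul_pos hR hp).le (by norm_num)).1 h3

/-- `H = ℓ d_ℓ²`   (`Real.sq_sqrt`, `rdLen_pos`) -/
theorem re_at_H_eq (H : ℝ) (hH : 0 < H) (k : ℕ) : rdLen k * rdD H k ^ 2 = H := by
  exact re_at_hH_eq H hH k

/-- `q_ℓ = ℓ d_ℓ`   (both sides are nonnegative with the same square) -/
theorem re_at_q_eq (H : ℝ) (hH : 0 < H) (k : ℕ) : rdQ H k = rdLen k * rdD H k := by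
  have h1 : 0 ≤ rdLen k * rdD H k := mul_nonneg (rdLen_pos k).le (re_at_hd_pos H hH k).le
  unfold rdQ
  rw [Real.sqrt_eq_iff_mul_self_eq (mul_pos hH (rdLen_pos k)).le h1]
  have := re_at_H_eq H hH k
  symm
  calc rdLen k * rdD H k * (rdLen k * rdD H k) = (rdLen k * rdD H k ^ 2) * rdLen k := by ring
    _ = H * rdLen k := by rw [this]

theorem re_at_d_pos (H : ℝ) (hH : 0 < H) (k : ℕ) : 0 < rdD H k := by
  exact re_at_hd_pos H hH k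

/-- `d_i ≤ R0`   (`Real.sqrt_le_sqrt`, `rdLen` antitone) -/
theorem re_at_d_le (i : ℕ) (hi : i ≤ W.q) : rdD p.H (W.dp i) ≤ W.R0 := by
  have h1 := re_at_R0_sq W i hi
  have hd := re_at_d_pos p.H p.H_pos (W.dp i)
  have hR := re_at_R0_pos W
  have hK : (1 : ℝ) ≤ 2 ^ ((W.q - i) * W.m) := one_le_pow₀ (by norm_num)
  refine (pow_le_pow_iff_left₀ hd.le hR.le (by norm_num : (2 : ℕ) ≠ 0)).1 ?_
  rw [h1]
  nlinarith [sq_nonneg (rdD p.H (W.dp i))]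

/-- crude form of `re_at_d_eq` without half-integer exponents:   `R0² = 2^((q-i) m) d_i²` and `√K ≤ K` for `K ≥ 1` -/
theorem re_at_R0_le (i : ℕ) (hi : i ≤ W.q) : W.R0 ≤ 2 ^ ((W.q - i) * W.m) * rdD p.H (W.dp i) := by
  have h1 := re_at_R0_sq W i hi
  have hd := re_at_d_pos p.H p.H_pos (W.dp i)
  have hR := re_at_R0_pos W
  have hK : (1 : ℝ) ≤ 2 ^ ((W.q - i) * W.m) := one_le_pow₀ (by norm_num)
  refine (pow_le_pow_iff_left₀ hR.le (mul_pos (by positivity) hd).le (by norm_num : (2 : ℕ) ≠ 0)).1 ?_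
  rw [h1, mul_pow]
  have : (2 : ℝ) ^ ((W.q - i) * W.m) ≤ (2 ^ ((W.q - i) * W.m)) ^ 2 := by nlinarith
  exact mul_le_mul_of_nonneg_right this (sq_nonneg _)

/-- `ℓ_i R0² = 2^((q-i) m) H` -/
theorem re_at_lR_eq (i : ℕ) (hi : i ≤ W.q) : rdLen (W.dp i) * W.R0 ^ 2 = 2 ^ ((W.q - i) * W.m) * p.H := by
  exact re_at_hlR_eq W i hi

/-! ## A1 -/

theorem re_at_meas_fc (i : ℕ) : Measurable (fun x : RdWvPar.Ph => W.fc i (RdWvPar.co 0 x)) := by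
  have hfl : ∀ (w : ℝ) (f : RdWvPar.Ph → ℝ), Measurable f → Measurable (fun x => reCell w (f x)) := by
    intro w f hf
    unfold reCell
    exact (hf.div_const w).floor
  have h11 : Measurable (fun x : RdWvPar.Ph => x.1.1) := measurable_fst.comp measurable_fst
  have h12 : Measurable (fun x : RdWvPar.Ph => x.1.2) := measurable_snd.comp measurable_fst
  have h21 : Measurable (fun x : RdWvPar.Ph => x.2.1.1) := measurable_fst.comp (measurable_fst.comp measurable_snd)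
  have h22 : Measurable (fun x : RdWvPar.Ph => x.2.1.2) := measurable_snd.comp (measurable_fst.comp measurable_snd)
  have h3 : Measurable (fun x : RdWvPar.Ph => x.2.2) := measurable_snd.comp measurable_snd
  have hc : ∀ (w : ℝ) (f : RdWvPar.Ph → ℝ), Measurable f → Measurable (fun x => ((reCell w (f x) : ℤ) : ℝ)) := by
    intro w f hf
    exact (measurable_from_top (f := fun z : ℤ => (z : ℝ))).comp (hfl w f hf)
  unfold ReTw.fc reCell2 reCor2 rtIp RdWvPar.co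
  refine Measurable.prodMk (Measurable.prodMk (hfl _ _ h11) (hfl _ _ h12))
    (Measurable.prodMk (Measurable.prodMk (hfl _ _ h21) (hfl _ _ h22)) (hfl _ _ ?_))
  exact h3.sub ((((hc _ _ h11).const_mul _).mul h21).add (((hc _ _ h12).const_mul _).mul h22) |>.const_mul 2)

/-- PLAN: `x ↦ W.fc i (co 0 x)` is measurable into the countable discrete type `ReFc` (`Int.measurable_floor`-type lemmas, continuity of the coordinates); every subset of `ReFc` is measurable. -/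
theorem re_at_meas_rs (i : ℕ) (T : Set (ℕ × ReFc)) (I : ℕ) : MeasurableSet (W.rs i T I) := by
  have : W.rs i T I = (fun x : RdWvPar.Ph => W.fc i (RdWvPar.co 0 x)) ⁻¹' {c | (I, c) ∈ T} := rfl
  rw [this]
  exact re_at_meas_fc W i (MeasurableSet.of_discrete)

theorem re_at_meas_fs (i : ℕ) (c : ReFc) : MeasurableSet (W.fs i c) := by
  have : W.fs i c = (fun x : RdWvPar.Ph => W.fc i (RdWvPar.co 0 x)) ⁻¹' {c} := rfl
  rw [this]
  exact re_at_meas_fc W i (MeasurableSet.of_discrete)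

/-- the selected rows of a peel selection as a finite union -/
theorem re_at_pS_eq (P : RePs) (I : ℕ) : P.S I = ⋃ u ∈ Finset.range P.nL, (if P.lI u = I then P.lR u else ∅) := by
  ext x
  simp only [RePs.S, Set.mem_ofPred_eq, Set.mem_iUnion, Finset.mem_range, exists_prop]
  constructor
  · rintro ⟨u, hu, h1, h2⟩
    exact ⟨u, hu, by rw [if_pos h1]; exact h2⟩
  · rintro ⟨u, hu, h2⟩
    by_cases h1 : P.lI u = I
    · rw [if_pos h1] at h2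
      exact ⟨u, hu, h1, h2⟩
    · rw [if_neg h1] at h2
      exact absurd h2 (Set.notMem_empty x)

theorem re_at_meas_pS {X : Xp (p.sys η)} {k : ℕ} {τ : ℝ} (P : RePs) (h : P.Ok X k τ) (I : ℕ) : MeasurableSet (P.S I) := by
  rw [re_at_pS_eq]
  refine Finset.measurableSet_biUnion _ fun u hu => ?_
  split_ifs
  · exact (h.lb u (Finset.mem_range.1 hu)).2.2.1
  · exact MeasurableSet.empty

/-- primed form: only the selection of the cut `i` is used -/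
theorem re_at_meas_S' {t : ℝ} (i : ℕ) (hs : (W.ps i).Ok (W.Ex (i - 1)) (W.dp i) t) (I : ℕ) : MeasurableSet (W.S i I) := by
  exact (re_at_meas_pS (W.ps i) hs I).inter (re_at_meas_rs W i _ I)

/-- PLAN: `(ps i).S I = ⋃ u ∈ Finset.range nL, if lI u = I then lR u else ∅`-type finite union, `((h.sel i h0 hi).lb u hu).2.2.1`; `re_at_meas_rs`. -/
theorem re_at_meas_S {hg C A : ℕ} {τ : ℝ} (h : W.Ok hg C A τ) (i : ℕ) (h0 : 0 < i) (hi : i ≤ hg) (I : ℕ) : MeasurableSet (W.S i I) := by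
  exact re_at_meas_S' W i (h.sel i h0 hi) I

/-! ## A2 -/

/-- PLAN: `reCell w (w * c) = c` for `0 < w` (`mul_div_cancel_left₀`, `Int.floor_intCast`); hence `reCor2 w` of the corner is the corner and the tilt cancels (`add_sub_cancel_right`). -/
theorem re_at_fc_fp (i : ℕ) (c : ReFc) : W.fc i (W.fp i c) = c := by
  have hcm : ∀ {w : ℝ}, 0 < w → ∀ c : ℤ, reCell w (w * c) = c := by
    intro w hw c
    unfold reCell
    rw [mul_div_cancel_left₀ _ hw.ne', Int.floor_intCast]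
  have hR := re_at_R0_pos W
  have hB := rdLen_pos W.B
  have hl := rdLen_pos (W.dp i)
  have w1 : 0 < W.R0 * rdLen W.B := by positivity
  have w2 : 0 < rdLen (W.dp i) * W.R0 * rdLen W.B := by positivity
  have w3 : 0 < rdLen (W.dp i) * W.R0 ^ 2 * rdLen W.B := by positivity
  obtain ⟨⟨c1, c2⟩, ⟨c3, c4⟩, c5⟩ := c
  simp only [ReTw.fc, ReTw.fp, reCell2, reCor2, hcm w1, hcm w2, add_sub_cancel_right, hcm w3]

/-! ## A3 -/

/-- coordinates of a vector with bounded normalised square -/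
theorem re_at_smul_abs {c M : ℝ} (hc : 0 < c) (hM : 0 ≤ M) {u : ℝ × ℝ} (h : rtSq (c⁻¹ • u) ≤ M ^ 2) : |u.1| ≤ M * c ∧ |u.2| ≤ M * c := by
  have h0 : rtSq (c⁻¹ • u) = (c⁻¹ * u.1) ^ 2 + (c⁻¹ * u.2) ^ 2 := rfl
  rw [h0] at h
  have h1 : |c⁻¹ * u.1| ≤ M := abs_le_of_sq_le_sq (by nlinarith [sq_nonneg (c⁻¹ * u.2)]) hM
  have h2 : |c⁻¹ * u.2| ≤ M := abs_le_of_sq_le_sq (by nlinarith [sq_nonneg (c⁻¹ * u.1)]) hM
  rw [abs_mul, abs_of_pos (inv_pos.2 hc), inv_mul_le_iff₀ hc, mul_comm] at h1 h2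
  exact ⟨h1, h2⟩

/-- the coordinates of the rows of the box of a test -/
theorem re_at_box_abs (τ : RtTest) (hl : 0 < τ.l) (hr : 0 < τ.r) {M : ℝ} (hM : 0 ≤ M) (x : RtRow) (hx : x ∈ τ.box M) :
    (|x.A.1 - τ.As.1| ≤ M * τ.r ∧ |x.A.2 - τ.As.2| ≤ M * τ.r) ∧ (|x.b.1 - τ.bs.1| ≤ M * (τ.l * τ.r) ∧ |x.b.2 - τ.bs.2| ≤ M * (τ.l * τ.r)) ∧
      |x.y - τ.ys - 2 * rtIp τ.As (x.b - τ.bs)| ≤ M * (τ.l * τ.r ^ 2) := by
  obtain ⟨h1, h2, h3⟩ := hx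
  refine ⟨re_at_smul_abs hr hM h3, re_at_smul_abs (mul_pos hl hr) hM h1, ?_⟩
  unfold RtTest.z at h2
  rwa [abs_div, abs_of_pos (by positivity : 0 < τ.l * τ.r ^ 2), div_le_iff₀ (by positivity)] at h2

/-- bounded numbers have finitely many cells -/
theorem re_at_cell_fin {w : ℝ} (hw : 0 < w) (M : ℝ) : {z : ℤ | ∃ a : ℝ, |a| ≤ M ∧ reCell w a = z}.Finite := by
  refine (Set.finite_Icc ⌊-M / w⌋ ⌊M / w⌋).subset ?_
  rintro z ⟨a, ha, rfl⟩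
  rw [abs_le] at ha
  exact ⟨Int.floor_le_floor (div_le_div_of_nonneg_right ha.1 hw.le), Int.floor_le_floor (div_le_div_of_nonneg_right ha.2 hw.le)⟩

theorem re_at_hcor_abs {w : ℝ} (hw : 0 < w) (a : ℝ) : |w * (reCell w a : ℝ) - a| ≤ w := by
  unfold reCell
  have h1 := Int.floor_le (a / w)
  have h2 := Int.lt_floor_add_one (a / w)
  rw [le_div_iff₀ hw] at h1
  rw [div_lt_iff₀ hw] at h2
  rw [abs_le]
  constructor <;> nlinarith

/-- the box of a test meets finitely many fine cells -/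
theorem re_at_box_fin (i : ℕ) (τ : RtTest) (hl : 0 < τ.l) (hr : 0 < τ.r) : (W.fc i '' τ.box 1).Finite := by
  have hR := re_at_R0_pos W
  have hB := rdLen_pos W.B
  have hli := rdLen_pos (W.dp i)
  have w1 : 0 < W.R0 * rdLen W.B := by positivity
  have w2 : 0 < rdLen (W.dp i) * W.R0 * rdLen W.B := by positivity
  have w3 : 0 < rdLen (W.dp i) * W.R0 ^ 2 * rdLen W.B := by positivity
  obtain ⟨MA, hMA⟩ : ∃ MA : ℝ, MA = |τ.As.1| + |τ.As.2| + τ.r := ⟨_, rfl⟩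
  obtain ⟨Mb, hMb⟩ : ∃ Mb : ℝ, Mb = |τ.bs.1| + |τ.bs.2| + τ.l * τ.r := ⟨_, rfl⟩
  obtain ⟨My, hMy⟩ : ∃ My : ℝ, My = |τ.ys| + 2 * (|τ.As.1| * (τ.l * τ.r) + |τ.As.2| * (τ.l * τ.r)) + τ.l * τ.r ^ 2
      + 2 * ((MA + W.R0 * rdLen W.B) * Mb + (MA + W.R0 * rdLen W.B) * Mb) := ⟨_, rfl⟩
  refine (((re_at_cell_fin w1 MA).prod (re_at_cell_fin w1 MA)).prod
    (((re_at_cell_fin w2 Mb).prod (re_at_cell_fin w2 Mb)).prod (re_at_cell_fin w3 My))).subset ?_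
  rintro c ⟨x, hx, rfl⟩
  obtain ⟨⟨a1, a2⟩, ⟨b1, b2⟩, y1⟩ := re_at_box_abs τ hl hr zero_le_one x hx
  rw [one_mul] at a1 a2 b1 b2 y1
  have hA1 : |x.A.1| ≤ MA := by
    have := abs_sub_abs_le_abs_sub x.A.1 τ.As.1
    have := abs_nonneg τ.As.2
    linarith
  have hA2 : |x.A.2| ≤ MA := by
    have := abs_sub_abs_le_abs_sub x.A.2 τ.As.2
    have := abs_nonneg τ.As.1
    linarith
  have hb1 : |x.b.1| ≤ Mb := by
    have := abs_sub_abs_le_abs_sub x.b.1 τ.bs.1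
    have := abs_nonneg τ.bs.2
    linarith
  have hb2 : |x.b.2| ≤ Mb := by
    have := abs_sub_abs_le_abs_sub x.b.2 τ.bs.2
    have := abs_nonneg τ.bs.1
    linarith
  refine ⟨⟨⟨_, hA1, rfl⟩, ⟨_, hA2, rfl⟩⟩, ⟨⟨_, hb1, rfl⟩, ⟨_, hb2, rfl⟩⟩, ⟨_, ?_, rfl⟩⟩
  have hc1 : |W.R0 * rdLen W.B * (reCell (W.R0 * rdLen W.B) x.A.1 : ℝ)| ≤ MA + W.R0 * rdLen W.B := by
    have h1 := re_at_hcor_abs w1 x.A.1
    have h2 := abs_sub_abs_le_abs_sub (W.R0 * rdLen W.B * (reCell (W.R0 * rdLen W.B) x.A.1 : ℝ)) x.A.1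
    linarith
  have hc2 : |W.R0 * rdLen W.B * (reCell (W.R0 * rdLen W.B) x.A.2 : ℝ)| ≤ MA + W.R0 * rdLen W.B := by
    have h1 := re_at_hcor_abs w1 x.A.2
    have h2 := abs_sub_abs_le_abs_sub (W.R0 * rdLen W.B * (reCell (W.R0 * rdLen W.B) x.A.2 : ℝ)) x.A.2
    linarith
  have hMb0 : 0 ≤ Mb := (abs_nonneg _).trans hb1
  have hp1 : |W.R0 * rdLen W.B * (reCell (W.R0 * rdLen W.B) x.A.1 : ℝ) * x.b.1| ≤ (MA + W.R0 * rdLen W.B) * Mb := by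
    rw [abs_mul]
    exact mul_le_mul hc1 hb1 (abs_nonneg _) ((abs_nonneg _).trans hc1)
  have hp2 : |W.R0 * rdLen W.B * (reCell (W.R0 * rdLen W.B) x.A.2 : ℝ) * x.b.2| ≤ (MA + W.R0 * rdLen W.B) * Mb := by
    rw [abs_mul]
    exact mul_le_mul hc2 hb2 (abs_nonneg _) ((abs_nonneg _).trans hc2)
  have hq1 : |τ.As.1 * (x.b.1 - τ.bs.1)| ≤ |τ.As.1| * (τ.l * τ.r) := by
    rw [abs_mul]
    exact mul_le_mul_of_nonneg_left b1 (abs_nonneg _)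
  have hq2 : |τ.As.2 * (x.b.2 - τ.bs.2)| ≤ |τ.As.2| * (τ.l * τ.r) := by
    rw [abs_mul]
    exact mul_le_mul_of_nonneg_left b2 (abs_nonneg _)
  have y2 : |x.y - τ.ys - 2 * (τ.As.1 * (x.b.1 - τ.bs.1) + τ.As.2 * (x.b.2 - τ.bs.2))| ≤ τ.l * τ.r ^ 2 := y1
  show |x.y - 2 * (W.R0 * rdLen W.B * (reCell (W.R0 * rdLen W.B) x.A.1 : ℝ) * x.b.1
    + W.R0 * rdLen W.B * (reCell (W.R0 * rdLen W.B) x.A.2 : ℝ) * x.b.2)| ≤ My
  rw [hMy]
  have hys := le_abs_self τ.ys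
  have hys' := neg_abs_le τ.ys
  rw [abs_le] at hp1 hp2 hq1 hq2 y2 ⊢
  constructor <;> linarith [hp1.1, hp1.2, hp2.1, hp2.2, hq1.1, hq1.2, hq2.1, hq2.2, y2.1, y2.2]

/-- primed form: only the selection of the cut `i` is used -/
theorem re_at_chg_fin' {t : ℝ} (i : ℕ) (hs : (W.ps i).Ok (W.Ex (i - 1)) (W.dp i) t) : (W.chg i).Finite := by
  have hF : (⋃ u ∈ Finset.range (W.ps i).nL, W.fc i '' (((W.ps i).lQ u).toT (W.dp i)).box 1).Finite := by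
    refine Set.Finite.biUnion (Finset.finite_toSet _) fun u hu => ?_
    have hok : (((W.ps i).lQ u).toT (W.dp i)).Adm 1 := (hs.lb u (Finset.mem_range.1 hu)).2.1.1
    exact re_at_box_fin W i _ hok.l_pos hok.r_pos
  refine ((Finset.finite_toSet (W.iv i)).prod hF).subset ?_
  rintro ⟨I, c⟩ ⟨hI, hpos⟩
  refine ⟨hI, ?_⟩
  have hne : (W.S i I ∩ W.fs i c).Nonempty := by
    by_contra hne
    rw [Set.not_nonempty_iff_eq_empty] at hne
    have : W.am i (I, c) = 0 := by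
      have key : ∀ U : Set (p.sys η).X, U = ∅ → (p.sys η).ms (tmL (W.dp i) I) (W.dp i) (W.ps i).gb U (W.pre i I) = 0 := by
        intro U hU
        rw [hU]
        exact gn_ms_empty (P := p.sys η) _ _ _ _
      exact key _ hne
    rw [this] at hpos
    exact lt_irrefl _ hpos
  obtain ⟨x, hxS, hxc⟩ := hne
  obtain ⟨u, hu, _, hxR⟩ := hxS.1
  have hxu := (hs.lb u hu).2.2.2.1 hxR
  simp only [Set.mem_iUnion, Finset.mem_range, exists_prop]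
  exact ⟨u, hu, RdWvPar.co 0 x, hxu.1, hxc⟩

/-- PLAN: a charged atom `(I, c)` has `I ∈ iv i` (finite) and its cell meets `(ps i).S I ⊆ ⋃_u cell (lQ u)`; `(Q.toT k).set 1 ⊆ box 1` is bounded in `(A, b, y)`; the image under `fc` of a bounded set is finite.
DETAILS: `0 < am i (I, c)` ⟹ `S i I ∩ fs i c ≠ ∅` (`gn_ms_empty`).   `chg i ⊆ (iv i) ×ˢ ⋃ u < nL, fc i '' ((lQ u).toT k).box 1`.   In `box 1` of an `Adm 1` test: `|A_j - As_j| ≤ r`, `|b_j - bs_j| ≤ ℓ r`, `|y - ys - 2 As·(b - bs)| ≤ ℓ r²`, so all of `A_j, b_j, y`, the corner `reCor2 w A` (`|w ⌊a/w⌋ - a| ≤ w`) and the tilted coordinate are bounded by one constant `M`;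
`|a| ≤ M ⟹ ⌊a / w⌋ ∈ Set.Icc ⌊-M/w⌋ ⌊M/w⌋` (`Int.floor_le_floor`), `Set.finite_Icc`, `Set.Finite.prod`, `Set.Finite.subset`. -/
theorem re_at_chg_fin {hg C A : ℕ} {τ : ℝ} (h : W.Ok hg C A τ) (i : ℕ) (h0 : 0 < i) (hi : i ≤ hg) : (W.chg i).Finite := by
  exact re_at_chg_fin' W i (h.sel i h0 hi)

/-- primed form: only the selection of the cut `i` is used -/
theorem re_at_mem_ats' {t : ℝ} (i : ℕ) (hs : (W.ps i).Ok (W.Ex (i - 1)) (W.dp i) t) (a : ℕ × ReFc) :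
    a ∈ W.ats i ↔ a.1 ∈ W.iv i ∧ 0 < W.am i a := by
  unfold ReTw.ats
  rw [dif_pos (re_at_chg_fin' W i hs), Set.Finite.mem_toFinset]
  rfl

theorem re_at_mem_ats {hg C A : ℕ} {τ : ℝ} (h : W.Ok hg C A τ) (i : ℕ) (h0 : 0 < i) (hi : i ≤ hg) (a : ℕ × ReFc) :
    a ∈ W.ats i ↔ a.1 ∈ W.iv i ∧ 0 < W.am i a := by
  exact re_at_mem_ats' W i (h.sel i h0 hi) a

/-! ## A4 -/

theorem re_at_ats_pos (i : ℕ) (a : ℕ × ReFc) (ha : a ∈ W.ats i) : a.1 ∈ W.iv i ∧ 0 < W.am i a := by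
  unfold ReTw.ats at ha
  split_ifs at ha with hf
  · exact hf.mem_toFinset.1 ha
  · exact absurd ha (Finset.notMem_empty a)

theorem re_at_doc_sum (i : ℕ) (f : ℕ × ReFc → ℝ) : ∑ ω : W.doc.Row i, f ω.1 = ∑ a ∈ W.ats i, f a := by
  rw [← Finset.sum_coe_sort (W.ats i) f]
  rfl

theorem re_at_doc_mass (i : ℕ) (S : W.doc.Row i → Prop) :
    W.doc.mass i S = ∑ a ∈ (W.ats i).filter (fun a => a ∈ {a | ∃ ha : a ∈ W.ats i, S ⟨a, ha⟩}), W.am i a := by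
  rw [Finset.sum_filter, ← re_at_doc_sum]
  unfold ReDoc.mass
  refine Finset.sum_congr rfl fun ω _ => ?_
  have : (ω.1 ∈ {a | ∃ ha : a ∈ W.ats i, S ⟨a, ha⟩}) ↔ S ω := by
    constructor
    · rintro ⟨ha, hs⟩
      exact hs
    · intro hs
      exact ⟨ω.2, hs⟩
  by_cases hs : S ω
  · rw [if_pos hs, if_pos (this.2 hs)]
    rfl
  · rw [if_neg hs, if_neg (fun h => hs (this.1 h))]

/-- a finite measure, a countable partition, finitely many charged fibres -/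
theorem re_at_fib_sum {X γ : Type} [MeasurableSpace X] [MeasurableSpace γ] [Countable γ] [MeasurableSingletonClass γ]
    (μ : Measure X) [IsFiniteMeasure μ] (f : X → γ) (hf : Measurable f) (S : Set X) (hS : MeasurableSet S) (T : Set γ) (F : Finset γ)
    (hFT : ∀ c ∈ F, c ∈ T) (h0 : ∀ c ∈ T, c ∉ F → μ.real (S ∩ f ⁻¹' {c}) = 0) :
    μ.real (S ∩ f ⁻¹' T) = ∑ c ∈ F, μ.real (S ∩ f ⁻¹' {c}) := by
  have hN : μ (⋃ c ∈ T \ (F : Set γ), S ∩ f ⁻¹' {c}) = 0 := by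
    rw [measure_biUnion_null_iff (Set.to_countable _)]
    intro c hc
    exact (measureReal_eq_zero_iff).1 (h0 c hc.1 hc.2)
  have h1 : (S ∩ f ⁻¹' T) \ (⋃ c ∈ T \ (F : Set γ), S ∩ f ⁻¹' {c}) = ⋃ c ∈ F, S ∩ f ⁻¹' {c} := by
    ext x
    simp only [Set.mem_sdiff, Set.mem_inter_iff, Set.mem_preimage, Set.mem_iUnion, Set.mem_singleton_iff, Finset.mem_coe, exists_prop,
      not_exists, not_and]
    constructor
    · rintro ⟨⟨hxS, hxT⟩, hx⟩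
      refine ⟨f x, ?_, hxS, rfl⟩
      by_contra hF
      exact hx (f x) ⟨hxT, hF⟩ hxS rfl
    · rintro ⟨c, hc, hxS, rfl⟩
      exact ⟨⟨hxS, hFT _ hc⟩, fun c' hc' _ h => hc'.2 (h ▸ hc)⟩
  have h2 : μ (S ∩ f ⁻¹' T) = μ (⋃ c ∈ F, S ∩ f ⁻¹' {c}) := by rw [← h1, measure_sdiff_null hN]
  rw [measureReal_def, h2, ← measureReal_def, measureReal_biUnion_finset]
  · intro c _ c' _ hne
    refine Set.disjoint_left.2 fun x hx hx' => hne ?_
    exact hx.2.symm.trans hx'.2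
  · intro c _
    exact hS.inter (hf (measurableSet_singleton c))

/-- primed form: only the selection of the cut `i` is used -/
theorem re_at_rm_rs' {t : ℝ} (i : ℕ) (hs : (W.ps i).Ok (W.Ex (i - 1)) (W.dp i) t) (T : Set (ℕ × ReFc)) (I : ℕ) (hI : I ∈ W.iv i) :
    W.rm i I (W.rs i T I) = ∑ a ∈ ((W.ats i).filter (fun a => a ∈ T)).filter (fun a => a.1 = I), W.am i a := by
  have hfin := gn_mu_finite (P := p.sys η) (tmL (W.dp i) I) (W.dp i) (W.ps i).gb (W.pre i I)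
  have hS := re_at_meas_S' W i hs I
  have hms : ∀ U : Set RdWvPar.Ph, MeasurableSet U →
      W.rm i I U = ((p.sys η).mu (tmL (W.dp i) I) (W.dp i) (W.ps i).gb (W.pre i I)).real (W.S i I ∩ U) := fun U hU =>
    gn_ms_eq_mu (P := p.sys η) _ _ _ (hS.inter hU) _
  obtain ⟨F, hF⟩ : ∃ F : Finset ReFc, F = (((W.ats i).filter (fun a => a ∈ T)).filter (fun a => a.1 = I)).image Prod.snd := ⟨_, rfl⟩
  have hFm : ∀ c, c ∈ F ↔ (I, c) ∈ W.ats i ∧ (I, c) ∈ T := by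
    intro c
    rw [hF]
    simp only [Finset.mem_image, Finset.mem_filter]
    constructor
    · rintro ⟨⟨I', c'⟩, ⟨⟨h1, h2⟩, h3⟩, h4⟩
      simp only at h3 h4
      subst h3 h4
      exact ⟨h1, h2⟩
    · rintro ⟨h1, h2⟩
      exact ⟨(I, c), ⟨⟨h1, h2⟩, rfl⟩, rfl⟩
  have key := re_at_fib_sum ((p.sys η).mu (tmL (W.dp i) I) (W.dp i) (W.ps i).gb (W.pre i I))
    (fun x : RdWvPar.Ph => W.fc i (RdWvPar.co 0 x)) (re_at_meas_fc W i) (W.S i I) hS {c | (I, c) ∈ T} F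
    (fun c hc => ((hFm c).1 hc).2) (by
      intro c hcT hcF
      have h1 : (I, c) ∉ W.ats i := fun h1 => hcF ((hFm c).2 ⟨h1, hcT⟩)
      rw [re_at_mem_ats' W i hs] at h1
      have h2 : ¬ 0 < W.am i (I, c) := fun h2 => h1 ⟨hI, h2⟩
      have h3 : 0 ≤ W.am i (I, c) := gn_ms_nonneg (P := p.sys η) _ _ _ _ _
      have h4 : W.am i (I, c) = 0 := le_antisymm (not_lt.1 h2) h3
      rw [← h4]
      exact (hms _ (re_at_meas_fs W i c)).symm)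
  rw [hms _ (re_at_meas_rs W i T I)]
  refine Eq.trans key ?_
  rw [hF, Finset.sum_image]
  · refine Finset.sum_congr rfl fun a ha => ?_
    have ha1 : a.1 = I := (Finset.mem_filter.1 ha).2
    obtain ⟨I', c⟩ := a
    simp only at ha1
    subst ha1
    exact (hms _ (re_at_meas_fs W i c)).symm
  · intro a ha a' ha' haa
    rw [Finset.mem_coe] at ha ha'
    exact Prod.ext ((Finset.mem_filter.1 ha).2.trans (Finset.mem_filter.1 ha').2.symm) haa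

/-- one interval -/
theorem re_at_rm_rs {hg C A : ℕ} {τ : ℝ} (h : W.Ok hg C A τ) (i : ℕ) (h0 : 0 < i) (hi : i ≤ hg) (T : Set (ℕ × ReFc)) (I : ℕ) (hI : I ∈ W.iv i) :
    W.rm i I (W.rs i T I) = ∑ a ∈ ((W.ats i).filter (fun a => a ∈ T)).filter (fun a => a.1 = I), W.am i a := by
  exact re_at_rm_rs' W i (h.sel i h0 hi) T I hI

/-- primed form: only the selection of the cut `i` is used -/
theorem re_at_rt_rs' {t : ℝ} (i : ℕ) (hs : (W.ps i).Ok (W.Ex (i - 1)) (W.dp i) t) (T : Set (ℕ × ReFc)) :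
    W.rt i (W.rs i T) = ∑ a ∈ (W.ats i).filter (fun a => a ∈ T), W.am i a := by
  rw [← Finset.sum_fiberwise_of_maps_to (t := W.iv i) (g := Prod.fst)
    (fun a ha => ((re_at_mem_ats' W i hs a).1 (Finset.mem_filter.1 ha).1).1)]
  exact Finset.sum_congr rfl fun I hI => re_at_rm_rs' W i hs T I hI

/-- PLAN: `gn_ms_eq_mu`: `U ↦ rm i I U` is a finite measure restricted to `S i I`; the cells `fs i c` partition the rows (countably many); uncharged cells are null.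
DETAILS: fix `I ∈ iv i`, `μ := (p.sys η).mu ..` (`gn_mu_finite`).   `S i I ∩ rs i T I = (⋃ c ∈ F, S i I ∩ fs i c) ∪ N`, `F` := the finset of the `c` with `(I, c) ∈ ats i ∧ (I, c) ∈ T`, `N ⊆ ⋃ c ∉ F.., S i I ∩ fs i c` a COUNTABLE union of null sets (`measure_iUnion_null`; `am = 0` by `re_at_mem_ats`, `gn_ms_nonneg`);
`measure_biUnion_finset` for the disjoint cells.   Then `∑ I ∈ iv i, ∑ c ∈ F I = ∑ a ∈ ats.filter` (`Finset.sum_fiberwise_of_maps_to` / `Finset.sum_sigma'`, `a.1 ∈ iv i`). -/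
theorem re_at_rt_rs {hg C A : ℕ} {τ : ℝ} (h : W.Ok hg C A τ) (i : ℕ) (h0 : 0 < i) (hi : i ≤ hg) (T : Set (ℕ × ReFc)) :
    W.rt i (W.rs i T) = ∑ a ∈ (W.ats i).filter (fun a => a ∈ T), W.am i a := by
  exact re_at_rt_rs' W i (h.sel i h0 hi) T

/-- primed form: only the selection of the cut `i` is used -/
theorem re_at_rt_univ' {t : ℝ} (i : ℕ) (hs : (W.ps i).Ok (W.Ex (i - 1)) (W.dp i) t) :
    W.rt i (fun _ => Set.univ) = ∑ a ∈ W.ats i, W.am i a := by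
  have h1 : (fun _ : ℕ => (Set.univ : Set RdWvPar.Ph)) = W.rs i Set.univ := by
    funext I
    ext x
    simp [ReTw.rs]
  rw [h1, re_at_rt_rs' W i hs]
  refine Finset.sum_congr ?_ fun _ _ => rfl
  ext a
  simp

theorem re_at_rt_univ {hg C A : ℕ} {τ : ℝ} (h : W.Ok hg C A τ) (i : ℕ) (h0 : 0 < i) (hi : i ≤ hg) :
    W.rt i (fun _ => Set.univ) = ∑ a ∈ W.ats i, W.am i a := by
  exact re_at_rt_univ' W i (h.sel i h0 hi)

/-! ## A5 -/

theorem re_at_mass' {t : ℝ} (i : ℕ) (hs : (W.ps i).Ok (W.Ex (i - 1)) (W.dp i) t) (S : W.doc.Row i → Prop) :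
    W.doc.mass i S = W.rt i (W.rs i {a | ∃ ha : a ∈ W.ats i, S ⟨a, ha⟩}) := by
  rw [re_at_rt_rs' W i hs, re_at_doc_mass]
  refine Finset.sum_congr ?_ fun _ _ => rfl
  ext a
  simp only [Finset.mem_filter]

theorem re_at_mass {hg C A : ℕ} {τ : ℝ} (h : W.Ok hg C A τ) (i : ℕ) (h0 : 0 < i) (hi : i ≤ hg) (S : W.doc.Row i → Prop) :
    W.doc.mass i S = W.rt i (W.rs i {a | ∃ ha : a ∈ W.ats i, S ⟨a, ha⟩}) :=
  re_at_mass' W i (h.sel i h0 hi) S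

theorem re_at_doc_tot (i : ℕ) : W.doc.tot i = ∑ a ∈ W.ats i, W.am i a := by
  rw [← re_at_doc_sum]
  rfl

theorem re_at_tot' {t : ℝ} (i : ℕ) (hs : (W.ps i).Ok (W.Ex (i - 1)) (W.dp i) t) :
    W.doc.tot i = W.rt i fun _ => Set.univ := by
  rw [re_at_rt_univ' W i hs, re_at_doc_tot]

theorem re_at_tot {hg C A : ℕ} {τ : ℝ} (h : W.Ok hg C A τ) (i : ℕ) (h0 : 0 < i) (hi : i ≤ hg) :
    W.doc.tot i = W.rt i fun _ => Set.univ :=
  re_at_tot' W i (h.sel i h0 hi)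

/-- flatness of the document = flatness on the atoms -/
theorem re_at_flat {α : Type} (i : ℕ) (X : ℕ × ReFc → α) (x t : ℝ) : W.doc.Flat i (fun ω => X ω.1) x t ↔ W.FlatT i X x t := by
  have h1 : W.doc.nval i (fun ω => X ω.1) = ((W.ats i).image X).card := by
    unfold ReDoc.nval
    congr 1
    ext v
    simp only [Finset.mem_image, Finset.mem_filter, Finset.mem_univ, true_and]
    constructor
    · rintro ⟨ω, _, rfl⟩
      exact ⟨ω.1, ω.2, rfl⟩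
    · rintro ⟨a, ha, rfl⟩
      exact ⟨⟨a, ha⟩, (re_at_ats_pos W i a ha).2, rfl⟩
  have h2 : ∀ v : α, W.doc.mass i (fun ω => X ω.1 = v) = ∑ a ∈ (W.ats i).filter (fun a => X a = v), W.am i a := by
    intro v
    rw [re_at_doc_mass]
    refine Finset.sum_congr ?_ fun _ _ => rfl
    ext a
    simp only [Finset.mem_filter, Set.mem_ofPred_eq]
    constructor
    · rintro ⟨ha, _, hv⟩
      exact ⟨ha, hv⟩
    · rintro ⟨ha, hv⟩
      exact ⟨ha, ha, hv⟩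
  unfold ReDoc.Flat ReTw.FlatT
  rw [h1, re_at_doc_tot]
  simp only [h2]
  rfl

theorem re_at_nm (b i j : ℕ) (ω : W.doc.Row b) : W.doc.nm b i j ω = W.nmT b i j ω.1 := by
  rfl

theorem re_at_an (b w : ℕ) (ω : W.doc.Row b) : W.doc.an b w ω = W.anT b w ω.1 := by
  rfl

/-! ## A6 -/

/-- two points of one cell   (`Int.floor_eq_iff` / `Int.floor_le`, `Int.lt_floor_add_one` for both, multiply by `w`) -/
theorem re_at_cell_abs {w a a' : ℝ} (hw : 0 < w) (h : reCell w a = reCell w a') : |a' - a| ≤ w := by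
  unfold reCell at h
  have h1 := Int.floor_le (a / w)
  have h2 := Int.lt_floor_add_one (a / w)
  have h3 := Int.floor_le (a' / w)
  have h4 := Int.lt_floor_add_one (a' / w)
  rw [h] at h1 h2
  rw [le_div_iff₀ hw] at h1 h3
  rw [div_lt_iff₀ hw] at h2 h4
  rw [abs_le]
  constructor <;> nlinarith

/-- the corner is within `w` -/
theorem re_at_cor_abs {w : ℝ} (hw : 0 < w) (a : ℝ) : |w * (reCell w a : ℝ) - a| ≤ w := by
  unfold reCell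
  have h1 := Int.floor_le (a / w)
  have h2 := Int.lt_floor_add_one (a / w)
  rw [le_div_iff₀ hw] at h1
  rw [div_lt_iff₀ hw] at h2
  rw [abs_le]
  constructor <;> nlinarith

theorem re_at_abs_mul {a b A B : ℝ} (ha : |a| ≤ A) (hb : |b| ≤ B) : |a * b| ≤ A * B := by
  rw [abs_mul]
  exact mul_le_mul ha hb (abs_nonneg _) ((abs_nonneg _).trans ha)

/-- coordinates of a vector with bounded square -/
theorem re_at_sq_abs {M : ℝ} (hM : 0 ≤ M) {u : ℝ × ℝ} (h : rtSq u ≤ M ^ 2) : |u.1| ≤ M ∧ |u.2| ≤ M := by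
  unfold rtSq at h
  exact ⟨abs_le_of_sq_le_sq (by nlinarith [sq_nonneg u.2]) hM, abs_le_of_sq_le_sq (by nlinarith [sq_nonneg u.1]) hM⟩

theorem re_at_pert_q (X e ε : ℝ) (h1 : ε ≤ 1) (hX : |X| ≤ 1) (he : |e| ≤ ε) : |e * (2 * X + e)| ≤ ε * 3 := by
  refine re_at_abs_mul he ?_
  rw [abs_le] at hX he ⊢
  constructor <;> linarith [hX.1, hX.2, he.1, he.2]

theorem re_at_pert_F (a1 a2 be k X1 X2 e1 e2 ez ε : ℝ) (h1 : ε ≤ 1)
    (ha1 : |a1| ≤ 100) (ha2 : |a2| ≤ 100) (hbe : |be| ≤ 100) (hk : |k| ≤ 100) (hX1 : |X1| ≤ 1) (hX2 : |X2| ≤ 1)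
    (he1 : |e1| ≤ ε) (he2 : |e2| ≤ ε) (hez : |ez| ≤ ε) :
    |a1 * e1 + a2 * e2 + be * ez - k * (e1 * (2 * X1 + e1) + e2 * (2 * X2 + e2))| ≤ 900 * ε := by
  have t1 := re_at_abs_mul ha1 he1
  have t2 := re_at_abs_mul ha2 he2
  have t3 := re_at_abs_mul hbe hez
  have t4 := re_at_abs_mul hk (re_at_pert_q X1 e1 ε h1 hX1 he1)
  have t5 := re_at_abs_mul hk (re_at_pert_q X2 e2 ε h1 hX2 he2)
  rw [abs_le] at t1 t2 t3 t4 t5 ⊢
  constructor <;> linarith [t1.1, t1.2, t2.1, t2.2, t3.1, t3.2, t4.1, t4.2, t5.1, t5.2]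

theorem re_at_pert_G (a1 a2 be k X1 X2 V1 V2 e1 e2 ez v1 v2 ε : ℝ) (h1 : ε ≤ 1)
    (ha1 : |a1| ≤ 100) (ha2 : |a2| ≤ 100) (hbe : |be| ≤ 100) (hk : |k| ≤ 100) (hX1 : |X1| ≤ 1) (hX2 : |X2| ≤ 1)
    (hV1 : |V1| ≤ 1) (hV2 : |V2| ≤ 1) (he1 : |e1| ≤ ε) (he2 : |e2| ≤ ε) (hez : |ez| ≤ ε) (hv1 : |v1| ≤ ε) (hv2 : |v2| ≤ ε) :
    |k * ez + (v1 * a1 + v2 * a2) - 2 * (k * (v1 * (X1 + e1)) + k * (v2 * (X2 + e2))) - 2 * (k * (V1 * e1) + k * (V2 * e2))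
      + be * (v1 * (2 * V1 + v1) + v2 * (2 * V2 + v2))| ≤ 2100 * ε := by
  have hs1 : |X1 + e1| ≤ 2 := by
    rw [abs_le] at hX1 he1 ⊢
    constructor <;> linarith [hX1.1, hX1.2, he1.1, he1.2]
  have hs2 : |X2 + e2| ≤ 2 := by
    rw [abs_le] at hX2 he2 ⊢
    constructor <;> linarith [hX2.1, hX2.2, he2.1, he2.2]
  have t1 := re_at_abs_mul hk hez
  have t2 := re_at_abs_mul hv1 ha1
  have t3 := re_at_abs_mul hv2 ha2
  have t4 := re_at_abs_mul hk (re_at_abs_mul hv1 hs1)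
  have t5 := re_at_abs_mul hk (re_at_abs_mul hv2 hs2)
  have t6 := re_at_abs_mul hk (re_at_abs_mul hV1 he1)
  have t7 := re_at_abs_mul hk (re_at_abs_mul hV2 he2)
  have t8 := re_at_abs_mul hbe (re_at_pert_q V1 v1 ε h1 hV1 hv1)
  have t9 := re_at_abs_mul hbe (re_at_pert_q V2 v2 ε h1 hV2 hv2)
  rw [abs_le] at t1 t2 t3 t4 t5 t6 t7 t8 t9 ⊢
  constructor <;> linarith [t1.1, t1.2, t2.1, t2.2, t3.1, t3.2, t4.1, t4.2, t5.1, t5.2, t6.1, t6.2, t7.1, t7.2, t8.1, t8.2, t9.1, t9.2]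

theorem re_at_pert_n {c a ε : ℝ} (hc : 0 < c) (h : |a| ≤ ε * c) : |c⁻¹ * a| ≤ ε := by
  rw [abs_mul, abs_of_pos (inv_pos.2 hc), inv_mul_le_iff₀ hc, mul_comm]
  exact h

theorem re_at_pert_b {X1 X2 e1 e2 ε : ℝ} (h1 : ε ≤ 1 / 4) (hX1 : |X1| ≤ 1) (hX2 : |X2| ≤ 1) (he1 : |e1| ≤ ε) (he2 : |e2| ≤ ε) :
    (X1 + e1) ^ 2 + (X2 + e2) ^ 2 ≤ 2 ^ 2 := by
  have hs1 : |X1 + e1| ≤ 5 / 4 := by
    rw [abs_le] at hX1 he1 ⊢
    constructor <;> linarith [hX1.1, hX1.2, he1.1, he1.2]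
  have hs2 : |X2 + e2| ≤ 5 / 4 := by
    rw [abs_le] at hX2 he2 ⊢
    constructor <;> linarith [hX2.1, hX2.2, he2.1, he2.2]
  have q1 : (X1 + e1) ^ 2 ≤ (5 / 4) ^ 2 := sq_le_sq' (abs_le.1 hs1).1 (abs_le.1 hs1).2
  have q2 : (X2 + e2) ^ 2 ≤ (5 / 4) ^ 2 := sq_le_sq' (abs_le.1 hs2).1 (abs_le.1 hs2).2
  linarith

/-- **ABSTRACT PERTURBATION OF A TEST** (no tower).   In normalised coordinates `|δV_j|, |δx_j|, |δz| ≤ ε ≤ 1/4000`.
box: `|x'|² ≤ (1 + √2 ε)² ≤ 4`, etc.   `δF = α·δx + β δz - k (|x'|² - |x|²)`: `|δF| ≤ (142 + 100 + 425) ε`.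
`δG = k δz + δV·(α - 2k x') - 2k V·δx + β (|V'|² - |V|²)`: `|δG| ≤ (100 + 710 + 283 + 425) ε`.   So `|F'| ≤ f + 4000 ε ≤ 2 f`.
HINT: set `X = τ.x x`, `X' = τ.x x'`.. as pairs of reals, get `|X'.1 - X.1| ≤ ε` by `div_le_iff`, coefficient bounds `|α_j| ≤ 100` from `rtSq al ≤ 100²`, then `abs_le` + `nlinarith`, one monomial at a time. -/
theorem re_at_pert (τ : RtTest) (hτ : τ.Adm 1) (ε : ℝ) (h0 : 0 ≤ ε) (hε : 4000 * ε ≤ τ.f) (x x' : RtRow)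
    (hA1 : |x'.A.1 - x.A.1| ≤ ε * τ.r) (hA2 : |x'.A.2 - x.A.2| ≤ ε * τ.r)
    (hb1 : |x'.b.1 - x.b.1| ≤ ε * (τ.l * τ.r)) (hb2 : |x'.b.2 - x.b.2| ≤ ε * (τ.l * τ.r))
    (hy : |x'.y - x.y - 2 * rtIp τ.As (x'.b - x.b)| ≤ ε * (τ.l * τ.r ^ 2)) (hx : x ∈ τ.set 1) : x' ∈ τ.set 2 := by
  have hl := hτ.l_pos
  have hr := hτ.r_pos
  have hf1 := hτ.f_le
  obtain ⟨_, _, hal, hbe, hk⟩ := hτ.bd
  rw [mul_one] at hal hbe hk
  obtain ⟨ha1, ha2⟩ := re_at_sq_abs (by norm_num) hal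
  obtain ⟨⟨hX, hz, hV⟩, hF, hG⟩ := hx
  rw [one_mul] at hF hG
  obtain ⟨hX1, hX2⟩ := re_at_sq_abs zero_le_one hX
  obtain ⟨hV1, hV2⟩ := re_at_sq_abs zero_le_one hV
  have hε1 : ε ≤ 1 / 4 := by linarith
  have hε2 : ε ≤ 1 := by linarith
  have hlr : 0 < τ.l * τ.r := mul_pos hl hr
  have hlr2 : 0 < τ.l * τ.r ^ 2 := by positivity
  -- the perturbations
  have e1 : |(τ.x x').1 - (τ.x x).1| ≤ ε := by
    have : (τ.x x').1 - (τ.x x).1 = (τ.l * τ.r)⁻¹ * (x'.b.1 - x.b.1) := by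
      simp only [RtTest.x, Prod.smul_fst, Prod.fst_sub, smul_eq_mul]
      ring
    rw [this]
    exact re_at_pert_n hlr hb1
  have e2 : |(τ.x x').2 - (τ.x x).2| ≤ ε := by
    have : (τ.x x').2 - (τ.x x).2 = (τ.l * τ.r)⁻¹ * (x'.b.2 - x.b.2) := by
      simp only [RtTest.x, Prod.smul_snd, Prod.snd_sub, smul_eq_mul]
      ring
    rw [this]
    exact re_at_pert_n hlr hb2
  have v1 : |(τ.V x').1 - (τ.V x).1| ≤ ε := by
    have : (τ.V x').1 - (τ.V x).1 = τ.r⁻¹ * (x'.A.1 - x.A.1) := by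
      simp only [RtTest.V, Prod.smul_fst, Prod.fst_sub, smul_eq_mul]
      ring
    rw [this]
    exact re_at_pert_n hr hA1
  have v2 : |(τ.V x').2 - (τ.V x).2| ≤ ε := by
    have : (τ.V x').2 - (τ.V x).2 = τ.r⁻¹ * (x'.A.2 - x.A.2) := by
      simp only [RtTest.V, Prod.smul_snd, Prod.snd_sub, smul_eq_mul]
      ring
    rw [this]
    exact re_at_pert_n hr hA2
  have ez : |τ.z x' - τ.z x| ≤ ε := by
    have : τ.z x' - τ.z x = (τ.l * τ.r ^ 2)⁻¹ * (x'.y - x.y - 2 * rtIp τ.As (x'.b - x.b)) := by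
      simp only [RtTest.z, rtIp, Prod.fst_sub, Prod.snd_sub]
      ring
    rw [this]
    exact re_at_pert_n hlr2 hy
  have hFd := re_at_pert_F τ.n.al.1 τ.n.al.2 τ.n.be τ.n.k (τ.x x).1 (τ.x x).2 _ _ _ ε hε2 ha1 ha2 hbe hk hX1 hX2 e1 e2 ez
  have hGd := re_at_pert_G τ.n.al.1 τ.n.al.2 τ.n.be τ.n.k (τ.x x).1 (τ.x x).2 (τ.V x).1 (τ.V x).2 _ _ _ _ _ ε hε2 ha1 ha2 hbe hk hX1 hX2
    hV1 hV2 e1 e2 ez v1 v2
  refine ⟨⟨?_, ?_, ?_⟩, ?_, ?_⟩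
  · have := re_at_pert_b hε1 hX1 hX2 e1 e2
    unfold rtSq
    convert this using 2 <;> ring
  · rw [abs_le] at hz ez ⊢
    constructor <;> linarith [hz.1, hz.2, ez.1, ez.2]
  · have := re_at_pert_b hε1 hV1 hV2 v1 v2
    unfold rtSq
    convert this using 2 <;> ring
  · have : τ.Fv x' = τ.Fv x + (τ.n.al.1 * ((τ.x x').1 - (τ.x x).1) + τ.n.al.2 * ((τ.x x').2 - (τ.x x).2) + τ.n.be * (τ.z x' - τ.z x)
        - τ.n.k * (((τ.x x').1 - (τ.x x).1) * (2 * (τ.x x).1 + ((τ.x x').1 - (τ.x x).1))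
          + ((τ.x x').2 - (τ.x x).2) * (2 * (τ.x x).2 + ((τ.x x').2 - (τ.x x).2)))) := by
      simp only [RtTest.Fv, RtPoly.F, rtIp, rtSq]
      ring
    rw [this]
    rw [abs_le] at hF hFd ⊢
    constructor <;> linarith [hF.1, hF.2, hFd.1, hFd.2]
  · have : τ.Gv x' = τ.Gv x + (τ.n.k * (τ.z x' - τ.z x) + (((τ.V x').1 - (τ.V x).1) * τ.n.al.1 + ((τ.V x').2 - (τ.V x).2) * τ.n.al.2)
        - 2 * (τ.n.k * (((τ.V x').1 - (τ.V x).1) * ((τ.x x).1 + ((τ.x x').1 - (τ.x x).1)))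
          + τ.n.k * (((τ.V x').2 - (τ.V x).2) * ((τ.x x).2 + ((τ.x x').2 - (τ.x x).2))))
        - 2 * (τ.n.k * ((τ.V x).1 * ((τ.x x').1 - (τ.x x).1)) + τ.n.k * ((τ.V x).2 * ((τ.x x').2 - (τ.x x).2)))
        + τ.n.be * (((τ.V x').1 - (τ.V x).1) * (2 * (τ.V x).1 + ((τ.V x').1 - (τ.V x).1))
          + ((τ.V x').2 - (τ.V x).2) * (2 * (τ.V x).2 + ((τ.V x').2 - (τ.V x).2)))) := by
      simp only [RtTest.Gv, RtPoly.G, rtIp, rtSq, Prod.fst_sub, Prod.snd_sub, Prod.smul_fst, Prod.smul_snd, smul_eq_mul]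
      ring
    rw [this]
    rw [abs_le] at hG hGd ⊢
    constructor <;> linarith [hG.1, hG.2, hGd.1, hGd.2]

/-- the fine scale against the square of the scale ratio -/
theorem re_at_small2 {hg C A : ℕ} {τ : ℝ} (h : W.Ok hg C A τ) (i : ℕ) :
    2 ^ 16 * (2 ^ ((W.q - i) * W.m)) ^ 2 * rdLen W.B ≤ 1 := by
  have h1 : 16 + (W.q - i) * W.m * 2 ≤ W.B := by
    refine le_trans ?_ h.B_ge
    have : (W.q - i) * W.m ≤ W.q * W.m := Nat.mul_le_mul_right _ (Nat.sub_le _ _)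
    nlinarith
  have h2 : rdLen W.B ≤ rdLen (16 + (W.q - i) * W.m * 2) := by
    unfold rdLen
    exact pow_le_pow_of_le_one (by norm_num) (by norm_num) h1
  have h3 := re_at_len_two (16 + (W.q - i) * W.m * 2)
  calc 2 ^ 16 * (2 ^ ((W.q - i) * W.m)) ^ 2 * rdLen W.B
      = 2 ^ (16 + (W.q - i) * W.m * 2) * rdLen W.B := by
        rw [pow_add, pow_mul 2 ((W.q - i) * W.m) 2]
    _ ≤ 2 ^ (16 + (W.q - i) * W.m * 2) * rdLen (16 + (W.q - i) * W.m * 2) :=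
        mul_le_mul_of_nonneg_left h2 (by positivity)
    _ = 1 := h3

/-- the numerical core of `re_at_test` -/
theorem re_at_test_num {K δ R r f ℓ : ℝ} (hK : 1 ≤ K) (hδ : 0 < δ) (hR : 0 < R) (hr : 0 < r) (hf : 0 < f) (hf1 : f ≤ 1) (hℓ : 0 < ℓ)
    (hRK : R ≤ K * (r * f)) (hs : 2 ^ 16 * K ^ 2 * δ ≤ 1) :
    4000 * (9 * δ * K ^ 2 * f) ≤ f ∧ R * δ ≤ 9 * δ * K ^ 2 * f * r ∧ ℓ * R * δ ≤ 9 * δ * K ^ 2 * f * (ℓ * r) ∧
      ℓ * R ^ 2 * δ + 4 * (R * δ + r) * (ℓ * R * δ) ≤ 9 * δ * K ^ 2 * f * (ℓ * r ^ 2) := by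
  have hKK : K ≤ K ^ 2 := by nlinarith
  have hK0 : 0 < K := by linarith
  have e0 : K ^ 2 * δ ≤ 1 / 2 ^ 16 := by
    rw [le_div_iff₀ (by positivity)]
    linarith
  have e1 : R * δ ≤ δ * K * f * r := by
    calc R * δ ≤ (K * (r * f)) * δ := by gcongr
      _ = _ := by ring
  have e2 : δ * K * f * r ≤ δ * K ^ 2 * f * r := by gcongr
  have e3 : 0 ≤ δ * K ^ 2 * f * r := by positivity
  have e4 : R * δ ≤ r := by
    calc R * δ ≤ δ * K ^ 2 * f * r := e1.trans e2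
      _ = (K ^ 2 * δ) * f * r := by ring
      _ ≤ 1 * 1 * r := by
          gcongr
          exact e0.trans (by norm_num)
      _ = r := by ring
  refine ⟨?_, ?_, ?_, ?_⟩
  · calc 4000 * (9 * δ * K ^ 2 * f) = 36000 * (K ^ 2 * δ) * f := by ring
      _ ≤ 36000 * (1 / 2 ^ 16) * f := by gcongr
      _ ≤ 1 * f := by gcongr; norm_num
      _ = f := one_mul _
  · linarith
  · calc ℓ * R * δ = ℓ * (R * δ) := by ring
      _ ≤ ℓ * (9 * δ * K ^ 2 * f * r) := mul_le_mul_of_nonneg_left (by linarith) hℓ.le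
      _ = _ := by ring
  · have t1 : ℓ * R ^ 2 * δ ≤ δ * K ^ 2 * f * (ℓ * r ^ 2) := by
      calc ℓ * R ^ 2 * δ ≤ ℓ * (K * (r * f)) ^ 2 * δ := by gcongr
        _ = δ * K ^ 2 * f * (ℓ * r ^ 2) * f := by ring
        _ ≤ δ * K ^ 2 * f * (ℓ * r ^ 2) * 1 := by gcongr
        _ = _ := mul_one _
    have t2 : 4 * (R * δ + r) * (ℓ * R * δ) ≤ 8 * (δ * K ^ 2 * f * (ℓ * r ^ 2)) := by
      calc 4 * (R * δ + r) * (ℓ * R * δ) = 4 * (R * δ + r) * (ℓ * (R * δ)) := by ring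
        _ ≤ 4 * (r + r) * (ℓ * (δ * K ^ 2 * f * r)) := by
            have e5 := e1.trans e2
            have e6 : 0 ≤ R * δ := by positivity
            exact mul_le_mul (by linarith) (mul_le_mul_of_nonneg_left e5 hℓ.le) (by positivity) (by positivity)
        _ = _ := by ring
    linarith

/-- **two rows of one fine cell and a test**.   In the normalised coordinates of `τ` (`r ≥ r f ≥ d_i`, so `R0 / r ≤ 2^(q m / 2) f`):   `|δV|, |δx| ≤ √2 δ R0 / r`;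
`y - 2 A_*·b = ỹ + 2 (Â - A_*)·b` with the SAME corner `Â`, `|Â - A_*| ≤ r + √2 R0 δ`:   `|δz| ≤ δ (R0/r)² + 2√2 δ (R0/r) (1 + √2 δ R0/r)`;   coefficients `≤ 100`:   `|δF|, |δG| ≤ 2000 · 2^(q m / 2) δ f ≤ f`.
PLAN (helper141): `re_at_pert` with `K := 2^((q-i) m)`, `δ := rdLen B`, `ε := 5 δ K² f`.   `R0 ≤ K d_i ≤ K r f` (`re_at_R0_le`, `hu`), `f ≤ 1`;   `20000 δ K² ≤ 1` since `B ≥ 16 (q+1)(m+1) ≥ 2 (q-i) m + 16`.
`|δA_j| ≤ R0 δ ≤ δ K f r`, `|δb_j| ≤ ℓ R0 δ` (`re_at_cell_abs`);   `δy - 2 As·δb = δ(y - 2 Â·b) + 2 (Â - As)·δb`, the SAME corner `Â` for both rows (equal cells), `|Â_j - As_j| ≤ R0 δ + r` (`re_at_cor_abs`, `x ∈ box 1`):   `≤ ℓ R0² δ + 4 (R0 δ + r) ℓ R0 δ ≤ ℓ r² (δ K² f + 4 · 2 δ K f)`.   (adjust the factor `5` if needed: only `4000 ε ≤ f` matters.) -/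
theorem re_at_test {hg C A : ℕ} {τ : ℝ} (h : W.Ok hg C A τ) (i : ℕ) (hi : i ≤ W.q) (Q : RdTst) (hQ : (Q.toT (W.dp i)).Adm 1)
    (hu : rdD p.H (W.dp i) ≤ Q.r * Q.f) (x x' : RtRow) (hc : W.fc i x = W.fc i x') (hx : x ∈ (Q.toT (W.dp i)).set 1) :
    x' ∈ (Q.toT (W.dp i)).set 2 := by
  have hR := re_at_R0_pos W
  have hδ := rdLen_pos W.B
  have hℓ := rdLen_pos (W.dp i)
  have hr : 0 < Q.r := hQ.r_pos
  have hf : 0 < Q.f := hQ.f_pos
  have hf1 : Q.f ≤ 1 := hQ.f_le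
  have hK : (1 : ℝ) ≤ 2 ^ ((W.q - i) * W.m) := one_le_pow₀ (by norm_num)
  have hRK : W.R0 ≤ 2 ^ ((W.q - i) * W.m) * (Q.r * Q.f) :=
    (re_at_R0_le W i hi).trans (mul_le_mul_of_nonneg_left hu (by positivity))
  obtain ⟨n1, n2, n3, n4⟩ := re_at_test_num (ℓ := rdLen (W.dp i)) hK hδ hR hr hf hf1 hℓ hRK (re_at_small2 W h i)
  have w1 : 0 < W.R0 * rdLen W.B := by positivity
  have w2 : 0 < rdLen (W.dp i) * W.R0 * rdLen W.B := by positivity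
  have w3 : 0 < rdLen (W.dp i) * W.R0 ^ 2 * rdLen W.B := by positivity
  -- the equal cells
  have c1 : reCell (W.R0 * rdLen W.B) x.A.1 = reCell (W.R0 * rdLen W.B) x'.A.1 := congrArg (fun c : ReFc => c.1.1) hc
  have c2 : reCell (W.R0 * rdLen W.B) x.A.2 = reCell (W.R0 * rdLen W.B) x'.A.2 := congrArg (fun c : ReFc => c.1.2) hc
  have c3 : reCell (rdLen (W.dp i) * W.R0 * rdLen W.B) x.b.1 = reCell (rdLen (W.dp i) * W.R0 * rdLen W.B) x'.b.1 :=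
    congrArg (fun c : ReFc => c.2.1.1) hc
  have c4 : reCell (rdLen (W.dp i) * W.R0 * rdLen W.B) x.b.2 = reCell (rdLen (W.dp i) * W.R0 * rdLen W.B) x'.b.2 :=
    congrArg (fun c : ReFc => c.2.1.2) hc
  have c5 : reCell (rdLen (W.dp i) * W.R0 ^ 2 * rdLen W.B) (x.y - 2 * rtIp (reCor2 (W.R0 * rdLen W.B) x.A) x.b)
      = reCell (rdLen (W.dp i) * W.R0 ^ 2 * rdLen W.B) (x'.y - 2 * rtIp (reCor2 (W.R0 * rdLen W.B) x'.A) x'.b) :=
    congrArg (fun c : ReFc => c.2.2) hc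
  have hcor : reCor2 (W.R0 * rdLen W.B) x'.A = reCor2 (W.R0 * rdLen W.B) x.A := by
    unfold reCor2
    rw [c1, c2]
  rw [hcor] at c5
  have a1 := re_at_cell_abs w1 c1
  have a2 := re_at_cell_abs w1 c2
  have a3 := re_at_cell_abs w2 c3
  have a4 := re_at_cell_abs w2 c4
  have a5 := re_at_cell_abs w3 c5
  have k1 := re_at_cor_abs w1 x.A.1
  have k2 := re_at_cor_abs w1 x.A.2
  obtain ⟨⟨b1, b2⟩, -, -⟩ := re_at_box_abs (Q.toT (W.dp i)) hQ.l_pos hQ.r_pos zero_le_one x hx.1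
  have b1' : |x.A.1 - Q.As.1| ≤ Q.r := by rw [one_mul] at b1; exact b1
  have b2' : |x.A.2 - Q.As.2| ≤ Q.r := by rw [one_mul] at b2; exact b2
  refine re_at_pert (Q.toT (W.dp i)) hQ (9 * rdLen W.B * (2 ^ ((W.q - i) * W.m)) ^ 2 * Q.f) (by positivity) n1 x x'
    (a1.trans n2) (a2.trans n2) (a3.trans n3) (a4.trans n3) ?_ hx
  refine le_trans ?_ n4
  show |x'.y - x.y - 2 * rtIp Q.As (x'.b - x.b)| ≤ _
  have e : x'.y - x.y - 2 * rtIp Q.As (x'.b - x.b)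
      = ((x'.y - 2 * rtIp (reCor2 (W.R0 * rdLen W.B) x.A) x'.b) - (x.y - 2 * rtIp (reCor2 (W.R0 * rdLen W.B) x.A) x.b))
        + 2 * (((W.R0 * rdLen W.B) * (reCell (W.R0 * rdLen W.B) x.A.1 : ℝ) - Q.As.1) * (x'.b.1 - x.b.1))
        + 2 * (((W.R0 * rdLen W.B) * (reCell (W.R0 * rdLen W.B) x.A.2 : ℝ) - Q.As.2) * (x'.b.2 - x.b.2)) := by
    simp only [rtIp, reCor2, Prod.fst_sub, Prod.snd_sub]
    ring
  have g1 : |(W.R0 * rdLen W.B) * (reCell (W.R0 * rdLen W.B) x.A.1 : ℝ) - Q.As.1| ≤ W.R0 * rdLen W.B + Q.r := by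
    rw [abs_le] at k1 b1' ⊢
    constructor <;> linarith [k1.1, k1.2, b1'.1, b1'.2]
  have g2 : |(W.R0 * rdLen W.B) * (reCell (W.R0 * rdLen W.B) x.A.2 : ℝ) - Q.As.2| ≤ W.R0 * rdLen W.B + Q.r := by
    rw [abs_le] at k2 b2' ⊢
    constructor <;> linarith [k2.1, k2.2, b2'.1, b2'.2]
  have m1 := re_at_abs_mul g1 a3
  have m2 := re_at_abs_mul g2 a4
  rw [e]
  rw [abs_le] at a5 m1 m2 ⊢
  constructor <;> linarith [a5.1, a5.2, m1.1, m1.2, m2.1, m2.2]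

/-! ## A7 -/

/-- triangle inequality for `rtSq` -/
theorem re_at_sq_tri {u v : ℝ × ℝ} {a b : ℝ} (ha : 0 ≤ a) (hb : 0 ≤ b) (hu : rtSq u ≤ a ^ 2) (hv : rtSq v ≤ b ^ 2) :
    rtSq (u + v) ≤ (a + b) ^ 2 := by
  have h1 := (abs_le.1 (rtIp_abs_le ha hb hu hv)).2
  have e : rtSq (u + v) = rtSq u + 2 * rtIp u v + rtSq v := by
    simp only [rtSq, rtIp, Prod.fst_add, Prod.snd_add]
    ring
  rw [e]
  nlinarith

/-- a pair with small coordinates -/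
theorem re_at_sq_coord {u : ℝ × ℝ} {a : ℝ} (_ha : 0 ≤ a) (h1 : |u.1| ≤ a) (h2 : |u.2| ≤ a) : rtSq u ≤ 2 * a ^ 2 := by
  unfold rtSq
  have e1 : u.1 ^ 2 ≤ a ^ 2 := sq_le_sq' (by linarith [(abs_le.1 h1).1]) (abs_le.1 h1).2
  have e2 : u.2 ^ 2 ≤ a ^ 2 := sq_le_sq' (by linarith [(abs_le.1 h2).1]) (abs_le.1 h2).2
  linarith

/-- **the correspondence under a change of representatives** (no tower) -/
theorem re_at_conn_abs {H Λ d' qq t ℓ w1 w2 w2' w3 w3' : ℝ} {x x' y y' : RtRow}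
    (hΛ : 0 ≤ Λ) (hd : 0 ≤ d') (hq : 0 ≤ qq) (ht0 : 0 ≤ t) (htl : t ≤ ℓ) (hw1 : 0 ≤ w1) (hw2 : 0 ≤ w2) (hw2' : 0 ≤ w2')
    (a1 : |x.A.1 - y.A.1| ≤ w1) (a2 : |x.A.2 - y.A.2| ≤ w1) (a1' : |x'.A.1 - y'.A.1| ≤ w1) (a2' : |x'.A.2 - y'.A.2| ≤ w1)
    (b1 : |x.b.1 - y.b.1| ≤ w2) (b2 : |x.b.2 - y.b.2| ≤ w2) (b1' : |x'.b.1 - y'.b.1| ≤ w2') (b2' : |x'.b.2 - y'.b.2| ≤ w2')
    (c : |(x.y - 2 * rtIp y.A x.b) - (y.y - 2 * rtIp y.A y.b)| ≤ w3)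
    (c' : |(x'.y - 2 * rtIp y'.A x'.b) - (y'.y - 2 * rtIp y'.A y'.b)| ≤ w3')
    (n1 : 3 * w1 ≤ d') (n2 : 2 * (w2' + w2 + ℓ * w1) ≤ qq)
    (n3 : w3' + w3 + 4 * (Λ + 1) * d' * w2' + 4 * w1 * Λ * qq + 2 * ℓ * w1 ^ 2 ≤ H)
    (h1 : rtSq (x'.A - x.A) ≤ (Λ * d') ^ 2) (h2 : rtSq (x'.b - (x.flow t).b) ≤ (Λ * qq) ^ 2)
    (h3 : |x'.y - (x.flow t).y - 2 * rtIp x.A (x'.b - (x.flow t).b)| ≤ Λ * H) :
    rtSq (y'.A - y.A) ≤ ((Λ + 1) * d') ^ 2 ∧ rtSq (y'.b - (y.flow t).b) ≤ ((Λ + 1) * qq) ^ 2 ∧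
      |y'.y - (y.flow t).y - 2 * rtIp y.A (y'.b - (y.flow t).b)| ≤ (Λ + 1) * H := by
  have hl0 : 0 ≤ ℓ := ht0.trans htl
  -- (1)
  have g1 : rtSq (y'.A - y.A) ≤ ((Λ + 1) * d') ^ 2 := by
    have e : y'.A - y.A = (x'.A - x.A) + ((x.A - y.A) - (x'.A - y'.A)) := by abel
    have hv : rtSq ((x.A - y.A) - (x'.A - y'.A)) ≤ d' ^ 2 := by
      have k1 : |((x.A - y.A) - (x'.A - y'.A)).1| ≤ 2 * w1 := by
        simp only [Prod.fst_sub]
        rw [abs_le] at a1 a1' ⊢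
        constructor <;> linarith [a1.1, a1.2, a1'.1, a1'.2]
      have k2 : |((x.A - y.A) - (x'.A - y'.A)).2| ≤ 2 * w1 := by
        simp only [Prod.snd_sub]
        rw [abs_le] at a2 a2' ⊢
        constructor <;> linarith [a2.1, a2.2, a2'.1, a2'.2]
      have h5 := re_at_sq_coord (by positivity) k1 k2
      have h6 : (3 * w1) ^ 2 ≤ d' ^ 2 := pow_le_pow_left₀ (by positivity) n1 2
      have := sq_nonneg w1
      calc _ ≤ 2 * (2 * w1) ^ 2 := h5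
        _ ≤ (3 * w1) ^ 2 := by rw [mul_pow, mul_pow]; linarith
        _ ≤ _ := h6
    rw [e]
    have := re_at_sq_tri (mul_nonneg hΛ hd) hd h1 hv
    calc _ ≤ (Λ * d' + d') ^ 2 := this
      _ = _ := by ring
  -- (2)
  have g2 : rtSq (y'.b - (y.flow t).b) ≤ ((Λ + 1) * qq) ^ 2 := by
    have e : y'.b - (y.flow t).b = (x'.b - (x.flow t).b) + ((x.b - y.b) - (x'.b - y'.b) + t • (x.A - y.A)) := by
      simp only [RtRow.flow, smul_sub]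
      abel
    have hv : rtSq ((x.b - y.b) - (x'.b - y'.b) + t • (x.A - y.A)) ≤ qq ^ 2 := by
      have t1 : |t * (x.A.1 - y.A.1)| ≤ ℓ * w1 := by
        rw [abs_mul, abs_of_nonneg ht0]
        exact mul_le_mul htl a1 (abs_nonneg _) hl0
      have t2 : |t * (x.A.2 - y.A.2)| ≤ ℓ * w1 := by
        rw [abs_mul, abs_of_nonneg ht0]
        exact mul_le_mul htl a2 (abs_nonneg _) hl0
      have k1 : |((x.b - y.b) - (x'.b - y'.b) + t • (x.A - y.A)).1| ≤ w2' + w2 + ℓ * w1 := by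
        simp only [Prod.fst_sub, Prod.fst_add, Prod.smul_fst, smul_eq_mul]
        rw [abs_le] at b1 b1' t1 ⊢
        constructor <;> linarith [b1.1, b1.2, b1'.1, b1'.2, t1.1, t1.2]
      have k2 : |((x.b - y.b) - (x'.b - y'.b) + t • (x.A - y.A)).2| ≤ w2' + w2 + ℓ * w1 := by
        simp only [Prod.snd_sub, Prod.snd_add, Prod.smul_snd, smul_eq_mul]
        rw [abs_le] at b2 b2' t2 ⊢
        constructor <;> linarith [b2.1, b2.2, b2'.1, b2'.2, t2.1, t2.2]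
      have hpos : 0 ≤ w2' + w2 + ℓ * w1 := by positivity
      have h5 := re_at_sq_coord hpos k1 k2
      have h6 : (2 * (w2' + w2 + ℓ * w1)) ^ 2 ≤ qq ^ 2 := pow_le_pow_left₀ (by positivity) n2 2
      have := sq_nonneg (w2' + w2 + ℓ * w1)
      calc _ ≤ 2 * (w2' + w2 + ℓ * w1) ^ 2 := h5
        _ ≤ (2 * (w2' + w2 + ℓ * w1)) ^ 2 := by rw [mul_pow]; linarith
        _ ≤ _ := h6
    rw [e]
    have := re_at_sq_tri (mul_nonneg hΛ hq) hq h2 hv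
    calc _ ≤ (Λ * qq + qq) ^ 2 := this
      _ = _ := by ring
  refine ⟨g1, g2, ?_⟩
  -- (3)
  have e : y'.y - (y.flow t).y - 2 * rtIp y.A (y'.b - (y.flow t).b)
      = (x'.y - (x.flow t).y - 2 * rtIp x.A (x'.b - (x.flow t).b))
        - (((x'.y - 2 * rtIp y'.A x'.b) - (y'.y - 2 * rtIp y'.A y'.b)) - ((x.y - 2 * rtIp y.A x.b) - (y.y - 2 * rtIp y.A y.b))
          + 2 * rtIp (y'.A - y.A) (x'.b - y'.b) - 2 * rtIp (x.A - y.A) (x'.b - (x.flow t).b) - t * rtSq (x.A - y.A)) := by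
    simp only [RtRow.flow, rtIp, rtSq, Prod.fst_sub, Prod.snd_sub, Prod.fst_add, Prod.snd_add, Prod.smul_fst, Prod.smul_snd, smul_eq_mul]
    ring
  have sA : rtSq (x.A - y.A) ≤ 2 * w1 ^ 2 := re_at_sq_coord hw1 (by simpa using a1) (by simpa using a2)
  have sA' : rtSq (x.A - y.A) ≤ (2 * w1) ^ 2 := by
    have := sq_nonneg w1
    calc _ ≤ 2 * w1 ^ 2 := sA
      _ ≤ (2 * w1) ^ 2 := by rw [mul_pow]; linarith
  have sB : rtSq (x'.b - y'.b) ≤ (2 * w2') ^ 2 := by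
    have h5 := re_at_sq_coord (u := x'.b - y'.b) hw2' (by simpa using b1') (by simpa using b2')
    have := sq_nonneg w2'
    calc _ ≤ 2 * w2' ^ 2 := h5
      _ ≤ (2 * w2') ^ 2 := by rw [mul_pow]; linarith
  have i1 := rtIp_abs_le (by positivity) (by positivity) g1 sB
  have i2 := rtIp_abs_le (by positivity) (by positivity) sA' h2
  have i3 : t * rtSq (x.A - y.A) ≤ ℓ * (2 * w1 ^ 2) := mul_le_mul htl sA (rtSq_nonneg _) hl0
  have i3' : 0 ≤ t * rtSq (x.A - y.A) := mul_nonneg ht0 (rtSq_nonneg _)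
  rw [e]
  rw [abs_le] at h3 c c' i1 i2 ⊢
  constructor <;> linarith [h3.1, h3.2, c.1, c.2, c'.1, c'.2, i1.1, i1.2, i2.1, i2.2]


/-- a row and the representative of its fine cell -/
theorem re_at_rep (i : ℕ) (x : RtRow) :
    |x.A.1 - (W.fp i (W.fc i x)).A.1| ≤ W.R0 * rdLen W.B ∧ |x.A.2 - (W.fp i (W.fc i x)).A.2| ≤ W.R0 * rdLen W.B ∧
    |x.b.1 - (W.fp i (W.fc i x)).b.1| ≤ rdLen (W.dp i) * W.R0 * rdLen W.B ∧
    |x.b.2 - (W.fp i (W.fc i x)).b.2| ≤ rdLen (W.dp i) * W.R0 * rdLen W.B ∧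
    |(x.y - 2 * rtIp (W.fp i (W.fc i x)).A x.b) - ((W.fp i (W.fc i x)).y - 2 * rtIp (W.fp i (W.fc i x)).A (W.fp i (W.fc i x)).b)|
      ≤ rdLen (W.dp i) * W.R0 ^ 2 * rdLen W.B := by
  have hR := re_at_R0_pos W
  have hB := rdLen_pos W.B
  have hl := rdLen_pos (W.dp i)
  have w1 : 0 < W.R0 * rdLen W.B := by positivity
  have w2 : 0 < rdLen (W.dp i) * W.R0 * rdLen W.B := by positivity
  have w3 : 0 < rdLen (W.dp i) * W.R0 ^ 2 * rdLen W.B := by positivity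
  refine ⟨?_, ?_, ?_, ?_, ?_⟩
  · rw [abs_sub_comm]; exact re_at_cor_abs w1 _
  · rw [abs_sub_comm]; exact re_at_cor_abs w1 _
  · rw [abs_sub_comm]; exact re_at_cor_abs w2 _
  · rw [abs_sub_comm]; exact re_at_cor_abs w2 _
  · rw [abs_sub_comm]
    have := re_at_cor_abs w3 (x.y - 2 * rtIp (reCor2 (W.R0 * rdLen W.B) x.A) x.b)
    simp only [ReTw.fp, ReTw.fc, add_sub_cancel_right]
    exact this

/-- the fine scale beats everything -/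
theorem re_at_small {hg C A : ℕ} {τ : ℝ} (h : W.Ok hg C A τ) (i : ℕ) :
    16 * 2 ^ (8 * (W.q + 1) * (W.m + 1)) * 2 ^ ((W.q - i) * W.m) * rdLen W.B ≤ 1 := by
  have h1 : 4 + 8 * (W.q + 1) * (W.m + 1) + (W.q - i) * W.m ≤ W.B := by
    refine le_trans ?_ h.B_ge
    have : (W.q - i) * W.m ≤ W.q * W.m := Nat.mul_le_mul_right _ (Nat.sub_le _ _)
    nlinarith
  have h2 : rdLen W.B ≤ rdLen (4 + 8 * (W.q + 1) * (W.m + 1) + (W.q - i) * W.m) := by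
    unfold rdLen
    exact pow_le_pow_of_le_one (by norm_num) (by norm_num) h1
  have h3 := re_at_len_two (4 + 8 * (W.q + 1) * (W.m + 1) + (W.q - i) * W.m)
  calc 16 * 2 ^ (8 * (W.q + 1) * (W.m + 1)) * 2 ^ ((W.q - i) * W.m) * rdLen W.B
      = 2 ^ (4 + 8 * (W.q + 1) * (W.m + 1) + (W.q - i) * W.m) * rdLen W.B := by
        rw [pow_add, pow_add]; norm_num
    _ ≤ 2 ^ (4 + 8 * (W.q + 1) * (W.m + 1) + (W.q - i) * W.m) * rdLen (4 + 8 * (W.q + 1) * (W.m + 1) + (W.q - i) * W.m) :=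
        mul_le_mul_of_nonneg_left h2 (by positivity)
    _ = 1 := h3

/-- `re_at_conn` on atoms -/
theorem re_at_conn_aux {hg C A : ℕ} {τ : ℝ} (h : W.Ok hg C A τ) (i l : ℕ) (hil : i ≤ l) (hl : l ≤ W.q) (Λ : ℝ) (hΛ : 1 ≤ Λ)
    (hΛ' : Λ ≤ 2 ^ (8 * (W.q + 1) * (W.m + 1))) (a a' : ℕ × ReFc) (x x' : RtRow) (hx : W.fc i x = a.2)
    (hx' : W.fc l x' = a'.2) (hI : ancI (W.dp l) (W.dp i) a'.1 = a.1)
    (hc : reCn p.H Λ (tmL (W.dp i) a.1) (W.dp i) (tmL (W.dp l) a'.1) (W.dp l) x x') :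
    rtSq ((W.fp l a'.2).A - (W.fp i a.2).A) ≤ ((Λ + 1) * rdD p.H (W.dp l)) ^ 2 ∧
    rtSq ((W.fp l a'.2).b - ((W.fp i a.2).flow (tmL (W.dp l) a'.1 - tmL (W.dp i) a.1)).b) ≤ ((Λ + 1) * rdQ p.H (W.dp i)) ^ 2 ∧
    |(W.fp l a'.2).y - ((W.fp i a.2).flow (tmL (W.dp l) a'.1 - tmL (W.dp i) a.1)).y
      - 2 * rtIp (W.fp i a.2).A ((W.fp l a'.2).b - ((W.fp i a.2).flow (tmL (W.dp l) a'.1 - tmL (W.dp i) a.1)).b)| ≤ (Λ + 1) * p.H := by
  have hiq : i ≤ W.q := hil.trans hl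
  have hkk : W.dp i ≤ W.dp l := by
    unfold ReTw.dp
    exact Nat.add_le_add_left (Nat.mul_le_mul_right _ hil) _
  obtain ⟨-, ht0, ht1⟩ := gn_cutle_anc hkk a'.1
  rw [hI] at ht0 ht1
  have ht1' : tmL (W.dp l) a'.1 ≤ tmL (W.dp i) a.1 + rdLen (W.dp i) := ht1
  obtain ⟨c1, c2, c3⟩ := hc
  obtain ⟨r1, r2, r3, r4, r5⟩ := re_at_rep W i x
  obtain ⟨r1', r2', r3', r4', r5'⟩ := re_at_rep W l x'
  rw [hx] at r1 r2 r3 r4 r5
  rw [hx'] at r1' r2' r3' r4' r5'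
  have F1 := re_at_small W h i
  have F1' := re_at_small W h l
  have hH := p.H_pos
  have hR := re_at_R0_pos W
  have hδ := rdLen_pos W.B
  have hℓ := rdLen_pos (W.dp i)
  have hℓ' := rdLen_pos (W.dp l)
  have hd := re_at_d_pos p.H hH (W.dp i)
  have hd' := re_at_d_pos p.H hH (W.dp l)
  have hll : rdLen (W.dp l) ≤ rdLen (W.dp i) := by
    unfold rdLen
    exact pow_le_pow_of_le_one (by norm_num) (by norm_num) hkk
  have hdR := re_at_d_le W i hiq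
  have hdR' := re_at_d_le W l hl
  have hRd := re_at_R0_le W i hiq
  have hRd' := re_at_R0_le W l hl
  have hlR := re_at_lR_eq W i hiq
  have hqq := re_at_q_eq p.H hH (W.dp i)
  have hK : (1 : ℝ) ≤ 2 ^ ((W.q - i) * W.m) := one_le_pow₀ (by norm_num)
  have hK' : (1 : ℝ) ≤ 2 ^ ((W.q - l) * W.m) := one_le_pow₀ (by norm_num)
  have hL : (1 : ℝ) ≤ 2 ^ (8 * (W.q + 1) * (W.m + 1)) := one_le_pow₀ (by norm_num)
  generalize (2 : ℝ) ^ ((W.q - i) * W.m) = K at *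
  generalize (2 : ℝ) ^ ((W.q - l) * W.m) = K' at *
  generalize (2 : ℝ) ^ (8 * (W.q + 1) * (W.m + 1)) = L8 at *
  generalize rdLen W.B = δ at *
  generalize hRR : W.R0 = R at *
  generalize rdLen (W.dp i) = ℓ at *
  generalize rdLen (W.dp l) = ℓ' at *
  generalize rdD p.H (W.dp i) = d at *
  generalize rdD p.H (W.dp l) = d' at *
  have G1 : 16 * K * δ ≤ 1 := by
    refine le_trans ?_ F1
    calc 16 * K * δ = 16 * 1 * K * δ := by ring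
      _ ≤ 16 * L8 * K * δ := by gcongr
  have G1' : 16 * K' * δ ≤ 1 := by
    refine le_trans ?_ F1'
    calc 16 * K' * δ = 16 * 1 * K' * δ := by ring
      _ ≤ 16 * L8 * K' * δ := by gcongr
  have G2 : 16 * Λ * K * δ ≤ 1 := by
    refine le_trans ?_ F1
    gcongr
  have hδ1 : δ ≤ 1 := by
    have : 16 * 1 * δ ≤ 16 * K * δ := by gcongr
    linarith
  have hΛ0 : 0 ≤ Λ := by linarith
  rw [hqq]
  rw [hqq] at c2
  refine re_at_conn_abs (ℓ := ℓ) (w1 := R * δ) (w2 := ℓ * R * δ) (w2' := ℓ' * R * δ) (w3 := ℓ * R ^ 2 * δ) (w3' := ℓ' * R ^ 2 * δ)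
    hΛ0 hd'.le (by positivity) (by linarith) (by linarith) (by positivity) (by positivity) (by positivity)
    r1 r2 r1' r2' r3 r4 r3' r4' r5 r5' ?_ ?_ ?_ c1 c2 c3
  · -- 3 R δ ≤ d'
    calc 3 * (R * δ) ≤ 3 * ((K' * d') * δ) := by gcongr
      _ = (3 * K' * δ) * d' := by ring
      _ ≤ 1 * d' := by
          refine mul_le_mul_of_nonneg_right ?_ hd'.le
          have : 0 ≤ K' * δ := by positivity
          linarith
      _ = d' := one_mul _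
  · calc 2 * (ℓ' * R * δ + ℓ * R * δ + ℓ * (R * δ)) ≤ 2 * (ℓ * R * δ + ℓ * R * δ + ℓ * (R * δ)) := by gcongr
      _ = 6 * ℓ * δ * R := by ring
      _ ≤ 6 * ℓ * δ * (K * d) := by gcongr
      _ = (6 * K * δ) * (ℓ * d) := by ring
      _ ≤ 1 * (ℓ * d) := by
          refine mul_le_mul_of_nonneg_right ?_ (by positivity)
          have : 0 ≤ K * δ := by positivity
          linarith
      _ = ℓ * d := one_mul _
  · have hX : 0 ≤ ℓ * R ^ 2 * δ := by positivity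
    have t1 : ℓ' * R ^ 2 * δ ≤ ℓ * R ^ 2 * δ := by gcongr
    have t3 : 4 * (Λ + 1) * d' * (ℓ' * R * δ) ≤ 8 * Λ * (ℓ * R ^ 2 * δ) := by
      have h8 : 4 * (Λ + 1) ≤ 8 * Λ := by linarith
      calc 4 * (Λ + 1) * d' * (ℓ' * R * δ) ≤ (8 * Λ) * R * (ℓ * R * δ) := by
            gcongr
        _ = _ := by ring
    have t4 : 4 * (R * δ) * Λ * (ℓ * d) ≤ 4 * Λ * (ℓ * R ^ 2 * δ) := by
      calc 4 * (R * δ) * Λ * (ℓ * d) ≤ 4 * (R * δ) * Λ * (ℓ * R) := by gcongr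
        _ = _ := by ring
    have t5 : 2 * ℓ * (R * δ) ^ 2 ≤ 2 * (ℓ * R ^ 2 * δ) := by
      calc 2 * ℓ * (R * δ) ^ 2 = 2 * (ℓ * R ^ 2 * δ) * δ := by ring
        _ ≤ 2 * (ℓ * R ^ 2 * δ) * 1 := by gcongr
        _ = _ := mul_one _
    have t6 : 16 * Λ * (ℓ * R ^ 2 * δ) ≤ p.H := by
      rw [hlR]
      calc 16 * Λ * (K * p.H * δ) = (16 * Λ * K * δ) * p.H := by ring
        _ ≤ 1 * p.H := mul_le_mul_of_nonneg_right G2 hH.le
        _ = _ := one_mul _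
    have t7 : 4 * (ℓ * R ^ 2 * δ) ≤ 4 * Λ * (ℓ * R ^ 2 * δ) := by
      calc 4 * (ℓ * R ^ 2 * δ) = 4 * 1 * (ℓ * R ^ 2 * δ) := by ring
        _ ≤ 4 * Λ * (ℓ * R ^ 2 * δ) := by gcongr
    linarith

/-- **the correspondence on rows implies the correspondence on representatives**, `Λ → Λ + 1`.
With `a = A - Â`, `u = b' - b - tA`, `ỹ = y - 2 Â·b`:   `Y - Ŷ = (δỹ' - δỹ) + 2 (Â' - Â)·δb' - 2 a·u - t |a|²`   (no absolute size of `A`, `b` enters);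
`|·| ≤ δ ℓ_i R0² (18 Λ) = H δ 2^((q-i) m) 18 Λ ≤ H`.
PLAN (identity checked by helper141).   `pt = fp i c`: `Â = w₁ c.1` etc.; from `hx : fc i x = c` the differences `a_j = x.A.j - Â_j ∈ [0, w₁)`, `δb_j`, `δỹ` (`re_at_cor_abs`-type).   `t := T' - T ∈ [0, ℓ_i]` (`gn_cutle_anc` + `hI`).
(1) `|Â' - Â| ≤ Λ d_l + 2√2 R0 δ`, `2√2 R0 δ ≤ d_l` (`re_at_R0_le`).   Triangle inequality for `rtSq`: prove `rtSq (u + v) ≤ (a + b)²` from `rtSq u ≤ a²`, `rtSq v ≤ b²` (`rtIp_abs_le`).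
(2) `b̂' - b̂ - t Â = u - δb' + δb + t a`, error `≤ 3√2 ℓ_i R0 δ ≤ q_i = ℓ_i d_i` (`re_at_q_eq`).
(3) the identity above (`ring` on coordinates), `ℓ_l ≤ ℓ_i`, `d_l, d_i ≤ R0` (`re_at_d_le`), `ℓ_i R0² = 2^((q-i) m) H` (`re_at_lR_eq`), `δ 2^(q m) 18 Λ ≤ 1` from `B_ge`, `hΛ'`. -/
theorem re_at_conn {hg C A : ℕ} {τ : ℝ} (h : W.Ok hg C A τ) (i l : ℕ) (hil : i ≤ l) (hl : l ≤ W.q) (Λ : ℝ) (hΛ : 1 ≤ Λ)
    (hΛ' : Λ ≤ 2 ^ (8 * (W.q + 1) * (W.m + 1))) (ω : W.doc.Row i) (ω' : W.doc.Row l) (x x' : RtRow) (hx : W.fc i x = ω.1.2)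
    (hx' : W.fc l x' = ω'.1.2) (hI : ancI (W.dp l) (W.dp i) ω'.1.1 = ω.1.1)
    (hc : reCn p.H Λ (tmL (W.dp i) ω.1.1) (W.dp i) (tmL (W.dp l) ω'.1.1) (W.dp l) x x') : W.doc.Conn (Λ + 1) i l ω ω' := by
  exact ⟨hI, re_at_conn_aux W h i l hil hl Λ hΛ hΛ' _ _ x x' hx hx' hI hc⟩

/-! ## A8 -/

/-- PLAN: `gn_ms_mono` (`S i I ∩ cell ⊆ cell ∩ (ps i).S I`; measurability: `re_at_meas_S`, `rt_w1_cell_meas`, the finite union of `re_at_meas_S`'s proof) + `(h.sel i h0 hi).reg I hI Q hQ`;   `(W.Ex (i-1)).at' k I (W.Ex (i-1)).st = W.pre i I`, `ivs (W.Ex (i-1)).k0 .. = W.iv i` by `rfl`. -/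
theorem re_at_reg' {t : ℝ} (i : ℕ) (hs : (W.ps i).Ok (W.Ex (i - 1)) (W.dp i) t) (I : ℕ) (hI : I ∈ W.iv i) (Q : RdTst)
    (hQ : (p.sys η).ok Q (W.dp i)) : W.rm i I ((p.sys η).cell Q (tmL (W.dp i) I) (W.dp i)) ≤ 2 * (W.ps i).be * Q.wt η := by
  have h1 := hs.reg I hI Q hQ
  refine le_trans ?_ h1
  have hc : MeasurableSet ((p.sys η).cell Q (tmL (W.dp i) I) (W.dp i)) := rt_w1_cell_meas Q _ _
  exact gn_ms_mono (P := p.sys η) _ _ _ ((re_at_meas_S' W i hs I).inter hc) (hc.inter (re_at_meas_pS (W.ps i) hs I))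
    (fun x hx => ⟨hx.2, hx.1.1⟩) _

theorem re_at_reg {hg C A : ℕ} {τ : ℝ} (h : W.Ok hg C A τ) (i : ℕ) (h0 : 0 < i) (hi : i ≤ hg) (I : ℕ) (hI : I ∈ W.iv i) (Q : RdTst)
    (hQ : (p.sys η).ok Q (W.dp i)) : W.rm i I ((p.sys η).cell Q (tmL (W.dp i) I) (W.dp i)) ≤ 2 * (W.ps i).be * Q.wt η :=
  re_at_reg' W i (h.sel i h0 hi) I hI Q hQ

theorem re_at_cov' {t : ℝ} (i : ℕ) (hs : (W.ps i).Ok (W.Ex (i - 1)) (W.dp i) t) (I : ℕ) (x : RdWvPar.Ph) (hx : x ∈ W.S i I) :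
    ∃ u < (W.ps i).nL, (W.ps i).lI u = I ∧ x ∈ (p.sys η).cell ((W.ps i).lQ u) (tmL (W.dp i) I) (W.dp i) := by
  obtain ⟨u, hu, h1, h2⟩ := hx.1
  refine ⟨u, hu, h1, ?_⟩
  have := (hs.lb u hu).2.2.2.1 h2
  rw [h1] at this
  exact this

theorem re_at_cov {hg C A : ℕ} {τ : ℝ} (h : W.Ok hg C A τ) (i : ℕ) (h0 : 0 < i) (hi : i ≤ hg) (I : ℕ) (x : RdWvPar.Ph) (hx : x ∈ W.S i I) :
    ∃ u < (W.ps i).nL, (W.ps i).lI u = I ∧ x ∈ (p.sys η).cell ((W.ps i).lQ u) (tmL (W.dp i) I) (W.dp i) :=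
  re_at_cov' W i (h.sel i h0 hi) I x hx

/-- the upper benchmark of the raw mass in the form of the document -/
theorem re_at_raw_le' {τ : ℝ} (i : ℕ) (hs : (W.ps i).Ok (W.Ex (i - 1)) (W.dp i) τ) :
    (W.ps i).raw (W.Ex (i - 1)) (W.dp i) ≤ W.E.e * (2 : ℝ) ^ ((rndWav η).d0f * i * W.m) * W.tn τ := by
  have h1 := hs.raw_hi
  refine h1.trans (le_of_eq ?_)
  have h2 : W.dp i - (W.Ex (i - 1)).k0 = i * W.m := Nat.add_sub_cancel_left ..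
  rw [h2, Real.rpow_add (by norm_num), Nat.cast_mul, ← mul_assoc, ← mul_assoc]
  rfl

/-- PLAN: `rm i I univ ≤ ms ((ps i).S I)` (`gn_ms_mono`), sum over `iv i` = `(ps i).raw (W.Ex (i-1)) (W.dp i)`; `raw_hi`; `W.dp i - W.E.k0 = i * m` (`Nat.add_sub_cancel_left`), `Real.rpow_add`, `Nat.cast_mul`. -/
theorem re_at_raw_hi' {τ : ℝ} (i : ℕ) (hs : (W.ps i).Ok (W.Ex (i - 1)) (W.dp i) τ) :
    W.rt i (fun _ => Set.univ) ≤ W.E.e * (2 : ℝ) ^ ((rndWav η).d0f * i * W.m) * W.tn τ := by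
  refine le_trans ?_ (re_at_raw_le' W i hs)
  refine Finset.sum_le_sum fun I _ => ?_
  exact gn_ms_mono (P := p.sys η) _ _ _ ((re_at_meas_S' W i hs I).inter MeasurableSet.univ) (re_at_meas_pS (W.ps i) hs I)
    (fun x hx => hx.1.1) _

theorem re_at_raw_hi {hg C A : ℕ} {τ : ℝ} (h : W.Ok hg C A τ) (i : ℕ) (h0 : 0 < i) (hi : i ≤ hg) :
    W.rt i (fun _ => Set.univ) ≤ W.E.e * (2 : ℝ) ^ ((rndWav η).d0f * i * W.m) * W.tn τ :=
  re_at_raw_hi' W i (h.sel i h0 hi)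

/-- finite additivity of `ms` over a finset -/
theorem re_at_ms_biUnion {P : PkSys} (T : ℝ) (k b : ℕ) (v : P.Kc) {ι : Type} (s : Finset ι) (R : ι → Set P.X)
    (hR : ∀ u ∈ s, MeasurableSet (R u)) (hd : ∀ u ∈ s, ∀ u' ∈ s, u ≠ u' → Disjoint (R u) (R u')) :
    P.ms T k b (⋃ u ∈ s, R u) v = ∑ u ∈ s, P.ms T k b (R u) v := by
  have hfin := gn_mu_finite (P := P) T k b v
  rw [gn_ms_eq_mu T k b (Finset.measurableSet_biUnion s hR), measureReal_biUnion_finset (fun u hu u' hu' hne => hd u hu u' hu' hne) hR]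
  exact Finset.sum_congr rfl fun u hu => (gn_ms_eq_mu T k b (hR u hu) v).symm

/-- the weight count of the labels.
PLAN: `be * wt_u ≤ ms (lR u)` (`lb`);   `∑ u < nL, ms_{lI u} (lR u) = ∑ I ∈ iv i, ∑ u < nL with lI u = I, ms_I (lR u)` (`Finset.sum_fiberwise_of_maps_to`, `lI u ∈ iv i` by `lb`) `= ∑ I, ms_I ((ps i).S I)` (disjoint finite union: `gn_ms_eq_mu`, `measureReal_biUnion_finset`, `disj`) `= raw ≤` `raw_hi`; exponents as in `re_at_raw_hi`. -/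
theorem re_at_cnt' {τ : ℝ} (i : ℕ) (hs : (W.ps i).Ok (W.Ex (i - 1)) (W.dp i) τ) :
    (W.ps i).be * ∑ u ∈ Finset.range (W.ps i).nL, ((W.ps i).lQ u).wt η ≤ W.E.e * (2 : ℝ) ^ ((rndWav η).d0f * i * W.m) * W.tn τ := by
  refine le_trans ?_ (re_at_raw_le' W i hs)
  rw [Finset.mul_sum]
  have h1 : ∑ u ∈ Finset.range (W.ps i).nL, (W.ps i).be * ((W.ps i).lQ u).wt η ≤
      ∑ u ∈ Finset.range (W.ps i).nL, (p.sys η).ms (tmL (W.dp i) ((W.ps i).lI u)) (W.dp i) (W.ps i).gb ((W.ps i).lR u)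
        ((W.Ex (i - 1)).at' (W.dp i) ((W.ps i).lI u) (W.Ex (i - 1)).st) :=
    Finset.sum_le_sum fun u hu => (hs.lb u (Finset.mem_range.1 hu)).2.2.2.2.le
  refine h1.trans (le_of_eq ?_)
  rw [← Finset.sum_fiberwise_of_maps_to (t := ivs (W.Ex (i - 1)).k0 (W.Ex (i - 1)).i0 (W.dp i)) (g := (W.ps i).lI)
    (fun u hu => (hs.lb u (Finset.mem_range.1 hu)).1)]
  unfold RePs.raw
  refine Finset.sum_congr rfl fun I _ => ?_
  have h3 : (W.ps i).S I = ⋃ u ∈ (Finset.range (W.ps i).nL).filter (fun u => (W.ps i).lI u = I), (W.ps i).lR u := by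
    ext x
    simp only [RePs.S, Set.mem_ofPred_eq, Set.mem_iUnion, Finset.mem_filter, Finset.mem_range, exists_prop]
    constructor
    · rintro ⟨u, hu, a, b⟩
      exact ⟨u, ⟨hu, a⟩, b⟩
    · rintro ⟨u, ⟨hu, a⟩, b⟩
      exact ⟨u, hu, a, b⟩
  rw [h3]
  refine Eq.trans ?_ (re_at_ms_biUnion (P := p.sys η) _ _ _ _ _ (W.ps i).lR ?_ ?_).symm
  · refine Finset.sum_congr rfl fun u hu => ?_
    rw [Finset.mem_filter, Finset.mem_range] at hu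
    rw [hu.2]
  · intro u hu
    rw [Finset.mem_filter, Finset.mem_range] at hu
    exact (hs.lb u hu.1).2.2.1
  · intro u hu u' hu' hne
    rw [Finset.mem_filter, Finset.mem_range] at hu hu'
    exact hs.disj u hu.1 u' hu'.1 hne (hu.2.trans hu'.2.symm)

theorem re_at_cnt {hg C A : ℕ} {τ : ℝ} (h : W.Ok hg C A τ) (i : ℕ) (h0 : 0 < i) (hi : i ≤ hg) :
    (W.ps i).be * ∑ u ∈ Finset.range (W.ps i).nL, ((W.ps i).lQ u).wt η ≤ W.E.e * (2 : ℝ) ^ ((rndWav η).d0f * i * W.m) * W.tn τ :=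
  re_at_cnt' W i (h.sel i h0 hi)

end Claimed.Agent.R256
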