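-- KEEP
import Mathlib

/-!
# Row 256, unit RE, block (I), post FLAT, file 1: FINITE LEMMAS      (helper74; prefix `re_fl_`)      Mathlib only, sorry free

* `re_fl_bin`      logarithmic bins along a sequence of thresholds
* `reVm`           the mass of the value of an observation
* `re_fl_card`     few values of mass `≥ lo`
* `re_fl_heavy`    no value is heavier than `hi`
* `re_fl_flat`     a class of one bin is flat;   `reBin`, `re_fl_flat_bin` the same with chosen bins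
* `re_fl_pigeon`   pigeonhole for cube roots
-/

set_option autoImplicit false

namespace Claimed.Agent.R256

open scoped BigOperators
open Classical

/-- bins of a real number along a sequence of thresholds -/
theorem re_fl_bin (thr : ℕ → ℝ) (x : ℝ) (N : ℕ) (h0 : x ≤ thr 0) :
    ∃ b, b ≤ N ∧ (b < N → thr (b + 1) < x) ∧ x ≤ thr b := by
  induction N with
  | zero => exact ⟨0, le_rfl, fun h => absurd h (lt_irrefl _), h0⟩
  | succ N ih =>
    obtain ⟨b, hb, h1, h2⟩ := ih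
    rcases lt_or_eq_of_le hb with hlt | rfl
    · exact ⟨b, by omega, fun _ => h1 hlt, h2⟩
    · by_cases h : thr (b + 1) < x
      · exact ⟨b, by omega, fun _ => h, h2⟩
      · exact ⟨b + 1, le_rfl, fun h' => absurd h' (lt_irrefl _), not_lt.1 h⟩

/-- the mass of the value `X a` of an observation -/
noncomputable def reVm {α β : Type} (T : Finset α) (μ : α → ℝ) (X : α → β) (a : α) : ℝ :=
  ∑ a' ∈ T.filter (fun a' => X a' = X a), μ a'

theorem re_fl_fin_eqns_cite : True := by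
  have := @reVm.eq_1
  trivial

theorem re_fl_vm_le {α β : Type} (T : Finset α) (μ : α → ℝ) (hμ : ∀ a ∈ T, 0 ≤ μ a) (X : α → β) (a : α) :
    reVm T μ X a ≤ ∑ a' ∈ T, μ a' := by
  unfold reVm
  exact Finset.sum_le_sum_of_subset_of_nonneg (Finset.filter_subset _ _) fun x hx _ => hμ x hx

theorem re_fl_card {α β : Type} (T : Finset α) (μ : α → ℝ) (hμ : ∀ a ∈ T, 0 ≤ μ a) (X : α → β) (T' : Finset α) (hT : T' ⊆ T)
    (lo : ℝ) (h : ∀ a ∈ T', lo ≤ reVm T μ X a) : ((T'.image X).card : ℝ) * lo ≤ ∑ a ∈ T, μ a := by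
  have h1 : ∑ v ∈ T'.image X, ∑ a ∈ T.filter (fun a => X a = v), μ a ≤ ∑ a ∈ T, μ a := by
    rw [← Finset.sum_fiberwise_of_maps_to (s := T) (t := T.image X) (g := X) (fun a ha => Finset.mem_image_of_mem X ha)]
    apply Finset.sum_le_sum_of_subset_of_nonneg (Finset.image_subset_image hT)
    intro v _ _
    exact Finset.sum_nonneg fun a ha => hμ a (Finset.mem_filter.1 ha).1
  refine le_trans ?_ h1
  rw [← nsmul_eq_mul]
  apply Finset.card_nsmul_le_sum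
  intro v hv
  obtain ⟨a, ha, rfl⟩ := Finset.mem_image.1 hv
  exact h a ha

theorem re_fl_heavy {α β : Type} (T : Finset α) (μ : α → ℝ) (hμ : ∀ a ∈ T, 0 ≤ μ a) (X : α → β) (T' : Finset α) (hT : T' ⊆ T)
    (hi : ℝ) (hhi : 0 ≤ hi) (h : ∀ a ∈ T', reVm T μ X a ≤ hi) (v : β) : ∑ a ∈ T'.filter (fun a => X a = v), μ a ≤ hi := by
  by_cases hv : ∃ a ∈ T', X a = v
  · obtain ⟨a, ha, rfl⟩ := hv
    refine le_trans ?_ (h a ha)
    unfold reVm
    apply Finset.sum_le_sum_of_subset_of_nonneg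
    · exact Finset.filter_subset_filter _ hT
    · intro x hx _
      exact hμ x (Finset.mem_filter.1 hx).1
  · have : T'.filter (fun a => X a = v) = ∅ := by
      rw [Finset.filter_eq_empty_iff]
      intro a ha h'
      exact hv ⟨a, ha, h'⟩
    rw [this, Finset.sum_empty]
    exact hhi

/-- **a class of one bin is flat**.   `T` = the atoms of the pre-law, `T'` = the atoms of the class, all in the bin `b ≤ N` of the observation `X` (width `δ`, `m` bits per step);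
in the last bin the number of values is controlled by `hcard`. -/
theorem re_fl_flat {α β : Type} (T : Finset α) (μ : α → ℝ) (hμ : ∀ a ∈ T, 0 < μ a) (X : α → β) (T' : Finset α) (hT : T' ⊆ T)
    (m δ t : ℝ) (b N : ℕ) (hm : 0 ≤ m) (hδt : δ ≤ t) (ht : 0 ≤ t) (hbN : b ≤ N)
    (hbin : ∀ a ∈ T', (b < N → (2 : ℝ) ^ (-(((b + 1 : ℕ) : ℝ) * δ * m)) * ∑ a' ∈ T, μ a' < reVm T μ X a) ∧
      reVm T μ X a ≤ (2 : ℝ) ^ (-((b : ℝ) * δ * m)) * ∑ a' ∈ T, μ a')
    (hcard : ((T.image X).card : ℝ) ≤ (2 : ℝ) ^ ((N : ℝ) * δ * m))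
    (htot : ∑ a ∈ T, μ a ≤ (2 : ℝ) ^ (t * m) * ∑ a ∈ T', μ a) :
    ((T'.image X).card : ℝ) ≤ (2 : ℝ) ^ (((b : ℝ) * δ + t) * m) ∧
      ∀ v : β, ∑ a ∈ T'.filter (fun a => X a = v), μ a ≤ (2 : ℝ) ^ (-((b : ℝ) * δ - t) * m) * ∑ a ∈ T', μ a := by
  have h2 : ∀ x y : ℝ, x ≤ y → (2 : ℝ) ^ x ≤ 2 ^ y := fun x y h => Real.rpow_le_rpow_of_exponent_le (by norm_num) h
  have hp : ∀ x : ℝ, (0 : ℝ) < 2 ^ x := fun x => Real.rpow_pos_of_pos (by norm_num) x
  have hμ0 : ∀ a ∈ T, 0 ≤ μ a := fun a ha => (hμ a ha).le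
  have htot0 : 0 ≤ ∑ a ∈ T, μ a := Finset.sum_nonneg hμ0
  constructor
  · rcases T'.eq_empty_or_nonempty with he | ⟨a0, ha0⟩
    · rw [he]
      simpa using (hp _).le
    have hpos : 0 < ∑ a ∈ T, μ a := Finset.sum_pos' hμ0 ⟨a0, hT ha0, hμ a0 (hT ha0)⟩
    rcases lt_or_eq_of_le hbN with hlt | rfl
    · have h1 := re_fl_card T μ hμ0 X T' hT _ fun a ha => ((hbin a ha).1 hlt).le
      have h3 : ((T'.image X).card : ℝ) * (2 : ℝ) ^ (-(((b + 1 : ℕ) : ℝ) * δ * m)) ≤ 1 := by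
        rw [← mul_assoc] at h1
        exact le_of_mul_le_mul_right (by simpa using h1) hpos
      rw [Real.rpow_neg (by norm_num), ← div_eq_mul_inv, div_le_one (hp _)] at h3
      refine h3.trans (h2 _ _ ?_)
      push_cast
      nlinarith
    · refine le_trans ?_ (hcard.trans (h2 _ _ (by nlinarith)))
      exact_mod_cast Finset.card_le_card (Finset.image_subset_image hT)
  · intro v
    refine (re_fl_heavy T μ hμ0 X T' hT _ (mul_nonneg (hp _).le htot0) (fun a ha => (hbin a ha).2) v).trans ?_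
    calc (2 : ℝ) ^ (-((b : ℝ) * δ * m)) * ∑ a' ∈ T, μ a' ≤ (2 : ℝ) ^ (-((b : ℝ) * δ * m)) * ((2 : ℝ) ^ (t * m) * ∑ a ∈ T', μ a) :=
          mul_le_mul_of_nonneg_left htot (hp _).le
      _ = (2 : ℝ) ^ (-((b : ℝ) * δ - t) * m) * ∑ a ∈ T', μ a := by
          rw [← mul_assoc, ← Real.rpow_add (by norm_num)]
          congr 2
          ring

/-- the bin of an atom for the observation `X`: width `δ`, `m` bits per step, last bin `N` -/
noncomputable def reBin {α β : Type} (T : Finset α) (μ : α → ℝ) (X : α → β) (m δ : ℝ) (N : ℕ) (a : α) : ℕ :=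
  if h : ∃ b, b ≤ N ∧ (b < N → (2 : ℝ) ^ (-(((b + 1 : ℕ) : ℝ) * δ * m)) * ∑ a' ∈ T, μ a' < reVm T μ X a) ∧
      reVm T μ X a ≤ (2 : ℝ) ^ (-((b : ℝ) * δ * m)) * ∑ a' ∈ T, μ a' then h.choose else 0

theorem re_fl_bin_eqns_cite : True := by
  have := @reBin.eq_1
  trivial

theorem re_fl_bin_le {α β : Type} (T : Finset α) (μ : α → ℝ) (X : α → β) (m δ : ℝ) (N : ℕ) (a : α) : reBin T μ X m δ N a ≤ N := by
  unfold reBin
  split_ifs with h
  · exact h.choose_spec.1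
  · exact Nat.zero_le _

theorem re_fl_bin_spec {α β : Type} (T : Finset α) (μ : α → ℝ) (hμ : ∀ a ∈ T, 0 ≤ μ a) (X : α → β) (m δ : ℝ) (N : ℕ) (a : α) :
    (reBin T μ X m δ N a < N → (2 : ℝ) ^ (-(((reBin T μ X m δ N a + 1 : ℕ) : ℝ) * δ * m)) * ∑ a' ∈ T, μ a' < reVm T μ X a) ∧
      reVm T μ X a ≤ (2 : ℝ) ^ (-((reBin T μ X m δ N a : ℝ) * δ * m)) * ∑ a' ∈ T, μ a' := by
  have h : ∃ b, b ≤ N ∧ (b < N → (2 : ℝ) ^ (-(((b + 1 : ℕ) : ℝ) * δ * m)) * ∑ a' ∈ T, μ a' < reVm T μ X a) ∧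
      reVm T μ X a ≤ (2 : ℝ) ^ (-((b : ℝ) * δ * m)) * ∑ a' ∈ T, μ a' := by
    refine re_fl_bin (fun b => (2 : ℝ) ^ (-((b : ℝ) * δ * m)) * ∑ a' ∈ T, μ a') (reVm T μ X a) N ?_
    simpa using re_fl_vm_le T μ hμ X a
  unfold reBin
  rw [dif_pos h]
  exact h.choose_spec.2

/-- **a class on which the bin of `X` is constant is flat** -/
theorem re_fl_flat_bin {α β : Type} (T : Finset α) (μ : α → ℝ) (hμ : ∀ a ∈ T, 0 < μ a) (X : α → β) (c : Set α)
    (m δ t : ℝ) (b N : ℕ) (hm : 0 ≤ m) (hδt : δ ≤ t) (ht : 0 ≤ t) (hb : ∀ a ∈ c, reBin T μ X m δ N a = b)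
    (hcard : ((T.image X).card : ℝ) ≤ (2 : ℝ) ^ ((N : ℝ) * δ * m))
    (htot : ∑ a ∈ T, μ a ≤ (2 : ℝ) ^ (t * m) * ∑ a ∈ T.filter (fun a => a ∈ c), μ a) :
    (((T.filter (fun a => a ∈ c)).image X).card : ℝ) ≤ (2 : ℝ) ^ (((b : ℝ) * δ + t) * m) ∧
      ∀ v : β, ∑ a ∈ (T.filter (fun a => a ∈ c)).filter (fun a => X a = v), μ a
        ≤ (2 : ℝ) ^ (-((b : ℝ) * δ - t) * m) * ∑ a ∈ T.filter (fun a => a ∈ c), μ a := by
  rcases (T.filter (fun a => a ∈ c)).eq_empty_or_nonempty with he | ⟨a0, ha0⟩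
  · rw [he]
    refine ⟨by simpa using (Real.rpow_pos_of_pos (by norm_num : (0 : ℝ) < 2) _).le, fun v => by simp⟩
  have hbN : b ≤ N := by
    rw [← hb a0 (Finset.mem_filter.1 ha0).2]
    exact re_fl_bin_le _ _ _ _ _ _ _
  refine re_fl_flat T μ hμ X _ (Finset.filter_subset _ _) m δ t b N hm hδt ht hbN (fun a ha => ?_) hcard htot
  have h1 := re_fl_bin_spec T μ (fun a ha => (hμ a ha).le) X m δ N a
  rw [hb a (Finset.mem_filter.1 ha).2] at h1
  exact h1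

/-- pigeonhole for cube roots -/
theorem re_fl_pigeon {ι : Type} (J : Finset ι) (f : ι → ℝ) (hf : ∀ j ∈ J, 0 ≤ f j) (r : ℝ) (hr : 0 < r)
    (h : r ^ (1 / 3 : ℝ) ≤ ∑ j ∈ J, f j ^ (1 / 3 : ℝ)) : ∃ j ∈ J, r ≤ (J.card : ℝ) ^ 3 * f j := by
  have hr3 : 0 < r ^ (1 / 3 : ℝ) := Real.rpow_pos_of_pos hr _
  rcases J.eq_empty_or_nonempty with he | hne
  · rw [he, Finset.sum_empty] at h
    exact absurd h (not_le.2 hr3)
  have hc : (0 : ℝ) < J.card := by exact_mod_cast hne.card_pos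
  have h1 : ∑ _j ∈ J, r ^ (1 / 3 : ℝ) / J.card ≤ ∑ j ∈ J, f j ^ (1 / 3 : ℝ) := by
    rw [Finset.sum_const, nsmul_eq_mul, mul_div_cancel₀ _ hc.ne']
    exact h
  obtain ⟨j, hj, h2⟩ := Finset.exists_le_of_sum_le hne h1
  refine ⟨j, hj, ?_⟩
  have h3 : (r ^ (1 / 3 : ℝ) / J.card) ^ 3 ≤ (f j ^ (1 / 3 : ℝ)) ^ 3 := pow_le_pow_left₀ (by positivity) h2 3
  have e1 : ∀ x : ℝ, 0 ≤ x → (x ^ (1 / 3 : ℝ)) ^ 3 = x := by
    intro x hx
    rw [← Real.rpow_natCast, ← Real.rpow_mul hx]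
    norm_num
  rw [div_pow, e1 r hr.le, e1 _ (hf j hj), div_le_iff₀ (by positivity)] at h3
  linarith

end Claimed.Agent.R256
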