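-- KEEP
import Claimed.Agent.R256.Re.Tow

/-!
# Row 256, unit RE, block (I), post FLAT, file 2: TRANSPORT ALONG `ReTw.upd`      (helper74; prefix `re_fu_`)      sorry free

`W' = W.upd i P c dn gn`.   Everything below the cut `i` is unchanged (`re_fu_*` with `a < i`), hence `re_fu_ok`.   At the cut `i`: `re_fu_*_self`.
-/

set_option autoImplicit false

namespace Claimed.Agent.R256

open MeasureTheory
open scoped BigOperators
open Classical

variable {η : ℝ} {p : RdWvPar} (W : ReTw η p) (i : ℕ) (P : RePs) (c : Set (ℕ × ReFc)) (dn : ℕ → ℝ) (gn : ℕ → ℕ → ℝ)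

theorem re_fu_ps_ne {a : ℕ} (h : a ≠ i) : (W.upd i P c dn gn).ps a = W.ps a := Function.update_of_ne h _ _

theorem re_fu_cl_ne {a : ℕ} (h : a ≠ i) : (W.upd i P c dn gn).cl a = W.cl a := Function.update_of_ne h _ _

theorem re_fu_Dn_ne {a : ℕ} (h : a ≠ i) : (W.upd i P c dn gn).Dn a = W.Dn a := Function.update_of_ne h _ _

theorem re_fu_Gn_ne {a : ℕ} (h : a ≠ i) : (W.upd i P c dn gn).Gn a = W.Gn a := Function.update_of_ne h _ _

theorem re_fu_ps_self : (W.upd i P c dn gn).ps i = P := Function.update_self _ _ _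

theorem re_fu_cl_self : (W.upd i P c dn gn).cl i = c := Function.update_self _ _ _

theorem re_fu_Dn_self : (W.upd i P c dn gn).Dn i = dn := Function.update_self _ _ _

theorem re_fu_Gn_self : (W.upd i P c dn gn).Gn i = gn := Function.update_self _ _ _

theorem re_fu_S_ne {a : ℕ} (h : a ≠ i) : (W.upd i P c dn gn).S a = W.S a := by
  funext I
  unfold ReTw.S
  rw [re_fu_ps_ne W i P c dn gn h, re_fu_cl_ne W i P c dn gn h]
  rfl

theorem re_fu_S_self : (W.upd i P c dn gn).S i = fun I => P.S I ∩ W.rs i c I := by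
  funext I
  unfold ReTw.S
  rw [re_fu_ps_self, re_fu_cl_self]
  rfl

theorem re_fu_sg_ne {a : ℕ} (h : a ≠ i) : (W.upd i P c dn gn).sg a = W.sg a := by
  unfold ReTw.sg
  rw [re_fu_ps_ne W i P c dn gn h, re_fu_S_ne W i P c dn gn h]
  rfl

theorem re_fu_sg_self : (W.upd i P c dn gn).sg i = reStg η p (W.dp i) P.gb (fun I => P.S I ∩ W.rs i c I) := by
  unfold ReTw.sg
  rw [re_fu_ps_self, re_fu_S_self]
  rfl

theorem re_fu_stk {a : ℕ} (h : a < i) : (W.upd i P c dn gn).stk a = W.stk a := by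
  unfold ReTw.stk
  apply List.map_congr_left
  intro b hb
  have := List.mem_range.1 hb
  exact re_fu_sg_ne W i P c dn gn (by omega)

theorem re_fu_Ex {a : ℕ} (h : a < i) : (W.upd i P c dn gn).Ex a = W.Ex a := by
  unfold ReTw.Ex
  rw [re_fu_stk W i P c dn gn h]
  rfl

theorem re_fu_pre {a : ℕ} (h : a ≤ i) (h0 : 0 < i) : (W.upd i P c dn gn).pre a = W.pre a := by
  funext I
  unfold ReTw.pre
  rw [re_fu_stk W i P c dn gn (show a - 1 < i by omega)]
  rfl

theorem re_fu_rm {a : ℕ} (h : a < i) : (W.upd i P c dn gn).rm a = W.rm a := by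
  funext I U
  unfold ReTw.rm
  rw [re_fu_ps_ne W i P c dn gn h.ne, re_fu_S_ne W i P c dn gn h.ne, re_fu_pre W i P c dn gn h.le (by omega)]
  rfl

theorem re_fu_rt {a : ℕ} (h : a < i) : (W.upd i P c dn gn).rt a = W.rt a := by
  funext U
  unfold ReTw.rt
  rw [re_fu_rm W i P c dn gn h]
  rfl

theorem re_fu_am {a : ℕ} (h : a < i) : (W.upd i P c dn gn).am a = W.am a := by
  funext x
  unfold ReTw.am
  rw [re_fu_rm W i P c dn gn h]
  rfl

theorem re_fu_chg {a : ℕ} (h : a < i) : (W.upd i P c dn gn).chg a = W.chg a := by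
  unfold ReTw.chg
  rw [re_fu_am W i P c dn gn h]
  rfl

theorem re_fu_ats {a : ℕ} (h : a < i) : (W.upd i P c dn gn).ats a = W.ats a := by
  unfold ReTw.ats
  simp only [re_fu_chg W i P c dn gn h]

theorem re_fu_flatT {α : Type} {a : ℕ} (h : a < i) (X : ℕ × ReFc → α) (x t : ℝ) :
    (W.upd i P c dn gn).FlatT a X x t ↔ W.FlatT a X x t := by
  unfold ReTw.FlatT
  rw [re_fu_ats W i P c dn gn h, re_fu_am W i P c dn gn h]
  rfl

/-- **the stages below the new cut are unchanged** -/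
theorem re_fu_ok {hg C A : ℕ} {τ : ℝ} (h : W.Ok hg C A τ) (hi : hg < i) : (W.upd i P c dn gn).Ok hg C A τ where
  free := h.free
  n_lo := h.n_lo
  n_hi := h.n_hi
  m_pos := h.m_pos
  hg_lt := h.hg_lt
  B_ge := h.B_ge
  cls := fun a ha => by
    rw [re_fu_Ex W i P c dn gn (lt_of_le_of_lt ha hi)]
    exact h.cls a ha
  cert := fun a ha => by
    rw [re_fu_Ex W i P c dn gn (lt_of_le_of_lt ha hi)]
    exact h.cert a ha
  tw := h.tw
  sel := fun a h0 ha => by
    rw [re_fu_Ex W i P c dn gn (show a - 1 < i by omega), re_fu_ps_ne W i P c dn gn (show a ≠ i by omega)]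
    exact h.sel a h0 ha
  raw_lo := fun a h0 ha => by
    rw [re_fu_rt W i P c dn gn (lt_of_le_of_lt ha hi)]
    exact h.raw_lo a h0 ha
  flatC := fun a j ha hv => by
    rw [re_fu_flatT W i P c dn gn (lt_of_le_of_lt ha hi), re_fu_Dn_ne W i P c dn gn (show a ≠ i by omega)]
    exact h.flatC a j ha hv
  flatG := fun a j w ha hv hjw => by
    rw [re_fu_flatT W i P c dn gn (lt_of_le_of_lt ha hi), re_fu_Gn_ne W i P c dn gn (show a ≠ i by omega)]
    exact h.flatG a j w ha hv hjw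

/-! ## the new cut -/

theorem re_fu_stk_self (hg : ℕ) :
    (W.upd (hg + 1) P c dn gn).stk (hg + 1) = W.stk hg ++ [reStg η p (W.dp (hg + 1)) P.gb (fun I => P.S I ∩ W.rs (hg + 1) c I)] := by
  have h1 : (W.upd (hg + 1) P c dn gn).stk (hg + 1)
      = (W.upd (hg + 1) P c dn gn).stk hg ++ [(W.upd (hg + 1) P c dn gn).sg (hg + 1)] := by
    unfold ReTw.stk
    rw [List.range_succ, List.map_append]
    rfl
  rw [h1, re_fu_stk W (hg + 1) P c dn gn (Nat.lt_succ_self hg), re_fu_sg_self]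

theorem re_fu_Ex_self (hg : ℕ) :
    (W.upd (hg + 1) P c dn gn).Ex (hg + 1)
      = (W.Ex hg).withSt ((W.Ex hg).st ++ [reStg η p (W.dp (hg + 1)) P.gb (fun I => P.S I ∩ W.rs (hg + 1) c I)]) := by
  unfold ReTw.Ex
  rw [re_fu_stk_self]
  rfl

theorem re_fu_pre_self (hg : ℕ) (I : ℕ) :
    (W.upd (hg + 1) P c dn gn).pre (hg + 1) I = (W.Ex hg).at' (W.dp (hg + 1)) I (W.Ex hg).st := by
  rw [re_fu_pre W (hg + 1) P c dn gn le_rfl (Nat.succ_pos hg)]
  rfl

theorem re_fu_rm_self (hg : ℕ) (I : ℕ) (U : Set RdWvPar.Ph) :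
    (W.upd (hg + 1) P c dn gn).rm (hg + 1) I U
      = (p.sys η).ms (tmL (W.dp (hg + 1)) I) (W.dp (hg + 1)) P.gb (P.S I ∩ W.rs (hg + 1) c I ∩ U)
          ((W.Ex hg).at' (W.dp (hg + 1)) I (W.Ex hg).st) := by
  unfold ReTw.rm
  rw [re_fu_ps_self, re_fu_S_self, re_fu_pre_self]
  rfl

end Claimed.Agent.R256
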