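-- KEEP
import Claimed.Agent.R256.Re.Atom
import Claimed.Agent.R256.Re.FlatUpd
import Claimed.Agent.R256.Re.FlatFin

/-!
# Row 256, unit RE, block (I), post FLAT, file 3: THE ATOMS OF THE NEW CUT      (helper74; prefix `re_fa_`)

`i = hg + 1`, `X = W.Ex hg`, `k = W.dp i`, `hP : P.Ok X k τ`.   `W.upd i P c dn gn` = the tower with the class `c`;   PRE-LAW = the class `Set.univ`.
* `re_fa_hs`       the selection of the new cut of `W.upd ..` is `P`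
* `re_fa_am`       `am` of the class `c` = `am` of the pre-law on `c`, `0` off `c`
* `re_fa_ats`      `ats` of the class `c` = the atoms of the pre-law in `c`
* `re_fa_tot`      total mass of the pre-law = `P.raw`
* `re_fa_flat`     `FlatT` of a class from `re_fl_flat`
-/

set_option autoImplicit false

namespace Claimed.Agent.R256

open MeasureTheory
open scoped BigOperators
open Classical

variable {η : ℝ} {p : RdWvPar} (W : ReTw η p)

/-! ## 0. the primed forms of A3, A4 (hypothesis: the selection of the cut only) -/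

theorem re_fa_chg_fin {τ : ℝ} (i : ℕ) (hs : (W.ps i).Ok (W.Ex (i - 1)) (W.dp i) τ) : (W.chg i).Finite :=
  re_at_chg_fin' W i hs

theorem re_fa_mem_ats {τ : ℝ} (i : ℕ) (hs : (W.ps i).Ok (W.Ex (i - 1)) (W.dp i) τ) (a : ℕ × ReFc) :
    a ∈ W.ats i ↔ a.1 ∈ W.iv i ∧ 0 < W.am i a := by
  unfold ReTw.ats
  rw [dif_pos (re_fa_chg_fin W i hs), Set.Finite.mem_toFinset]
  rfl

theorem re_fa_rt_rs {τ : ℝ} (i : ℕ) (hs : (W.ps i).Ok (W.Ex (i - 1)) (W.dp i) τ) (T : Set (ℕ × ReFc)) :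
    W.rt i (W.rs i T) = ∑ a ∈ (W.ats i).filter (fun a => a ∈ T), W.am i a :=
  re_at_rt_rs' W i hs T

theorem re_fa_rt_univ {τ : ℝ} (i : ℕ) (hs : (W.ps i).Ok (W.Ex (i - 1)) (W.dp i) τ) :
    W.rt i (fun _ => Set.univ) = ∑ a ∈ W.ats i, W.am i a := by
  have h := re_fa_rt_rs W i hs Set.univ
  have e1 : W.rs i Set.univ = fun _ => Set.univ := by
    funext I
    ext x
    simp [ReTw.rs]
  rw [e1] at h
  rw [h]
  simp

/-! ## 1. the new cut -/

variable (hg : ℕ) (P : RePs) (c : Set (ℕ × ReFc)) (dn dn' : ℕ → ℝ) (gn gn' : ℕ → ℕ → ℝ)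

theorem re_fa_hs {τ : ℝ} (hP : P.Ok (W.Ex hg) (W.dp (hg + 1)) τ) :
    ((W.upd (hg + 1) P c dn gn).ps (hg + 1)).Ok ((W.upd (hg + 1) P c dn gn).Ex (hg + 1 - 1)) ((W.upd (hg + 1) P c dn gn).dp (hg + 1)) τ := by
  rw [re_fu_ps_self, Nat.add_sub_cancel, re_fu_Ex W (hg + 1) P c dn gn (Nat.lt_succ_self hg)]
  exact hP

theorem re_fa_set_in (a : ℕ × ReFc) (h : a ∈ c) :
    (P.S a.1 ∩ W.rs (hg + 1) c a.1 ∩ W.fs (hg + 1) a.2 : Set RdWvPar.Ph) = P.S a.1 ∩ W.rs (hg + 1) Set.univ a.1 ∩ W.fs (hg + 1) a.2 := by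
  ext x
  constructor
  · rintro ⟨⟨h1, _⟩, h3⟩
    exact ⟨⟨h1, Set.mem_univ _⟩, h3⟩
  · rintro ⟨⟨h1, _⟩, h3⟩
    refine ⟨⟨h1, ?_⟩, h3⟩
    have h3' : W.fc (hg + 1) (RdWvPar.co 0 x) = a.2 := h3
    show (a.1, W.fc (hg + 1) (RdWvPar.co 0 x)) ∈ c
    rw [h3']
    exact h

theorem re_fa_set_out (a : ℕ × ReFc) (h : a ∉ c) : (P.S a.1 ∩ W.rs (hg + 1) c a.1 ∩ W.fs (hg + 1) a.2 : Set RdWvPar.Ph) = ∅ := by
  ext x
  simp only [Set.mem_empty_iff_false, iff_false]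
  rintro ⟨⟨_, h2⟩, h3⟩
  have h3' : W.fc (hg + 1) (RdWvPar.co 0 x) = a.2 := h3
  have h2' : (a.1, W.fc (hg + 1) (RdWvPar.co 0 x)) ∈ c := h2
  rw [h3'] at h2'
  exact h h2'

theorem re_fa_am (a : ℕ × ReFc) :
    (W.upd (hg + 1) P c dn gn).am (hg + 1) a = if a ∈ c then (W.upd (hg + 1) P Set.univ dn' gn').am (hg + 1) a else 0 := by
  unfold ReTw.am
  rw [re_fu_rm_self, re_fu_rm_self]
  split_ifs with h
  · exact congrArg (fun S => (p.sys η).ms (tmL (W.dp (hg + 1)) a.1) (W.dp (hg + 1)) P.gb S ((W.Ex hg).at' (W.dp (hg + 1)) a.1 (W.Ex hg).st))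
      (re_fa_set_in W hg P c a h)
  · exact (congrArg (fun S => (p.sys η).ms (tmL (W.dp (hg + 1)) a.1) (W.dp (hg + 1)) P.gb S ((W.Ex hg).at' (W.dp (hg + 1)) a.1 (W.Ex hg).st))
      (re_fa_set_out W hg P c a h)).trans (gn_ms_empty _ _ _ _)

theorem re_fa_ats {τ : ℝ} (hP : P.Ok (W.Ex hg) (W.dp (hg + 1)) τ) :
    (W.upd (hg + 1) P c dn gn).ats (hg + 1) = ((W.upd (hg + 1) P Set.univ dn' gn').ats (hg + 1)).filter (fun a => a ∈ c) := by
  ext a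
  rw [Finset.mem_filter, re_fa_mem_ats _ _ (re_fa_hs W hg P c dn gn hP), re_fa_mem_ats _ _ (re_fa_hs W hg P Set.univ dn' gn' hP), re_fa_am W hg P c dn dn' gn gn']
  constructor
  · rintro ⟨h1, h2⟩
    by_cases h : a ∈ c
    · rw [if_pos h] at h2
      exact ⟨⟨h1, h2⟩, h⟩
    · rw [if_neg h] at h2
      exact absurd h2 (lt_irrefl _)
  · rintro ⟨⟨h1, h2⟩, h⟩
    rw [if_pos h]
    exact ⟨h1, h2⟩

/-- the total mass of the pre-law -/
theorem re_fa_tot {τ : ℝ} (hP : P.Ok (W.Ex hg) (W.dp (hg + 1)) τ) :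
    ∑ a ∈ (W.upd (hg + 1) P Set.univ dn' gn').ats (hg + 1), (W.upd (hg + 1) P Set.univ dn' gn').am (hg + 1) a = P.raw (W.Ex hg) (W.dp (hg + 1)) := by
  rw [← re_fa_rt_univ _ _ (re_fa_hs W hg P Set.univ dn' gn' hP)]
  unfold ReTw.rt RePs.raw
  refine Finset.sum_congr rfl fun I _ => ?_
  rw [re_fu_rm_self]
  have e : (P.S I ∩ W.rs (hg + 1) Set.univ I ∩ Set.univ : Set RdWvPar.Ph) = P.S I := by
    ext x
    constructor
    · rintro ⟨⟨h1, _⟩, _⟩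
      exact h1
    · intro h1
      exact ⟨⟨h1, Set.mem_univ _⟩, Set.mem_univ _⟩
  exact congrArg (fun S => (p.sys η).ms (tmL (W.dp (hg + 1)) I) (W.dp (hg + 1)) P.gb S ((W.Ex hg).at' (W.dp (hg + 1)) I (W.Ex hg).st)) e

/-- the total mass of a class -/
theorem re_fa_tot_c {τ : ℝ} (hP : P.Ok (W.Ex hg) (W.dp (hg + 1)) τ) :
    (W.upd (hg + 1) P c dn gn).rt (hg + 1) (fun _ => Set.univ)
      = ∑ a ∈ ((W.upd (hg + 1) P Set.univ dn' gn').ats (hg + 1)).filter (fun a => a ∈ c), (W.upd (hg + 1) P Set.univ dn' gn').am (hg + 1) a := by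
  rw [re_fa_rt_univ _ _ (re_fa_hs W hg P c dn gn hP), re_fa_ats W hg P c dn dn' gn gn' hP]
  refine Finset.sum_congr rfl fun a ha => ?_
  rw [re_fa_am W hg P c dn dn' gn gn', if_pos (Finset.mem_filter.1 ha).2]

/-- **`FlatT` of a class**, in terms of the pre-law -/
theorem re_fa_flat {τ : ℝ} (hP : P.Ok (W.Ex hg) (W.dp (hg + 1)) τ) {β : Type} (X : ℕ × ReFc → β) (x t : ℝ)
    (h : ((((W.upd (hg + 1) P Set.univ dn' gn').ats (hg + 1)).filter (fun a => a ∈ c)).image X).card ≤ (2 : ℝ) ^ ((x + t) * W.m) ∧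
      ∀ v : β, ∑ a ∈ (((W.upd (hg + 1) P Set.univ dn' gn').ats (hg + 1)).filter (fun a => a ∈ c)).filter (fun a => X a = v),
          (W.upd (hg + 1) P Set.univ dn' gn').am (hg + 1) a
        ≤ (2 : ℝ) ^ (-(x - t) * W.m) * ∑ a ∈ ((W.upd (hg + 1) P Set.univ dn' gn').ats (hg + 1)).filter (fun a => a ∈ c),
          (W.upd (hg + 1) P Set.univ dn' gn').am (hg + 1) a) :
    (W.upd (hg + 1) P c dn gn).FlatT (hg + 1) X x t := by
  unfold ReTw.FlatT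
  rw [re_fa_ats W hg P c dn dn' gn gn' hP]
  have e1 : ∀ S : Finset (ℕ × ReFc), S ⊆ ((W.upd (hg + 1) P Set.univ dn' gn').ats (hg + 1)).filter (fun a => a ∈ c) →
      ∑ a ∈ S, (W.upd (hg + 1) P c dn gn).am (hg + 1) a = ∑ a ∈ S, (W.upd (hg + 1) P Set.univ dn' gn').am (hg + 1) a := by
    intro S hS
    refine Finset.sum_congr rfl fun a ha => ?_
    rw [re_fa_am W hg P c dn dn' gn gn', if_pos (Finset.mem_filter.1 (hS ha)).2]
  refine ⟨h.1, fun v => ?_⟩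
  rw [e1 _ (Finset.filter_subset _ _), e1 _ subset_rfl]
  exact h.2 v

end Claimed.Agent.R256
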