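-- KEEP
import Claimed.Agent.R256.Re.FlatAt

/-!
# Row 256, unit RE, block (I), post FLAT, file 4: POLYNOMIAL NUMBER OF NAMES      (helper74; prefix `re_fc_`)

The charged atoms of the pre-law of the new cut take at most `nL · 2^25 Λ^6` values of a name `C(a, v)` and `nL · (2^25 Λ^6)²` values of a pair `(C(a, v), A_w)`, `Λ = 2^(τ n)`.
Black boxes: `re_at_test`, `re_at_fc_fp`, `re_at_d_eq` (`Re/Atom.lean`), `re_label_list` (`Re/ProfGeo.lean`).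
-/

set_option autoImplicit false

namespace Claimed.Agent.R256

open MeasureTheory
open scoped BigOperators
open Classical

variable {η : ℝ} {p : RdWvPar} (W : ReTw η p) (hg : ℕ) (P : RePs) (dn : ℕ → ℝ) (gn : ℕ → ℕ → ℝ)

/-- a charged atom of the pre-law lies in a label: its representative lies in the doubled test -/
theorem re_fc_cov {hg' C A : ℕ} {τ τ' : ℝ} (h : W.Ok hg' C A τ') (hq : hg + 1 ≤ W.q) (hP : P.Ok (W.Ex hg) (W.dp (hg + 1)) τ) (a : ℕ × ReFc)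
    (ha : a ∈ (W.upd (hg + 1) P Set.univ dn gn).ats (hg + 1)) :
    ∃ u < P.nL, P.lI u = a.1 ∧ W.fp (hg + 1) a.2 ∈ ((P.lQ u).toT (W.dp (hg + 1))).set 2 := by
  have h1 := (re_at_ats_pos _ _ a ha).2
  unfold ReTw.am at h1
  rw [re_fu_rm_self] at h1
  have hne : (P.S a.1 ∩ W.rs (hg + 1) Set.univ a.1 ∩ W.fs (hg + 1) a.2 : Set RdWvPar.Ph).Nonempty := by
    by_contra hne
    rw [Set.not_nonempty_iff_eq_empty] at hne
    have e := (congrArg (fun S => (p.sys η).ms (tmL (W.dp (hg + 1)) a.1) (W.dp (hg + 1)) P.gb S ((W.Ex hg).at' (W.dp (hg + 1)) a.1 (W.Ex hg).st))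
      hne).trans (gn_ms_empty _ _ _ _)
    exact absurd (lt_of_lt_of_eq h1 e) (lt_irrefl _)
  obtain ⟨x, ⟨⟨u, hu, hI, hx⟩, _⟩, hf⟩ := hne
  obtain ⟨_, hok, _, hsub, _⟩ := hP.lb u hu
  refine ⟨u, hu, hI, ?_⟩
  have hx1 : RdWvPar.co 0 x ∈ ((P.lQ u).toT (W.dp (hg + 1))).set 1 := hsub hx
  have hf' : W.fc (hg + 1) (RdWvPar.co 0 x) = a.2 := hf
  exact re_at_test W h (hg + 1) hq (P.lQ u) hok.1 hok.2 (RdWvPar.co 0 x) (W.fp (hg + 1) a.2) (by rw [hf', re_at_fc_fp]) hx1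

/-- the aperture of the cut is at most the width of a valid name -/
theorem re_fc_d_le (i j : ℕ) (hv : RnVal W.q i j) : rdD p.H (W.dp i) ≤ W.Rw j := by
  obtain ⟨_, h2⟩ := hv
  rw [re_at_d_eq W i (by omega)]
  unfold ReTw.Rw
  refine mul_le_mul_of_nonneg_left ?_ (re_at_R0_pos W).le
  have e : rdLen (j * W.m) = (2 : ℝ) ^ (-((j * W.m : ℕ) : ℝ)) := by
    unfold rdLen
    rw [Real.rpow_neg (by norm_num), Real.rpow_natCast, inv_pow]
  rw [e]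
  apply gn_two_mono
  have h3 : 2 * (j * W.m) ≤ (W.q - i) * W.m := by
    rw [← mul_assoc]
    exact Nat.mul_le_mul_right _ (by omega)
  have h4 : (2 : ℝ) * ((j * W.m : ℕ) : ℝ) ≤ (((W.q - i) * W.m : ℕ) : ℝ) := by exact_mod_cast h3
  linarith

/-- the list of names of a label -/
theorem re_fc_list {τ : ℝ} (hτ : 0 ≤ τ) (hP : P.Ok (W.Ex hg) (W.dp (hg + 1)) τ) (j : ℕ) (hv : RnVal W.q (hg + 1) j) :
    ∃ Lst : ℕ → Finset ReName, (∀ u < P.nL, ((Lst u).card : ℝ) ≤ 2 ^ 25 * ((2 : ℝ) ^ (τ * W.E.n)) ^ 6) ∧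
      ∀ a ∈ (W.upd (hg + 1) P Set.univ dn gn).ats (hg + 1), ∀ u < P.nL, P.lI u = a.1 →
        W.fp (hg + 1) a.2 ∈ ((P.lQ u).toT (W.dp (hg + 1))).set 2 → W.nmT (hg + 1) (hg + 1) j a ∈ Lst u := by
  have hΛ : (1 : ℝ) ≤ (2 : ℝ) ^ (τ * W.E.n) := Real.one_le_rpow (by norm_num) (by positivity)
  have key : ∀ u, u < P.nL → ∃ L : Finset ReName, ((L.card : ℝ) ≤ 2 ^ 25 * ((2 : ℝ) ^ (τ * W.E.n)) ^ 6) ∧
      ∀ ω : (W.upd (hg + 1) P Set.univ dn gn).doc.Row (hg + 1), (W.upd (hg + 1) P Set.univ dn gn).doc.iv (hg + 1) ω = P.lI u →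
        (W.upd (hg + 1) P Set.univ dn gn).doc.pt (hg + 1) ω ∈ ((P.lQ u).toT ((W.upd (hg + 1) P Set.univ dn gn).doc.dp (hg + 1))).set 2 →
        (W.upd (hg + 1) P Set.univ dn gn).doc.nm (hg + 1) (hg + 1) j ω ∈ L := by
    intro u hu
    obtain ⟨_, hok, _, _, _⟩ := hP.lb u hu
    refine re_label_list (W.upd (hg + 1) P Set.univ dn gn).doc p.H_pos hΛ (hg + 1) j (P.lQ u) hok.1.r_pos ?_ (P.lI u)
    refine ((hP.shape u hu).1).trans ?_
    exact mul_le_mul_of_nonneg_left (re_fc_d_le W (hg + 1) j hv) (le_trans zero_le_one hΛ)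
  choose! Lst h1 h2 using key
  refine ⟨Lst, h1, fun a ha u hu hI hx => ?_⟩
  have h3 := h2 u hu ⟨a, ha⟩ hI.symm hx
  have h4 := re_at_nm (W.upd (hg + 1) P Set.univ dn gn) (hg + 1) (hg + 1) j ⟨a, ha⟩
  exact h4 ▸ h3

theorem re_fc_card1 {hg' C A : ℕ} {τ τ' : ℝ} (h : W.Ok hg' C A τ') (hq : hg + 1 ≤ W.q) (hτ : 0 ≤ τ) (hP : P.Ok (W.Ex hg) (W.dp (hg + 1)) τ) (j : ℕ)
    (hv : RnVal W.q (hg + 1) j) :
    ((((W.upd (hg + 1) P Set.univ dn gn).ats (hg + 1)).image (W.nmT (hg + 1) (hg + 1) j)).card : ℝ)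
      ≤ P.nL * (2 ^ 25 * ((2 : ℝ) ^ (τ * W.E.n)) ^ 6) := by
  obtain ⟨Lst, h1, h2⟩ := re_fc_list W hg P dn gn hτ hP j hv
  have hsub : ((W.upd (hg + 1) P Set.univ dn gn).ats (hg + 1)).image (W.nmT (hg + 1) (hg + 1) j) ⊆ (Finset.range P.nL).biUnion Lst := by
    intro v hv'
    obtain ⟨a, ha, rfl⟩ := Finset.mem_image.1 hv'
    obtain ⟨u, hu, hI, hx⟩ := re_fc_cov W hg P dn gn h hq hP a ha
    exact Finset.mem_biUnion.2 ⟨u, Finset.mem_range.2 hu, h2 a ha u hu hI hx⟩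
  calc ((((W.upd (hg + 1) P Set.univ dn gn).ats (hg + 1)).image (W.nmT (hg + 1) (hg + 1) j)).card : ℝ)
      ≤ (((Finset.range P.nL).biUnion Lst).card : ℝ) := by exact_mod_cast Finset.card_le_card hsub
    _ ≤ ((∑ u ∈ Finset.range P.nL, (Lst u).card : ℕ) : ℝ) := by exact_mod_cast Finset.card_biUnion_le
    _ = ∑ u ∈ Finset.range P.nL, ((Lst u).card : ℝ) := by push_cast; rfl
    _ ≤ ∑ _u ∈ Finset.range P.nL, (2 ^ 25 * ((2 : ℝ) ^ (τ * W.E.n)) ^ 6) := Finset.sum_le_sum fun u hu => h1 u (Finset.mem_range.1 hu)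
    _ = P.nL * (2 ^ 25 * ((2 : ℝ) ^ (τ * W.E.n)) ^ 6) := by rw [Finset.sum_const, Finset.card_range, nsmul_eq_mul]

theorem re_fc_card2 {hg' C A : ℕ} {τ τ' : ℝ} (h : W.Ok hg' C A τ') (hq : hg + 1 ≤ W.q) (hτ : 0 ≤ τ) (hP : P.Ok (W.Ex hg) (W.dp (hg + 1)) τ) (j w : ℕ)
    (hv : RnVal W.q (hg + 1) j) (hw : RnVal W.q (hg + 1) w) :
    ((((W.upd (hg + 1) P Set.univ dn gn).ats (hg + 1)).image (fun a => (W.nmT (hg + 1) (hg + 1) j a, W.anT (hg + 1) w a))).card : ℝ)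
      ≤ P.nL * (2 ^ 25 * ((2 : ℝ) ^ (τ * W.E.n)) ^ 6) ^ 2 := by
  obtain ⟨Lj, h1, h2⟩ := re_fc_list W hg P dn gn hτ hP j hv
  obtain ⟨Lw, g1, g2⟩ := re_fc_list W hg P dn gn hτ hP w hw
  have hsub : ((W.upd (hg + 1) P Set.univ dn gn).ats (hg + 1)).image (fun a => (W.nmT (hg + 1) (hg + 1) j a, W.anT (hg + 1) w a))
      ⊆ (Finset.range P.nL).biUnion fun u => (Lj u ×ˢ Lw u).image fun x => (x.1, x.2.2.1) := by
    intro v hv'
    obtain ⟨a, ha, rfl⟩ := Finset.mem_image.1 hv'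
    obtain ⟨u, hu, hI, hx⟩ := re_fc_cov W hg P dn gn h hq hP a ha
    refine Finset.mem_biUnion.2 ⟨u, Finset.mem_range.2 hu, Finset.mem_image.2
      ⟨(W.nmT (hg + 1) (hg + 1) j a, W.nmT (hg + 1) (hg + 1) w a), Finset.mem_product.2 ⟨h2 a ha u hu hI hx, g2 a ha u hu hI hx⟩, rfl⟩⟩
  have hb : (0 : ℝ) ≤ 2 ^ 25 * ((2 : ℝ) ^ (τ * W.E.n)) ^ 6 := by positivity
  calc ((((W.upd (hg + 1) P Set.univ dn gn).ats (hg + 1)).image (fun a => (W.nmT (hg + 1) (hg + 1) j a, W.anT (hg + 1) w a))).card : ℝ)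
      ≤ (((Finset.range P.nL).biUnion fun u => (Lj u ×ˢ Lw u).image fun x => (x.1, x.2.2.1)).card : ℝ) := by
        exact_mod_cast Finset.card_le_card hsub
    _ ≤ ((∑ u ∈ Finset.range P.nL, ((Lj u ×ˢ Lw u).image fun x => (x.1, x.2.2.1)).card : ℕ) : ℝ) := by exact_mod_cast Finset.card_biUnion_le
    _ = ∑ u ∈ Finset.range P.nL, ((((Lj u ×ˢ Lw u).image fun x => (x.1, x.2.2.1)).card : ℕ) : ℝ) := by push_cast; rfl
    _ ≤ ∑ _u ∈ Finset.range P.nL, (2 ^ 25 * ((2 : ℝ) ^ (τ * W.E.n)) ^ 6) ^ 2 := by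
        refine Finset.sum_le_sum fun u hu => ?_
        have e1 : ((((Lj u ×ˢ Lw u).image fun x => (x.1, x.2.2.1)).card : ℕ) : ℝ) ≤ ((Lj u).card : ℝ) * ((Lw u).card : ℝ) := by
          have := Finset.card_image_le (s := Lj u ×ˢ Lw u) (f := fun x : ReName × ReName => (x.1, x.2.2.1))
          rw [Finset.card_product] at this
          exact_mod_cast this
        refine e1.trans ?_
        rw [sq]
        exact mul_le_mul (h1 u (Finset.mem_range.1 hu)) (g1 u (Finset.mem_range.1 hu)) (Nat.cast_nonneg _) hb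
    _ = P.nL * (2 ^ 25 * ((2 : ℝ) ^ (τ * W.E.n)) ^ 6) ^ 2 := by rw [Finset.sum_const, Finset.card_range, nsmul_eq_mul]

end Claimed.Agent.R256
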