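-- KEEP
import Claimed.Agent.R256.Re.Tow

/-!
# Row 256, unit RE, block (I), file 1b: BASICS on towers + the fields of a document      (chief helper223; prefix `re_`)      SORRY-FREE

Imported by ALL block files (they must NOT import `Re/TowC.lean`, which imports the exits `Re/X*.lean`).
* `ReDoc.OkS`, `ReDoc.Rar`, `ReDoc.Tp`, `ReDoc.Slb`, `re_doc_ok`      the fields of `ReDoc.Ok`
* `re_ps_ok_mono`, `re_tw_ok_mono`, `re_flatT_mono`      monotonicity in the tolerance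
* `re_am_nonneg`, `re_stk_mem`, `re_stk_len`, `re_withSt_nil`, `rePs0`
-/

set_option autoImplicit false

namespace Claimed.Agent.R256

open MeasureTheory
open scoped BigOperators
open Classical

/-! ## 0. The fields of a document -/

/-- the static fields of `ReDoc.Ok` -/
structure ReDoc.OkS (D : ReDoc) (η p d t : ℝ) : Prop where
  H_pos : 0 < D.H
  e_pos : 0 < D.e
  ka_pos : 0 < D.ka
  ms_nn : ∀ i ω, 0 ≤ D.ms i ω
  massLo : ∀ i, 0 < i → i < D.q → D.tl (-t) * D.Eb d i ≤ D.tot i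
  massHi : ∀ i, 0 < i → i < D.q → D.tot i ≤ D.tl t * D.Eb d i
  reg : ∀ i, 0 < i → i < D.q → ∀ (I : ℕ) (Q : RdTst), (Q.toT (D.dp i)).Adm 1 → rdD D.H (D.dp i) ≤ Q.r * Q.f →
    D.mass i (fun ω => D.iv i ω = I ∧ D.pt i ω ∈ Q.rows (D.dp i)) ≤ D.tl t * D.Kb p i * Q.wt η
  lbAdm : ∀ i, 0 < i → i < D.q → ∀ u : D.Lb i, ((D.lQ i u).toT (D.dp i)).Adm 1 ∧ rdD D.H (D.dp i) ≤ (D.lQ i u).r * (D.lQ i u).f ∧
    (D.lQ i u).r ≤ D.tl t * rdD D.H (D.dp i) ∧ D.tl (-t) ≤ (D.lQ i u).f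
  lbCnt : ∀ i, 0 < i → i < D.q → ∑ u : D.Lb i, (D.lQ i u).wt η ≤ D.tl t * (D.Eb d i / D.Kb p i)
  lbCov : ∀ i, 0 < i → i < D.q → ∀ ω : D.Row i, 0 < D.ms i ω → ∃ u : D.Lb i, D.lI i u = D.iv i ω ∧ D.pt i ω ∈ ((D.lQ i u).toT (D.dp i)).set 2
  flatC : ∀ i j, RnVal D.q i j → i < D.q → D.Flat i (D.nm i i j) (D.Dn i j) t
  flatG : ∀ i j w, RnVal D.q i w → i < D.q → j ≤ w → D.Flat i (fun ω => (D.nm i i j ω, D.an i w ω)) (D.Gn i j w) t

/-- the field `rar` -/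
def ReDoc.Rar (D : ReDoc) (t N : ℝ) : Prop :=
  ∀ i l, 0 < i → i < l → l < D.q → ∀ (T : D.Row l → Prop) (Sg : D.Row i → Prop),
    (∀ ω ω', T ω' → D.Conn (D.tl t) i l ω ω' → Sg ω) →
    D.mass l T / D.tot l ≤ D.tl t * (D.mass i Sg / D.tot i) ^ (2 / 3 : ℝ) + D.tl (-N)

/-- the field `tp` -/
def ReDoc.Tp (D : ReDoc) (t N : ℝ) : Prop :=
  ∀ i l, 0 < i → i < l → l < D.q → ∀ T : D.Row l → Prop,
    D.mass l T ≤ D.tl t * ∑ J ∈ (Finset.univ.image (D.iv l)),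
        D.mass i (fun ω => ∃ ω', T ω' ∧ D.iv l ω' = J ∧ D.Conn (D.tl t) i l ω ω') + D.tl (-N) * D.tot l

/-- the field `slab` -/
def ReDoc.Slb (D : ReDoc) (t : ℝ) (K : ℕ) (es ts : ℝ) : Prop :=
  ∀ i j S, 0 < S → RnDom D.q K i j S → ∀ (Np : ℕ), (Np : ℝ) ≤ D.tl (ts * S) →
    ∀ (Rm : D.Row (i + K * S) → Prop) (lab : D.Row (i + K * S) → Fin Np) (pn : ReName × ReName → Fin Np → ℝ × ℝ × ℝ)
      (pc : ReName × ReName → Fin Np → ℝ),
      (∀ x ν, (pn x ν).1 ^ 2 + (pn x ν).2.1 ^ 2 + (pn x ν).2.2 ^ 2 = 1) →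
      (∀ ω, Rm ω → D.InSlab (i + K * S) j (pn (D.nm (i + K * S) i j ω, D.nm (i + K * S) (i + K * S) j ω) (lab ω))
        (pc (D.nm (i + K * S) i j ω, D.nm (i + K * S) (i + K * S) j ω) (lab ω)) (D.tl (-(es * S))) ω) →
      D.tl (-t) * D.tot (i + K * S) ≤ D.mass (i + K * S) (fun ω => ¬ Rm ω)

theorem re_towc_eqns_cite : True := by
  have := @ReDoc.Rar.eq_1
  have := @ReDoc.Tp.eq_1
  have := @ReDoc.Slb.eq_1
  trivial

theorem re_doc_ok {D : ReDoc} {η p d t N : ℝ} {K : ℕ} {es ts : ℝ} (h1 : D.OkS η p d t) (h2 : D.Rar t N) (h3 : D.Tp t N)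
    (h4 : D.Slb t K es ts) : D.Ok η p d t N K es ts :=
  ⟨h1.H_pos, h1.e_pos, h1.ka_pos, h1.ms_nn, h1.massLo, h1.massHi, h1.reg, h1.lbAdm, h1.lbCnt, h1.lbCov, h2, h3, h1.flatC, h1.flatG, h4⟩

/-! ## 1. Basics -/

theorem re_withSt_nil {P : PkSys} (E : Xp P) (h : E.st = []) : E.withSt [] = E := by
  cases E
  simp only [Xp.withSt] at h ⊢
  subst h
  rfl

/-- a junk selection -/
def rePs0 : RePs := ⟨0, 0, 0, fun _ => 0, fun _ => ⟨0, 0, 0, 0, 0, ⟨0, 0, 0, 0, 0⟩⟩, fun _ => ∅⟩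


theorem re_ps_ok_mono {η : ℝ} {p : RdWvPar} (P : RePs) {X : Xp (p.sys η)} {k : ℕ} {τ τ' : ℝ} (h : P.Ok X k τ) (hτ : τ ≤ τ') :
    P.Ok X k τ' := by
  have hn : (0 : ℝ) ≤ X.n := Nat.cast_nonneg _
  have h1 : τ * X.n ≤ τ' * X.n := mul_le_mul_of_nonneg_right hτ hn
  have hka := h.valid.ka_pos.le
  have he := h.valid.e_pos.le
  refine ⟨h.valid, h.gb_le, h.plat, h.lb, h.disj, h.reg, ?_, ?_, ?_, ?_, ?_, ?_⟩
  · intro u hu
    obtain ⟨a, b⟩ := h.shape u hu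
    refine ⟨a.trans ?_, le_trans ?_ b⟩
    · exact mul_le_mul_of_nonneg_right (gn_two_mono h1) (by unfold rdD; exact Real.sqrt_nonneg _)
    · exact gn_two_mono (by linarith)
  · exact le_trans (mul_le_mul_of_nonneg_left (gn_two_mono (by linarith)) hka) h.be_lo
  · exact le_trans h.be_hi (mul_le_mul_of_nonneg_left (gn_two_mono (by linarith)) hka)
  · exact le_trans (mul_le_mul_of_nonneg_left (gn_two_mono (by linarith)) he) h.raw_lo
  · exact le_trans h.raw_hi (mul_le_mul_of_nonneg_left (gn_two_mono (by linarith)) he)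
  · exact le_trans (gn_two_mono (by nlinarith)) h.cert

theorem re_flatT_mono {η : ℝ} {p : RdWvPar} (W : ReTw η p) {α : Type} {i : ℕ} {X : ℕ × ReFc → α} {x t t' : ℝ}
    (h : W.FlatT i X x t) (ht : t ≤ t') (hnn : ∀ a, 0 ≤ W.am i a) : W.FlatT i X x t' := by
  have hm : (0 : ℝ) ≤ W.m := Nat.cast_nonneg _
  refine ⟨h.1.trans (gn_two_mono (by nlinarith)), fun v => (h.2 v).trans ?_⟩
  exact mul_le_mul_of_nonneg_right (gn_two_mono (by nlinarith)) (Finset.sum_nonneg fun a _ => hnn a)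

theorem re_am_nonneg {η : ℝ} {p : RdWvPar} (W : ReTw η p) (i : ℕ) (a : ℕ × ReFc) : 0 ≤ W.am i a :=
  gn_ms_nonneg _ _ _ _ _


/-- monotonicity in the tolerance -/
theorem re_tw_ok_mono {η : ℝ} {p : RdWvPar} (W : ReTw η p) {hg C A : ℕ} {τ τ' : ℝ} (h : W.Ok hg C A τ) (hτ : τ ≤ τ') : W.Ok hg C A τ' := by
  have hn : (0 : ℝ) ≤ W.E.n := Nat.cast_nonneg _
  have hV : (W.Ex 0).Valid := (h.cls 0 (Nat.zero_le _)).2.1
  have he : 0 < W.E.e := hV.e_pos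
  have hka : 0 < W.E.ka := hV.ka_pos
  have hq : (0 : ℝ) ≤ (W.q : ℝ) + 1 := by positivity
  refine ⟨h.free, h.n_lo, h.n_hi, h.m_pos, h.hg_lt, h.B_ge, h.cls, ?_, ?_, ?_, ?_, ?_, ?_⟩
  · intro i hi
    exact le_trans (gn_two_mono (by nlinarith)) (h.cert i hi)
  · exact le_trans h.tw (mul_le_mul_of_nonneg_left (gn_s_anti _ (by linarith)) (div_pos he hka).le)
  · intro i h0 hi
    exact re_ps_ok_mono _ (h.sel i h0 hi) hτ
  · intro i h0 hi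
    refine le_trans (mul_le_mul_of_nonneg_left ?_ (mul_pos he (gn_two_pos _)).le) (h.raw_lo i h0 hi)
    unfold ReTw.tn
    exact gn_two_mono (by nlinarith)
  · intro i j hi hv
    exact re_flatT_mono W (h.flatC i j hi hv) (mul_le_mul_of_nonneg_right hτ hq) (re_am_nonneg W i)
  · intro i j w hi hv hjw
    exact re_flatT_mono W (h.flatG i j w hi hv hjw) (mul_le_mul_of_nonneg_right hτ hq) (re_am_nonneg W i)

theorem re_stk_mem {η : ℝ} {p : RdWvPar} (W : ReTw η p) (i : ℕ) (σ : Stg (p.sys η)) (h : σ ∈ W.stk i) :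
    ∃ a, 0 < a ∧ a ≤ i ∧ σ = W.sg a := by
  unfold ReTw.stk at h
  obtain ⟨a, ha, rfl⟩ := List.mem_map.1 h
  exact ⟨a + 1, Nat.succ_pos _, Nat.succ_le_of_lt (List.mem_range.1 ha), rfl⟩

theorem re_stk_len {η : ℝ} {p : RdWvPar} (W : ReTw η p) (i : ℕ) : (W.stk i).length = i := by
  simp [ReTw.stk]


end Claimed.Agent.R256
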