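-- KEEP
import Claimed.Agent.R256.Re.TowB
import Claimed.Agent.R256.Re.Tools
import Claimed.Agent.R256.Re.FlatCard

/-!
# Row 256, unit RE, block (I), post FLAT, file 5: THE EXPERIMENT WITH THE NEW STAGE      (helper74; prefix `re_fn_`)

`i = hg + 1`, `X = W.Ex hg`, `k = W.dp i`, `hP : P.Ok X k τ`, `c` = any set of atoms.   `W.cmk hg P c` = the masks `1_{P.S I ∩ rs i c I}`.
* `re_fn_arith`, `re_fn_cut`, `re_fn_mask`, `re_fn_Ex`, `re_fn_insAt`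
* `re_fn_cls`       the new truncation is in the class `C + 1`
* `re_fn_raw`       `raw_lo` of the new cut from the certificate (`gn_ins_states`, `gn_ss3f`)
* `re_fn_pigeon`    one class of a finite partition of the atoms keeps the certificate up to `#³` (`re_split_sub`)
-/

set_option autoImplicit false

namespace Claimed.Agent.R256

open MeasureTheory
open scoped BigOperators
open Classical

variable {η : ℝ} {p : RdWvPar} (W : ReTw η p) (hg : ℕ) (P : RePs)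

/-- the masks of a class at the new cut -/
noncomputable def ReTw.cmk (c : Set (ℕ × ReFc)) : ℕ → (p.sys η).X → ℝ :=
  (reStg η p (W.dp (hg + 1)) P.gb (fun I => P.S I ∩ W.rs (hg + 1) c I)).M

theorem re_fn_eqns_cite : True := by
  have := @ReTw.cmk.eq_1
  trivial

theorem re_fn_arith {C A : ℕ} {τ : ℝ} (h : W.Ok hg C A τ) (hq : hg + 1 < W.q) :
    W.E.k0 ≤ W.dp (hg + 1) ∧ W.dp (hg + 1) ≤ W.E.kf ∧ W.dp (hg + 1) - W.E.k0 = (hg + 1) * W.m ∧ W.m ≤ W.E.kf - W.dp (hg + 1) ∧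
      1 / (2 * (W.q : ℝ)) * W.E.n ≤ W.m := by
  have h1 := h.n_lo
  have h2 := h.n_hi
  have h3 := h.m_pos
  have h4 : (hg + 2) * W.m ≤ W.q * W.m := Nat.mul_le_mul_right _ hq
  have h5 : (hg + 2) * W.m = (hg + 1) * W.m + W.m := by ring
  unfold ReTw.dp Xp.kf
  refine ⟨by omega, by omega, by omega, by omega, ?_⟩
  have hq0 : (0 : ℝ) < W.q := by
    have : 0 < W.q := by omega
    exact_mod_cast this
  have hmR : (1 : ℝ) ≤ W.m := by exact_mod_cast h3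
  have hnR : (W.E.n : ℝ) < W.q * ((W.m : ℝ) + 1) := by exact_mod_cast h2
  rw [div_mul_eq_mul_div, one_mul, div_le_iff₀ (by positivity)]
  nlinarith

theorem re_fn_cut {C A : ℕ} {τ : ℝ} (h : W.Ok hg C A τ) (hq : hg + 1 < W.q) : (W.Ex hg).CutAt (W.dp (hg + 1)) (W.Ex hg).st [] := by
  obtain ⟨a1, a2, _, _, _⟩ := re_fn_arith W hg h hq
  refine ⟨(List.append_nil _).symm, fun σ hσ => ?_, fun σ hσ => absurd hσ List.not_mem_nil, a1, a2⟩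
  obtain ⟨a, _, ha, rfl⟩ := re_stk_mem W hg σ hσ
  show W.dp a ≤ W.dp (hg + 1)
  unfold ReTw.dp
  have : a * W.m ≤ (hg + 1) * W.m := Nat.mul_le_mul_right _ (by omega)
  omega

theorem re_fn_meas {τ : ℝ} (hP : P.Ok (W.Ex hg) (W.dp (hg + 1)) τ) (c : Set (ℕ × ReFc)) (I : ℕ) :
    MeasurableSet (P.S I ∩ W.rs (hg + 1) c I : Set RdWvPar.Ph) :=
  (re_at_meas_pS P hP I).inter (re_at_meas_rs W _ c I)

theorem re_fn_mask {τ : ℝ} (hP : P.Ok (W.Ex hg) (W.dp (hg + 1)) τ) (c : Set (ℕ × ReFc)) (I : ℕ) : IsMask (W.cmk hg P c I) :=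
  gn_mask_ind (re_fn_meas W hg P hP c I)

theorem re_fn_Ex (c : Set (ℕ × ReFc)) (dn : ℕ → ℝ) (gn : ℕ → ℕ → ℝ) :
    (W.upd (hg + 1) P c dn gn).Ex (hg + 1) = (W.Ex hg).ins (W.dp (hg + 1)) P.gb (W.Ex hg).st [] (W.cmk hg P c) := by
  rw [re_fu_Ex_self]
  rfl

theorem re_fn_be_nonneg {τ : ℝ} (hP : P.Ok (W.Ex hg) (W.dp (hg + 1)) τ) : 0 ≤ P.be :=
  le_trans (mul_nonneg hP.valid.ka_pos.le (gn_two_pos _).le) hP.be_lo

theorem re_fn_insAt (hT : (p.sys η).Tight) {C A : ℕ} {τ : ℝ} (h : W.Ok hg C A τ) (hq : hg + 1 < W.q) (hP : P.Ok (W.Ex hg) (W.dp (hg + 1)) τ)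
    (c : Set (ℕ × ReFc)) : (W.Ex hg).InsAt (W.dp (hg + 1)) P.gb (W.Ex hg).st [] [] (W.cmk hg P c) (2 * P.be) where
  cut := re_fn_cut W hg h hq
  same := fun σ hσ => absurd hσ List.not_mem_nil
  len := Nat.zero_le _
  msk := re_fn_mask W hg P hP c
  ind := fun I hI => by
    refine ⟨P.S I ∩ W.rs (hg + 1) c I, re_fn_meas W hg P hP c I, rfl, fun Q hQ => le_trans ?_ (hP.reg I hI Q hQ)⟩
    refine gn_ms_mono _ _ _ ((hT.cellM _ _ _).inter (re_fn_meas W hg P hP c I)) ((hT.cellM _ _ _).inter (re_at_meas_pS P hP I)) ?_ _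
    exact Set.inter_subset_inter_right _ Set.inter_subset_left

theorem re_fn_gb {C A : ℕ} {τ : ℝ} (h : W.Ok hg C A τ) (hP : P.Ok (W.Ex hg) (W.dp (hg + 1)) τ) : P.gb ≤ C + 1 :=
  hP.gb_le C (h.cls hg le_rfl).2.2.2.1

theorem re_fn_cls (hE : ReEntry η) {C A : ℕ} {τ : ℝ} (h : W.Ok hg C A τ) (hq : hg + 1 < W.q) (hP : P.Ok (W.Ex hg) (W.dp (hg + 1)) τ)
    (c : Set (ℕ × ReFc)) (dn : ℕ → ℝ) (gn : ℕ → ℕ → ℝ) : (rndWav η).Cls (C + 1) A p ((W.upd (hg + 1) P c dn gn).Ex (hg + 1)) := by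
  rw [re_fn_Ex]
  exact gn_ins_cls (rndWav η) 1 hE.gen (h.cls hg le_rfl) (re_fn_cut W hg h hq) (re_fn_gb W hg P h hP) (re_fn_mask W hg P hP c)

/-- the raw mass of a class -/
theorem re_fn_rt (c : Set (ℕ × ReFc)) (dn : ℕ → ℝ) (gn : ℕ → ℕ → ℝ) :
    (W.upd (hg + 1) P c dn gn).rt (hg + 1) (fun _ => Set.univ)
      = ∑ I ∈ ivs (W.Ex hg).k0 (W.Ex hg).i0 (W.dp (hg + 1)), (p.sys η).en (tmL (W.dp (hg + 1)) I) (W.dp (hg + 1)) P.gb
          (fun x => W.cmk hg P c I x ^ 2) ((W.Ex hg).at' (W.dp (hg + 1)) I (W.Ex hg).st) := by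
  unfold ReTw.rt
  refine Finset.sum_congr rfl fun I _ => ?_
  rw [re_fu_rm_self]
  have e : ∀ x : RdWvPar.Ph, ((P.S I ∩ W.rs (hg + 1) c I ∩ Set.univ : Set RdWvPar.Ph).indicator (fun _ => (1 : ℝ)) x)
      = ((P.S I ∩ W.rs (hg + 1) c I : Set RdWvPar.Ph).indicator (fun _ => (1 : ℝ)) x) ^ 2 := by
    intro x
    rw [Set.inter_univ]
    by_cases hx : x ∈ (P.S I ∩ W.rs (hg + 1) c I : Set RdWvPar.Ph)
    · rw [Set.indicator_of_mem hx]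
      norm_num
    · rw [Set.indicator_of_notMem hx]
      norm_num
  exact congrArg (fun θ => (p.sys η).en (tmL (W.dp (hg + 1)) I) (W.dp (hg + 1)) P.gb θ ((W.Ex hg).at' (W.dp (hg + 1)) I (W.Ex hg).st)) (funext e)

/-- **`raw_lo` of the new cut**: a class with the certificate `τ₃` keeps the raw mass -/
theorem re_fn_raw (η : ℝ) (hE : ReEntry η) (hΓ : 0 < (rndWav η).Gam) (q : ℕ) (hq0 : 0 < q) (ξ : ℝ) (hξ : 0 < ξ) :
    ∃ τ₃ : ℝ, 0 < τ₃ ∧ ∀ C : ℕ, ∃ A0 n0 : ℕ, ∀ (A : ℕ) (p : RdWvPar) (W : ReTw η p) (hg : ℕ) (P : RePs) (τ : ℝ), A0 ≤ A → W.q = q →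
      n0 ≤ W.E.n → W.Ok hg C A τ → hg + 1 < q → P.Ok (W.Ex hg) (W.dp (hg + 1)) τ → τ ≤ τ₃ / 2 →
      ∀ (c : Set (ℕ × ReFc)) (dn : ℕ → ℝ) (gn : ℕ → ℕ → ℝ),
        2 ^ (((rndWav η).Gam - τ₃) * W.E.n) ≤ ((W.upd (hg + 1) P c dn gn).Ex (hg + 1)).val →
        W.E.e * (2 : ℝ) ^ ((rndWav η).d0f * ((hg + 1 : ℕ) : ℝ) * W.m) * W.tn (-ξ) ≤ (W.upd (hg + 1) P c dn gn).rt (hg + 1) fun _ => Set.univ := by
  have hqR : (0 : ℝ) < q := by exact_mod_cast hq0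
  obtain ⟨τ₃, hτ₃, H⟩ := gn_ss3f (rndWav η) 1 hE.gen hΓ (1 / (2 * (q : ℝ))) ξ (by positivity) hξ
  refine ⟨τ₃, hτ₃, fun C => ?_⟩
  obtain ⟨A3, n3, H⟩ := H (C + 2)
  obtain ⟨Cr, hCr, HS⟩ := gn_ins_states (rndWav η) 1 hE.gen (C + 1)
  obtain ⟨n4, hn4⟩ := gn_absorb (2 * Cr) (τ₃ / 2) (by positivity)
  refine ⟨A3, max n3 n4, fun A p W hg P τ hA hWq hn hW hlt hP hτ c dn gn hcert => ?_⟩
  subst hWq
  have hT : (p.sys η).Tight := hE.gen.tight p p.ok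
  obtain ⟨a1, a2, a3, a4, a5⟩ := re_fn_arith W hg hW hlt
  have hins := re_fn_insAt W hg P hT hW hlt hP c
  have hX := hW.cls hg le_rfl
  have hgen : (W.Ex hg).GenLe (C + 1) := ⟨hX.2.2.2.1.1.trans (Nat.le_succ _), hX.2.2.2.1.2.1.trans (Nat.le_succ _),
    fun σ hσ => (hX.2.2.2.1.2.2 σ hσ).trans (Nat.le_succ _)⟩
  have hst := HS p (W.Ex hg) p.ok hX.2.1 hgen _ _ _ _ _ _ _ hins (re_fn_gb W hg P hW hP) (mul_nonneg zero_le_two (re_fn_be_nonneg W hg P hP))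
  have hcls : (rndWav η).Cls (C + 2) A3 p ((W.upd (hg + 1) P c dn gn).Ex (hg + 1)) :=
    gn_cls_anti _ hE.gen.scale hA (gn_cls_mono _ hE.gen.scale (Nat.le_succ _) (re_fn_cls W hg P hE hW hlt hP c dn gn))
  rw [re_fn_Ex] at hcert hcls
  have hka : 0 < (W.Ex hg).ka := hX.2.1.ka_pos
  have hκ : Cr * (2 * P.be) ≤ (W.Ex hg).ka * (2 : ℝ) ^ (-((rndWav η).p0f * ((W.dp (hg + 1) - (W.Ex hg).k0 : ℕ) : ℝ)) + τ₃ * (W.Ex hg).n) := by
    have h1 := hP.be_hi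
    have h2 : 2 * Cr ≤ 2 ^ (τ₃ / 2 * ((W.Ex hg).n : ℝ)) := hn4 _ (le_trans (le_max_right _ _) hn)
    have hn0 : (0 : ℝ) ≤ ((W.Ex hg).n : ℝ) := Nat.cast_nonneg _
    calc Cr * (2 * P.be) = (2 * Cr) * P.be := by ring
      _ ≤ 2 ^ (τ₃ / 2 * ((W.Ex hg).n : ℝ)) * ((W.Ex hg).ka * (2 : ℝ) ^ (-((rndWav η).p0f * ((W.dp (hg + 1) - (W.Ex hg).k0 : ℕ) : ℝ)) + τ * (W.Ex hg).n)) :=
          mul_le_mul h2 h1 (re_fn_be_nonneg W hg P hP) (gn_two_pos _).le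
      _ = (W.Ex hg).ka * (2 : ℝ) ^ (τ₃ / 2 * ((W.Ex hg).n : ℝ) + (-((rndWav η).p0f * ((W.dp (hg + 1) - (W.Ex hg).k0 : ℕ) : ℝ)) + τ * (W.Ex hg).n)) := by
          rw [gn_two_add (τ₃ / 2 * ((W.Ex hg).n : ℝ))]
          ring
      _ ≤ _ := mul_le_mul_of_nonneg_left (gn_two_mono (by nlinarith)) hka.le
  have hcut : ((W.Ex hg).ins (W.dp (hg + 1)) P.gb (W.Ex hg).st [] (W.cmk hg P c)).CutAt (W.dp (hg + 1))
      ((W.Ex hg).st ++ (⟨W.dp (hg + 1), P.gb, W.cmk hg P c⟩ : Stg (p.sys η)) :: []) [] := gn_ins_cut (W.Ex hg) hins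
  have hmain := H p ((W.Ex hg).ins (W.dp (hg + 1)) P.gb (W.Ex hg).st [] (W.cmk hg P c)) (le_trans (le_max_left _ _) hn) hcls hcert (W.dp (hg + 1)) (C + 2)
    ((W.Ex hg).st ++ (⟨W.dp (hg + 1), P.gb, W.cmk hg P c⟩ : Stg (p.sys η)) :: []) [] hcut
    (le_trans a5 (by exact_mod_cast a4)) le_rfl (fun I hI => ⟨(hst I hI).1, gn_reg_mono hT (hst I hI).2.1 hκ⟩)
  rw [re_fn_rt]
  refine le_trans (le_of_eq ?_) (hmain.trans (Finset.sum_le_sum fun I hI => (hst I hI).2.2))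
  show W.E.e * (2 : ℝ) ^ ((rndWav η).d0f * ((hg + 1 : ℕ) : ℝ) * W.m) * W.tn (-ξ)
    = W.E.e * (2 : ℝ) ^ ((rndWav η).d0f * ((W.dp (hg + 1) - W.E.k0 : ℕ) : ℝ) - ξ * W.E.n)
  rw [a3, sub_eq_add_neg, gn_two_add, mul_assoc]
  unfold ReTw.tn
  congr 2
  · congr 1
    push_cast
    ring
  · congr 1
    ring

/-- **one class of a finite partition of the atoms keeps the certificate up to `#³`** -/
theorem re_fn_pigeon {C A : ℕ} {τ : ℝ} (h : W.Ok hg C A τ) (hq : hg + 1 < W.q) (hP : P.Ok (W.Ex hg) (W.dp (hg + 1)) τ) {κT : Type}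
    (J : Finset κT) (key : ℕ × ReFc → κT) (hkey : ∀ a, key a ∈ J) :
    ∃ κ ∈ J, (P.ins (W.Ex hg) (W.dp (hg + 1))).val
      ≤ (J.card : ℝ) ^ 3 * ((W.Ex hg).ins (W.dp (hg + 1)) P.gb (W.Ex hg).st [] (W.cmk hg P {a | key a = κ})).val := by
  have hX := hP.valid
  have hc := re_fn_cut W hg h hq
  have hsum : ∀ (I : ℕ) (x : RdWvPar.Ph), ∑ κ ∈ J, W.cmk hg P {a | key a = κ} I x = (P.S I).indicator (fun _ => (1 : ℝ)) x := by
    intro I x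
    have e : ∀ κ, W.cmk hg P {a | key a = κ} I x
        = if key (I, W.fc (hg + 1) (RdWvPar.co 0 x)) = κ then (P.S I).indicator (fun _ => (1 : ℝ)) x else 0 := by
      intro κ
      show (P.S I ∩ W.rs (hg + 1) {a | key a = κ} I : Set RdWvPar.Ph).indicator (fun _ => (1 : ℝ)) x = _
      by_cases h1 : key (I, W.fc (hg + 1) (RdWvPar.co 0 x)) = κ
      · rw [if_pos h1]
        by_cases h2 : x ∈ P.S I
        · rw [Set.indicator_of_mem h2, Set.indicator_of_mem (show x ∈ (P.S I ∩ W.rs (hg + 1) {a | key a = κ} I : Set RdWvPar.Ph) from ⟨h2, h1⟩)]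
        · rw [Set.indicator_of_notMem h2, Set.indicator_of_notMem (fun h => h2 h.1)]
      · rw [if_neg h1, Set.indicator_of_notMem (fun h => h1 h.2)]
    simp_rw [e]
    rw [Finset.sum_ite_eq, if_pos (hkey _)]
  have hsplit := re_split_sub (W.Ex hg) hX (W.dp (hg + 1)) P.gb (W.Ex hg).st [] hc J (fun κ => W.cmk hg P {a | key a = κ})
    (fun I => (P.S I).indicator fun _ => 1) (fun κ _ I => re_fn_mask W hg P hP _ I) (fun I => gn_mask_ind (re_at_meas_pS P hP I)) hsum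
  have hpos : 0 < (P.ins (W.Ex hg) (W.dp (hg + 1))).val := lt_of_lt_of_le (gn_two_pos _) hP.cert
  have hc0 : 0 < 2 ^ (((W.Ex hg).n : ℝ) / 2) / ((W.Ex hg).e * Real.sqrt (W.Ex hg).ka) :=
    div_pos (gn_two_pos _) (mul_pos hX.e_pos (Real.sqrt_pos.2 hX.ka_pos))
  have hrd : 0 < (P.ins (W.Ex hg) (W.dp (hg + 1))).rd := (mul_pos_iff_of_pos_left hc0).1 hpos
  obtain ⟨κ, hκ, hle⟩ := re_fl_pigeon J (fun κ => ((W.Ex hg).ins (W.dp (hg + 1)) P.gb (W.Ex hg).st [] (W.cmk hg P {a | key a = κ})).rd)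
    (fun κ _ => gn_rd_nonneg _ (gn_ins_valid _ hX hc _ (re_fn_mask W hg P hP _))) _ hrd hsplit
  refine ⟨κ, hκ, ?_⟩
  show 2 ^ (((W.Ex hg).n : ℝ) / 2) / ((W.Ex hg).e * Real.sqrt (W.Ex hg).ka) * (P.ins (W.Ex hg) (W.dp (hg + 1))).rd
    ≤ (J.card : ℝ) ^ 3 * (2 ^ (((W.Ex hg).n : ℝ) / 2) / ((W.Ex hg).e * Real.sqrt (W.Ex hg).ka)
      * ((W.Ex hg).ins (W.dp (hg + 1)) P.gb (W.Ex hg).st [] (W.cmk hg P {a | key a = κ})).rd)
  calc _ ≤ 2 ^ (((W.Ex hg).n : ℝ) / 2) / ((W.Ex hg).e * Real.sqrt (W.Ex hg).ka)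
        * ((J.card : ℝ) ^ 3 * ((W.Ex hg).ins (W.dp (hg + 1)) P.gb (W.Ex hg).st [] (W.cmk hg P {a | key a = κ})).rd) :=
        mul_le_mul_of_nonneg_left hle hc0.le
    _ = _ := by ring

end Claimed.Agent.R256
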