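-- KEEP
import Claimed.Agent.R256.Re.FlatNew

/-!
# Row 256, unit RE, block (I), post FLAT, file 6: THE CLASS      (helper74; prefix `re_fm_`)

`re_fm_core`: all numerical conditions are hypotheses.   Pre-law `W₁ = W.upd i P univ 0 0`, atoms `T`, masses `μ`; bins `reBin` (width `ξ`, last bin `N`) of the names `nmT i i j` (`j ≤ q`) and `(nmT i i j, anT i w)` (`j, w ≤ q`);
the key of an atom = the vector of its bins; `re_fn_pigeon` chooses the class; NO exclusion of the last bin is needed: there the number of values is controlled by `re_fc_card1/2`.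
-/

set_option autoImplicit false

namespace Claimed.Agent.R256

open MeasureTheory
open scoped BigOperators
open Classical

variable {η : ℝ} {p : RdWvPar}

theorem re_fm_core (hE : ReEntry η) (W : ReTw η p) (hg : ℕ) (P : RePs) {C A N : ℕ} {τ ξ : ℝ}
    (hW : W.Ok hg C A τ) (hq : hg + 1 < W.q) (hP : P.Ok (W.Ex hg) (W.dp (hg + 1)) τ) (hτ0 : 0 ≤ τ) (hτξ : 2 * τ ≤ ξ)
    (hraw : ∀ (c : Set (ℕ × ReFc)) (dn : ℕ → ℝ) (gn : ℕ → ℕ → ℝ),
        2 ^ (((rndWav η).Gam - 2 * τ) * W.E.n) ≤ ((W.upd (hg + 1) P c dn gn).Ex (hg + 1)).val →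
        W.E.e * (2 : ℝ) ^ ((rndWav η).d0f * ((hg + 1 : ℕ) : ℝ) * W.m) * W.tn (-(ξ / 2)) ≤ (W.upd (hg + 1) P c dn gn).rt (hg + 1) fun _ => Set.univ)
    (hJ : ((((N + 1) ^ (W.q + 1) * (N + 1) ^ ((W.q + 1) * (W.q + 1)) : ℕ) : ℝ)) ^ 3 ≤ 2 ^ (τ * W.E.n))
    (hcard : (P.nL : ℝ) * (2 ^ 25 * ((2 : ℝ) ^ (τ * W.E.n)) ^ 6) ^ 2 ≤ 2 ^ ((N : ℝ) * ξ * W.m))
    (hn : (W.E.n : ℝ) ≤ ((W.q : ℝ) + 1) * W.m) :
    ∃ (c : Set (ℕ × ReFc)) (dn : ℕ → ℝ) (gn : ℕ → ℕ → ℝ), (W.upd (hg + 1) P c dn gn).Ok (hg + 1) (C + 1) A ξ := by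
  have hξ0 : 0 ≤ ξ := by linarith
  have hn0 : (0 : ℝ) ≤ W.E.n := Nat.cast_nonneg _
  have hm0 : (0 : ℝ) ≤ W.m := Nat.cast_nonneg _
  have hq0 : (0 : ℝ) ≤ W.q := Nat.cast_nonneg _
  obtain ⟨T, hT⟩ : ∃ T, T = (W.upd (hg + 1) P Set.univ (fun _ => 0) (fun _ _ => 0)).ats (hg + 1) := ⟨_, rfl⟩
  obtain ⟨μ, hμ⟩ : ∃ μ, μ = (W.upd (hg + 1) P Set.univ (fun _ => 0) (fun _ _ => 0)).am (hg + 1) := ⟨_, rfl⟩
  have hμpos : ∀ a ∈ T, 0 < μ a := fun a ha => by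
    rw [hμ]
    exact (re_at_ats_pos _ (hg + 1) a (hT ▸ ha)).2
  -- the key
  obtain ⟨key, hkeydef⟩ : ∃ key : ℕ × ReFc → (Fin (W.q + 1) → ℕ) × (Fin (W.q + 1) × Fin (W.q + 1) → ℕ), key = fun a =>
      (fun j : Fin (W.q + 1) => reBin T μ (W.nmT (hg + 1) (hg + 1) (j : ℕ)) W.m ξ N a,
        fun jw : Fin (W.q + 1) × Fin (W.q + 1) =>
          reBin T μ (fun a => (W.nmT (hg + 1) (hg + 1) (jw.1 : ℕ) a, W.anT (hg + 1) (jw.2 : ℕ) a)) W.m ξ N a) := ⟨_, rfl⟩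
  obtain ⟨J, hJdef⟩ : ∃ J : Finset ((Fin (W.q + 1) → ℕ) × (Fin (W.q + 1) × Fin (W.q + 1) → ℕ)),
      J = Fintype.piFinset (fun _ : Fin (W.q + 1) => Finset.range (N + 1)) ×ˢ
        Fintype.piFinset (fun _ : Fin (W.q + 1) × Fin (W.q + 1) => Finset.range (N + 1)) := ⟨_, rfl⟩
  have hkey : ∀ a, key a ∈ J := by
    intro a
    rw [hJdef, hkeydef]
    exact Finset.mem_product.2 ⟨Fintype.mem_piFinset.2 fun j => Finset.mem_range.2 (Nat.lt_succ_of_le (re_fl_bin_le _ _ _ _ _ _ _)),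
      Fintype.mem_piFinset.2 fun j => Finset.mem_range.2 (Nat.lt_succ_of_le (re_fl_bin_le _ _ _ _ _ _ _))⟩
  have hJc : J.card = (N + 1) ^ (W.q + 1) * (N + 1) ^ ((W.q + 1) * (W.q + 1)) := by
    rw [hJdef, Finset.card_product, Fintype.card_piFinset, Fintype.card_piFinset, Finset.prod_const, Finset.prod_const, Finset.card_range,
      Finset.card_univ, Finset.card_univ, Fintype.card_fin, Fintype.card_prod, Fintype.card_fin]
  obtain ⟨κ, _, hle⟩ := re_fn_pigeon W hg P hW hq hP J key hkey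
  obtain ⟨c, hc⟩ : ∃ c : Set (ℕ × ReFc), c = {a | key a = κ} := ⟨_, rfl⟩
  obtain ⟨dn, hdn⟩ : ∃ dn : ℕ → ℝ, dn = fun j => if h : j < W.q + 1 then ((κ.1 ⟨j, h⟩ : ℕ) : ℝ) * ξ else 0 := ⟨_, rfl⟩
  obtain ⟨gn, hgn⟩ : ∃ gn : ℕ → ℕ → ℝ, gn = fun j w =>
      if h : j < W.q + 1 ∧ w < W.q + 1 then ((κ.2 (⟨j, h.1⟩, ⟨w, h.2⟩) : ℕ) : ℝ) * ξ else 0 := ⟨_, rfl⟩
  rw [← hc] at hle
  refine ⟨c, dn, gn, ?_⟩
  have hcls := re_fn_cls W hg P hE hW hq hP c dn gn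
  -- the certificate
  have hcert : 2 ^ (((rndWav η).Gam - 2 * τ) * W.E.n) ≤ ((W.upd (hg + 1) P c dn gn).Ex (hg + 1)).val := by
    have hv0 : 0 ≤ ((W.upd (hg + 1) P c dn gn).Ex (hg + 1)).val := gn_val_nonneg _ hcls.2.1
    rw [re_fn_Ex] at hv0 ⊢
    have h1 : (2 : ℝ) ^ (((rndWav η).Gam - τ) * W.E.n) ≤ (P.ins (W.Ex hg) (W.dp (hg + 1))).val := hP.cert
    rw [hJc] at hle
    have h2 := h1.trans (hle.trans (mul_le_mul_of_nonneg_right hJ hv0))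
    have h3 : (2 : ℝ) ^ (((rndWav η).Gam - τ) * W.E.n) = 2 ^ (τ * W.E.n) * 2 ^ (((rndWav η).Gam - 2 * τ) * W.E.n) := by
      rw [← gn_two_add]
      congr 1
      ring
    rw [h3] at h2
    exact le_of_mul_le_mul_left h2 (gn_two_pos _)
  have hrt := hraw c dn gn hcert
  obtain ⟨_, _, a3, _, _⟩ := re_fn_arith W hg hW hq
  have he : 0 < W.E.e := hP.valid.e_pos
  -- the totals
  have htot : ∑ a ∈ T, μ a ≤ (2 : ℝ) ^ (ξ * ((W.q : ℝ) + 1) * W.m) * ∑ a ∈ T.filter (fun a => a ∈ c), μ a := by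
    rw [hT, hμ, re_fa_tot W hg P (fun _ => 0) (fun _ _ => 0) hP, ← re_fa_tot_c W hg P c dn (fun _ => 0) gn (fun _ _ => 0) hP]
    have h1 : P.raw (W.Ex hg) (W.dp (hg + 1))
        ≤ W.E.e * (2 : ℝ) ^ ((rndWav η).d0f * ((W.dp (hg + 1) - W.E.k0 : ℕ) : ℝ) + τ * W.E.n) := hP.raw_hi
    rw [a3] at h1
    refine h1.trans (le_trans ?_ (mul_le_mul_of_nonneg_left hrt (gn_two_pos _).le))
    unfold ReTw.tn
    have e1 : (2 : ℝ) ^ (ξ * ((W.q : ℝ) + 1) * W.m) * (W.E.e * (2 : ℝ) ^ ((rndWav η).d0f * ((hg + 1 : ℕ) : ℝ) * W.m) * 2 ^ (-(ξ / 2) * W.E.n))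
        = W.E.e * (2 : ℝ) ^ (ξ * ((W.q : ℝ) + 1) * W.m + (rndWav η).d0f * ((hg + 1 : ℕ) : ℝ) * W.m + -(ξ / 2) * W.E.n) := by
      rw [gn_two_add, gn_two_add]
      ring
    rw [e1]
    refine mul_le_mul_of_nonneg_left (gn_two_mono ?_) he.le
    push_cast
    nlinarith
  -- the number of values
  have hb1 : (1 : ℝ) ≤ 2 ^ 25 * ((2 : ℝ) ^ (τ * W.E.n)) ^ 6 := by
    have : (1 : ℝ) ≤ (2 : ℝ) ^ (τ * W.E.n) := Real.one_le_rpow (by norm_num) (by positivity)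
    have h6 : (1 : ℝ) ≤ ((2 : ℝ) ^ (τ * W.E.n)) ^ 6 := one_le_pow₀ this
    nlinarith
  have hc1 : ∀ j, RnVal W.q (hg + 1) j → ((T.image (W.nmT (hg + 1) (hg + 1) j)).card : ℝ) ≤ 2 ^ ((N : ℝ) * ξ * W.m) := by
    intro j hv
    rw [hT]
    refine (re_fc_card1 W hg P _ _ hW hq.le hτ0 hP j hv).trans (le_trans ?_ hcard)
    refine mul_le_mul_of_nonneg_left ?_ (Nat.cast_nonneg _)
    nlinarith
  have hc2 : ∀ j w, RnVal W.q (hg + 1) j → RnVal W.q (hg + 1) w →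
      ((T.image (fun a => (W.nmT (hg + 1) (hg + 1) j a, W.anT (hg + 1) w a))).card : ℝ) ≤ 2 ^ ((N : ℝ) * ξ * W.m) := by
    intro j w hv hw
    rw [hT]
    exact (re_fc_card2 W hg P _ _ hW hq.le hτ0 hP j w hv hw).trans hcard
  have hδt : ξ ≤ ξ * ((W.q : ℝ) + 1) := by nlinarith
  have ht0 : 0 ≤ ξ * ((W.q : ℝ) + 1) := by positivity
  -- the old stages
  have hold := re_tw_ok_mono _ (re_fu_ok W (hg + 1) P c dn gn hW (Nat.lt_succ_self hg)) (show τ ≤ ξ by linarith)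
  refine ⟨hold.free, hold.n_lo, hold.n_hi, hold.m_pos, hq, hold.B_ge, ?_, ?_, hold.tw, ?_, ?_, ?_, ?_⟩
  · intro a ha
    rcases Nat.lt_or_eq_of_le ha with h | rfl
    · exact gn_cls_mono _ hE.gen.scale (Nat.le_succ C) (hold.cls a (Nat.le_of_lt_succ h))
    · exact hcls
  · intro a ha
    rcases Nat.lt_or_eq_of_le ha with h | rfl
    · exact hold.cert a (Nat.le_of_lt_succ h)
    · refine le_trans (gn_two_mono ?_) hcert
      exact mul_le_mul_of_nonneg_right (by linarith) hn0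
  · intro a h0 ha
    rcases Nat.lt_or_eq_of_le ha with h | rfl
    · exact hold.sel a h0 (Nat.le_of_lt_succ h)
    · exact re_ps_ok_mono _ (re_fa_hs W hg P c dn gn hP) (by linarith)
  · intro a h0 ha
    rcases Nat.lt_or_eq_of_le ha with h | rfl
    · exact hold.raw_lo a h0 (Nat.le_of_lt_succ h)
    · refine le_trans (mul_le_mul_of_nonneg_left ?_ (mul_pos he (gn_two_pos _)).le) hrt
      unfold ReTw.tn
      exact gn_two_mono (by
        show -ξ * (W.E.n : ℝ) ≤ -(ξ / 2) * W.E.n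
        nlinarith)
  · intro a j ha hv
    rcases Nat.lt_or_eq_of_le ha with h | rfl
    · exact hold.flatC a j (Nat.le_of_lt_succ h) hv
    · have hv' : RnVal W.q (hg + 1) j := hv
      have hj : j < W.q + 1 := by
        have := hv'.2
        omega
      have e : (W.upd (hg + 1) P c dn gn).Dn (hg + 1) j = ((κ.1 ⟨j, hj⟩ : ℕ) : ℝ) * ξ := by
        rw [re_fu_Dn_self, hdn]
        exact dif_pos hj
      rw [e]
      refine re_fa_flat W hg P c dn (fun _ => 0) gn (fun _ _ => 0) hP (W.nmT (hg + 1) (hg + 1) j) _ _ ?_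
      rw [← hT, ← hμ]
      refine re_fl_flat_bin T μ hμpos _ c W.m ξ (ξ * ((W.q : ℝ) + 1)) (κ.1 ⟨j, hj⟩) N hm0 hδt ht0 (fun a ha => ?_) (by convert hc1 j hv') htot
      rw [hc] at ha
      have ha' : key a = κ := ha
      rw [← ha', hkeydef]
  · intro a j w ha hv hjw
    rcases Nat.lt_or_eq_of_le ha with h | rfl
    · exact hold.flatG a j w (Nat.le_of_lt_succ h) hv hjw
    · have hw' : RnVal W.q (hg + 1) w := hv
      have hv' : RnVal W.q (hg + 1) j := ⟨hw'.1, by have := hw'.2; omega⟩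
      have hj : j < W.q + 1 ∧ w < W.q + 1 := by
        have := hw'.2
        constructor <;> omega
      have e : (W.upd (hg + 1) P c dn gn).Gn (hg + 1) j w = ((κ.2 (⟨j, hj.1⟩, ⟨w, hj.2⟩) : ℕ) : ℝ) * ξ := by
        rw [re_fu_Gn_self, hgn]
        exact dif_pos hj
      rw [e]
      refine re_fa_flat W hg P c dn (fun _ => 0) gn (fun _ _ => 0) hP (fun a => (W.nmT (hg + 1) (hg + 1) j a, W.anT (hg + 1) w a)) _ _ ?_
      rw [← hT, ← hμ]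
      refine re_fl_flat_bin T μ hμpos _ c W.m ξ (ξ * ((W.q : ℝ) + 1)) (κ.2 (⟨j, hj.1⟩, ⟨w, hj.2⟩)) N hm0 hδt ht0 (fun a ha => ?_) (by convert hc2 j w hv' hw') htot
      rw [hc] at ha
      have ha' : key a = κ := ha
      rw [← ha', hkeydef]

end Claimed.Agent.R256
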