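-- KEEP
import Claimed.Agent.R256.Re.TowB
import Claimed.Agent.R256.Re.Tools
import Claimed.Agent.R256.Re.Atom
import Claimed.Agent.R256.Re.FlatMain

/-!
# Row 256, unit RE, block (I): EXIT of the block FLAT (helper74)      (chief helper223)

The ARCHITECT OF THE BLOCK OWNS THIS FILE: keep name + statement; add the imports of your proof files and replace the `sorry`.   Other blocks import this file as a black box.   `Re/TowC.lean` imports all exits.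
-/

set_option autoImplicit false

namespace Claimed.Agent.R256

open MeasureTheory
open scoped BigOperators
open Classical

/-- **FLAT** (post BP-256-RE-FLAT): preflattening at the new cut `i = hg + 1`.
PLAN.  `W₁ := W.upd i P univ ..` (pre-law: atoms `a`, masses `am`, total `≈ E_a`; `Re/Atom.lean`).   NAMES: the finite list `X_1 .. X_r` of `nmT i i j` (`RnVal q i j`) and `(nmT i i j, anT i w)` (`j ≤ w`, `RnVal q i w`), `r ≤ (q+1)²`.
1. CARDINALITY.  `#values of X ≤ nL · (cells per label) ≤ 2^(D₁ n)`: `re_card` (`Re/Tools.lean`); a good label (`r ≤ 2^(τ n) d_i ≤ 2^(τ n) R_j`) meets `≤ (2^(τ n) + 4)^5 · 2^10` cells of a name (cf. `Re/ProfGeo.lean`).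
2. BINS.  `π_X a` := pre-probability of the value `X a`; `bin_X a := min Bmax ⌊-log₂ π_X a / (δ m)⌋`, `δ = ξ/4`, `Bmax δ m ≥ (D₁ + D₂) n`; class of `a` := `(bin_X a)_X`; `≤ (Bmax+1)^r` classes (a CONSTANT).
3. `re_split_sub` for the masks `1_{P.S ∩ rs class}`: one class `c` keeps `rd / #³`.   If some `bin_X = Bmax` on `c`: mass `≤ 2^(D₁ n) 2^(-(D₁+D₂) n) tot`, `gn_tail` behind the stage: no certificate.
4. `dn j`, `gn j w` := `bin · δ`.   `FlatT`: at most `2^((x+δ) m)` values have pre-probability `> 2^(-(x+δ) m)`; a value has new mass `≤` old mass `≤ 2^(-x m) tot_pre ≤ 2^(-x m) 2^(2 ξ' n) tot_new` (`raw_hi` of `P`, `raw_lo` new).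
5. `raw_lo` new: `gn_ss3f` behind the new stage.   `cls`: `gn_cls_mono`, `hG.root`, validity of the longer stack.   OLD FIELDS: `(W.upd i ..).Ex a = W.Ex a`, `ats a`, `am a`, `nmT`.. unchanged for `a ≤ hg` (`Function.update_of_ne`): one transport lemma. -/
theorem re_flat (η : ℝ) (hη0 : 0 < η) (hη1 : η < 1) (hE : ReEntry η) (hΓ : 0 < (rndWav η).Gam) (q : ℕ) (ξ : ℝ) (hξ : 0 < ξ) :
    ∃ τ : ℝ, 0 < τ ∧ ∀ C : ℕ, ∃ A0 n0 : ℕ, ∀ (A : ℕ) (p : RdWvPar) (W : ReTw η p) (hg : ℕ) (P : RePs), A0 ≤ A → W.q = q → n0 ≤ W.E.n →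
      W.Ok hg C A τ → hg + 1 < q → P.Ok (W.Ex hg) (W.dp (hg + 1)) τ →
      ∃ (c : Set (ℕ × ReFc)) (dn : ℕ → ℝ) (gn : ℕ → ℕ → ℝ), (W.upd (hg + 1) P c dn gn).Ok (hg + 1) (C + 1) A ξ := by
  rcases Nat.eq_zero_or_pos q with hq | hq0
  · subst hq
    exact ⟨1, one_pos, fun _ => ⟨0, 0, fun _ _ _ _ _ _ _ _ _ h => absurd h (Nat.not_lt_zero _)⟩⟩
  obtain ⟨τ₃, hτ₃, HR⟩ := re_fn_raw η hE hΓ q hq0 (ξ / 2) (by positivity)
  obtain ⟨τ, hτdef⟩ : ∃ τ, τ = min (τ₃ / 2) (min (ξ / 2) 1) := ⟨_, rfl⟩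
  have hτ : 0 < τ := by
    rw [hτdef]
    exact lt_min (by positivity) (lt_min (by positivity) one_pos)
  have hτ3 : τ ≤ τ₃ / 2 := hτdef ▸ min_le_left _ _
  have hτξ : τ ≤ ξ / 2 := hτdef ▸ (min_le_right _ _).trans (min_le_left _ _)
  have hτ1 : τ ≤ 1 := hτdef ▸ (min_le_right _ _).trans (min_le_right _ _)
  refine ⟨τ, hτ, fun C => ?_⟩
  obtain ⟨A0, n1, HR⟩ := HR C
  obtain ⟨N, hN⟩ := exists_nat_ge ((3 * (C : ℝ) + 21) * ((q : ℝ) + 1) / ξ)
  obtain ⟨n2, hn2⟩ := gn_absorb (((((N + 1) ^ (q + 1) * (N + 1) ^ ((q + 1) * (q + 1)) : ℕ) : ℝ)) ^ 3) τ hτ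
  refine ⟨A0, max (max n1 n2) (max 50 (q * (q + 1))), fun A p W hg P hA hWq hn hW hlt hP => ?_⟩
  subst hWq
  have hn1 : n1 ≤ W.E.n := le_trans (le_trans (le_max_left _ _) (le_max_left _ _)) hn
  have hn2' : n2 ≤ W.E.n := le_trans (le_trans (le_max_right _ _) (le_max_left _ _)) hn
  have hn50 : 50 ≤ W.E.n := le_trans (le_trans (le_max_left _ _) (le_max_right _ _)) hn
  have hnq : W.q * (W.q + 1) ≤ W.E.n := le_trans (le_trans (le_max_right _ _) (le_max_right _ _)) hn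
  have hn0 : (0 : ℝ) ≤ W.E.n := Nat.cast_nonneg _
  have hm0 : (0 : ℝ) ≤ W.m := Nat.cast_nonneg _
  -- `n ≤ (q + 1) m`
  have hnm : (W.E.n : ℝ) ≤ ((W.q : ℝ) + 1) * W.m := by
    have h1 := hW.n_hi
    have h2 : W.q + 1 < W.m + 1 := Nat.lt_of_mul_lt_mul_left (lt_of_le_of_lt hnq h1)
    have h3 : W.E.n ≤ (W.q + 1) * W.m := by
      have : W.q * (W.m + 1) ≤ (W.q + 1) * W.m := by nlinarith
      omega
    exact_mod_cast h3
  obtain ⟨a1, a2, _, _, _⟩ := re_fn_arith W hg hW hlt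
  refine re_fm_core hE W hg P (N := N) hW hlt hP hτ.le (by linarith) (fun c dn gn hc => ?_) (hn2 _ hn2') ?_ hnm
  · refine HR A p W hg P τ hA rfl hn1 hW hlt hP hτ3 c dn gn (le_trans (gn_two_mono ?_) hc)
    exact mul_le_mul_of_nonneg_right (by linarith) hn0
  · have hnL : (P.nL : ℝ) ≤ 2 ^ ((3 * C + 8 : ℝ) * W.E.n) :=
      (re_card η hη0 hη1 hE hΓ C A p (W.Ex hg) (hW.cls hg le_rfl) P (W.dp (hg + 1)) τ hτ.le hτ1 a1 a2 hP).2
    have h25 : (2 : ℝ) ^ 25 ≤ 2 ^ ((W.E.n : ℝ) / 2) := by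
      rw [← Real.rpow_natCast]
      apply gn_two_mono
      have : (50 : ℝ) ≤ W.E.n := by exact_mod_cast hn50
      push_cast
      linarith
    have hL : ((2 : ℝ) ^ (τ * W.E.n)) ^ 6 ≤ 2 ^ (6 * (W.E.n : ℝ)) := by
      rw [← Real.rpow_natCast, gn_two_mul]
      apply gn_two_mono
      push_cast
      nlinarith
    have h1 : (2 : ℝ) ^ 25 * ((2 : ℝ) ^ (τ * W.E.n)) ^ 6 ≤ 2 ^ ((W.E.n : ℝ) / 2 + 6 * (W.E.n : ℝ)) := by
      rw [gn_two_add]
      exact mul_le_mul h25 hL (by positivity) (gn_two_pos _).le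
    have h2 : ((2 : ℝ) ^ 25 * ((2 : ℝ) ^ (τ * W.E.n)) ^ 6) ^ 2 ≤ 2 ^ (13 * (W.E.n : ℝ)) := by
      refine (pow_le_pow_left₀ (by positivity) h1 2).trans (le_of_eq ?_)
      rw [← Real.rpow_natCast, gn_two_mul]
      congr 1
      push_cast
      ring
    refine (mul_le_mul hnL h2 (by positivity) (gn_two_pos _).le).trans ?_
    rw [← gn_two_add]
    apply gn_two_mono
    have hN' : (3 * (C : ℝ) + 21) * ((W.q : ℝ) + 1) ≤ N * ξ := by
      rwa [div_le_iff₀ hξ] at hN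
    have hC : (0 : ℝ) ≤ 3 * (C : ℝ) + 21 := by positivity
    calc (3 * (C : ℝ) + 8) * W.E.n + 13 * (W.E.n : ℝ) = (3 * (C : ℝ) + 21) * W.E.n := by ring
      _ ≤ (3 * (C : ℝ) + 21) * (((W.q : ℝ) + 1) * W.m) := mul_le_mul_of_nonneg_left hnm hC
      _ = (3 * (C : ℝ) + 21) * ((W.q : ℝ) + 1) * W.m := by ring
      _ ≤ N * ξ * W.m := mul_le_mul_of_nonneg_right hN' hm0

end Claimed.Agent.R256
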