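-- KEEP
import Claimed.Agent.R256.Re.PeelA

/-!
# Row 256, unit RE, post PEELSEL, LEAF A3: PRE = the prefix experiment read on the successes      (architect helper201; prefix `re_pe_`)

Paper free.   Tools: `Re/PeelA.lean`, `Gen/Cons.lean` (`gn_pre_valid`, `gn_pre_m`), `Gen/BasB.lean`.
-/

set_option autoImplicit false

namespace Claimed.Agent.R256

open MeasureTheory
open scoped BigOperators
open Classical

variable {η : ℝ} {p : RdWvPar}

theorem re_pe_pre_one {ι : Type} [Fintype ι] (f : ι → ℝ) (h1 : ∀ l, f l ≤ 1) (h2 : ∀ l l', l ≠ l' → f l ≠ 0 → f l' = 0) : ∑ l, f l ≤ 1 := by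
  by_cases h : ∃ l, f l ≠ 0
  · obtain ⟨l, hl⟩ := h
    rw [Finset.sum_eq_single l (fun l' _ hne => h2 l l' (Ne.symm hne) hl) (fun hh => absurd (Finset.mem_univ _) hh)]
    exact h1 l
  · have h' : ∀ l, f l = 0 := fun l => by
      by_contra hl
      exact h ⟨l, hl⟩
    rw [Finset.sum_eq_zero fun l _ => h' l]
    exact zero_le_one

theorem re_pe_pre_add {Pk : PkSys} (T : ℝ) (k b : ℕ) {ι : Type} (s : Finset ι) (R : ι → Set Pk.X) (hR : ∀ a ∈ s, MeasurableSet (R a))
    (hd : ∀ a ∈ s, ∀ a' ∈ s, a ≠ a' → Disjoint (R a) (R a')) (v : Pk.Kc) : Pk.ms T k b (⋃ a ∈ s, R a) v = ∑ a ∈ s, Pk.ms T k b (R a) v := by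
  have := gn_mu_finite (P := Pk) T k b v
  rw [gn_ms_eq_mu T k b (Finset.measurableSet_biUnion s hR)]
  rw [measureReal_biUnion_finset (fun a ha a' ha' hne => hd a ha a' ha' hne) hR]
  refine Finset.sum_congr rfl fun a ha => ?_
  rw [gn_ms_eq_mu T k b (hR a ha)]

/-- **PRE**: validity.   PLAN: `re_pe_pre_eq`, `gn_pre_valid` (cut `re_pe_cut`); `hw`: `hT.wt_pos`; `hsum`: the sets `lR u`, `lI u = i`, are disjoint (`Lv.disj`): at most one term is `1`. -/
theorem re_pe_pre_valid (hT : (p.sys η).Tight) (P : RePs) (X : Xp (p.sys η)) (hX : X.Valid) (k : ℕ) (hst : ∀ σ ∈ X.st, σ.k ≤ k) (h0 : X.k0 ≤ k) (h1 : k ≤ X.kf)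
    (h : P.Lv X k) : (P.pre X k).Valid := by
  rw [re_pe_pre_eq]
  refine gn_pre_valid X hX (re_pe_cut X k hst h0 h1) P.gb (fun u : Fin P.nL => P.lI u) (fun u => P.lQ u) (fun u => (P.lR u).indicator fun _ => 1)
    (fun u => (h.lb u u.2).1) (fun u => (h.lb u u.2).2.1) (fun u => hT.wt_pos _ _ (h.lb u u.2).2.1)
    (fun u => (gn_mask_ind (h.lb u u.2).2.2.1).1) (fun u x => ((gn_mask_ind (h.lb u u.2).2.2.1).2 x).1) ?_ ?_
  · intro u x hx
    apply (h.lb u u.2).2.2.2.1
    by_contra hx'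
    exact hx (Set.indicator_of_notMem hx' _)
  · intro i x
    refine re_pe_pre_one _ ?_ ?_
    · intro u
      split_ifs
      · exact ((gn_mask_ind (h.lb u u.2).2.2.1).2 x).2
      · exact zero_le_one
    · intro u u' hne hu
      by_cases hi : P.lI u = i
      · rw [if_pos hi] at hu
        have hxu : x ∈ P.lR u := by
          by_contra hx'
          exact hu (Set.indicator_of_notMem hx' _)
        by_cases hi' : P.lI u' = i
        · rw [if_pos hi']
          apply Set.indicator_of_notMem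
          intro hxu'
          exact Set.disjoint_left.1 (h.disj u u.2 u' u'.2 (fun hh => hne (Fin.ext hh)) (hi.trans hi'.symm)) hxu hxu'
        · rw [if_neg hi']
      · rw [if_neg hi] at hu
        exact absurd rfl hu

/-- **PRE**: masses and weights.   PLAN: `gn_pre_m`; `ms` is `en` of the indicator by definition. -/
theorem re_pe_pre_m (P : RePs) (X : Xp (p.sys η)) (k : ℕ) (h0 : X.k0 ≤ k) (u : Fin P.nL) :
    (P.pre X k).m u = (p.sys η).ms (tmL k (P.lI u)) k P.gb (P.lR u) (X.at' k (P.lI u) X.st) ∧ (P.pre X k).w u = (P.lQ u).wt η := by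
  exact gn_pre_m X h0 X.st P.gb (fun u : Fin P.nL => P.lI u) (fun u => P.lQ u) (fun u => (P.lR u).indicator fun _ => 1) u

/-- **PRE**: the total mass is the raw selected mass.   PLAN: `re_pe_pre_m`; for `I ∈ ivs`: `P.S I = ⋃_{u, lI u = I} lR u`, finite additivity (`gn_ms_iUnion` after an enumeration, or `gn_ms_eq_mu` + `measureReal_biUnion_finset`);
`Finset.sum_fiberwise_of_maps_to` (`lI u ∈ ivs`). -/
theorem re_pe_pre_tm (P : RePs) (X : Xp (p.sys η)) (k : ℕ) (h0 : X.k0 ≤ k) (h : P.Lv X k) : (P.pre X k).tm = P.raw X k := by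
  have hS : ∀ I, P.S I = ⋃ u ∈ (Finset.univ.filter fun u : Fin P.nL => P.lI u = I), P.lR u := by
    intro I
    refine Set.ext fun x => ⟨?_, ?_⟩
    · rintro ⟨u, hu, h1, h2⟩
      exact Set.mem_biUnion (x := (⟨u, hu⟩ : Fin P.nL)) (Finset.mem_coe.2 (Finset.mem_filter.2 ⟨Finset.mem_univ _, h1⟩)) h2
    · intro hx
      simp only [Set.mem_iUnion] at hx
      obtain ⟨u, hu, h2⟩ := hx
      exact ⟨u, u.2, (Finset.mem_filter.1 hu).2, h2⟩
  have h1 : (P.pre X k).tm = ∑ u : Fin P.nL, (p.sys η).ms (tmL k (P.lI u)) k P.gb (P.lR u) (X.at' k (P.lI u) X.st) :=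
    Finset.sum_congr rfl fun u _ => (re_pe_pre_m P X k h0 u).1
  rw [h1]
  unfold RePs.raw
  rw [← Finset.sum_fiberwise_of_maps_to (s := Finset.univ) (t := ivs X.k0 X.i0 k) (g := fun u : Fin P.nL => P.lI u) (fun u _ => (h.lb u u.2).1)]
  refine Finset.sum_congr rfl fun I _ => ?_
  rw [hS I]
  have h2 := re_pe_pre_add (Pk := p.sys η) (tmL k I) k P.gb (Finset.univ.filter fun u : Fin P.nL => P.lI u = I) (fun u : Fin P.nL => P.lR u) (fun u _ => (h.lb u u.2).2.2.1)
    (fun u hu u' hu' hne => h.disj u u.2 u' u'.2 (fun hh => hne (Fin.ext hh)) ((Finset.mem_filter.1 hu).2.trans (Finset.mem_filter.1 hu').2.symm)) (X.at' k I X.st)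
  refine Eq.trans ?_ h2.symm
  refine Finset.sum_congr rfl fun u hu => ?_
  rw [(Finset.mem_filter.1 hu).2]

end Claimed.Agent.R256
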