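-- KEEP
import Claimed.Agent.R256.Re.PeelA2
import Claimed.Agent.R256.Re.PeelA3

/-!
# Row 256, unit RE, post PEELSEL, LEAF B1: PS      (architect helper201; prefix `re_pe_`)

Paper free.   `M = rndWav η`, `hG = hE.gen : M.Gen 1`, `Γ = M.Gam`.   `j = k - k0`, `n' = kf - k = n - j`, `E = P.ins X k`, `E' = P.pre X k`, `β = P.be`, `κ = X.ka`, `e = X.e`.
-/

set_option autoImplicit false

namespace Claimed.Agent.R256

open MeasureTheory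
open scoped BigOperators
open Classical

/-- **PS**.
PLAN (120 l.): `C'` from `gn_prefix_cls M hG.scale C a0`; `A, n1` from `hPr C'`; `n0 = ⌈n1 / a0⌉₊`.   `E' = P.pre X k` is valid (`re_pe_pre_valid`, `hT = hG.tight p hX.1`), `SameRoot X E'` by `rfl`s, `E'.st = X.st`,
`E'.GenLe C` (`bT = P.gb ≤ C`), `E'.n = j`, `a0 n ≤ j ≤ n`: `Cls C' A p E'`, `n1 ≤ j`: `E'.val ≤ 2^(γ j)`.
`√β · raw = √β · E'.tm ≤ E'.rd` (`re_pe_pre_tm`, `gn_le_tr` with `ρ = β`, `re_pe_pre_m`, `Lv.lb`);   `E'.rd = 2^(-j/2) e √κ E'.val` (`gn_rd_of_val`);   `√(β/κ) = √β / √κ`. -/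
theorem re_pe_ps (η : ℝ) (hE : ReEntry η) (Pr : (p : RdWvPar) → Xp (p.sys η) → Prop) (γ : ℝ)
    (hPr : ∀ C : ℕ, ∃ A n0 : ℕ, ∀ (p : RdWvPar) (E : Xp (p.sys η)), n0 ≤ E.n → (rndWav η).Cls C A p E → Pr p E → E.val ≤ 2 ^ (γ * E.n))
    (C : ℕ) (a0 : ℝ) (ha : 0 < a0) :
    ∃ A n0 : ℕ, ∀ (p : RdWvPar) (X : Xp (p.sys η)) (k : ℕ) (P : RePs), n0 ≤ X.n → (rndWav η).Cls C A p X → (∀ σ ∈ X.st, σ.k ≤ k) → X.k0 ≤ k → k ≤ X.kf →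
      a0 * X.n ≤ ((k - X.k0 : ℕ) : ℝ) → P.Lv X k → P.gb ≤ C → 0 ≤ P.be → Pr p (P.pre X k) →
      P.raw X k * Real.sqrt (P.be / X.ka) ≤ X.e * 2 ^ ((γ - 1 / 2) * ((k - X.k0 : ℕ) : ℝ)) := by
  have hG := hE.gen
  obtain ⟨C', -, hC'⟩ := gn_prefix_cls (rndWav η) hG.scale C a0 ha
  obtain ⟨A, n1, H⟩ := hPr C'
  refine ⟨A, ⌈(n1 : ℝ) / a0⌉₊, fun p X k P hn hX hst h0 h1 hj hLv hgb hbe hP => ?_⟩
  have hT : (p.sys η).Tight := hG.tight p hX.1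
  have hV : (P.pre X k).Valid := re_pe_pre_valid hT P X hX.2.1 k hst h0 h1 hLv
  have hcls : (rndWav η).Cls C' A p (P.pre X k) :=
    hC' A p X (P.pre X k) hX hV ⟨rfl, rfl, rfl, rfl, rfl, rfl⟩ hX.2.2.1 ⟨hX.2.2.2.1.1, hgb, hX.2.2.2.1.2.2⟩ hj
      (by show k - X.k0 ≤ X.n; unfold Xp.kf at h1; omega)
  have hn1 : n1 ≤ (P.pre X k).n := by
    have h3 : (n1 : ℝ) / a0 ≤ X.n := (Nat.le_ceil _).trans (by exact_mod_cast hn)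
    rw [div_le_iff₀ ha] at h3
    have : (n1 : ℝ) ≤ ((k - X.k0 : ℕ) : ℝ) := by linarith
    exact_mod_cast this
  have hval : (P.pre X k).val ≤ 2 ^ (γ * ((k - X.k0 : ℕ) : ℝ)) := H p (P.pre X k) hn1 hcls hP
  have hrd : Real.sqrt P.be * P.raw X k ≤ (P.pre X k).rd := by
    rw [← re_pe_pre_tm P X k h0 hLv, gn_rd_eq]
    unfold Xp.tm
    rw [Finset.mul_sum]
    refine Finset.sum_le_sum fun u _ => gn_le_tr _ hV u hbe ?_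
    obtain ⟨e1, e2⟩ := re_pe_pre_m P X k h0 u
    rw [e1, e2]
    exact (hLv.lb u u.2).2.2.2.2.le
  rw [gn_rd_of_val _ hV] at hrd
  have hrd' : Real.sqrt P.be * P.raw X k ≤ 2 ^ (-((((k - X.k0 : ℕ) : ℕ) : ℝ) / 2)) * (X.e * Real.sqrt X.ka) * (P.pre X k).val := hrd
  have he := hX.2.1.e_pos
  have hk := hX.2.1.ka_pos
  have hsk : 0 < Real.sqrt X.ka := Real.sqrt_pos.mpr hk
  obtain ⟨j, hjd⟩ : ∃ j : ℝ, j = ((k - X.k0 : ℕ) : ℝ) := ⟨_, rfl⟩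
  rw [← hjd] at hrd' hval ⊢
  have h2 := gn_two_pos (-(j / 2))
  have e1 : (2 : ℝ) ^ ((γ - 1 / 2) * j) = 2 ^ (-(j / 2)) * 2 ^ (γ * j) := by
    rw [← gn_two_add]
    congr 1
    ring
  rw [Real.sqrt_div hbe, e1]
  have h3 : Real.sqrt P.be * P.raw X k ≤ 2 ^ (-(j / 2)) * (X.e * Real.sqrt X.ka) * 2 ^ (γ * j) :=
    hrd'.trans (mul_le_mul_of_nonneg_left hval (by positivity))
  rw [mul_div_assoc', div_le_iff₀ hsk]
  calc P.raw X k * Real.sqrt P.be = Real.sqrt P.be * P.raw X k := mul_comm _ _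
    _ ≤ _ := h3
    _ = _ := by ring

end Claimed.Agent.R256
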