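-- KEEP
import Claimed.Agent.R256.Re.PeelB1

/-!
# Row 256, unit RE, post PEELSEL, LEAF B2: BAD      (architect helper201; prefix `re_pe_`)

Paper free.   `M = rndWav η`, `hG = hE.gen : M.Gen 1`, `Γ = M.Gam`.   `j = k - k0`, `n' = kf - k = n - j`, `E = P.ins X k`, `E' = P.pre X k`, `β = P.be`, `κ = X.ka`, `e = X.e`.
-/

set_option autoImplicit false

namespace Claimed.Agent.R256

open MeasureTheory
open scoped BigOperators
open Classical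

theorem re_pe_bad_num (Γ c a0 ε n j Dr Cr B0 e κ β raw post rd : ℝ) (hΓ : 0 ≤ Γ) (hc : 0 < c) (hc1 : c ≤ 1) (ha : 0 < a0) (hε : ε = c * a0 / 4)
    (hn : 1 ≤ n) (hj1 : a0 * n ≤ j) (hj2 : j ≤ (1 - a0) * n) (hD : 2 ≤ Dr) (hCr : 1 ≤ Cr) (he : 0 < e) (hκ : 0 < κ) (hβ : 0 < β) (hB : β ≤ B0 * κ)
    (hps : raw * Real.sqrt (β / κ) ≤ e * 2 ^ ((Γ - c - 1 / 2) * j)) (hpr : post ≤ raw)
    (hrd : rd ≤ 2 ^ (-((1 / 2 - Γ - ε) * (n - j))) * Real.sqrt (Cr * (2 * β)) * (post + 2 ^ (-(Dr * n)) * e))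
    (habs : Real.sqrt (2 * Cr) * (1 + Real.sqrt B0) ≤ 2 ^ (ε * n)) :
    2 ^ (n / 2) / (e * Real.sqrt κ) * rd ≤ 2 ^ ((Γ - c * a0 / 2) * n) := by
  have ha2 : a0 ≤ 1 / 2 := by nlinarith
  have hε0 : 0 < ε := by rw [hε]; positivity
  have hj0 : 0 ≤ j := le_trans (by positivity) hj1
  have hjn : j ≤ n := by nlinarith
  have hca : c * a0 ≤ 1 / 2 := by nlinarith
  obtain ⟨x, hx⟩ : ∃ x, x = Real.sqrt (β / κ) := ⟨_, rfl⟩
  have hx0 : 0 ≤ x := hx ▸ Real.sqrt_nonneg _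
  have hxB : x ≤ Real.sqrt B0 := by
    rw [hx]
    exact Real.sqrt_le_sqrt (by rw [div_le_iff₀ hκ]; exact hB)
  have hsκ : 0 < Real.sqrt κ := Real.sqrt_pos.mpr hκ
  have hsβ : Real.sqrt β = x * Real.sqrt κ := by
    rw [hx, Real.sqrt_div hβ.le]
    field_simp
  have hs2 : Real.sqrt (Cr * (2 * β)) = Real.sqrt (2 * Cr) * (x * Real.sqrt κ) := by
    rw [← hsβ, ← Real.sqrt_mul (by positivity)]
    congr 1
    ring
  rw [← hx] at hps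
  obtain ⟨T, hT⟩ : ∃ T : ℝ, T = 2 ^ (-((1 / 2 - Γ - ε) * (n - j))) := ⟨_, rfl⟩
  obtain ⟨S, hS⟩ : ∃ S : ℝ, S = 2 ^ (-(Dr * n)) := ⟨_, rfl⟩
  obtain ⟨N, hN⟩ : ∃ N : ℝ, N = 2 ^ (n / 2) := ⟨_, rfl⟩
  obtain ⟨W, hW⟩ : ∃ W : ℝ, W = 2 ^ ((Γ - c * a0 + ε) * n) := ⟨_, rfl⟩
  obtain ⟨q, hq⟩ : ∃ q : ℝ, q = Real.sqrt (2 * Cr) := ⟨_, rfl⟩
  obtain ⟨U, hU⟩ : ∃ U : ℝ, U = 2 ^ ((Γ - c - 1 / 2) * j) := ⟨_, rfl⟩
  have hT0 : 0 < T := hT ▸ gn_two_pos _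
  have hS0 : 0 < S := hS ▸ gn_two_pos _
  have hN0 : 0 < N := hN ▸ gn_two_pos _
  have hW0 : 0 < W := hW ▸ gn_two_pos _
  have hU0 : 0 < U := hU ▸ gn_two_pos _
  have hq0 : 0 ≤ q := hq ▸ Real.sqrt_nonneg _
  rw [← hT, ← hS, hs2, ← hq] at hrd
  rw [← hU] at hps
  rw [← hq] at habs
  rw [← hN]
  have f1 : N * T * U ≤ W := by
    rw [hN, hT, hU, hW, ← gn_two_add, ← gn_two_add]
    refine gn_two_mono ?_
    nlinarith [mul_nonneg hε0.le hj0, mul_le_mul_of_nonneg_left hj1 hc.le]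
  have f2 : N * T * S ≤ W := by
    rw [hN, hT, hS, hW, ← gn_two_add, ← gn_two_add]
    refine gn_two_mono ?_
    have g1 : 2 * n ≤ Dr * n := mul_le_mul_of_nonneg_right hD (by linarith)
    have g2 : 0 ≤ (Γ + ε) * j := by positivity
    have g3 : c * a0 * n ≤ 1 / 2 * n := mul_le_mul_of_nonneg_right hca (by linarith)
    nlinarith
  have f3 : x * raw ≤ e * U := by linarith [mul_comm x raw]
  have f4 : 2 ^ ((Γ - c * a0 / 2) * n) = (2 : ℝ) ^ (ε * n) * W := by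
    rw [hW, ← gn_two_add]
    congr 1
    rw [hε]
    ring
  rw [f4]
  have hsB : 0 ≤ Real.sqrt B0 := Real.sqrt_nonneg _
  calc N / (e * Real.sqrt κ) * rd ≤ N / (e * Real.sqrt κ) * (T * (q * (x * Real.sqrt κ)) * (post + S * e)) :=
        mul_le_mul_of_nonneg_left hrd (by positivity)
    _ = q * (N * T * ((x * post) / e + x * S)) := by
        field_simp
    _ ≤ q * (N * T * (U + Real.sqrt B0 * S)) := by
        refine mul_le_mul_of_nonneg_left (mul_le_mul_of_nonneg_left (add_le_add ?_ ?_) (by positivity)) hq0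
        · rw [div_le_iff₀ he]
          calc x * post ≤ x * raw := mul_le_mul_of_nonneg_left hpr hx0
            _ ≤ e * U := f3
            _ = U * e := mul_comm _ _
        · exact mul_le_mul_of_nonneg_right hxB hS0.le
    _ = q * (N * T * U + Real.sqrt B0 * (N * T * S)) := by ring
    _ ≤ q * (W + Real.sqrt B0 * W) :=
        mul_le_mul_of_nonneg_left (add_le_add f1 (mul_le_mul_of_nonneg_left f2 hsB)) hq0
    _ = (q * (1 + Real.sqrt B0)) * W := by ring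
    _ ≤ 2 ^ (ε * n) * W := mul_le_mul_of_nonneg_right habs hW0.le

/-- **BAD**.
PLAN (250 l.): `ε = c a0 / 4`.   `re_pe_ps` with `γ = Γ - c`, package `C`: `A1 n1`.   `gn_ss2_tail M 1 hG (C+1) D hD a0 ε`: `Cr A2 n2`.   `n3`: `2 Cr B0 ≤ 2^(D n)` and `√(2 Cr) (1 + √B0) ≤ 2^(ε n)` (`gn_absorb`).
`E = P.ins X k = X.ins k P.gb X.st [] P.S-masks` is in `Cls (C+1)` (`gn_ins_cls`, cut `re_pe_cut`, masks `gn_mask_ind`, `re_pe_S_meas`), `E.LvlAt X.st σ [] β` (`re_pe_lvlAt`), `a0 n ≤ n'`.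
(TS) with `κ' = Cr (2β)`: `E.rd ≤ 2^(-(1/2 - Γ - ε) n') √(2 Cr β) (post + s^D e)`, `post ≤ raw` (`gn_post_le_raw`, `re_pe_raw`).      `E.val = 2^(n/2)/(e √κ) E.rd`.
ARITHMETIC: `E.val ≤ √(2 Cr) 2^(j/2 + (Γ+ε) n') [√(β/κ) raw / e + √(β/κ) s^D] ≤ √(2 Cr) [2^((Γ-c) j + (Γ+ε) n') + √B0 2^(j/2 + (Γ+ε) n' - D n)]`;
`(Γ-c) j + (Γ+ε) n' ≤ (Γ - c a0 + ε) n`;   `j/2 + (Γ+ε) n' - D n ≤ (Γ - c a0 + ε) n` as `D ≥ 2`, `c a0 ≤ 1`, `0 ≤ Γ`;   total `≤ 2^(ε n) 2^((Γ - 3 c a0/4) n) = 2^((Γ - c a0/2) n)`. -/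
theorem re_pe_bad (η : ℝ) (hE : ReEntry η) (Pr : (p : RdWvPar) → Xp (p.sys η) → Prop) (c : ℝ) (hc : 0 < c) (hc1 : c ≤ 1)
    (hPr : ∀ C : ℕ, ∃ A n0 : ℕ, ∀ (p : RdWvPar) (E : Xp (p.sys η)), n0 ≤ E.n → (rndWav η).Cls C A p E → Pr p E →
      E.val ≤ 2 ^ (((rndWav η).Gam - c) * E.n))
    (C D : ℕ) (hD : C + 2 ≤ D) (B0 a0 : ℝ) (ha : 0 < a0) :
    ∃ A n0 : ℕ, ∀ (p : RdWvPar) (X : Xp (p.sys η)) (k : ℕ) (P : RePs), n0 ≤ X.n → (rndWav η).Cls C A p X → (∀ σ ∈ X.st, σ.k ≤ k) → X.k0 ≤ k →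
      a0 * X.n ≤ ((k - X.k0 : ℕ) : ℝ) → ((k - X.k0 : ℕ) : ℝ) ≤ (1 - a0) * X.n → P.Lv X k → P.gb ≤ C →
      X.s ^ (D : ℝ) * X.ka ≤ P.be → P.be ≤ B0 * X.ka → Pr p (P.pre X k) →
      (P.ins X k).val ≤ 2 ^ (((rndWav η).Gam - c * a0 / 2) * X.n) := by
  have hG := hE.gen
  have hΓ0 : 0 ≤ (rndWav η).Gam := (rndWav η).bs_gam_nonneg
  obtain ⟨ε, hεd⟩ : ∃ ε, ε = c * a0 / 4 := ⟨_, rfl⟩
  have hε : 0 < ε := by rw [hεd]; positivity
  have hD2 : (2 : ℝ) ≤ D := by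
    have : 2 ≤ D := by omega
    exact_mod_cast this
  obtain ⟨A1, n1, H1⟩ := re_pe_ps η hE Pr ((rndWav η).Gam - c) hPr C a0 ha
  obtain ⟨Cr, hCr, A2, n2, H2⟩ := gn_ss2_tail (rndWav η) 1 hG (C + 1) D (by omega) a0 ε ha hε
  obtain ⟨n3, H3⟩ := gn_absorb (2 * Cr * B0) D (by linarith)
  obtain ⟨n4, H4⟩ := gn_absorb (Real.sqrt (2 * Cr) * (1 + Real.sqrt B0)) ε hε
  refine ⟨max A1 A2, max (max n1 n2) (max (max n3 n4) 1), fun p X k P hn hX hst h0 hj1 hj2 hLv hgb hb1 hb2 hP => ?_⟩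
  have hn1 : n1 ≤ X.n := le_trans (le_trans (le_max_left _ _) (le_max_left _ _)) hn
  have hn2 : n2 ≤ X.n := le_trans (le_trans (le_max_right _ _) (le_max_left _ _)) hn
  have hn3 : n3 ≤ X.n := le_trans (le_trans (le_trans (le_max_left _ _) (le_max_left _ _)) (le_max_right _ _)) hn
  have hn4 : n4 ≤ X.n := le_trans (le_trans (le_trans (le_max_right _ _) (le_max_left _ _)) (le_max_right _ _)) hn
  have hn5 : 1 ≤ X.n := le_trans (le_trans (le_max_right _ _) (le_max_right _ _)) hn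
  have hn5' : (1 : ℝ) ≤ X.n := by exact_mod_cast hn5
  have hX1 : (rndWav η).Cls C A1 p X := gn_cls_anti _ hG.scale (le_max_left _ _) hX
  have hX2 : (rndWav η).Cls C A2 p X := gn_cls_anti _ hG.scale (le_max_right _ _) hX
  have hjn : k - X.k0 ≤ X.n := by
    have : ((k - X.k0 : ℕ) : ℝ) ≤ X.n := by nlinarith
    exact_mod_cast this
  have h1 : k ≤ X.kf := by
    unfold Xp.kf
    omega
  have hT : (p.sys η).Tight := hG.tight p hX.1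
  have he := hX.2.1.e_pos
  have hκ := hX.2.1.ka_pos
  have hβ : 0 < P.be := lt_of_lt_of_le (mul_pos (Real.rpow_pos_of_pos (gn_s_pos X) _) hκ) hb1
  have hps := H1 p X k P hn1 hX1 hst h0 h1 hj1 hLv hgb hβ.le hP
  have hcut := re_pe_cut X k hst h0 h1
  have hmask : ∀ i, IsMask ((P.S i).indicator fun _ => (1 : ℝ)) := fun i => gn_mask_ind (re_pe_S_meas P (fun u hu => (hLv.lb u hu).2.2.1) i)
  have hcls : (rndWav η).Cls (C + 1) A2 p (P.ins X k) := gn_ins_cls (rndWav η) 1 hG hX2 hcut (hgb.trans (Nat.le_succ _)) hmask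
  have hlvl := re_pe_lvlAt P X k hst h0 h1 hLv
  have hn' : ((X.kf - k : ℕ) : ℝ) = (X.n : ℝ) - ((k - X.k0 : ℕ) : ℝ) := by
    have : X.kf - k + (k - X.k0) = X.n := by
      unfold Xp.kf
      omega
    have h' : ((X.kf - k : ℕ) : ℝ) + ((k - X.k0 : ℕ) : ℝ) = (X.n : ℝ) := by exact_mod_cast this
    linarith
  have hsD : X.s ^ (D : ℝ) = 2 ^ (-((D : ℝ) * X.n)) := gn_s_rpow X _
  have hsD' : X.s ^ (-(D : ℝ)) = 2 ^ ((D : ℝ) * X.n) := by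
    rw [gn_s_rpow]
    congr 1
    ring
  have hts : (P.ins X k).rd ≤ 2 ^ (-((1 / 2 - (rndWav η).Gam - ε) * ((X.kf - k : ℕ) : ℝ))) * Real.sqrt (Cr * (2 * P.be))
      * ((P.ins X k).post X.st (reStg η p k P.gb P.S) + X.s ^ (D : ℝ) * X.e) :=
    H2 p (P.ins X k) hn2 hcls X.st [] (reStg η p k P.gb P.S) P.be (Cr * (2 * P.be)) hlvl
      (by
        show a0 * (X.n : ℝ) ≤ ((X.kf - k : ℕ) : ℝ)
        rw [hn']
        linarith) le_rfl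
      (by
        show X.s ^ (D : ℝ) * X.ka ≤ Cr * (2 * P.be)
        nlinarith)
      (by
        show Cr * (2 * P.be) ≤ X.s ^ (-(D : ℝ)) * X.ka
        rw [hsD']
        have := H3 X.n hn3
        calc Cr * (2 * P.be) ≤ Cr * (2 * (B0 * X.ka)) := by
              refine mul_le_mul_of_nonneg_left ?_ (by linarith)
              linarith
          _ = 2 * Cr * B0 * X.ka := by ring
          _ ≤ _ := mul_le_mul_of_nonneg_right this hκ.le)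
  have hpr := gn_post_le_raw hT (P.ins X k) hcls.2.1 hlvl
  rw [re_pe_raw] at hpr
  rw [hn', hsD] at hts
  exact re_pe_bad_num (rndWav η).Gam c a0 ε X.n ((k - X.k0 : ℕ) : ℝ) D Cr B0 X.e X.ka P.be (P.raw X k) _ _ hΓ0 hc hc1 ha hεd hn5' hj1 hj2 hD2 hCr he hκ hβ hb2
    hps hpr hts (H4 X.n hn4)

end Claimed.Agent.R256
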