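-- KEEP
import Claimed.Agent.R256.Re.PeelA2

/-!
# Row 256, unit RE, post PEELSEL, LEAF B3: FINAL      (architect helper201; prefix `re_pe_`)

Paper free.   `M = rndWav η`, `hG = hE.gen : M.Gen 1`, `Γ = M.Gam`.   `j = k - k0`, `n' = kf - k = n - j`, `E = P.ins X k`, `E' = P.pre X k`, `β = P.be`, `κ = X.ka`, `e = X.e`.
-/

set_option autoImplicit false

namespace Claimed.Agent.R256

open MeasureTheory
open scoped BigOperators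
open Classical

/-- **FINAL**: (CE), FREE regime (`p0f`, `d0f`; `K` = bound for the number of stages of `X`, chosen before `τ`).
PLAN (120 l.): `τ` from `gn_ss2f M 1 hG hΓ a0 ξ ha hξ (K + 1)`; `A n0` at the package `C + 1`.   `E = P.ins X k ∈ Cls (C+1)` (`gn_ins_cls`), `E.st.length = X.st.length + 1 ≤ K + 1`, `E.tw = X.tw`,
`E.e, E.ka, E.s, E.n, E.k0` are those of `X` by `rfl`; `re_pe_lvlAt`; `σ.k = k` by `rfl`.   `raw_hi`: `re_pe_raw`.   `raw_lo`: `post ≤ raw` (`gn_post_le_raw`). -/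
theorem re_pe_final (η : ℝ) (hE : ReEntry η) (hΓ : 0 < (rndWav η).Gam) (K : ℕ) (a0 ξ : ℝ) (ha : 0 < a0) (hξ : 0 < ξ) :
    ∃ τ : ℝ, 0 < τ ∧ ∀ C : ℕ, ∃ A n0 : ℕ, ∀ (p : RdWvPar) (X : Xp (p.sys η)) (k : ℕ) (P : RePs), n0 ≤ X.n → (rndWav η).Cls C A p X → X.st.length ≤ K →
      X.tw ≤ X.e / X.ka * X.s ^ (-((rndWav η).p0f + (rndWav η).d0f) - τ) → (∀ σ ∈ X.st, σ.k ≤ k) → X.k0 ≤ k →
      a0 * X.n ≤ ((k - X.k0 : ℕ) : ℝ) → ((k - X.k0 : ℕ) : ℝ) ≤ (1 - a0) * X.n → P.Lv X k → P.gb ≤ C + 1 →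
      2 ^ (((rndWav η).Gam - τ) * X.n) ≤ (P.ins X k).val →
      X.ka * (2 : ℝ) ^ (-((rndWav η).p0f * ((k - X.k0 : ℕ) : ℝ)) - ξ * X.n) ≤ P.be ∧
      P.be ≤ X.ka * (2 : ℝ) ^ (-((rndWav η).p0f * ((k - X.k0 : ℕ) : ℝ)) + ξ * X.n) ∧
      X.e * (2 : ℝ) ^ ((rndWav η).d0f * ((k - X.k0 : ℕ) : ℝ) - ξ * X.n) ≤ P.raw X k ∧
      P.raw X k ≤ X.e * (2 : ℝ) ^ ((rndWav η).d0f * ((k - X.k0 : ℕ) : ℝ) + ξ * X.n) := by
  have hG := hE.gen
  obtain ⟨τ, hτ, H⟩ := gn_ss2f (rndWav η) 1 hG hΓ a0 ξ ha hξ (K + 1)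
  refine ⟨τ, hτ, fun C => ?_⟩
  obtain ⟨A, n0, H'⟩ := H (C + 1)
  refine ⟨A, n0, fun p X k P hn hX hK htw hst h0 hj1 hj2 hLv hgb hval => ?_⟩
  have h1 : k ≤ X.kf := by
    have hn0 : (0 : ℝ) ≤ X.n := Nat.cast_nonneg _
    have : ((k - X.k0 : ℕ) : ℝ) ≤ X.n := by nlinarith
    have h' : k - X.k0 ≤ X.n := by exact_mod_cast this
    unfold Xp.kf
    omega
  have hT : (p.sys η).Tight := hG.tight p hX.1
  have hcut := re_pe_cut X k hst h0 h1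
  have hmask : ∀ i, IsMask ((P.S i).indicator fun _ => (1 : ℝ)) := fun i => gn_mask_ind (re_pe_S_meas P (fun u hu => (hLv.lb u hu).2.2.1) i)
  have hcls : (rndWav η).Cls (C + 1) A p (P.ins X k) := gn_ins_cls (rndWav η) 1 hG hX hcut hgb hmask
  have hlvl := re_pe_lvlAt P X k hst h0 h1 hLv
  have hlen : (P.ins X k).st.length ≤ K + 1 := by
    show (X.st ++ [reStg η p k P.gb P.S]).length ≤ K + 1
    rw [List.length_append]
    simpa using hK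
  have hmain := H' p (P.ins X k) hn hcls hlen htw hval X.st [] (reStg η p k P.gb P.S) P.be hlvl hj1 hj2
  have hpr := gn_post_le_raw hT (P.ins X k) hcls.2.1 hlvl
  rw [re_pe_raw] at hpr
  have h4 : (P.ins X k).raw X.st (reStg η p k P.gb P.S) ≤ X.e * (2 : ℝ) ^ ((rndWav η).d0f * ((k - X.k0 : ℕ) : ℝ) + ξ * X.n) := hmain.2.2.2
  rw [re_pe_raw] at h4
  exact ⟨hmain.1, hmain.2.1, hmain.2.2.1.trans hpr, h4⟩

end Claimed.Agent.R256
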