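-- KEEP
import Claimed.Agent.R256.Re.PeelA

/-!
# Row 256, unit RE, post PEELSEL, LEAF A4: OFLVL      (architect helper201; prefix `re_pe_`)

Paper free.   Tools: `Re/PeelA.lean` (`rePsOf`, `re_pe_of_lab`, `re_pe_of_S`), `Gen/Ops.lean` (`IsLvl`, `Xp.LvlAt`), `Gen/Ins.lean` (`Xp.ins`).
-/

set_option autoImplicit false

namespace Claimed.Agent.R256

open MeasureTheory
open scoped BigOperators
open Classical

variable {η : ℝ} {p : RdWvPar}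

/-- **OFLVL**: a peel level at the cut `k` behind all stages of `X` is a peel selection.
PLAN: `h.lvl`: for `I ∈ ivs` a set `S I` with `IsLvl`, `Mk I = 1_{S I}`; `choose` the data `(m I, Qs I, R I)` of `IsLvl.suc` (for `I : {I // I ∈ ivs X.k0 X.i0 k}`);
`ι = Σ I : {I // I ∈ ivs ..}, Fin (m I)`, `P = rePsOf b β (fun a => a.1) (fun a => Qs a.1 a.2) (fun a => R a.1 a.2)`; `re_pe_of_lab`, `re_pe_of_S`: `P.S I = ⋃ a, R I a = S I`.   `(X.ins ..).at' = X.at'`, `k0`, `i0` by `rfl`. -/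
theorem re_pe_of_lvl (X : Xp (p.sys η)) (k b : ℕ) (Mk : ℕ → RdWvPar.Ph → ℝ) (β : ℝ) (h : (X.ins k b X.st [] Mk).LvlAt X.st ⟨k, b, Mk⟩ [] β) :
    ∃ P : RePs, P.gb = b ∧ P.be = β ∧ P.Lv X k ∧ ∀ I ∈ ivs X.k0 X.i0 k, Mk I = (P.S I).indicator fun _ => 1 := by
  have hex : ∀ i : {I // I ∈ ivs X.k0 X.i0 k}, ∃ (S : Set RdWvPar.Ph) (m : ℕ) (Qs : Fin m → RdTst) (R : Fin m → Set RdWvPar.Ph),
      IsLvl (p.sys η) (tmL k i) k b (X.at' k i X.st) β S ∧ Mk i = S.indicator (fun _ => 1) ∧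
      (∀ a, (p.sys η).ok (Qs a) k ∧ MeasurableSet (R a) ∧ R a ⊆ (p.sys η).cell (Qs a) (tmL k i) k) ∧
      (∀ a a', a ≠ a' → Disjoint (R a) (R a')) ∧ S = ⋃ a, R a ∧ ∀ a, β * (Qs a).wt η < (p.sys η).ms (tmL k i) k b (R a) (X.at' k i X.st) := by
    intro i
    obtain ⟨S, hS, hM⟩ := h.lvl i i.2
    obtain ⟨m, Qs, R, h1, h2, h3, h4⟩ := hS.suc
    exact ⟨S, m, Qs, R, hS, hM, h1, h2, h3, h4⟩
  choose S m Qs R hS hM h1 h2 h3 h4 using hex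
  have hPS : ∀ (I : ℕ) (hI : I ∈ ivs X.k0 X.i0 k),
      (rePsOf (ι := Σ i : {I // I ∈ ivs X.k0 X.i0 k}, Fin (m i)) b β (fun a => a.1.1) (fun a => Qs a.1 a.2) (fun a => R a.1 a.2)).S I = S ⟨I, hI⟩ := by
    intro I hI
    rw [re_pe_of_S, h3]
    refine Set.ext fun x => ⟨?_, ?_⟩
    · rintro ⟨⟨⟨i, hi⟩, j⟩, ha1, ha2⟩
      have hiI : i = I := ha1
      subst hiI
      exact Set.mem_iUnion.2 ⟨j, ha2⟩
    · intro hx
      obtain ⟨j, hj⟩ := Set.mem_iUnion.1 hx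
      exact ⟨⟨⟨I, hI⟩, j⟩, rfl, hj⟩
  refine ⟨rePsOf (ι := Σ i : {I // I ∈ ivs X.k0 X.i0 k}, Fin (m i)) b β (fun a => a.1.1) (fun a => Qs a.1 a.2) (fun a => R a.1 a.2), rfl, rfl, ⟨h.plat, ?_, ?_, ?_⟩, ?_⟩
  · intro u hu
    obtain ⟨e1, e2, e3⟩ := re_pe_of_lab (ι := Σ i : {I // I ∈ ivs X.k0 X.i0 k}, Fin (m i)) b β (fun a => a.1.1) (fun a => Qs a.1 a.2) (fun a => R a.1 a.2) u hu
    rw [e1, e2, e3]
    obtain ⟨a, ha⟩ : ∃ a, a = (Fintype.equivFin (Σ i : {I // I ∈ ivs X.k0 X.i0 k}, Fin (m i))).symm ⟨u, hu⟩ := ⟨_, rfl⟩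
    rw [← ha]
    exact ⟨a.1.2, (h1 a.1 a.2).1, (h1 a.1 a.2).2.1, (h1 a.1 a.2).2.2, h4 a.1 a.2⟩
  · intro u hu u' hu' hne hI
    obtain ⟨e1, -, e3⟩ := re_pe_of_lab (ι := Σ i : {I // I ∈ ivs X.k0 X.i0 k}, Fin (m i)) b β (fun a => a.1.1) (fun a => Qs a.1 a.2) (fun a => R a.1 a.2) u hu
    obtain ⟨e1', -, e3'⟩ := re_pe_of_lab (ι := Σ i : {I // I ∈ ivs X.k0 X.i0 k}, Fin (m i)) b β (fun a => a.1.1) (fun a => Qs a.1 a.2) (fun a => R a.1 a.2) u' hu'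
    rw [e1, e1'] at hI
    rw [e3, e3']
    have hne' : (Fintype.equivFin (Σ i : {I // I ∈ ivs X.k0 X.i0 k}, Fin (m i))).symm ⟨u, hu⟩ ≠ (Fintype.equivFin (Σ i : {I // I ∈ ivs X.k0 X.i0 k}, Fin (m i))).symm ⟨u', hu'⟩ := by
      intro hh
      exact hne (Fin.mk.inj_iff.1 ((Fintype.equivFin _).symm.injective hh))
    obtain ⟨a, ha⟩ : ∃ a, a = (Fintype.equivFin (Σ i : {I // I ∈ ivs X.k0 X.i0 k}, Fin (m i))).symm ⟨u, hu⟩ := ⟨_, rfl⟩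
    obtain ⟨a', ha'⟩ : ∃ a', a' = (Fintype.equivFin (Σ i : {I // I ∈ ivs X.k0 X.i0 k}, Fin (m i))).symm ⟨u', hu'⟩ := ⟨_, rfl⟩
    rw [← ha, ← ha'] at hI hne' ⊢
    obtain ⟨i, j⟩ := a
    obtain ⟨i', j'⟩ := a'
    have hii : i = i' := Subtype.ext hI
    subst hii
    exact h2 i j j' (fun hj => hne' (by rw [hj]))
  · intro I hI Q hQ
    rw [hPS I hI]
    exact (hS ⟨I, hI⟩).reg Q hQ
  · intro I hI
    rw [hPS I hI]
    exact hM ⟨I, hI⟩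

end Claimed.Agent.R256
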