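-- KEEP
import Claimed.Agent.R256.Re.PeelA2
import Claimed.Agent.R256.Re.PeelA4

/-!
# Row 256, unit RE, post PEELSEL, LEAF C1: LEVEL      (architect helper201; prefix `re_pe_`)

Paper free glue of `Gen/Lev.lean` (`gn_dec_ins`, `gn_dec_beta`, `gn_lev_rem`, `gn_absorb_poly`) and `Re/PeelA*.lean`.
-/

set_option autoImplicit false

namespace Claimed.Agent.R256

open MeasureTheory
open scoped BigOperators
open Classical

/-- **LEVEL**.
PLAN (150 l.): `M = rndWav η`, `hG = hE.gen`.   `gn_dec_ins M 1 hG (C+1) D`: `Cs A n1`;   `gn_lev_rem M 1 hG (C+1) D Cs`: `n2`;   `gn_absorb_poly D 1 (1/4)`: `n3`;   `n0 = max .. 1`.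
`X ∈ Cls (C+1)` (`gn_cls_mono`), cut `X.CutAt k X.st ([] ++ [])` (`re_pe_cut`), `b = reGb X ≤ C + 1` (`re_pe_gb_le`), plateau `re_pe_gb_pl`: masks `Mk`.
`re_pe_pigeon` on `Finset.range (D n + 1)`: some `j ≤ D n` with `X.rd ≤ (D n + 1)³ rd(E_j)`, `E_j = X.ins k b X.st [] (Mk j)` (`gn_rd_nonneg`, `gn_ins_valid`).
`j = D n` is impossible: `X.val ≤ (D n + 1)³ 2^((4 - D/2) n) ≤ 2^(n/4 - n) < 2^(-n/2)` (`re_pe_val_withSt`).
`j < D n`: `re_pe_of_lvl` gives `P`; `gn_dec_beta` the bounds of `β`; `rd(E_j) = (P.ins X k).rd` by `re_pe_congr`. -/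
theorem re_pe_level (η : ℝ) (hE : ReEntry η) (C D : ℕ) (hD : 10 ≤ D) :
    ∃ Cs : ℝ, 1 ≤ Cs ∧ ∃ A n0 : ℕ, ∀ (p : RdWvPar) (X : Xp (p.sys η)) (k : ℕ), n0 ≤ X.n → (rndWav η).Cls C A p X → (∀ σ ∈ X.st, σ.k ≤ k) → X.k0 ≤ k →
      k ≤ X.kf → 2 ^ (-((X.n : ℝ) / 2)) ≤ X.val →
      ∃ P : RePs, P.gb = reGb X ∧ P.Lv X k ∧ X.s ^ (D : ℝ) * X.ka ≤ P.be ∧ P.be ≤ Cs * X.ka ∧ X.rd ≤ ((D * X.n + 1 : ℕ) : ℝ) ^ 3 * (P.ins X k).rd := by
  have hG := hE.gen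
  obtain ⟨Cs, hCs, A, n1, H1⟩ := gn_dec_ins (rndWav η) 1 hG (C + 1) D
  obtain ⟨n2, H2⟩ := gn_lev_rem (rndWav η) 1 hG (C + 1) D Cs (by linarith)
  obtain ⟨n3, H3⟩ := gn_absorb_poly D 1 (1 / 4) (by norm_num)
  refine ⟨Cs, hCs, A, max n1 (max n2 (max n3 1)), fun p X k hn hX hst h0 h1 hval => ?_⟩
  have hn1 : n1 ≤ X.n := le_trans (by simp) hn
  have hn2 : n2 ≤ X.n := le_trans (by simp) hn
  have hn3 : n3 ≤ X.n := le_trans (by simp) hn
  have hn4 : 1 ≤ X.n := le_trans (by simp) hn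
  have hX' : (rndWav η).Cls (C + 1) A p X := gn_cls_mono (rndWav η) hG.scale (Nat.le_succ C) hX
  have hV : X.Valid := hX.2.1
  have hT : (p.sys η).Tight := hG.tight p hX.1
  have hcut : X.CutAt k X.st [] := re_pe_cut X k hst h0 h1
  have hb : reGb X ≤ C + 1 := re_pe_gb_le X C hX.2.2.2.1
  obtain ⟨Mk, hlev, hrem, hsum⟩ := H1 p X hn1 hX' k (reGb X) X.st [] [] hcut (by simp) (by simp) hb
    (fun I _ => re_pe_gb_pl hT X hV C hX.2.2.2.1 k I)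
  have hmsk : ∀ j, j < D * X.n + 1 → ∀ i, IsMask (Mk j i) := by
    intro j hj
    rcases Nat.lt_succ_iff_lt_or_eq.1 hj with h | h
    · exact (hlev j h).2.msk
    · rw [h]; exact hrem.msk
  have hvalid : ∀ j, j < D * X.n + 1 → (X.ins k (reGb X) X.st [] (Mk j)).Valid := fun j hj =>
    gn_ins_valid X hV hcut (reGb X) (hmsk j hj)
  obtain ⟨j, hj, hpig⟩ := re_pe_pigeon (Finset.range (D * X.n + 1)) ⟨0, by simp⟩ X.rd (gn_rd_nonneg X hV)
    (fun j => if j < D * X.n + 1 then (X.ins k (reGb X) X.st [] (Mk j)).rd else 0) (by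
      intro j
      by_cases hj : j < D * X.n + 1
      · simp only [if_pos hj]; exact gn_rd_nonneg _ (hvalid j hj)
      · simp only [if_neg hj]; exact le_rfl) (by
      refine hsum.trans (le_of_eq ?_)
      refine Finset.sum_congr rfl fun j hj => ?_
      rw [if_pos (Finset.mem_range.1 hj)]
      rfl)
  have hj' := Finset.mem_range.1 hj
  simp only [if_pos hj', Finset.card_range] at hpig
  have hc : 0 < 2 ^ ((X.n : ℝ) / 2) / (X.e * Real.sqrt X.ka) :=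
    div_pos (gn_two_pos _) (mul_pos hV.e_pos (Real.sqrt_pos.2 hV.ka_pos))
  rcases Nat.lt_succ_iff_lt_or_eq.1 hj' with h | h
  · obtain ⟨_, hβ1, hβ2⟩ := gn_dec_beta X hV.ka_pos D Cs hCs j h
    obtain ⟨P, hP1, hP2, hP3, hP4⟩ := re_pe_of_lvl X k (reGb X) (Mk j) _ (hlev j h).1
    refine ⟨P, hP1, hP3, hP2 ▸ hβ1, hP2 ▸ hβ2, hpig.trans (le_of_eq ?_)⟩
    congr 1
    have := re_pe_congr X hV k (reGb X) X.st [] hcut (Mk j) (fun I => (P.S I).indicator fun _ => 1) hP4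
    rw [re_pe_ins_eq, hP1]
    exact this
  · exfalso
    subst h
    have h3 := H2 p X A hn2 hX' k (reGb X) X.st [] [] (Mk (D * X.n)) hrem hb
    have h4 := H3 X.n hn3
    have hnn : (1 : ℝ) ≤ X.n := by exact_mod_cast hn4
    have hD' : (10 : ℝ) ≤ D := by exact_mod_cast hD
    have h5 : X.val ≤ ((D * X.n + 1 : ℕ) : ℝ) ^ 3 * 2 ^ ((4 - (D : ℝ) / 2) * X.n) := by
      have e : X.val = 2 ^ ((X.n : ℝ) / 2) / (X.e * Real.sqrt X.ka) * X.rd := rfl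
      rw [e]
      refine (mul_le_mul_of_nonneg_left hpig hc.le).trans ?_
      rw [mul_left_comm]
      exact mul_le_mul_of_nonneg_left h3 (by positivity)
    have h6 : X.val ≤ 2 ^ (1 / 4 * (X.n : ℝ) + (4 - (D : ℝ) / 2) * X.n) := by
      rw [gn_two_add]
      refine h5.trans (mul_le_mul_of_nonneg_right ?_ (gn_two_pos _).le)
      linarith
    have h7 : (2 : ℝ) ^ (1 / 4 * (X.n : ℝ) + (4 - (D : ℝ) / 2) * X.n) < 2 ^ (-((X.n : ℝ) / 2)) := by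
      refine Real.rpow_lt_rpow_of_exponent_lt (by norm_num) ?_
      nlinarith
    linarith

end Claimed.Agent.R256
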