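-- KEEP
import Claimed.Agent.R256.Re.PeelA

/-!
# Row 256, unit RE, post PEELSEL, LEAF A1: SUB      (architect helper201; prefix `re_pe_`)

Paper free: finite sums of indicators.   Tools: `Re/PeelA.lean`, `Gen/BasB.lean`.
-/

set_option autoImplicit false

namespace Claimed.Agent.R256

open MeasureTheory
open scoped BigOperators
open Classical

variable {η : ℝ} {p : RdWvPar}

/-- **SUB**: a part of the successes of a level is a level.   PLAN: `re_pe_sub_lab` for `lb`, `disj`; `reg`: `(P.sub G).S I ⊆ P.S I` (`re_pe_sub_S`), `gn_ms_mono` (`hT.cellM`, `re_pe_S_meas`). -/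
theorem re_pe_sub_lv (hT : (p.sys η).Tight) (P : RePs) (X : Xp (p.sys η)) (k : ℕ) (h : P.Lv X k) (G : RdTst → Prop) : (P.sub G).Lv X k := by
  obtain ⟨e, he, hinj⟩ := re_pe_sub_lab P G
  have hmP : ∀ u < P.nL, MeasurableSet (P.lR u) := fun u hu => (h.lb u hu).2.2.1
  have hmS : ∀ u < (P.sub G).nL, MeasurableSet ((P.sub G).lR u) := by
    intro u hu
    obtain ⟨h1, -, -, -, h5⟩ := he u hu
    rw [h5]
    exact hmP _ h1
  refine ⟨h.plat, ?_, ?_, ?_⟩
  · intro u hu
    obtain ⟨h1, -, h3, h4, h5⟩ := he u hu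
    rw [h3, h4, h5]
    exact h.lb (e u) h1
  · intro u hu u' hu' hne hI
    obtain ⟨h1, -, h3, -, h5⟩ := he u hu
    obtain ⟨h1', -, h3', -, h5'⟩ := he u' hu'
    rw [h5, h5']
    rw [h3, h3'] at hI
    exact h.disj (e u) h1 (e u') h1' (hinj u hu u' hu' hne) hI
  · intro I hI Q hQ
    refine le_trans ?_ (h.reg I hI Q hQ)
    refine gn_ms_mono _ _ _ ((hT.cellM _ _ _).inter (re_pe_S_meas _ hmS I)) ((hT.cellM _ _ _).inter (re_pe_S_meas _ hmP I)) ?_ _
    refine Set.inter_subset_inter_right _ ?_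
    rw [re_pe_sub_S]
    rintro x ⟨u, hu, -, h3, h4⟩
    exact ⟨u, hu, h3, h4⟩

/-- the three classes are a partition of the tests -/
theorem re_pe_cls3 (t R : ℝ) (Q : RdTst) : ∃! c : Fin 3, reCls3 t R c Q := by
  by_cases h1 : Q.f ≤ t
  · refine ⟨0, by simp [reCls3, reThin, h1], ?_⟩
    intro c hc
    fin_cases c
    · rfl
    · simp [reCls3, reWide] at hc
      linarith [hc.1]
    · simp [reCls3, reGood] at hc
      linarith [hc.1]
  · by_cases h2 : R < Q.r
    · refine ⟨1, by simp [reCls3, reWide, h2, not_le.1 h1], ?_⟩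
      intro c hc
      fin_cases c
      · simp [reCls3, reThin] at hc
        exact absurd hc h1
      · rfl
      · simp [reCls3, reGood] at hc
        linarith [hc.2]
    · refine ⟨2, by simp [reCls3, reGood, not_lt.1 h2, not_le.1 h1], ?_⟩
      intro c hc
      fin_cases c
      · simp [reCls3, reThin] at hc
        exact absurd hc h1
      · simp [reCls3, reWide] at hc
        exact absurd hc.2 h2
      · rfl

/-- **the three classes partition the selected rows**.   PLAN: `x ∉ P.S I`: all terms vanish (`re_pe_sub_S`).   `x ∈ P.S I`: the label `u` with `lI u = I`, `x ∈ lR u` is unique (`Lv.disj`), its class `c` is unique (`re_pe_cls3`):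
exactly one term is `1` (`Finset.sum_eq_single c`). -/
theorem re_pe_sub_sum (P : RePs) (X : Xp (p.sys η)) (k : ℕ) (h : P.Lv X k) (t R : ℝ) (I : ℕ) (x : RdWvPar.Ph) :
    ∑ c : Fin 3, ((P.sub (reCls3 t R c)).S I).indicator (fun _ => (1 : ℝ)) x = (P.S I).indicator (fun _ => (1 : ℝ)) x := by
  by_cases hx : x ∈ P.S I
  · obtain ⟨u, hu, h1, h2⟩ := hx
    obtain ⟨c, hc, huniq⟩ := re_pe_cls3 t R (P.lQ u)
    rw [Set.indicator_of_mem (show x ∈ P.S I from ⟨u, hu, h1, h2⟩)]
    rw [Finset.sum_eq_single c]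
    · rw [Set.indicator_of_mem]
      rw [re_pe_sub_S]
      exact ⟨u, hu, hc, h1, h2⟩
    · intro c' _ hne
      rw [Set.indicator_of_notMem]
      rw [re_pe_sub_S]
      rintro ⟨u', hu', hc', h1', h2'⟩
      by_cases huu : u = u'
      · subst huu
        exact hne (huniq c' hc')
      · exact Set.disjoint_left.1 (h.disj u hu u' hu' huu (h1.trans h1'.symm)) h2 h2'
    · intro hc'
      exact absurd (Finset.mem_univ c) hc'
  · rw [Set.indicator_of_notMem hx]
    refine Finset.sum_eq_zero fun c _ => ?_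
    rw [Set.indicator_of_notMem]
    rw [re_pe_sub_S]
    rintro ⟨u, hu, -, h1, h2⟩
    exact hx ⟨u, hu, h1, h2⟩

end Claimed.Agent.R256
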