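-- KEEP
import Claimed.Agent.R256.Re.PeelA1
import Claimed.Agent.R256.Re.PeelA2

/-!
# Row 256, unit RE, post PEELSEL, LEAF C2: CLASS, PRT, PRW      (architect helper201; prefix `re_pe_`)

Paper free.
-/

set_option autoImplicit false

namespace Claimed.Agent.R256

open MeasureTheory
open scoped BigOperators
open Classical

variable {η : ℝ} {p : RdWvPar}

/-- **CLASS**.   PLAN (60 l.): `re_split_sub X hX k P.gb X.st [] (re_pe_cut ..) Finset.univ (fun c I => 1_{(P.sub (reCls3 t R c)).S I}) (fun I => 1_{P.S I})` with `re_pe_sub_sum`, masks: `gn_mask_ind`, `re_pe_S_meas`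
(`re_pe_sub_lv`); `re_pe_pigeon` (`card (Fin 3) = 3`, `3³ = 27`); `(P.sub G).gb = P.gb` and `P.ins X k = X.withSt (X.st ++ [⟨k, P.gb, fun I => 1_{P.S I}⟩])` by `rfl`; `gn_rd_nonneg` needs validity: `gn_ins_valid`. -/
theorem re_pe_class (hT : (p.sys η).Tight) (P : RePs) (X : Xp (p.sys η)) (hX : X.Valid) (k : ℕ) (hst : ∀ σ ∈ X.st, σ.k ≤ k) (h0 : X.k0 ≤ k) (h1 : k ≤ X.kf)
    (h : P.Lv X k) (t R : ℝ) : ∃ c : Fin 3, (P.ins X k).rd ≤ 27 * ((P.sub (reCls3 t R c)).ins X k).rd := by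
  have hcut := re_pe_cut X k hst h0 h1
  have hlv : ∀ c : Fin 3, (P.sub (reCls3 t R c)).Lv X k := fun c => re_pe_sub_lv hT P X k h _
  have hs := re_split_sub X hX k P.gb X.st [] hcut (Finset.univ : Finset (Fin 3))
    (fun c I => ((P.sub (reCls3 t R c)).S I).indicator fun _ => (1 : ℝ)) (fun I => (P.S I).indicator fun _ => (1 : ℝ))
    (fun c _ I => re_pe_mask _ (fun u hu => ((hlv c).lb u hu).2.2.1) I) (fun I => re_pe_mask _ (fun u hu => (h.lb u hu).2.2.1) I)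
    (fun I x => re_pe_sub_sum P X k h t R I x)
  obtain ⟨c, -, hc⟩ := re_pe_pigeon (Finset.univ : Finset (Fin 3)) ⟨0, Finset.mem_univ _⟩ (P.ins X k).rd
    (gn_rd_nonneg _ (re_pe_ins_valid P X hX k hst h0 h1 h)) (fun c => ((P.sub (reCls3 t R c)).ins X k).rd)
    (fun c => gn_rd_nonneg _ (re_pe_ins_valid _ X hX k hst h0 h1 (hlv c))) hs
  refine ⟨c, hc.trans (le_of_eq ?_)⟩
  simp
  norm_num

/-- **PRT**.   PLAN (50 l.): `E' = (P.sub ..).pre X k`: `E'.st = X.st`, `E'.n = k - k0 ≤ n`, `E'.kf = k0 + (k - k0) = k`, `E'.s = 2⁻¹^(k-k0)` by `rfl`; `E'.ts l = (P.sub ..).lQ l`, `re_pe_sub_lab`: `reCls3 t R 0 Q = reThin t Q`. -/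
theorem re_pe_prT (P : RePs) (X : Xp (p.sys η)) (k : ℕ) (a0 θ R : ℝ) (ha : 0 ≤ a0) (hst : ∀ σ ∈ X.st, (σ.k : ℝ) + a0 * X.n ≤ k) (h0 : X.k0 ≤ k) (h1 : k ≤ X.kf) :
    RePrT η θ a0 p ((P.sub (reCls3 (((2 : ℝ)⁻¹ ^ (k - X.k0)) ^ θ) R 0)).pre X k) := by
  have hkf : X.kf = X.k0 + X.n := rfl
  refine ⟨?_, ?_⟩
  · intro σ hσ
    have h2 := hst σ hσ
    have e1 : (((P.sub (reCls3 (((2 : ℝ)⁻¹ ^ (k - X.k0)) ^ θ) R 0)).pre X k).n : ℝ) = ((k - X.k0 : ℕ) : ℝ) := rfl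
    have e2 : (((P.sub (reCls3 (((2 : ℝ)⁻¹ ^ (k - X.k0)) ^ θ) R 0)).pre X k).kf : ℝ) = ((X.k0 + (k - X.k0) : ℕ) : ℝ) := rfl
    rw [e1, e2, Nat.add_sub_cancel' h0]
    have h3 : ((k - X.k0 : ℕ) : ℝ) ≤ X.n := by
      have : k - X.k0 ≤ X.n := by omega
      exact_mod_cast this
    nlinarith
  · intro l
    obtain ⟨e, he, -⟩ := re_pe_sub_lab P (reCls3 (((2 : ℝ)⁻¹ ^ (k - X.k0)) ^ θ) R 0)
    obtain ⟨-, hG, -, hQ, -⟩ := he l l.2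
    have e3 : rwT (((P.sub (reCls3 (((2 : ℝ)⁻¹ ^ (k - X.k0)) ^ θ) R 0)).pre X k).ts l) = (P.sub (reCls3 (((2 : ℝ)⁻¹ ^ (k - X.k0)) ^ θ) R 0)).lQ l := rfl
    rw [e3, hQ]
    have hG' : reThin (((2 : ℝ)⁻¹ ^ (k - X.k0)) ^ θ) (P.lQ (e l)) := by
      simpa [reCls3] using hG
    exact hG'

/-- **PRW**.   PLAN (70 l.): as PRT; `reCls3 t R 1 Q = reWide t R Q`: `t < f`, `R < r`; `E'.s^(-ξ) = 2^(ξ j) ≤ 2^(ξ n)` (`gn_s_rpow`), `0 ≤ rdD`; `E'.s^c1 ≤ E'.s^θ = t` (`gn_s_anti`). -/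
theorem re_pe_prW (P : RePs) (X : Xp (p.sys η)) (k : ℕ) (a0 θ ξ c1 : ℝ) (ha : 0 ≤ a0) (hξ : 0 ≤ ξ) (hθ : θ ≤ c1) (hst : ∀ σ ∈ X.st, (σ.k : ℝ) + a0 * X.n ≤ k)
    (h0 : X.k0 ≤ k) (h1 : k ≤ X.kf) :
    RePrW η ξ c1 a0 p ((P.sub (reCls3 (((2 : ℝ)⁻¹ ^ (k - X.k0)) ^ θ) (2 ^ (ξ * X.n) * rdD p.H k) 1)).pre X k) := by
  have hkf : X.kf = X.k0 + X.n := rfl
  have h3 : ((k - X.k0 : ℕ) : ℝ) ≤ X.n := by
    have : k - X.k0 ≤ X.n := by omega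
    exact_mod_cast this
  generalize hP' : P.sub (reCls3 (((2 : ℝ)⁻¹ ^ (k - X.k0)) ^ θ) (2 ^ (ξ * X.n) * rdD p.H k) 1) = P'
  have e1 : (P'.pre X k).n = k - X.k0 := rfl
  have e2 : (P'.pre X k).kf = k := by
    have : (P'.pre X k).kf = X.k0 + (k - X.k0) := rfl
    rw [this, Nat.add_sub_cancel' h0]
  refine ⟨?_, ?_⟩
  · intro σ hσ
    have h2 := hst σ hσ
    rw [e1, e2]
    nlinarith
  · intro l
    obtain ⟨e, he, -⟩ := re_pe_sub_lab P (reCls3 (((2 : ℝ)⁻¹ ^ (k - X.k0)) ^ θ) (2 ^ (ξ * X.n) * rdD p.H k) 1)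
    rw [hP'] at he
    obtain ⟨-, hG, -, hQ, -⟩ := he l l.2
    have e3 : rwT ((P'.pre X k).ts l) = P'.lQ l := rfl
    rw [e3, hQ, e2]
    have hG' : reWide (((2 : ℝ)⁻¹ ^ (k - X.k0)) ^ θ) (2 ^ (ξ * X.n) * rdD p.H k) (P.lQ (e l)) := by
      simpa [reCls3] using hG
    have hd : 0 ≤ rdD p.H k := Real.sqrt_nonneg _
    constructor
    · refine le_trans ?_ hG'.2.le
      refine mul_le_mul_of_nonneg_right ?_ hd
      rw [gn_s_rpow, e1]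
      refine gn_two_mono ?_
      nlinarith
    · refine le_trans ?_ hG'.1.le
      exact gn_s_anti (P'.pre X k) hθ

end Claimed.Agent.R256
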