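-- KEEP
import Claimed.Agent.R256.Re.PeelB2
import Claimed.Agent.R256.Re.PeelB3
import Claimed.Agent.R256.Re.PeelC1
import Claimed.Agent.R256.Re.PeelC2

/-!
# Row 256, unit RE, block (I), post PEELSEL, file 4: GLUE      (architect helper201; prefix `re_pe_`)

  PIGEON  `re_pe_pigeon`   `x^(1/3) ≤ Σ_J r_j^(1/3)` gives `x ≤ |J|³ r_j` for some `j`
  LEVEL   `re_pe_level`    one level of the peeled decomposition keeps the readout up to `(Dn+1)³`  (`gn_dec_ins`, remainder: `gn_lev_rem`)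
  CLASS   `re_pe_class`    one of the three classes of labels keeps the readout up to `27`  (`re_split_sub`)
  PRT/PRW `re_pe_prT`, `re_pe_prW`    the prefix experiments of the thin / wide class belong to the classes of `ReTE` / `RePL`
  SELECT  `re_pe_select`   the good class of one level keeps the certificate
  MAIN    `re_pe_main`     = `re_peelsel` VERBATIM
-/

set_option autoImplicit false

namespace Claimed.Agent.R256

open MeasureTheory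
open scoped BigOperators
open Classical

/-- exclusion of a bad class: arithmetic -/
theorem re_pe_sel_excl (Γ τ y v w : ℝ) (n : ℕ) (hn : 1 ≤ n) (h1 : 2 ^ ((Γ - τ) * n) ≤ v) (h2 : v ≤ 2 ^ (τ * n) * w) (h3 : w ≤ 2 ^ ((Γ - y) * n))
    (hy : 2 * τ < y) : False := by
  have h4 : (2 : ℝ) ^ ((Γ - τ) * n) ≤ 2 ^ (τ * n + (Γ - y) * n) := by
    rw [gn_two_add]
    exact h1.trans (h2.trans (mul_le_mul_of_nonneg_left h3 (gn_two_pos _).le))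
  have h5 := (Real.rpow_le_rpow_left_iff (by norm_num : (1 : ℝ) < 2)).1 h4
  have h6 : (1 : ℝ) ≤ n := by exact_mod_cast hn
  nlinarith

/-- **SELECT** -/
theorem re_pe_select (η : ℝ) (hE : ReEntry η) (hΓ : 0 < (rndWav η).Gam) (hte : ReTE η) (hpl : RePL η) (a0 ξ ζ : ℝ) (ha : 0 < a0) (hξ : 0 < ξ) (hζ : 0 < ζ) :
    ∃ τ : ℝ, 0 < τ ∧ ∀ C : ℕ, ∃ A n0 : ℕ, ∀ (p : RdWvPar) (X : Xp (p.sys η)) (k : ℕ), n0 ≤ X.n → (rndWav η).Cls C A p X →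
      2 ^ (((rndWav η).Gam - τ) * X.n) ≤ X.val →
      (∀ σ ∈ X.st, (σ.k : ℝ) + a0 * X.n ≤ k) → X.k0 ≤ k → a0 * X.n ≤ ((k - X.k0 : ℕ) : ℝ) → ((k - X.k0 : ℕ) : ℝ) ≤ (1 - a0) * X.n →
      ∃ P : RePs, P.gb = reGb X ∧ P.Lv X k ∧ (∀ u < P.nL, (P.lQ u).r ≤ 2 ^ (ξ * X.n) * rdD p.H k ∧ 2 ^ (-(ξ * X.n)) ≤ (P.lQ u).f) ∧
        2 ^ (((rndWav η).Gam - ζ) * X.n) ≤ (P.ins X k).val := by
  obtain ⟨c1, hc1, HPL⟩ := hpl ξ a0 hξ ha
  obtain ⟨θ, hθ⟩ : ∃ θ, θ = min c1 ξ := ⟨_, rfl⟩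
  have hθ0 : 0 < θ := hθ ▸ lt_min hc1 hξ
  have hθc : θ ≤ c1 := hθ ▸ min_le_left _ _
  have hθξ : θ ≤ ξ := hθ ▸ min_le_right _ _
  obtain ⟨c2, hc2, HTE⟩ := hte θ a0 hθ0 ha
  obtain ⟨c, hc⟩ : ∃ c, c = min (min c1 c2) 1 := ⟨_, rfl⟩
  have hc0 : 0 < c := hc ▸ lt_min (lt_min hc1 hc2) one_pos
  have hcle1 : c ≤ 1 := hc ▸ min_le_right _ _
  have hcc1 : c ≤ c1 := hc ▸ (min_le_left _ _).trans (min_le_left _ _)
  have hcc2 : c ≤ c2 := hc ▸ (min_le_left _ _).trans (min_le_right _ _)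
  have hPrT : ∀ C : ℕ, ∃ A n0 : ℕ, ∀ (p : RdWvPar) (E : Xp (p.sys η)), n0 ≤ E.n → (rndWav η).Cls C A p E → RePrT η θ a0 p E →
      E.val ≤ 2 ^ (((rndWav η).Gam - c) * E.n) := by
    intro C
    obtain ⟨A, n0, H⟩ := HTE C
    exact ⟨A, n0, fun p E hn hcl hpr => (H p E hn hcl hpr.1 hpr.2).trans
      (gn_two_mono (mul_le_mul_of_nonneg_right (by linarith) (Nat.cast_nonneg _)))⟩
  have hPrW : ∀ C : ℕ, ∃ A n0 : ℕ, ∀ (p : RdWvPar) (E : Xp (p.sys η)), n0 ≤ E.n → (rndWav η).Cls C A p E → RePrW η ξ c1 a0 p E →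
      E.val ≤ 2 ^ (((rndWav η).Gam - c) * E.n) := by
    intro C
    obtain ⟨A, n0, H⟩ := HPL C
    exact ⟨A, n0, fun p E hn hcl hpr => (H p E hn hcl hpr.1 hpr.2).trans
      (gn_two_mono (mul_le_mul_of_nonneg_right (by linarith) (Nat.cast_nonneg _)))⟩
  obtain ⟨τ, hτ⟩ : ∃ τ, τ = min (min ζ (c * a0 / 2)) 1 / 4 := ⟨_, rfl⟩
  have hca : 0 < c * a0 / 2 := by positivity
  have hτ0 : 0 < τ := by
    rw [hτ]
    have : 0 < min (min ζ (c * a0 / 2)) 1 := lt_min (lt_min hζ hca) one_pos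
    linarith
  have hτζ : 4 * τ ≤ ζ := by
    rw [hτ]
    have := (min_le_left (min ζ (c * a0 / 2)) 1).trans (min_le_left _ _)
    linarith
  have hτc : 4 * τ ≤ c * a0 / 2 := by
    rw [hτ]
    have := (min_le_left (min ζ (c * a0 / 2)) 1).trans (min_le_right _ _)
    linarith
  have hτ1 : 4 * τ ≤ 1 := by
    rw [hτ]
    have := min_le_right (min ζ (c * a0 / 2)) 1
    linarith
  refine ⟨τ, hτ0, fun C => ?_⟩
  obtain ⟨D, hD⟩ : ∃ D, D = max (C + 3) 10 := ⟨_, rfl⟩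
  have hD3 : C + 1 + 2 ≤ D := hD ▸ le_max_left _ _
  have hD10 : 10 ≤ D := hD ▸ le_max_right _ _
  obtain ⟨Cs, hCs, A1, n1, HL⟩ := re_pe_level η hE C D hD10
  obtain ⟨A2, n2, HT⟩ := re_pe_bad η hE (RePrT η θ a0) c hc0 hcle1 hPrT (C + 1) D hD3 Cs a0 ha
  obtain ⟨A3, n3, HW⟩ := re_pe_bad η hE (RePrW η ξ c1 a0) c hc0 hcle1 hPrW (C + 1) D hD3 Cs a0 ha
  obtain ⟨n4, H4⟩ := gn_absorb_poly D 27 τ hτ0
  refine ⟨max A1 (max A2 A3), max (max n1 n2) (max (max n3 n4) 1), fun p X k hn hX hval hst h0 hlo hhi => ?_⟩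
  have hS := hE.gen.scale
  have hX1 : (rndWav η).Cls C A1 p X := gn_cls_anti _ hS (le_max_left _ _) hX
  have hX2 : (rndWav η).Cls (C + 1) A2 p X :=
    gn_cls_mono _ hS (Nat.le_succ C) (gn_cls_anti _ hS ((le_max_left _ _).trans (le_max_right _ _)) hX)
  have hX3 : (rndWav η).Cls (C + 1) A3 p X :=
    gn_cls_mono _ hS (Nat.le_succ C) (gn_cls_anti _ hS ((le_max_right _ _).trans (le_max_right _ _)) hX)
  have hT : (p.sys η).Tight := hE.gen.tight p hX.1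
  have hXv : X.Valid := hX.2.1
  have hn1 : n1 ≤ X.n := ((le_max_left _ _).trans (le_max_left _ _)).trans hn
  have hn2 : n2 ≤ X.n := ((le_max_right _ _).trans (le_max_left _ _)).trans hn
  have hn3 : n3 ≤ X.n := (((le_max_left _ _).trans (le_max_left _ _)).trans (le_max_right _ _)).trans hn
  have hn4 : n4 ≤ X.n := (((le_max_right _ _).trans (le_max_left _ _)).trans (le_max_right _ _)).trans hn
  have hn5 : 1 ≤ X.n := ((le_max_right _ _).trans (le_max_right _ _)).trans hn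
  have hnR : (0 : ℝ) ≤ X.n := Nat.cast_nonneg _
  have hst' : ∀ σ ∈ X.st, σ.k ≤ k := by
    intro σ hσ
    have := hst σ hσ
    have h2 : (σ.k : ℝ) ≤ k := by nlinarith
    exact_mod_cast h2
  have hjn : k - X.k0 ≤ X.n := by
    have h2 : ((k - X.k0 : ℕ) : ℝ) ≤ X.n := by nlinarith
    exact_mod_cast h2
  have h1 : k ≤ X.kf := by
    unfold Xp.kf
    omega
  have hvalLo : 2 ^ (-((X.n : ℝ) / 2)) ≤ X.val := by
    refine le_trans (gn_two_mono ?_) hval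
    nlinarith
  obtain ⟨P0, hgb0, hLv0, hbl, hbh, hrd0⟩ := HL p X k hn1 hX1 hst' h0 h1 hvalLo
  obtain ⟨t, ht⟩ : ∃ t : ℝ, t = ((2 : ℝ)⁻¹ ^ (k - X.k0)) ^ θ := ⟨_, rfl⟩
  obtain ⟨R, hR⟩ : ∃ R : ℝ, R = 2 ^ (ξ * X.n) * rdD p.H k := ⟨_, rfl⟩
  obtain ⟨cc, hcc⟩ := re_pe_class hT P0 X hXv k hst' h0 h1 hLv0 t R
  have hLvc := re_pe_sub_lv hT P0 X k hLv0 (reCls3 t R cc)
  have hgbc : (P0.sub (reCls3 t R cc)).gb ≤ C + 1 := by
    rw [(re_pe_sub_gb P0 _).1, hgb0]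
    exact re_pe_gb_le X C hX.2.2.2.1
  have hrdc : 0 ≤ ((P0.sub (reCls3 t R cc)).ins X k).rd := gn_rd_nonneg _ (re_pe_ins_valid _ X hXv k hst' h0 h1 hLvc)
  have hcE : 0 ≤ 2 ^ ((X.n : ℝ) / 2) / (X.e * Real.sqrt X.ka) :=
    div_nonneg (gn_two_pos _).le (mul_nonneg hXv.e_pos.le (Real.sqrt_nonneg _))
  have key : X.val ≤ 2 ^ (τ * X.n) * ((P0.sub (reCls3 t R cc)).ins X k).val := by
    have e1 : X.val = 2 ^ ((X.n : ℝ) / 2) / (X.e * Real.sqrt X.ka) * X.rd := rfl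
    have e2 : ((P0.sub (reCls3 t R cc)).ins X k).val = 2 ^ ((X.n : ℝ) / 2) / (X.e * Real.sqrt X.ka) * ((P0.sub (reCls3 t R cc)).ins X k).rd := rfl
    rw [e1, e2]
    have h5 : X.rd ≤ 2 ^ (τ * X.n) * ((P0.sub (reCls3 t R cc)).ins X k).rd := by
      calc X.rd ≤ ((D * X.n + 1 : ℕ) : ℝ) ^ 3 * (P0.ins X k).rd := hrd0
        _ ≤ ((D * X.n + 1 : ℕ) : ℝ) ^ 3 * (27 * ((P0.sub (reCls3 t R cc)).ins X k).rd) := mul_le_mul_of_nonneg_left hcc (by positivity)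
        _ = (27 * ((D * X.n + 1 : ℕ) : ℝ) ^ 3) * ((P0.sub (reCls3 t R cc)).ins X k).rd := by ring
        _ ≤ _ := mul_le_mul_of_nonneg_right (H4 X.n hn4) hrdc
    calc 2 ^ ((X.n : ℝ) / 2) / (X.e * Real.sqrt X.ka) * X.rd
        ≤ 2 ^ ((X.n : ℝ) / 2) / (X.e * Real.sqrt X.ka) * (2 ^ (τ * X.n) * ((P0.sub (reCls3 t R cc)).ins X k).rd) := mul_le_mul_of_nonneg_left h5 hcE
      _ = _ := by ring
  have hbe : (P0.sub (reCls3 t R cc)).be = P0.be := rfl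
  have hcases : cc = 0 ∨ cc = 1 ∨ cc = 2 := by
    fin_cases cc <;> simp
  rcases hcases with rfl | rfl | rfl
  · exfalso
    have hpr := re_pe_prT P0 X k a0 θ R ha.le hst h0 h1
    rw [← ht] at hpr
    have hb := HT p X k _ hn2 hX2 hst' h0 hlo hhi hLvc hgbc hbl hbh hpr
    exact re_pe_sel_excl _ τ (c * a0 / 2) _ _ X.n hn5 hval key hb (by linarith)
  · exfalso
    have hpr := re_pe_prW P0 X k a0 θ ξ c1 ha.le hξ.le hθc hst h0 h1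
    rw [← ht, ← hR] at hpr
    have hb := HW p X k _ hn3 hX3 hst' h0 hlo hhi hLvc hgbc hbl hbh hpr
    exact re_pe_sel_excl _ τ (c * a0 / 2) _ _ X.n hn5 hval key hb (by linarith)
  · refine ⟨P0.sub (reCls3 t R 2), hgb0, hLvc, ?_, ?_⟩
    · intro u hu
      obtain ⟨e, he, -⟩ := re_pe_sub_lab P0 (reCls3 t R 2)
      obtain ⟨-, hG, -, hQ, -⟩ := he u hu
      rw [hQ]
      have hG' : reGood t R (P0.lQ (e u)) := by
        simpa [reCls3] using hG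
      refine ⟨hR ▸ hG'.2, le_trans ?_ hG'.1.le⟩
      rw [ht, ← Real.rpow_natCast, ← Real.rpow_mul (by norm_num), Real.inv_rpow (by norm_num), ← Real.rpow_neg (by norm_num)]
      refine gn_two_mono ?_
      have h2 : ((k - X.k0 : ℕ) : ℝ) ≤ X.n := by exact_mod_cast hjn
      have h3 : (0 : ℝ) ≤ ((k - X.k0 : ℕ) : ℝ) := Nat.cast_nonneg _
      nlinarith
    · have h6 : (2 : ℝ) ^ (((rndWav η).Gam - ζ) * X.n) * 2 ^ (τ * X.n) ≤ 2 ^ (τ * X.n) * ((P0.sub (reCls3 t R 2)).ins X k).val := by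
        refine le_trans ?_ (hval.trans key)
        rw [← gn_two_add]
        refine gn_two_mono ?_
        nlinarith
      have h7 := gn_two_pos (τ * X.n)
      rw [mul_comm] at h6
      exact le_of_mul_le_mul_left h6 h7

/-- **MAIN** = `re_peelsel` -/
theorem re_pe_main (η : ℝ) (hη0 : 0 < η) (hη1 : η < 1) (hE : ReEntry η) (hΓ : 0 < (rndWav η).Gam) (hte : ReTE η) (hpl : RePL η)
    (K : ℕ) (a0 ξ : ℝ) (ha : 0 < a0) (hξ : 0 < ξ) :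
    ∃ τ : ℝ, 0 < τ ∧ ∀ C : ℕ, ∃ A0 n0 : ℕ, ∀ (A : ℕ) (p : RdWvPar) (X : Xp (p.sys η)) (k : ℕ), A0 ≤ A → n0 ≤ X.n →
      (rndWav η).Cls C A p X → X.st.length ≤ K →
      X.tw ≤ X.e / X.ka * X.s ^ (-((rndWav η).p0f + (rndWav η).d0f) - τ) → 2 ^ (((rndWav η).Gam - τ) * X.n) ≤ X.val →
      (∀ σ ∈ X.st, (σ.k : ℝ) + a0 * X.n ≤ k) → X.k0 ≤ k → a0 * X.n ≤ ((k - X.k0 : ℕ) : ℝ) → ((k - X.k0 : ℕ) : ℝ) ≤ (1 - a0) * X.n →
      ∃ P : RePs, P.Ok X k ξ := by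
  obtain ⟨τ1, hτ1, H1⟩ := re_pe_final η hE hΓ K a0 ξ ha hξ
  obtain ⟨τ2, hτ2, H2⟩ := re_pe_select η hE hΓ hte hpl a0 ξ (min τ1 ξ) ha hξ (lt_min hτ1 hξ)
  refine ⟨min τ1 τ2, lt_min hτ1 hτ2, fun C => ?_⟩
  obtain ⟨A1, n1, H1⟩ := H1 C
  obtain ⟨A2, n2, H2⟩ := H2 C
  refine ⟨max A1 A2, max n1 n2, fun A p X k hA hn hX hK htw hval hst h0 hlo hhi => ?_⟩
  have hS := hE.gen.scale
  have hX1 : (rndWav η).Cls C A1 p X := gn_cls_anti _ hS (le_trans (le_max_left _ _) hA) hX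
  have hX2 : (rndWav η).Cls C A2 p X := gn_cls_anti _ hS (le_trans (le_max_right _ _) hA) hX
  have hn0 : (0 : ℝ) ≤ X.n := Nat.cast_nonneg _
  have hst' : ∀ σ ∈ X.st, σ.k ≤ k := by
    intro σ hσ
    have := hst σ hσ
    have h2 : (σ.k : ℝ) ≤ k := by nlinarith
    exact_mod_cast h2
  have hval2 : 2 ^ (((rndWav η).Gam - τ2) * X.n) ≤ X.val :=
    le_trans (gn_two_mono (mul_le_mul_of_nonneg_right (by linarith [min_le_right τ1 τ2]) hn0)) hval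
  obtain ⟨P, hgb, hLv, hsh, hcert⟩ := H2 p X k (le_trans (le_max_right _ _) hn) hX2 hval2 hst h0 hlo hhi
  have htw1 : X.tw ≤ X.e / X.ka * X.s ^ (-((rndWav η).p0f + (rndWav η).d0f) - τ1) := by
    refine htw.trans (mul_le_mul_of_nonneg_left (gn_s_anti X (by linarith [min_le_left τ1 τ2])) ?_)
    exact div_nonneg hX.2.1.e_pos.le hX.2.1.ka_pos.le
  have hgbC : P.gb ≤ C + 1 := hgb ▸ re_pe_gb_le X C hX.2.2.2.1
  have hcert1 : 2 ^ (((rndWav η).Gam - τ1) * X.n) ≤ (P.ins X k).val :=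
    le_trans (gn_two_mono (mul_le_mul_of_nonneg_right (by linarith [min_le_left τ1 ξ]) hn0)) hcert
  obtain ⟨b1, b2, b3, b4⟩ := H1 p X k P (le_trans (le_max_left _ _) hn) hX1 hK htw1 hst' h0 hlo hhi hLv hgbC hcert1
  refine ⟨P, ⟨hX.2.1, fun bm hbm => hgb ▸ re_pe_gb_le X bm hbm, hLv.plat, hLv.lb, hLv.disj, hLv.reg, hsh, b1, b2, b3, b4, ?_⟩⟩
  exact le_trans (gn_two_mono (mul_le_mul_of_nonneg_right (by linarith [min_le_right τ1 ξ]) hn0)) hcert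

end Claimed.Agent.R256
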