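-- KEEP
import Claimed.Agent.R256.Re.TowB
import Claimed.Agent.R256.Re.PeelC

/-!
# Row 256, unit RE, block (I): EXIT of the block PEELSEL (helper201)      (chief helper223)

The ARCHITECT OF THE BLOCK OWNS THIS FILE: keep name + statement; add the imports of your proof files and replace the `sorry`.   Other blocks import this file as a black box.   `Re/TowC.lean` imports all exits.
-/

set_option autoImplicit false

namespace Claimed.Agent.R256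

open MeasureTheory
open scoped BigOperators
open Classical

/-- **PEELSEL** (post BP-256-RE-PEELSEL): one peel selection at the depth `k` on the free continuation of `X` (at most `K` stages, all at least `a0 n` before `k`).
NOTATION `j = k - k0 ∈ [a0 n, (1-a0) n]`, `κ_a = κ 2^(-p0 j)`, `E_a = e 2^(d0 j)`, `Γ - 1/2 = d0 - p0/2`.
PLAN.  0. `gb := bm + 1` for the least `bm` with `X.GenLe bm` (`gn_run_pl`, `gn_pl_mono`): `plat`, `gb_le`.
1. LEVEL.  `gn_dec` (floor `s^D`, `D` large) at `CutAt k X.st []`, `gn_split`: one of the `D n + 1` pieces has `rd ≥ rd(X) / (D n + 1)³`.   The remainder is excluded by `gn_tail` for the piece (regularity `Cr s^D Cs κ` by `hG.rep`, energy `≤ 2^j e`): `val ≤ 2^((Γ+ε+1-D/2+..) n)`.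
   So a level `σ = ⟨k, gb, 1_{S_lev}⟩`, threshold `β`, `LvlAt`, certificate `2^((Γ-2τ) n)`;   `gn_ss2f` (`K+1` stages): `β = κ_a 2^(± ξ₁ n)`, `raw ≤ E_a 2^(ξ₁ n)`.
2. SUCCESSES.  `IsLvl.suc` on every interval: tests `Q_a`, disjoint portions `R_a ⊆ cell Q_a`, `β w_a < ms R_a` (enumerate over `Σ I, Fin (m I)` as in `gn_lvl_pre`).
3. SHAPES.  `c_P` := the constant of `hpl` at `(τ_P = ξ, h = a0)`; `ξ' := min ξ (c_P a0)`; `c_T` := the constant of `hte` at `(ξ', a0)`.   THIN `f < 2^(-ξ' n)`;  WIDE: not thin, `r > 2^(ξ n) d_k`;  GOOD: the rest.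
   `re_split_sub` (3 masks, sum `1_{S_lev}`): one class keeps `rd/27`.   For the class `c ∈ {THIN, WIDE}`: the prefix `P_c.pre X k` (labels = successes of the class) is valid (`gn_pre_valid`), in the class (`gn_prefix_cls`), `GapEnd a0`,
   `f ≤ s'^ξ'` resp. `s'^(-ξ) d_k ≤ r ∧ s'^(c_P) ≤ f` (`s' = 2^-j`, `a0 n ≤ j ≤ n`): `√β z_c ≤ rd (pre) ≤ 2^(-(1/2 - Γ + c) j) e √κ` (`gn_le_tr`);   `gn_tail` behind the stage `1_{S_c}` (regularity `Cr 2β`, energy `≤ z_c`):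
   `rd ≤ 2^(-(1/2-Γ-ε)(n-j)) √(2 Cr β) (z_c + s^C e)`, so `val ≤ 2^((Γ+ε) n - c a0 n + ..)`: no certificate if `τ, ε ≪ c a0`.   Hence GOOD.   `P` := the good successes.
4. FIELDS.  `lb disj reg` from `IsLvl` (`reg` by monotonicity); `shape`; `be_*` from 1; `raw_hi` by monotonicity; `cert`; `raw_lo`: `gn_ss3f` at `CutAt k (X.st ++ [stage]) []` (regularity `Cr 2β ≤ κ_a 2^(τ₃ n)`), `‖tz ψ‖² ≤ ms` (`gn_tz_normsq_le`). -/
theorem re_peelsel (η : ℝ) (hη0 : 0 < η) (hη1 : η < 1) (hE : ReEntry η) (hΓ : 0 < (rndWav η).Gam) (hte : ReTE η) (hpl : RePL η)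
    (K : ℕ) (a0 ξ : ℝ) (ha : 0 < a0) (hξ : 0 < ξ) :
    ∃ τ : ℝ, 0 < τ ∧ ∀ C : ℕ, ∃ A0 n0 : ℕ, ∀ (A : ℕ) (p : RdWvPar) (X : Xp (p.sys η)) (k : ℕ), A0 ≤ A → n0 ≤ X.n →
      (rndWav η).Cls C A p X → X.st.length ≤ K →
      X.tw ≤ X.e / X.ka * X.s ^ (-((rndWav η).p0f + (rndWav η).d0f) - τ) → 2 ^ (((rndWav η).Gam - τ) * X.n) ≤ X.val →
      (∀ σ ∈ X.st, (σ.k : ℝ) + a0 * X.n ≤ k) → X.k0 ≤ k → a0 * X.n ≤ ((k - X.k0 : ℕ) : ℝ) → ((k - X.k0 : ℕ) : ℝ) ≤ (1 - a0) * X.n →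
      ∃ P : RePs, P.Ok X k ξ :=
  re_pe_main η hη0 hη1 hE hΓ hte hpl K a0 ξ ha hξ

end Claimed.Agent.R256
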