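-- KEEP
import Claimed.Agent.R256.Re.Atom
import Claimed.Agent.R256.Re.Tools

/-!
# Row 256, unit RE, block (I), post LOCRAR, file 1: THE BRANCH CALCULUS      (architect helper272; prefix `re_lr_`)

`0 < i < l`.   The stage `i` of a tower is restricted to a family of row sets `V`; the later stages `i+1 .. l-1` are kept.
* `W.mid i l`        the stages `i+1, .., l-1`
* `W.sgR i V`        the stage `i` with the mask `1_{S i I ∩ V I}`
* `W.br i l V J`     the state entering the stage `l` on the interval `J` (stack `stk (i-1) ++ sgR i V :: mid i l`)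
* `W.bm i l V J U`   its raw selected mass on the rows `U` of the cut `l`
FACTS   `br` is additive in `V` (disjoint unions), `br univ = pre l`, `br V = 0` if `V` is null for the raw law of the cut `i`, `bm ≤ ‖br‖² ≤ rm i (anc J) (V (anc J))`.
-/

set_option autoImplicit false

namespace Claimed.Agent.R256

open MeasureTheory
open scoped BigOperators
open Classical

namespace ReTw

variable {η : ℝ} {p : RdWvPar} (W : ReTw η p)

/-- the stages `i+1, .., l-1` -/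
noncomputable def mid (i l : ℕ) : List (Stg (p.sys η)) := (List.range (l - 1 - i)).map fun a => W.sg (i + 1 + a)

/-- the stage `i` restricted to the rows `V` -/
noncomputable def sgR (i : ℕ) (V : ℕ → Set RdWvPar.Ph) : Stg (p.sys η) :=
  reStg η p (W.dp i) (W.ps i).gb fun I => W.S i I ∩ V I

/-- the state entering the stage `l` on the interval `J` when the stage `i` is restricted to `V` -/
noncomputable def br (i l : ℕ) (V : ℕ → Set RdWvPar.Ph) (J : ℕ) : (p.sys η).Kc :=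
  W.E.at' (W.dp l) J (W.stk (i - 1) ++ W.sgR i V :: W.mid i l)

/-- the raw selected mass of the rows `U` of the cut `l` in the state `br` -/
noncomputable def bm (i l : ℕ) (V : ℕ → Set RdWvPar.Ph) (J : ℕ) (U : Set RdWvPar.Ph) : ℝ :=
  (p.sys η).ms (tmL (W.dp l) J) (W.dp l) (W.ps l).gb (W.S l J ∩ U) (W.br i l V J)

end ReTw

theorem re_lr_eqns_cite : True := by
  have := @ReTw.mid.eq_1
  have := @ReTw.sgR.eq_1
  have := @ReTw.br.eq_1
  have := @ReTw.bm.eq_1
  trivial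

variable {η : ℝ} {p : RdWvPar} (W : ReTw η p)

/-! ## 0. Depths, stacks -/

theorem re_lr_dp_mono {i l : ℕ} (h : i ≤ l) : W.dp i ≤ W.dp l := by
  unfold ReTw.dp
  exact Nat.add_le_add_left (Nat.mul_le_mul_right _ h) _

theorem re_lr_stk_mem {i : ℕ} {σ : Stg (p.sys η)} (h : σ ∈ W.stk i) : ∃ a, 0 < a ∧ a ≤ i ∧ σ = W.sg a := by
  unfold ReTw.stk at h
  rw [List.mem_map] at h
  obtain ⟨a, ha, rfl⟩ := h
  rw [List.mem_range] at ha
  exact ⟨a + 1, by omega, by omega, rfl⟩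

theorem re_lr_mid_mem {i l : ℕ} {σ : Stg (p.sys η)} (h : σ ∈ W.mid i l) : ∃ a, i < a ∧ a < l ∧ σ = W.sg a := by
  unfold ReTw.mid at h
  rw [List.mem_map] at h
  obtain ⟨a, ha, rfl⟩ := h
  rw [List.mem_range] at ha
  exact ⟨i + 1 + a, by omega, by omega, rfl⟩

/-- the stack before the cut `l` -/
theorem re_lr_stk (i l : ℕ) (h0 : 0 < i) (hil : i < l) : W.stk (l - 1) = W.stk (i - 1) ++ W.sg i :: W.mid i l := by
  obtain ⟨j, rfl⟩ : ∃ j, i = j + 1 := ⟨i - 1, by omega⟩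
  obtain ⟨d, rfl⟩ : ∃ d, l = j + 1 + 1 + d := ⟨l - (j + 1 + 1), by omega⟩
  unfold ReTw.stk ReTw.mid
  have e1 : j + 1 + 1 + d - 1 = j + (1 + d) := by omega
  have e2 : j + 1 + 1 + d - 1 - (j + 1) = d := by omega
  have e3 : j + 1 - 1 = j := by omega
  rw [e2, e1, e3, List.range_add, List.map_append, List.range_add, List.map_append, List.map_append]
  simp only [List.range_one, List.map_cons, List.map_nil, List.map_map, List.singleton_append, add_zero]
  congr 2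
  apply List.map_congr_left
  intro a _
  simp only [Function.comp]
  congr 1
  omega

theorem re_lr_m_ge {hg C A : ℕ} {τ : ℝ} (h : W.Ok hg C A τ) (m0 : ℕ) (hn : W.q * (m0 + 1) ≤ W.E.n) : m0 ≤ W.m := by
  have e3 : m0 + 1 < W.m + 1 := Nat.lt_of_mul_lt_mul_left (lt_of_le_of_lt hn h.n_hi)
  omega

/-! ## 1. Generic facts on indicators -/

theorem re_lr_ind_sq {X : Type} (S : Set X) : (fun x => (S.indicator (fun _ => (1 : ℝ)) x) ^ 2) = S.indicator fun _ => 1 := by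
  funext x
  by_cases hx : x ∈ S
  · simp [hx]
  · simp [hx]

theorem re_lr_tz_union (P : PkSys) (T : ℝ) (k b : ℕ) {S S' : Set P.X} (hS : MeasurableSet S) (hS' : MeasurableSet S') (hd : Disjoint S S')
    (v : P.Kc) : P.tz T k b ((S ∪ S').indicator fun _ => 1) v = P.tz T k b (S.indicator fun _ => 1) v + P.tz T k b (S'.indicator fun _ => 1) v := by
  unfold PkSys.tz
  rw [← map_add]
  congr 1
  have h := gn_mulR_sum (P := P) k (Finset.univ : Finset Bool) (fun c => if c then S.indicator (fun _ => (1 : ℝ)) else S'.indicator fun _ => 1)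
    (fun c _ => by cases c <;> simp [gn_mask_ind, hS, hS']) (gn_mask_ind (hS.union hS')) (fun x => by
      rw [Fintype.sum_bool]
      simp only [if_true, Bool.false_eq_true, if_false]
      exact (congrFun (Set.indicator_union_of_disjoint hd fun _ => (1 : ℝ)) x).symm) (P.An T k b v)
  rw [Fintype.sum_bool] at h
  simpa using h.symm

theorem re_lr_tz_normsq (P : PkSys) (hT : P.Tight) (T : ℝ) (k b : ℕ) {S : Set P.X} (hS : MeasurableSet S) (v : P.Kc) :
    ‖P.tz T k b (S.indicator fun _ => 1) v‖ ^ 2 ≤ P.ms T k b S v := by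
  have h := gn_tz_normsq_le hT T k b (gn_mask_ind hS) v
  rw [re_lr_ind_sq] at h
  exact h

theorem re_lr_ms_add (P : PkSys) (T : ℝ) (k b : ℕ) {S : Set P.X} (hS : MeasurableSet S) (v w : P.Kc) :
    P.ms T k b S (v + w) ≤ 2 * P.ms T k b S v + 2 * P.ms T k b S w := by
  have h := gn_en_tri T k b (gn_mask_ind hS) v w
  have h1 : 0 ≤ P.ms T k b S v := gn_ms_nonneg T k b S v
  have h2 : 0 ≤ P.ms T k b S w := gn_ms_nonneg T k b S w
  have h3 : 0 ≤ P.ms T k b S (v + w) := gn_ms_nonneg T k b S (v + w)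
  change Real.sqrt (P.ms T k b S (v + w)) ≤ Real.sqrt (P.ms T k b S v) + Real.sqrt (P.ms T k b S w) at h
  have e1 := Real.sq_sqrt h1
  have e2 := Real.sq_sqrt h2
  have e3 := Real.sq_sqrt h3
  have s1 := Real.sqrt_nonneg (P.ms T k b S v)
  have s2 := Real.sqrt_nonneg (P.ms T k b S w)
  have s3 := Real.sqrt_nonneg (P.ms T k b S (v + w))
  nlinarith [sq_nonneg (Real.sqrt (P.ms T k b S v) - Real.sqrt (P.ms T k b S w)), mul_self_le_mul_self s3 h]

/-! ## 2. The branch calculus -/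

theorem re_lr_tight (hE : ReEntry η) {hg C A : ℕ} {τ : ℝ} (h : W.Ok hg C A τ) : (p.sys η).Tight :=
  hE.gen.tight p (h.cls 0 (Nat.zero_le _)).1

theorem re_lr_stm_mid {hg C A : ℕ} {τ : ℝ} (h : W.Ok hg C A τ) (i l : ℕ) (hl : l ≤ hg + 1) : StM (W.mid i l) := by
  intro σ hσ I
  obtain ⟨a, h1, h2, rfl⟩ := re_lr_mid_mem W hσ
  exact gn_mask_ind (re_at_meas_S W h a (by omega) (by omega) I)

theorem re_lr_br_eq (i l : ℕ) (hil : i ≤ l) (V : ℕ → Set RdWvPar.Ph) (J : ℕ) :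
    W.br i l V J = Xp.run (W.dp l) J (W.mid i l) ((p.sys η).tz (tmL (W.dp i) (ancI (W.dp l) (W.dp i) J)) (W.dp i) (W.ps i).gb
      ((W.S i (ancI (W.dp l) (W.dp i) J) ∩ V (ancI (W.dp l) (W.dp i) J)).indicator fun _ => 1) (W.pre i (ancI (W.dp l) (W.dp i) J))) := by
  unfold ReTw.br Xp.at'
  rw [gn_run_append, gn_run_anc (re_lr_dp_mono W hil) J (W.stk (i - 1))]
  · rfl
  · intro σ hσ
    obtain ⟨a, _, h2, rfl⟩ := re_lr_stk_mem W hσ
    exact re_lr_dp_mono W (by omega : a ≤ i)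

theorem re_lr_br_univ (i l : ℕ) (h0 : 0 < i) (hil : i < l) (J : ℕ) : W.br i l (fun _ => Set.univ) J = W.pre l J := by
  unfold ReTw.br ReTw.pre
  rw [re_lr_stk W i l h0 hil]
  have : W.sgR i (fun _ => Set.univ) = W.sg i := by
    unfold ReTw.sgR ReTw.sg
    simp only [Set.inter_univ]
  rw [this]

theorem re_lr_br_add {hg C A : ℕ} {τ : ℝ} (h : W.Ok hg C A τ) (i l : ℕ) (h0 : 0 < i) (hil : i < l) (hl : l ≤ hg)
    (V V' : ℕ → Set RdWvPar.Ph) (hV : ∀ I, MeasurableSet (V I)) (hV' : ∀ I, MeasurableSet (V' I)) (hd : ∀ I, Disjoint (V I) (V' I)) (J : ℕ) :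
    W.br i l (fun I => V I ∪ V' I) J = W.br i l V J + W.br i l V' J := by
  rw [re_lr_br_eq W i l hil.le, re_lr_br_eq W i l hil.le, re_lr_br_eq W i l hil.le, ← gn_run_add _ _ _ (re_lr_stm_mid W h i l (by omega))]
  congr 1
  have hS := re_at_meas_S W h i h0 (by omega) (ancI (W.dp l) (W.dp i) J)
  rw [Set.inter_union_distrib_left]
  exact re_lr_tz_union _ _ _ _ (hS.inter (hV _)) (hS.inter (hV' _)) ((hd _).mono Set.inter_subset_right Set.inter_subset_right) _

theorem re_lr_br_norm (hE : ReEntry η) {hg C A : ℕ} {τ : ℝ} (h : W.Ok hg C A τ) (i l : ℕ) (h0 : 0 < i) (hil : i < l) (hl : l ≤ hg)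
    (V : ℕ → Set RdWvPar.Ph) (hV : ∀ I, MeasurableSet (V I)) (J : ℕ) :
    ‖W.br i l V J‖ ^ 2 ≤ W.rm i (ancI (W.dp l) (W.dp i) J) (V (ancI (W.dp l) (W.dp i) J)) := by
  have hT := re_lr_tight W hE h
  rw [re_lr_br_eq W i l hil.le]
  have hS := re_at_meas_S W h i h0 (by omega) (ancI (W.dp l) (W.dp i) J)
  refine le_trans ?_ (re_lr_tz_normsq _ hT _ _ _ (hS.inter (hV _)) _)
  exact pow_le_pow_left₀ (norm_nonneg _) (gn_run_norm_le hT _ _ _ (re_lr_stm_mid W h i l (by omega)) _) 2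

theorem re_lr_br_null (hE : ReEntry η) {hg C A : ℕ} {τ : ℝ} (h : W.Ok hg C A τ) (i l : ℕ) (h0 : 0 < i) (hil : i < l) (hl : l ≤ hg)
    (V : ℕ → Set RdWvPar.Ph) (hV : ∀ I, MeasurableSet (V I)) (J : ℕ)
    (hz : W.rm i (ancI (W.dp l) (W.dp i) J) (V (ancI (W.dp l) (W.dp i) J)) = 0) : W.br i l V J = 0 := by
  have h1 := re_lr_br_norm W hE h i l h0 hil hl V hV J
  rw [hz] at h1
  have h2 : ‖W.br i l V J‖ ^ 2 = 0 := le_antisymm h1 (sq_nonneg _)
  exact norm_eq_zero.1 (pow_eq_zero_iff (two_ne_zero) |>.1 h2)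

theorem re_lr_bm_nonneg (i l : ℕ) (V : ℕ → Set RdWvPar.Ph) (J : ℕ) (U : Set RdWvPar.Ph) : 0 ≤ W.bm i l V J U :=
  gn_ms_nonneg _ _ _ _ _

theorem re_lr_rm_nonneg (i I : ℕ) (U : Set RdWvPar.Ph) : 0 ≤ W.rm i I U :=
  gn_ms_nonneg _ _ _ _ _

theorem re_lr_bm_le (hE : ReEntry η) {hg C A : ℕ} {τ : ℝ} (h : W.Ok hg C A τ) (i l : ℕ) (h0 : 0 < i) (hil : i < l) (hl : l ≤ hg)
    (V : ℕ → Set RdWvPar.Ph) (hV : ∀ I, MeasurableSet (V I)) (J : ℕ) (U : Set RdWvPar.Ph) (hU : MeasurableSet U) :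
    W.bm i l V J U ≤ W.rm i (ancI (W.dp l) (W.dp i) J) (V (ancI (W.dp l) (W.dp i) J)) :=
  le_trans (gn_ms_le (re_lr_tight W hE h) _ _ _ ((re_at_meas_S W h l (by omega) hl J).inter hU) _) (re_lr_br_norm W hE h i l h0 hil hl V hV J)

theorem re_lr_anc_mem (i l : ℕ) (hil : i ≤ l) {J : ℕ} (hJ : J ∈ W.iv l) : ancI (W.dp l) (W.dp i) J ∈ W.iv i := by
  unfold ReTw.iv at *
  rw [gn_mem_ivs] at *
  rw [gn_anc_anc (by unfold ReTw.dp; omega) (re_lr_dp_mono W hil)]
  exact hJ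

theorem re_lr_rm_le_rt (i : ℕ) (V : ℕ → Set RdWvPar.Ph) {I : ℕ} (hI : I ∈ W.iv i) : W.rm i I (V I) ≤ W.rt i V :=
  Finset.single_le_sum (f := fun I => W.rm i I (V I)) (fun I _ => re_lr_rm_nonneg W i I (V I)) hI

/-- sets of uncharged atoms are null -/
theorem re_lr_rm_null {hg C A : ℕ} {τ : ℝ} (h : W.Ok hg C A τ) (i : ℕ) (h0 : 0 < i) (hi : i ≤ hg) (T : Set (ℕ × ReFc))
    (hT : ∀ a ∈ W.ats i, a ∉ T) {I : ℕ} (hI : I ∈ W.iv i) : W.rm i I (W.rs i T I) = 0 := by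
  have h1 := re_at_rt_rs W h i h0 hi T
  rw [Finset.filter_false_of_mem hT, Finset.sum_empty] at h1
  exact le_antisymm (h1 ▸ re_lr_rm_le_rt W i (W.rs i T) hI) (re_lr_rm_nonneg W _ _ _)

theorem re_lr_rs_union (i : ℕ) (T T' : Set (ℕ × ReFc)) (I : ℕ) : W.rs i (T ∪ T') I = W.rs i T I ∪ W.rs i T' I := rfl

theorem re_lr_rs_disj (i : ℕ) {T T' : Set (ℕ × ReFc)} (hd : Disjoint T T') (I : ℕ) : Disjoint (W.rs i T I) (W.rs i T' I) := by
  rw [Set.disjoint_left] at *
  intro x hx hx'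
  exact hd hx hx'

/-- **splitting of the stage `i`** along a set of atoms -/
theorem re_lr_split (hE : ReEntry η) {hg C A : ℕ} {τ : ℝ} (h : W.Ok hg C A τ) (i l : ℕ) (h0 : 0 < i) (hil : i < l) (hl : l ≤ hg)
    {J : ℕ} (hJ : J ∈ W.iv l) (T : Set (ℕ × ReFc)) (U : Set RdWvPar.Ph) (hU : MeasurableSet U) :
    W.rm l J U ≤ 2 * W.bm i l (W.rs i T) J U + 2 * W.bm i l (W.rs i (↑(W.ats i) \ T)) J U := by
  have e0 : (fun _ : ℕ => (Set.univ : Set RdWvPar.Ph)) = fun I => W.rs i T I ∪ (W.rs i (↑(W.ats i) \ T) I ∪ W.rs i (T ∪ ↑(W.ats i))ᶜ I) := by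
    funext I
    rw [← re_lr_rs_union, ← re_lr_rs_union]
    have : T ∪ (↑(W.ats i) \ T ∪ (T ∪ ↑(W.ats i))ᶜ) = Set.univ := by
      ext a
      simp only [Set.mem_union, Set.mem_sdiff, Set.mem_compl_iff, Set.mem_univ, iff_true]
      tauto
    rw [this]
    ext x
    simp [ReTw.rs]
  have m1 := fun T' I => re_at_meas_rs W i T' I
  have e1 : W.pre l J = W.br i l (W.rs i T) J + W.br i l (W.rs i (↑(W.ats i) \ T)) J := by
    rw [← re_lr_br_univ W i l h0 hil J, e0,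
      re_lr_br_add W h i l h0 hil hl (W.rs i T) (fun I => W.rs i (↑(W.ats i) \ T) I ∪ W.rs i (T ∪ ↑(W.ats i))ᶜ I) (m1 _)
        (fun I => (m1 _ I).union (m1 _ I)) (fun I => by
          rw [← re_lr_rs_union]
          apply re_lr_rs_disj
          rw [Set.disjoint_left]
          intro a ha ha'
          rcases ha' with ha' | ha'
          · exact ha'.2 ha
          · exact ha' (Or.inl ha)) J,
      re_lr_br_add W h i l h0 hil hl _ _ (m1 _) (m1 _) (fun I => by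
          apply re_lr_rs_disj
          rw [Set.disjoint_left]
          intro a ha ha'
          exact ha' (Or.inr ha.1)) J,
      re_lr_br_null W hE h i l h0 hil hl (W.rs i (T ∪ ↑(W.ats i))ᶜ) (m1 _) J
        (re_lr_rm_null W h i h0 (by omega) (T ∪ ↑(W.ats i))ᶜ (fun a ha ha' => ha' (Or.inr ha)) (re_lr_anc_mem W i l hil.le hJ)), add_zero]
  unfold ReTw.rm ReTw.bm
  rw [e1]
  exact re_lr_ms_add _ _ _ _ ((re_at_meas_S W h l (by omega) hl J).inter hU) _ _

end Claimed.Agent.R256
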