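-- KEEP
import Claimed.Agent.R256.Re.Loc

/-!
# Row 256, unit RE, block (I), post LOCRAR, file 2: LOCALITY ON ATOMS, the field TP      (architect helper272; prefix `re_lr_`)

* `re_lr_loc`     the part of the stage `i` carried by atoms NOT connected (`Conn (tl t)`) to the atoms `Ta` of the cut `l` over `J` has mass `≤ 2^(-N m) e` on `Ta`   (`re_locs`, `re_at_conn`)
* `re_lr_err`     `4 · #iv l · 2^(-N₂ m) e ≤ 2^(-N m) tot l`
* `re_lr_f_tp`    = `re_f_tp` of `Re/TowC.lean` with `ReDoc.Tp` unfolded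
-/

set_option autoImplicit false

namespace Claimed.Agent.R256

open MeasureTheory
open scoped BigOperators
open Classical

/-! ## 1. Locality on atoms -/

theorem re_lr_loc_arith (q : ℕ) (t N c1 : ℝ) (ht : 0 < t) :
    ∃ N' : ℕ, ∀ CN : ℝ, ∃ m0 : ℕ, ∀ m : ℕ, m0 ≤ m → ∃ Λ : ℝ, 1 ≤ Λ ∧ 1 ≤ (9 * Λ) ^ (3 ^ (q + 1)) ∧
      (9 * Λ) ^ (3 ^ (q + 1)) ≤ 2 ^ (8 * (q + 1) * (m + 1)) ∧ (9 * Λ) ^ (3 ^ (q + 1)) + 1 ≤ (2 : ℝ) ^ (t * m) ∧
      ∀ d : ℝ, 0 ≤ d → d ≤ q * m → (CN * Λ ^ (-(N' : ℝ)) * 2 ^ (c1 * d)) ^ 2 ≤ (2 : ℝ) ^ (-(N * m)) := by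
  set t' : ℝ := min t 1 with ht'
  have t'0 : 0 < t' := lt_min ht one_pos
  set K3 : ℕ := 3 ^ (q + 1) with hK3
  have K30 : (0 : ℝ) < K3 := by positivity
  set a : ℝ := t' / (2 * K3) with ha
  have a0 : 0 < a := by positivity
  obtain ⟨N', hN'⟩ := exists_nat_ge ((|c1| * q + |N| / 2 + 1) / a)
  rw [div_le_iff₀ a0] at hN'
  refine ⟨N', fun CN => ?_⟩
  obtain ⟨m1, h1⟩ := gn_absorb 9 a a0
  obtain ⟨m2, h2⟩ := gn_absorb 2 (t' / 2) (by positivity)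
  obtain ⟨m3, h3⟩ := gn_absorb (|CN| * 9 ^ N') 1 one_pos
  refine ⟨max m1 (max m2 m3), fun m hm => ?_⟩
  have hm1 : m1 ≤ m := le_trans (le_max_left _ _) hm
  have hm2 : m2 ≤ m := le_trans (le_trans (le_max_left _ _) (le_max_right _ _)) hm
  have hm3 : m3 ≤ m := le_trans (le_trans (le_max_right _ _) (le_max_right _ _)) hm
  have h1 := h1 m hm1
  have h2 := h2 m hm2
  have h3 := h3 m hm3
  have hmn : (0 : ℝ) ≤ m := Nat.cast_nonneg m
  have e9 : 9 * ((2 : ℝ) ^ (a * m) / 9) = 2 ^ (a * m) := by ring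
  have eK : (9 * ((2 : ℝ) ^ (a * m) / 9)) ^ K3 = 2 ^ (t' / 2 * m) := by
    rw [e9, ← Real.rpow_natCast, gn_two_mul]
    congr 1
    rw [ha]
    field_simp
  refine ⟨2 ^ (a * m) / 9, by linarith, ?_, ?_, ?_, ?_⟩
  · rw [eK]; linarith
  · rw [eK, ← gn_two_nat]
    apply gn_two_mono
    push_cast
    have : t' ≤ 1 := min_le_right _ _
    have hq : (0 : ℝ) ≤ q := Nat.cast_nonneg q
    nlinarith [mul_nonneg hq hmn]
  · rw [eK]
    have e2 : (2 : ℝ) ^ (t' / 2 * m) * 2 ^ (t' / 2 * m) = 2 ^ (t' * m) := by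
      rw [← gn_two_add]; congr 1; ring
    have e3 : (2 : ℝ) ^ (t' * m) ≤ 2 ^ (t * m) := gn_two_mono (mul_le_mul_of_nonneg_right (min_le_left _ _) hmn)
    nlinarith [gn_two_pos (t' / 2 * m)]
  · intro d hd0 hd
    have eΛ : ((2 : ℝ) ^ (a * m) / 9) ^ (-(N' : ℝ)) = 9 ^ N' * 2 ^ (-(a * m * N')) := by
      rw [Real.div_rpow (gn_two_pos _).le (by norm_num), gn_two_mul, Real.rpow_neg (by norm_num : (0 : ℝ) ≤ 9), Real.rpow_natCast]
      rw [div_inv_eq_mul, mul_comm]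
      congr 2
      ring
    have b1 : (2 : ℝ) ^ (c1 * d) ≤ 2 ^ (|c1| * q * m) := by
      apply gn_two_mono
      calc c1 * d ≤ |c1| * d := mul_le_mul_of_nonneg_right (le_abs_self _) hd0
        _ ≤ |c1| * (q * m) := mul_le_mul_of_nonneg_left hd (abs_nonneg _)
        _ = _ := by ring
    have b2 : |CN * ((2 : ℝ) ^ (a * m) / 9) ^ (-(N' : ℝ)) * 2 ^ (c1 * d)| ≤ 2 ^ (-(N / 2 * m)) := by
      rw [eΛ, abs_mul, abs_mul, abs_mul, abs_of_pos (gn_two_pos _), abs_of_pos (gn_two_pos _), abs_of_pos (by positivity : (0 : ℝ) < 9 ^ N')]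
      calc |CN| * (9 ^ N' * 2 ^ (-(a * m * N'))) * 2 ^ (c1 * d) = (|CN| * 9 ^ N') * 2 ^ (-(a * m * N')) * 2 ^ (c1 * d) := by ring
        _ ≤ 2 ^ (1 * (m : ℝ)) * 2 ^ (-(a * m * N')) * 2 ^ (|c1| * q * m) := by
          gcongr
        _ = 2 ^ (1 * (m : ℝ) + -(a * m * N') + |c1| * q * m) := by rw [gn_two_add, gn_two_add]
        _ ≤ _ := by
          apply gn_two_mono
          have h5 : N * m ≤ |N| * m := mul_le_mul_of_nonneg_right (le_abs_self N) hmn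
          have h6 := mul_le_mul_of_nonneg_right hN' hmn
          nlinarith
    calc (CN * ((2 : ℝ) ^ (a * m) / 9) ^ (-(N' : ℝ)) * 2 ^ (c1 * d)) ^ 2 = |CN * ((2 : ℝ) ^ (a * m) / 9) ^ (-(N' : ℝ)) * 2 ^ (c1 * d)| ^ 2 := (sq_abs _).symm
      _ ≤ (2 ^ (-(N / 2 * m))) ^ 2 := pow_le_pow_left₀ (abs_nonneg _) b2 2
      _ = _ := by
        rw [← Real.rpow_natCast, gn_two_mul]
        congr 1
        push_cast
        ring

theorem re_lr_conn_mono (D : ReDoc) {Λ Λ' : ℝ} (hH : 0 ≤ D.H) (h0 : 0 ≤ Λ) (hΛ : Λ ≤ Λ') {i l : ℕ} {ω : D.Row i} {ω' : D.Row l}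
    (h : D.Conn Λ i l ω ω') : D.Conn Λ' i l ω ω' := by
  obtain ⟨h1, h2, h3, h4⟩ := h
  refine ⟨h1, h2.trans ?_, h3.trans ?_, h4.trans ?_⟩
  · exact pow_le_pow_left₀ (mul_nonneg h0 (Real.sqrt_nonneg _)) (mul_le_mul_of_nonneg_right hΛ (Real.sqrt_nonneg _)) 2
  · exact pow_le_pow_left₀ (mul_nonneg h0 (Real.sqrt_nonneg _)) (mul_le_mul_of_nonneg_right hΛ (Real.sqrt_nonneg _)) 2
  · exact mul_le_mul_of_nonneg_right hΛ hH

variable {η : ℝ} {p : RdWvPar} (W : ReTw η p)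

theorem re_lr_sg_mem (a : ℕ) (h0 : 0 < a) : W.sg a ∈ W.stk a := by
  unfold ReTw.stk
  rw [List.mem_map]
  exact ⟨a - 1, List.mem_range.2 (by omega), by congr 1; omega⟩

theorem re_lr_gb_le {hg C A : ℕ} {τ : ℝ} (h : W.Ok hg C A τ) (a : ℕ) (h0 : 0 < a) (ha : a ≤ hg) : (W.ps a).gb ≤ C :=
  (h.cls a ha).2.2.2.1.2.2 (W.sg a) (re_lr_sg_mem W a h0)

theorem re_lr_dp_le_kf {hg C A : ℕ} {τ : ℝ} (h : W.Ok hg C A τ) (a : ℕ) (ha : a ≤ W.q) : W.dp a ≤ W.E.kf := by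
  unfold ReTw.dp Xp.kf
  exact Nat.add_le_add_left (le_trans (Nat.mul_le_mul_right _ ha) h.n_lo) _

theorem re_lr_cut_pre {hg C A : ℕ} {τ : ℝ} (h : W.Ok hg C A τ) (i : ℕ) (hi : i ≤ W.q) : (W.Ex (i - 1)).CutAt (W.dp i) (W.stk (i - 1)) [] := by
  refine ⟨(List.append_nil _).symm, ?_, by simp, ?_, re_lr_dp_le_kf W h i hi⟩
  · intro σ hσ
    obtain ⟨a, _, h2, rfl⟩ := re_lr_stk_mem W hσ
    exact re_lr_dp_mono W (by omega : a ≤ i)
  · change W.E.k0 ≤ W.E.k0 + i * W.m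
    omega

theorem re_lr_pre_norm (hE : ReEntry η) {hg C A : ℕ} {τ : ℝ} (h : W.Ok hg C A τ) (i : ℕ) (hi : i ≤ hg + 1) (I : ℕ) : ‖W.pre i I‖ ^ 2 ≤ W.E.e :=
  gn_at_norm_le (re_lr_tight W hE h) (W.Ex (i - 1)) (h.cls (i - 1) (by omega)).2.1 (re_lr_cut_pre W h i (by have := h.hg_lt; omega)) I

theorem re_lr_stok_mid {hg C A : ℕ} {τ : ℝ} (h : W.Ok hg C A τ) (i l : ℕ) (hl : l ≤ hg + 1) : StOk (W.dp i) (W.dp l) C W.q (W.mid i l) := by
  refine ⟨?_, ?_, ?_, ?_, re_lr_stm_mid W h i l hl⟩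
  · have := h.hg_lt
    simp only [ReTw.mid, List.length_map, List.length_range]
    omega
  · intro σ hσ
    obtain ⟨a, h1, h2, rfl⟩ := re_lr_mid_mem W hσ
    exact ⟨re_lr_dp_mono W h1.le, re_lr_dp_mono W h2.le⟩
  · unfold ReTw.mid
    rw [List.pairwise_map]
    refine List.Pairwise.imp ?_ List.pairwise_lt_range
    intro a b hab
    exact re_lr_dp_mono W (by omega)
  · intro σ hσ
    obtain ⟨a, h1, h2, rfl⟩ := re_lr_mid_mem W hσ
    exact re_lr_gb_le W h a (by omega) (by omega)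

/-- **locality on atoms**: the part of the stage `i` carried by atoms that are not connected to the atoms `Ta` of the cut `l` over `J` is negligible on `Ta`. -/
theorem re_lr_loc (η : ℝ) (hη0 : 0 < η) (hη1 : η < 1) (hE : ReEntry η) (q : ℕ) (t N : ℝ) (ht : 0 < t) (C : ℕ) :
    ∃ n0 : ℕ, ∀ (A : ℕ) (τ : ℝ) (p : RdWvPar) (W : ReTw η p), W.q = q → n0 ≤ W.E.n → W.Ok (q - 1) C A τ →
      ∀ i l, 0 < i → i < l → l < q → ∀ J ∈ W.iv l, ∀ (Ua Ta : Set (ℕ × ReFc)), Ua ⊆ ↑(W.ats i) → Ta ⊆ ↑(W.ats l) →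
        (∀ (ω : W.doc.Row i) (ω' : W.doc.Row l), ω.1 ∈ Ua → ω'.1 ∈ Ta → ω'.1.1 = J → ¬ W.doc.Conn (W.doc.tl t) i l ω ω') →
        W.bm i l (W.rs i Ua) J (W.rs l Ta J) ≤ 2 ^ (-(N * W.m)) * W.E.e := by
  obtain ⟨c1, hl⟩ := re_locs η hη0 hη1 hE q C
  obtain ⟨N', ha⟩ := re_lr_loc_arith q t N c1 ht
  obtain ⟨CN, hl⟩ := hl N'
  obtain ⟨m0, ha⟩ := ha CN
  refine ⟨q * (m0 + 1), ?_⟩
  rintro A τ p W rfl hn h i l h0 hil hlq J hJ Ua Ta hUa hTa hno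
  obtain ⟨Λ, a1, a2, a3, a4, a5⟩ := ha W.m (re_lr_m_ge W h m0 hn)
  have hT := re_lr_tight W hE h
  have hli : l ≤ W.q - 1 := by omega
  unfold ReTw.bm
  rw [re_lr_br_eq W i l hil.le]
  unfold PkSys.tz
  set I := ancI (W.dp l) (W.dp i) J with hI
  have hS := (re_at_meas_S W h i h0 (by omega) I).inter (re_at_meas_rs W i Ua I)
  have hS' := (re_at_meas_S W h l (by omega) hli J).inter (re_at_meas_rs W l Ta J)
  refine le_trans (hl p Λ a1 (W.dp i) (W.dp l) J (W.ps i).gb (W.ps l).gb (W.mid i l) (re_lr_dp_mono W hil.le) (re_lr_stok_mid W h i l (by omega))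
    (re_lr_gb_le W h i h0 (by omega)) (re_lr_gb_le W h l (by omega) hli) _ _ hS hS' ?_ _) ?_
  · intro x hx x' hx' hc
    have c1 := re_at_conn W h i l hil.le hlq.le _ a2 a3 ⟨(I, W.fc i (RdWvPar.co 0 x)), hUa hx.2⟩ ⟨(J, W.fc l (RdWvPar.co 0 x')), hTa hx'.2⟩
      (RdWvPar.co 0 x) (RdWvPar.co 0 x') rfl rfl rfl hc
    exact hno ⟨(I, W.fc i (RdWvPar.co 0 x)), hUa hx.2⟩ ⟨(J, W.fc l (RdWvPar.co 0 x')), hTa hx'.2⟩ hx.2 hx'.2 rfl
      (re_lr_conn_mono W.doc p.H_pos.le (by linarith) a4 c1)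
  · have hd : ((W.dp l : ℕ) : ℝ) - (W.dp i : ℕ) = ((l - i : ℕ) : ℝ) * W.m := by
      unfold ReTw.dp
      rw [Nat.cast_sub hil.le]
      push_cast
      ring
    have b1 := a5 (((W.dp l : ℕ) : ℝ) - (W.dp i : ℕ)) (by rw [hd]; positivity) (by
      rw [hd]
      refine mul_le_mul_of_nonneg_right ?_ (Nat.cast_nonneg _)
      exact_mod_cast (by omega : l - i ≤ W.q))
    refine mul_le_mul b1 ?_ (sq_nonneg _) (gn_two_pos _).le
    refine le_trans ?_ (re_lr_pre_norm W hE h i (by omega) I)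
    exact pow_le_pow_left₀ (norm_nonneg _) (hT.contr _ _ _ _) 2

/-! ## 2. Crude bounds -/

theorem re_lr_n_le {hg C A : ℕ} {τ : ℝ} (h : W.Ok hg C A τ) : (W.E.n : ℝ) ≤ 2 * W.q * W.m := by
  have h1 := h.n_hi
  have h2 := h.m_pos
  have h3 : W.E.n ≤ 2 * W.q * W.m := by
    have : W.q * (W.m + 1) ≤ W.q * (2 * W.m) := Nat.mul_le_mul_left _ (by omega)
    calc W.E.n ≤ W.q * (W.m + 1) := h1.le
      _ ≤ W.q * (2 * W.m) := this
      _ = _ := by ring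
  exact_mod_cast h3

theorem re_lr_e_pos {hg C A : ℕ} {τ : ℝ} (h : W.Ok hg C A τ) : 0 < W.E.e := (h.cls 0 (Nat.zero_le _)).2.1.e_pos

/-- crude lower bound of the total raw mass -/
theorem re_lr_tot_lo {hg C A : ℕ} {τ : ℝ} (h : W.Ok hg C A τ) (hτ : τ ≤ 1) (l : ℕ) (h0 : 0 < l) (hl : l ≤ hg) :
    W.E.e * 2 ^ (-((|(rndWav η).d0f| * W.q + 2 * W.q) * W.m)) ≤ W.rt l fun _ => Set.univ := by
  refine le_trans ?_ (h.raw_lo l h0 hl)
  unfold ReTw.tn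
  rw [mul_assoc, ← gn_two_add]
  refine mul_le_mul_of_nonneg_left (gn_two_mono ?_) (re_lr_e_pos W h).le
  have h1 := re_lr_n_le W h
  have hm : (0 : ℝ) ≤ W.m := Nat.cast_nonneg _
  have hn : (0 : ℝ) ≤ W.E.n := Nat.cast_nonneg _
  have hlq : (l : ℝ) ≤ W.q := by
    have := h.hg_lt
    exact_mod_cast (by omega : l ≤ W.q)
  have h2 : -(|(rndWav η).d0f| * (W.q * W.m)) ≤ (rndWav η).d0f * (l * W.m) := by
    have a1 : -(|(rndWav η).d0f| * (l * W.m)) ≤ (rndWav η).d0f * (l * W.m) := by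
      have := neg_abs_le (rndWav η).d0f
      have h5 : (0 : ℝ) ≤ l * W.m := by positivity
      nlinarith
    have a2 : |(rndWav η).d0f| * (l * W.m) ≤ |(rndWav η).d0f| * (W.q * W.m) :=
      mul_le_mul_of_nonneg_left (mul_le_mul_of_nonneg_right hlq hm) (abs_nonneg _)
    linarith
  have h3 : τ * W.E.n ≤ W.E.n := by nlinarith
  nlinarith

/-- the sum of the negligible errors over the intervals of the cut `l` -/
theorem re_lr_err {hg C A : ℕ} {τ : ℝ} (h : W.Ok hg C A τ) (hτ : τ ≤ 1) (l : ℕ) (h0 : 0 < l) (hl : l ≤ hg) (N : ℝ) :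
    4 * ((W.iv l).card * (2 ^ (-((|N| + 2 + 3 * W.q + |(rndWav η).d0f| * W.q) * W.m)) * W.E.e)) ≤ 2 ^ (-(N * W.m)) * W.rt l fun _ => Set.univ := by
  refine le_trans ?_ (mul_le_mul_of_nonneg_left (re_lr_tot_lo W h hτ l h0 hl) (gn_two_pos _).le)
  have hc : ((W.iv l).card : ℝ) = 2 ^ ((l : ℝ) * W.m) := by
    unfold ReTw.iv
    rw [gn_ivs_card]
    have : W.dp l - W.E.k0 = l * W.m := by unfold ReTw.dp; omega
    rw [this]
    push_cast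
    rw [← gn_two_nat]
    push_cast
    rfl
  have h4 : (4 : ℝ) = 2 ^ (2 : ℝ) := by norm_num
  rw [hc, h4]
  have he := re_lr_e_pos W h
  calc (2 : ℝ) ^ (2 : ℝ) * (2 ^ ((l : ℝ) * W.m) * (2 ^ (-((|N| + 2 + 3 * W.q + |(rndWav η).d0f| * W.q) * W.m)) * W.E.e))
      = 2 ^ ((2 : ℝ) + (l : ℝ) * W.m + -((|N| + 2 + 3 * W.q + |(rndWav η).d0f| * W.q) * W.m)) * W.E.e := by
        rw [gn_two_add, gn_two_add]; ring
    _ ≤ 2 ^ (-(N * W.m) + -((|(rndWav η).d0f| * W.q + 2 * W.q) * W.m)) * W.E.e := by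
        refine mul_le_mul_of_nonneg_right (gn_two_mono ?_) he.le
        have hm : (1 : ℝ) ≤ W.m := by exact_mod_cast h.m_pos
        have hlq : (l : ℝ) ≤ W.q := by
          have := h.hg_lt
          exact_mod_cast (by omega : l ≤ W.q)
        have h5 : -(|N| * W.m) ≤ -(N * W.m) := by
          have := le_abs_self N
          nlinarith
        nlinarith
    _ = _ := by rw [gn_two_add]; ring

/-! ## 3. TP -/

theorem re_lr_rt_nonneg (i : ℕ) (V : ℕ → Set RdWvPar.Ph) : 0 ≤ W.rt i V :=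
  Finset.sum_nonneg fun I _ => re_lr_rm_nonneg W i I (V I)

/-- the intervals that carry a charged atom -/
theorem re_lr_img_sub {hg C A : ℕ} {τ : ℝ} (h : W.Ok hg C A τ) (l : ℕ) (h0 : 0 < l) (hl : l ≤ hg) :
    Finset.univ.image (W.doc.iv l) ⊆ W.iv l := by
  intro J hJ
  rw [Finset.mem_image] at hJ
  obtain ⟨ω, _, rfl⟩ := hJ
  exact ((re_at_mem_ats W h l h0 hl ω.1).1 ω.2).1

theorem re_lr_rm_off (l : ℕ) (Ta : Set (ℕ × ReFc)) (hTa : Ta ⊆ ↑(W.ats l)) (J : ℕ) (hJ : J ∉ Finset.univ.image (W.doc.iv l)) :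
    W.rm l J (W.rs l Ta J) = 0 := by
  have : W.rs l Ta J = ∅ := by
    rw [Set.eq_empty_iff_forall_notMem]
    intro x hx
    apply hJ
    rw [Finset.mem_image]
    exact ⟨⟨_, hTa hx⟩, Finset.mem_univ _, rfl⟩
  have e : W.S l J ∩ W.rs l Ta J = ∅ := by rw [this, Set.inter_empty]
  calc W.rm l J (W.rs l Ta J) = (p.sys η).ms (tmL (W.dp l) J) (W.dp l) (W.ps l).gb ∅ (W.pre l J) :=
        congrArg (fun S : Set RdWvPar.Ph => (p.sys η).ms (tmL (W.dp l) J) (W.dp l) (W.ps l).gb S (W.pre l J)) e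
    _ = 0 := gn_ms_empty _ _ _ _

/-- **TP**   (= `re_f_tp` of `Re/TowC.lean`, with `ReDoc.Tp` unfolded) -/
theorem re_lr_f_tp (η : ℝ) (hη0 : 0 < η) (hη1 : η < 1) (hE : ReEntry η) (q : ℕ) (t N : ℝ) (ht : 0 < t) :
    ∃ τ : ℝ, 0 < τ ∧ ∀ C : ℕ, ∃ A0 n0 : ℕ, ∀ (A : ℕ) (p : RdWvPar) (W : ReTw η p), A0 ≤ A → W.q = q → n0 ≤ W.E.n →
      W.Ok (q - 1) C A τ → ∀ i l, 0 < i → i < l → l < W.doc.q → ∀ T : W.doc.Row l → Prop,
        W.doc.mass l T ≤ W.doc.tl t * ∑ J ∈ (Finset.univ.image (W.doc.iv l)),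
          W.doc.mass i (fun ω => ∃ ω', T ω' ∧ W.doc.iv l ω' = J ∧ W.doc.Conn (W.doc.tl t) i l ω ω') + W.doc.tl (-N) * W.doc.tot l := by
  refine ⟨1, one_pos, fun C => ?_⟩
  obtain ⟨n1, hloc⟩ := re_lr_loc η hη0 hη1 hE q t (|N| + 2 + 3 * q + |(rndWav η).d0f| * q) ht C
  obtain ⟨m2, h2⟩ := gn_absorb 2 t ht
  refine ⟨0, max n1 (q * (m2 + 1)), ?_⟩
  rintro A p W - rfl hn h i l h0 hil hlq T
  change l < W.q at hlq
  have hli : l ≤ W.q - 1 := by omega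
  have hl0 : 0 < l := by omega
  have hm2 := h2 W.m (re_lr_m_ge W h m2 (le_trans (le_max_right _ _) hn))
  have hloc := hloc A 1 p W rfl (le_trans (le_max_left _ _) hn) h i l h0 hil hlq
  set Ta : Set (ℕ × ReFc) := {a | ∃ ha : a ∈ W.ats l, T ⟨a, ha⟩} with hTa'
  have hTa : Ta ⊆ ↑(W.ats l) := fun a ha => ha.1
  set P : ℕ → Set (ℕ × ReFc) := fun J => {a | ∃ ha : a ∈ W.ats i, ∃ ω', T ω' ∧ W.doc.iv l ω' = J ∧ W.doc.Conn (W.doc.tl t) i l ⟨a, ha⟩ ω'} with hP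
  have hmass : ∀ J, W.doc.mass i (fun ω => ∃ ω', T ω' ∧ W.doc.iv l ω' = J ∧ W.doc.Conn (W.doc.tl t) i l ω ω') = W.rt i (W.rs i (P J)) :=
    fun J => re_at_mass W h i h0 (by omega) _
  set δ : ℝ := 2 ^ (-((|N| + 2 + 3 * W.q + |(rndWav η).d0f| * W.q) * W.m)) * W.E.e with hδ
  have hδ0 : 0 ≤ δ := mul_nonneg (gn_two_pos _).le (re_lr_e_pos W h).le
  have key : ∀ J ∈ W.iv l, W.rm l J (W.rs l Ta J) ≤ 2 * W.rt i (W.rs i (P J)) + 2 * δ := by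
    intro J hJ
    have s1 := re_lr_split W hE h i l h0 hil hli hJ (P J) (W.rs l Ta J) (re_at_meas_rs W l Ta J)
    have s2 := re_lr_bm_le W hE h i l h0 hil hli (W.rs i (P J)) (re_at_meas_rs W i (P J)) J (W.rs l Ta J) (re_at_meas_rs W l Ta J)
    have s3 := re_lr_rm_le_rt W i (W.rs i (P J)) (re_lr_anc_mem W i l hil.le hJ)
    have s4 := hloc J hJ (↑(W.ats i) \ P J) Ta Set.sdiff_subset hTa (by
      intro ω ω' hω hω' hJ' hc
      obtain ⟨ha, hT⟩ := hω'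
      exact hω.2 ⟨ω.2, ω', hT, hJ', hc⟩)
    linarith
  rw [re_at_mass W h l hl0 hli T, re_at_tot W h l hl0 hli]
  simp only [hmass]
  have himg := re_lr_img_sub W h l hl0 hli
  have e1 : W.rt l (W.rs l Ta) = ∑ J ∈ Finset.univ.image (W.doc.iv l), W.rm l J (W.rs l Ta J) :=
    (Finset.sum_subset himg fun J _ hJ => re_lr_rm_off W l Ta hTa J hJ).symm
  have herr := re_lr_err W h le_rfl l hl0 hli N
  have hcard : ((Finset.univ.image (W.doc.iv l)).card : ℝ) ≤ (W.iv l).card := by exact_mod_cast Finset.card_le_card himg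
  have hs0 : 0 ≤ ∑ J ∈ Finset.univ.image (W.doc.iv l), W.rt i (W.rs i (P J)) := Finset.sum_nonneg fun J _ => re_lr_rt_nonneg W _ _
  calc W.rt l (W.rs l Ta) = ∑ J ∈ Finset.univ.image (W.doc.iv l), W.rm l J (W.rs l Ta J) := e1
    _ ≤ ∑ J ∈ Finset.univ.image (W.doc.iv l), (2 * W.rt i (W.rs i (P J)) + 2 * δ) := Finset.sum_le_sum fun J hJ => key J (himg hJ)
    _ = 2 * ∑ J ∈ Finset.univ.image (W.doc.iv l), W.rt i (W.rs i (P J)) + (Finset.univ.image (W.doc.iv l)).card * (2 * δ) := by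
        rw [Finset.sum_add_distrib, Finset.mul_sum, Finset.sum_const, nsmul_eq_mul]
    _ ≤ W.doc.tl t * ∑ J ∈ Finset.univ.image (W.doc.iv l), W.rt i (W.rs i (P J)) + W.doc.tl (-N) * W.rt l (fun _ => Set.univ) := by
        refine add_le_add (mul_le_mul_of_nonneg_right hm2 hs0) ?_
        have e2 : W.doc.tl (-N) = 2 ^ (-(N * W.m)) := by
          unfold ReDoc.tl
          congr 1
          exact neg_mul _ _
        rw [e2]
        refine le_trans ?_ herr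
        have := mul_le_mul_of_nonneg_right hcard hδ0
        nlinarith

end Claimed.Agent.R256
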