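-- KEEP
import Claimed.Agent.R256.Re.LocAt

/-!
# Row 256, unit RE, block (I), post LOCRAR, file 3: RARITY TRANSFER, the field RAR      (architect helper272; prefix `re_rar_`)

* `W.rx i l U`      the base experiment: prefix of length `l m`, stack `stk (i-1) ++ mid i l` (the stage `i` is missing), labels of the cut `l` read on `U`
* `re_rar_rx_valid`, `re_rar_rx_cls`, `re_rar_rx_ins`, `re_rar_rx_raw`, `re_rar_rx_sum`     its properties; the restricted stage `i` is an inserted projection of regularity `2 be_i`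
* `re_rar_holder`   `Σ m ≤ (Σ m^{3/2}/√w)^{2/3} (Σ w)^{1/3}`
* `re_rar_tail`     `Σ_J bm i l V J (U J) ≤ (2^(-(1/2-Γ-ε)(l-i)m) √(2 Cr be_i) (rt i V + 2^(-D0 m) e))^{2/3} (Σ_u w_u)^{1/3}`     (`gn_ins_tail_on`)
* `re_rar_core`     the exponents cancel (`d0f = Γ + (p0f - 1)/2`)
* `re_rar_f_rar`    = `re_f_rar` of `Re/TowC.lean` with `ReDoc.Rar` unfolded
-/

set_option autoImplicit false
namespace Claimed.Agent.R256
open MeasureTheory
open scoped BigOperators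
open Classical

namespace ReTw

variable {η : ℝ} {p : RdWvPar} (W : ReTw η p)

/-- the rows read by the label `u` of the cut `l` inside `U` -/
def lr (l : ℕ) (U : ℕ → Set RdWvPar.Ph) (u : ℕ) : Set RdWvPar.Ph :=
  (W.ps l).lR u ∩ W.rs l (W.cl l) ((W.ps l).lI u) ∩ U ((W.ps l).lI u)

/-- the base experiment of RAR: prefix of length `l m`, stack `stk (i-1) ++ mid i l` (the stage `i` is MISSING), labels of the cut `l` read on `U` -/
noncomputable def rx (i l : ℕ) (U : ℕ → Set RdWvPar.Ph) : Xp (p.sys η) :=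
  W.E.pre (l * W.m) (W.stk (i - 1) ++ W.mid i l) (W.ps l).gb (L' := (W.ps l).nL) (fun u => (W.ps l).lI u) (fun u => (W.ps l).lQ u)
    (fun u => (W.lr l U u).indicator fun _ => 1)

/-- the masks of the restricted stage -/
noncomputable def mkR (i : ℕ) (V : ℕ → Set RdWvPar.Ph) : ℕ → RdWvPar.Ph → ℝ := fun I => (W.S i I ∩ V I).indicator fun _ => 1

end ReTw

theorem re_rar_eqns_cite : True := by
  have := @ReTw.lr.eq_1
  have := @ReTw.rx.eq_1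
  have := @ReTw.mkR.eq_1
  trivial

/-- a sub-stack of a valid experiment -/
theorem re_rar_valid_sub {P : PkSys} (E : Xp P) (hE : E.Valid) (st' : List (Stg P)) (hs : st'.Sublist E.st) : (E.withSt st').Valid :=
  { e_pos := hE.e_pos, ka_pos := hE.ka_pos, budget := hE.budget, plat := hE.plat, reg := hE.reg,
    st_dep := fun σ hσ => hE.st_dep σ (hs.subset hσ),
    st_mono := hE.st_mono.sublist hs,
    st_meas := fun σ hσ => hE.st_meas σ (hs.subset hσ),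
    st_bd := fun σ hσ => hE.st_bd σ (hs.subset hσ),
    iv_in := hE.iv_in, ts_ok := hE.ts_ok, w_pos := hE.w_pos, th_meas := hE.th_meas, th_nn := hE.th_nn, th_supp := hE.th_supp, th_sum := hE.th_sum }

variable {η : ℝ} {p : RdWvPar} (W : ReTw η p)

theorem re_rar_lr_meas {hg C A : ℕ} {τ : ℝ} (h : W.Ok hg C A τ) (l : ℕ) (h0 : 0 < l) (hl : l ≤ hg) (U : ℕ → Set RdWvPar.Ph)
    (hU : ∀ J, MeasurableSet (U J)) (u : ℕ) (hu : u < (W.ps l).nL) : MeasurableSet (W.lr l U u) :=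
  ((((h.sel l h0 hl).lb u hu).2.2.1).inter (re_at_meas_rs W l _ _)).inter (hU _)

theorem re_rar_lr_disj {hg C A : ℕ} {τ : ℝ} (h : W.Ok hg C A τ) (l : ℕ) (h0 : 0 < l) (hl : l ≤ hg) (U : ℕ → Set RdWvPar.Ph)
    (u u' : ℕ) (hu : u < (W.ps l).nL) (hu' : u' < (W.ps l).nL) (hne : u ≠ u') (hI : (W.ps l).lI u = (W.ps l).lI u') :
    Disjoint (W.lr l U u) (W.lr l U u') :=
  ((h.sel l h0 hl).disj u hu u' hu' hne hI).mono (fun _ hx => hx.1.1) (fun _ hx => hx.1.1)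

theorem re_rar_rx_valid (hE : ReEntry η) {hg C A : ℕ} {τ : ℝ} (h : W.Ok hg C A τ) (i l : ℕ) (h0 : 0 < i) (hil : i < l) (hl : l ≤ hg)
    (U : ℕ → Set RdWvPar.Ph) (hU : ∀ J, MeasurableSet (U J)) : (W.rx i l U).Valid := by
  have hT := re_lr_tight W hE h
  have hl0 : 0 < l := by omega
  have hX : (W.E.withSt (W.stk (i - 1) ++ W.mid i l)).Valid := by
    refine re_rar_valid_sub (W.Ex (l - 1)) (h.cls (l - 1) (by omega)).2.1 _ ?_
    change (W.stk (i - 1) ++ W.mid i l).Sublist (W.stk (l - 1))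
    rw [re_lr_stk W i l h0 hil]
    exact List.Sublist.append_left (List.sublist_cons_self _ _) _
  have hc : (W.E.withSt (W.stk (i - 1) ++ W.mid i l)).CutAt (W.dp l) (W.stk (i - 1) ++ W.mid i l) [] := by
    refine ⟨(List.append_nil _).symm, ?_, by simp, ?_, re_lr_dp_le_kf W h l (by have := h.hg_lt; omega)⟩
    · intro σ hσ
      rw [List.mem_append] at hσ
      rcases hσ with hσ | hσ
      · obtain ⟨a, _, h2, rfl⟩ := re_lr_stk_mem W hσ
        exact re_lr_dp_mono W (by omega : a ≤ l)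
      · obtain ⟨a, _, h2, rfl⟩ := re_lr_mid_mem W hσ
        exact re_lr_dp_mono W h2.le
    · change W.E.k0 ≤ W.E.k0 + l * W.m
      omega
  have hs := h.sel l hl0 hl
  have key := gn_pre_valid _ hX hc (W.ps l).gb (L' := (W.ps l).nL) (fun u => (W.ps l).lI u) (fun u => (W.ps l).lQ u)
    (fun u => (W.lr l U u).indicator fun _ => 1) (fun u => (hs.lb u u.2).1) (fun u => (hs.lb u u.2).2.1)
    (fun u => hT.wt_pos _ _ (hs.lb u u.2).2.1) (fun u => measurable_const.indicator (re_rar_lr_meas W h l hl0 hl U hU u u.2))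
    (fun u x => Set.indicator_nonneg (fun _ _ => zero_le_one) x)
    (fun u x hx => (hs.lb u u.2).2.2.2.1 (Set.mem_of_indicator_ne_zero hx).1.1)
    (fun I x => by
      by_cases hex : ∃ u0 : Fin (W.ps l).nL, (W.ps l).lI u0 = I ∧ x ∈ W.lr l U u0
      · obtain ⟨u0, hI, hx⟩ := hex
        rw [Finset.sum_eq_single u0]
        · rw [if_pos hI]
          exact Set.indicator_le_self' (fun _ _ => zero_le_one) x |>.trans le_rfl
        · intro u _ hne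
          by_cases hu : (W.ps l).lI u = I
          · rw [if_pos hu]
            apply Set.indicator_of_notMem
            intro hx'
            exact Set.disjoint_left.1 (re_rar_lr_disj W h l hl0 hl U u u0 u.2 u0.2 (fun e => hne (Fin.ext e)) (hu.trans hI.symm)) hx' hx
          · rw [if_neg hu]
        · intro hn
          exact absurd (Finset.mem_univ _) hn
      · push Not at hex
        refine le_trans (le_of_eq (Finset.sum_eq_zero fun u _ => ?_)) zero_le_one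
        by_cases hu : (W.ps l).lI u = I
        · rw [if_pos hu]
          exact Set.indicator_of_notMem (hex u hu) _
        · rw [if_neg hu])
  have e : W.dp l - (W.E.withSt (W.stk (i - 1) ++ W.mid i l)).k0 = l * W.m := by
    change W.E.k0 + l * W.m - W.E.k0 = l * W.m
    omega
  rw [e] at key
  exact key

theorem re_rar_rx_len {hg C A : ℕ} {τ : ℝ} (h : W.Ok hg C A τ) (i l : ℕ) (h0 : 0 < i) (hil : i < l) (hl : l ≤ hg) :
    (W.stk (i - 1) ++ W.mid i l).length ≤ C := by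
  have h1 : (W.stk (l - 1)).length ≤ C := (h.cls (l - 1) (by omega)).2.2.1
  simp only [ReTw.stk, ReTw.mid, List.length_append, List.length_map, List.length_range] at *
  omega

theorem re_rar_rx_gen {hg C A : ℕ} {τ : ℝ} (h : W.Ok hg C A τ) (i l : ℕ) (h0 : 0 < i) (hil : i < l) (hl : l ≤ hg)
    (U : ℕ → Set RdWvPar.Ph) : (W.rx i l U).GenLe C := by
  refine ⟨(h.cls 0 (Nat.zero_le _)).2.2.2.1.1, re_lr_gb_le W h l (by omega) hl, ?_⟩
  intro σ hσ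
  change σ ∈ W.stk (i - 1) ++ W.mid i l at hσ
  rw [List.mem_append] at hσ
  rcases hσ with hσ | hσ
  · obtain ⟨a, h1, h2, rfl⟩ := re_lr_stk_mem W hσ
    exact re_lr_gb_le W h a h1 (by omega)
  · obtain ⟨a, h1, h2, rfl⟩ := re_lr_mid_mem W hσ
    exact re_lr_gb_le W h a (by omega) (by omega)

/-- the base experiments are in the class -/
theorem re_rar_rx_cls (η : ℝ) (hE : ReEntry η) (q C : ℕ) :
    ∃ C' : ℕ, C ≤ C' ∧ ∀ (A : ℕ) (τ : ℝ) (p : RdWvPar) (W : ReTw η p), W.q = q → W.Ok (q - 1) C A τ →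
      ∀ i l, 0 < i → i < l → l < q → ∀ U : ℕ → Set RdWvPar.Ph, (∀ J, MeasurableSet (U J)) → (rndWav η).Cls C' A p (W.rx i l U) := by
  rcases Nat.eq_zero_or_pos q with hq | hq
  · exact ⟨C, le_rfl, fun A τ p W _ _ i l _ _ hl => by omega⟩
  have hq' : (0 : ℝ) < q := by exact_mod_cast hq
  obtain ⟨C', hC, H⟩ := gn_prefix_cls (rndWav η) hE.gen.scale C (1 / (2 * q)) (by positivity)
  refine ⟨C', hC, ?_⟩
  rintro A τ p W rfl h i l h0 hil hlq U hU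
  have hli : l ≤ W.q - 1 := by omega
  refine H A p (W.Ex 0) (W.rx i l U) (h.cls 0 (Nat.zero_le _)) (re_rar_rx_valid W hE h i l h0 hil hli U hU) ⟨rfl, rfl, rfl, rfl, rfl, rfl⟩
    (re_rar_rx_len W h i l h0 hil hli) (re_rar_rx_gen W h i l h0 hil hli U) ?_ ?_
  · change 1 / (2 * (W.q : ℝ)) * W.E.n ≤ ((l * W.m : ℕ) : ℝ)
    have h1 := re_lr_n_le W h
    have h2 : (W.m : ℝ) ≤ ((l * W.m : ℕ) : ℝ) := by
      exact_mod_cast Nat.le_mul_of_pos_left _ (by omega)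
    refine le_trans ?_ h2
    rw [div_mul_eq_mul_div, one_mul, div_le_iff₀ (by positivity)]
    linarith
  · change l * W.m ≤ W.E.n
    exact le_trans (Nat.mul_le_mul_right _ hlq.le) h.n_lo

theorem re_rar_mkR_mask {hg C A : ℕ} {τ : ℝ} (h : W.Ok hg C A τ) (i : ℕ) (h0 : 0 < i) (hi : i ≤ hg) (V : ℕ → Set RdWvPar.Ph)
    (hV : ∀ I, MeasurableSet (V I)) (I : ℕ) : IsMask (W.mkR i V I) :=
  gn_mask_ind ((re_at_meas_S W h i h0 hi I).inter (hV I))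

/-- the restricted stage is an inserted projection of regularity `2 be` -/
theorem re_rar_rx_ins (hE : ReEntry η) {hg C A : ℕ} {τ : ℝ} (h : W.Ok hg C A τ) (i l : ℕ) (h0 : 0 < i) (hil : i < l) (hl : l ≤ hg)
    (U V : ℕ → Set RdWvPar.Ph) (hV : ∀ I, MeasurableSet (V I)) :
    (W.rx i l U).InsAt (W.dp i) (W.ps i).gb (W.stk (i - 1)) [] (W.mid i l) (W.mkR i V) (2 * (W.ps i).be) := by
  have hT := re_lr_tight W hE h
  refine ⟨⟨rfl, ?_, ?_, ?_, ?_⟩, by simp, by simp, re_rar_mkR_mask W h i h0 (by omega) V hV, ?_⟩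
  · intro σ hσ
    obtain ⟨a, _, h2, rfl⟩ := re_lr_stk_mem W hσ
    exact re_lr_dp_mono W (by omega : a ≤ i)
  · intro σ hσ
    obtain ⟨a, h1, _, rfl⟩ := re_lr_mid_mem W hσ
    exact re_lr_dp_mono W h1.le
  · change W.E.k0 ≤ W.E.k0 + i * W.m
    omega
  · change W.E.k0 + i * W.m ≤ W.E.k0 + l * W.m
    exact Nat.add_le_add_left (Nat.mul_le_mul_right _ hil.le) _
  · intro I hI
    have hS := re_at_meas_S W h i h0 (by omega) I
    refine ⟨W.S i I ∩ V I, hS.inter (hV I), rfl, fun Q hQ => ?_⟩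
    refine le_trans ?_ (re_at_reg W h i h0 (by omega) I hI Q hQ)
    have hc := hT.cellM Q (tmL (W.dp i) I) (W.dp i)
    exact gn_ms_mono _ _ _ (hc.inter (hS.inter (hV I))) (hS.inter hc) (fun x hx => ⟨hx.2.1, hx.1⟩) _

theorem re_rar_rx_raw (i l : ℕ) (U V : ℕ → Set RdWvPar.Ph) :
    (W.rx i l U).raw (W.stk (i - 1)) ⟨W.dp i, (W.ps i).gb, W.mkR i V⟩ = W.rt i V := by
  unfold Xp.raw ReTw.rt
  refine Finset.sum_congr rfl fun I _ => ?_
  exact congrArg (fun θ : RdWvPar.Ph → ℝ => (p.sys η).en (tmL (W.dp i) I) (W.dp i) (W.ps i).gb θ (W.pre i I)) (re_lr_ind_sq (W.S i I ∩ V I))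

/-- the masses of the labels -/
theorem re_rar_rx_m (i l : ℕ) (U V : ℕ → Set RdWvPar.Ph) (u : Fin (W.ps l).nL) :
    ((W.rx i l U).ins (W.dp i) (W.ps i).gb (W.stk (i - 1)) ([] ++ W.mid i l) (W.mkR i V)).m u =
      (p.sys η).ms (tmL (W.dp l) ((W.ps l).lI u)) (W.dp l) (W.ps l).gb (W.lr l U u) (W.br i l V ((W.ps l).lI u)) := rfl

theorem re_rar_rx_w (i l : ℕ) (U V : ℕ → Set RdWvPar.Ph) (u : Fin (W.ps l).nL) :
    ((W.rx i l U).ins (W.dp i) (W.ps i).gb (W.stk (i - 1)) ([] ++ W.mid i l) (W.mkR i V)).w u = ((W.ps l).lQ u).wt η := rfl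

/-- the selected rows of the cut `l` inside `U` are the disjoint union of the rows read by the labels -/
theorem re_rar_S_eq (l : ℕ) (U : ℕ → Set RdWvPar.Ph) (J : ℕ) :
    W.S l J ∩ U J = ⋃ u : Fin (W.ps l).nL, (if (W.ps l).lI u = J then W.lr l U u else ∅) := by
  ext x
  simp only [Set.mem_iUnion]
  constructor
  · rintro ⟨⟨⟨u, hu, hI, hx⟩, h2⟩, h3⟩
    refine ⟨⟨u, hu⟩, ?_⟩
    rw [if_pos hI]
    subst hI
    exact ⟨⟨hx, h2⟩, h3⟩
  · rintro ⟨u, hu⟩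
    by_cases hI : (W.ps l).lI u = J
    · rw [if_pos hI] at hu
      subst hI
      exact ⟨⟨⟨u, u.2, rfl, hu.1.1⟩, hu.1.2⟩, hu.2⟩
    · rw [if_neg hI] at hu
      exact absurd hu (Set.notMem_empty x)

theorem re_rar_ms_fib (P : PkSys) (T : ℝ) (k b : ℕ) {n : ℕ} (R : Fin n → Set P.X) (f : Fin n → ℕ) (hR : ∀ u, MeasurableSet (R u))
    (hd : ∀ u u', u ≠ u' → f u = f u' → Disjoint (R u) (R u')) (J : ℕ) (v : P.Kc) :
    P.ms T k b (⋃ u, (if f u = J then R u else ∅)) v = ∑ u, if f u = J then P.ms T k b (R u) v else 0 := by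
  rw [gn_ms_iUnion]
  · refine Finset.sum_congr rfl fun u _ => ?_
    by_cases hI : f u = J
    · simp only [if_pos hI]
    · simp only [if_neg hI]
      exact gn_ms_empty _ _ _ _
  · intro u
    by_cases hI : f u = J
    · simp only [if_pos hI]
      exact hR u
    · simp only [if_neg hI]
      exact MeasurableSet.empty
  · intro u u' hne
    by_cases hI : f u = J
    · by_cases hI' : f u' = J
      · simp only [if_pos hI, if_pos hI']
        exact hd u u' hne (hI.trans hI'.symm)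
      · simp only [if_neg hI']
        exact Set.disjoint_empty _
    · simp only [if_neg hI]
      exact Set.empty_disjoint _

theorem re_rar_bm_eq {hg C A : ℕ} {τ : ℝ} (h : W.Ok hg C A τ) (i l : ℕ) (h0 : 0 < l) (hl : l ≤ hg) (U V : ℕ → Set RdWvPar.Ph)
    (hU : ∀ J, MeasurableSet (U J)) (J : ℕ) :
    W.bm i l V J (U J) = ∑ u : Fin (W.ps l).nL, if (W.ps l).lI u = J then
      (p.sys η).ms (tmL (W.dp l) J) (W.dp l) (W.ps l).gb (W.lr l U u) (W.br i l V J) else 0 := by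
  have e1 : W.bm i l V J (U J) = (p.sys η).ms (tmL (W.dp l) J) (W.dp l) (W.ps l).gb
      (⋃ u : Fin (W.ps l).nL, (if (W.ps l).lI u = J then W.lr l U u else ∅)) (W.br i l V J) :=
    congrArg (fun S : Set RdWvPar.Ph => (p.sys η).ms (tmL (W.dp l) J) (W.dp l) (W.ps l).gb S (W.br i l V J)) (re_rar_S_eq W l U J)
  exact e1.trans (re_rar_ms_fib (p.sys η) (tmL (W.dp l) J) (W.dp l) (W.ps l).gb (fun u : Fin (W.ps l).nL => W.lr l U u) (fun u => (W.ps l).lI u)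
    (fun u => re_rar_lr_meas W h l h0 hl U hU u u.2)
    (fun u u' hne hI => re_rar_lr_disj W h l h0 hl U u u' u.2 u'.2 (fun e => hne (Fin.ext e)) hI) J (W.br i l V J))

/-- the total mass of the labels -/
theorem re_rar_rx_sum {hg C A : ℕ} {τ : ℝ} (h : W.Ok hg C A τ) (i l : ℕ) (h0 : 0 < l) (hl : l ≤ hg) (U V : ℕ → Set RdWvPar.Ph)
    (hU : ∀ J, MeasurableSet (U J)) :
    ∑ J ∈ W.iv l, W.bm i l V J (U J) = ∑ u, ((W.rx i l U).ins (W.dp i) (W.ps i).gb (W.stk (i - 1)) ([] ++ W.mid i l) (W.mkR i V)).m u := by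
  have e1 : ∀ J ∈ W.iv l, W.bm i l V J (U J) = ∑ u : Fin (W.ps l).nL, if (W.ps l).lI u = J then
      ((W.rx i l U).ins (W.dp i) (W.ps i).gb (W.stk (i - 1)) ([] ++ W.mid i l) (W.mkR i V)).m u else 0 := by
    intro J _
    refine (re_rar_bm_eq W h i l h0 hl U V hU J).trans (Finset.sum_congr rfl fun u _ => ?_)
    by_cases hI : (W.ps l).lI u = J
    · rw [if_pos hI, if_pos hI, re_rar_rx_m]
      subst hI
      rfl
    · rw [if_neg hI, if_neg hI]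
  rw [Finset.sum_congr rfl e1, Finset.sum_comm]
  refine Finset.sum_congr rfl fun u _ => ?_
  have hmem : (W.ps l).lI u ∈ W.iv l := ((h.sel l h0 hl).lb u u.2).1
  rw [Finset.sum_ite_eq, if_pos hmem]

/-- Hoelder -/
theorem re_rar_holder {ι : Type} (s : Finset ι) (m w : ι → ℝ) (hm : ∀ u ∈ s, 0 ≤ m u) (hw : ∀ u ∈ s, 0 < w u) :
    ∑ u ∈ s, m u ≤ (∑ u ∈ s, m u ^ (3 / 2 : ℝ) / Real.sqrt (w u)) ^ (2 / 3 : ℝ) * (∑ u ∈ s, w u) ^ (1 / 3 : ℝ) := by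
  have hpq : (3 / 2 : ℝ).HolderConjugate 3 := by
    rw [Real.holderConjugate_iff]
    norm_num
  have key := Real.inner_le_Lp_mul_Lq_of_nonneg s hpq (f := fun u => (m u ^ (3 / 2 : ℝ) / Real.sqrt (w u)) ^ (2 / 3 : ℝ))
    (g := fun u => w u ^ (1 / 3 : ℝ)) (fun u hu => by
      have := hm u hu
      have := hw u hu
      positivity) (fun u hu => by
      have := hw u hu
      positivity)
  have e1 : ∑ u ∈ s, (m u ^ (3 / 2 : ℝ) / Real.sqrt (w u)) ^ (2 / 3 : ℝ) * w u ^ (1 / 3 : ℝ) = ∑ u ∈ s, m u := by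
    refine Finset.sum_congr rfl fun u hu => ?_
    have h1 := hm u hu
    have h2 := hw u hu
    rw [Real.div_rpow (by positivity) (Real.sqrt_nonneg _), ← Real.rpow_mul h1, Real.sqrt_eq_rpow, ← Real.rpow_mul h2.le]
    norm_num
    field_simp
  have e2 : ∑ u ∈ s, ((m u ^ (3 / 2 : ℝ) / Real.sqrt (w u)) ^ (2 / 3 : ℝ)) ^ (3 / 2 : ℝ) = ∑ u ∈ s, m u ^ (3 / 2 : ℝ) / Real.sqrt (w u) := by
    refine Finset.sum_congr rfl fun u hu => ?_
    have h1 := hm u hu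
    have h2 := hw u hu
    rw [← Real.rpow_mul (by positivity)]
    norm_num
  have e3 : ∑ u ∈ s, (w u ^ (1 / 3 : ℝ)) ^ (3 : ℝ) = ∑ u ∈ s, w u := by
    refine Finset.sum_congr rfl fun u hu => ?_
    have h2 := hw u hu
    rw [← Real.rpow_mul h2.le]
    norm_num
  rw [e1, e2, e3] at key
  have e4 : (1 / (3 / 2) : ℝ) = 2 / 3 := by norm_num
  rw [e4] at key
  exact key

theorem re_rar_rx_kf (i l : ℕ) (U : ℕ → Set RdWvPar.Ph) : (W.rx i l U).kf - W.dp i = (l - i) * W.m := by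
  change W.E.k0 + l * W.m - (W.E.k0 + i * W.m) = (l - i) * W.m
  rw [Nat.sub_mul]
  omega

/-- the benchmarks of the threshold `be` in crude form -/
theorem re_rar_be {hg C A : ℕ} {τ : ℝ} (h : W.Ok hg C A τ) (hτ : τ ≤ 1) (i : ℕ) (h0 : 0 < i) (hi : i ≤ hg) :
    W.E.ka * 2 ^ (-((rndWav η).p0f * ((i : ℝ) * W.m)) - τ * W.E.n) ≤ (W.ps i).be ∧
      (W.ps i).be ≤ W.E.ka * 2 ^ (-((rndWav η).p0f * ((i : ℝ) * W.m)) + τ * W.E.n) := by
  have hsel := h.sel i h0 hi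
  have hdk : W.dp i - (W.Ex (i - 1)).k0 = i * W.m := by
    change W.E.k0 + i * W.m - W.E.k0 = i * W.m
    omega
  have b1 := hsel.be_lo
  have b2 := hsel.be_hi
  rw [hdk] at b1 b2
  push_cast at b1 b2
  exact ⟨b1, b2⟩

/-- the three side conditions of `gn_ins_tail_on` -/
theorem re_rar_tail_cond {hg C A : ℕ} {τ : ℝ} (h : W.Ok hg C A τ) (hτ : τ ≤ 1) (i l : ℕ) (h0 : 0 < i) (hil : i < l) (hl : l ≤ hg)
    (U : ℕ → Set RdWvPar.Ph) (P0 D : ℕ) (Cr : ℝ) (hP0 : |(rndWav η).p0f| ≤ P0) (hD : P0 + 2 * W.q + 2 ≤ D) (hCr : 1 ≤ Cr)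
    (h2 : 2 * Cr ≤ 2 ^ (1 * (W.m : ℝ))) :
    1 / (W.q : ℝ) * ((W.rx i l U).n : ℝ) ≤ (((W.rx i l U).kf - W.dp i : ℕ) : ℝ) ∧
      (W.rx i l U).s ^ (D : ℝ) * (W.rx i l U).ka ≤ Cr * (2 * (W.ps i).be) ∧
      Cr * (2 * (W.ps i).be) ≤ (W.rx i l U).s ^ (-(D : ℝ)) * (W.rx i l U).ka := by
  have hlq : l < W.q := lt_of_le_of_lt hl h.hg_lt
  have hq' : (0 : ℝ) < W.q := by exact_mod_cast (by omega : 0 < W.q)
  have hl0 : 0 < l := by omega
  have hmR : (0 : ℝ) ≤ W.m := Nat.cast_nonneg _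
  have hnR : (0 : ℝ) ≤ W.E.n := Nat.cast_nonneg _
  have hn2 := re_lr_n_le W h
  have hτn : τ * W.E.n ≤ W.E.n := by nlinarith
  have hl1 : (1 : ℝ) ≤ l := by exact_mod_cast hl0
  have hilR : (i : ℝ) ≤ l := by exact_mod_cast hil.le
  have hlm : (W.m : ℝ) ≤ l * W.m := by nlinarith
  have hDR : (P0 : ℝ) + 2 * W.q + 2 ≤ D := by exact_mod_cast hD
  have hka : 0 < W.E.ka := (h.cls 0 (Nat.zero_le _)).2.1.ka_pos
  obtain ⟨b1, b2⟩ := re_rar_be W h hτ i h0 (by omega)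
  have hpim : |(rndWav η).p0f * ((i : ℝ) * W.m)| ≤ P0 * (l * W.m) := by
    rw [abs_mul, abs_of_nonneg (by positivity : (0 : ℝ) ≤ (i : ℝ) * W.m)]
    exact mul_le_mul hP0 (mul_le_mul_of_nonneg_right hilR hmR) (by positivity) (Nat.cast_nonneg _)
  have hqlm : 2 * (W.q : ℝ) * W.m ≤ 2 * W.q * (l * W.m) := by
    have : (0 : ℝ) ≤ 2 * W.q := by positivity
    nlinarith
  have hDlm : ((P0 : ℝ) + 2 * W.q + 2) * (l * W.m) ≤ D * (l * W.m) := mul_le_mul_of_nonneg_right hDR (by positivity)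
  have b3 : 0 ≤ (W.ps i).be := le_trans (mul_nonneg hka.le (gn_two_pos _).le) b1
  have en : ((W.rx i l U).n : ℝ) = l * W.m := by
    change ((l * W.m : ℕ) : ℝ) = _
    push_cast
    rfl
  refine ⟨?_, ?_, ?_⟩
  · rw [re_rar_rx_kf, en]
    have e1 : (W.m : ℝ) ≤ (((l - i) * W.m : ℕ) : ℝ) := by exact_mod_cast Nat.le_mul_of_pos_left _ (by omega)
    refine le_trans ?_ e1
    rw [div_mul_eq_mul_div, one_mul, div_le_iff₀ hq']
    have : (l : ℝ) ≤ W.q := by exact_mod_cast hlq.le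
    nlinarith
  · rw [gn_s_rpow, en]
    change _ * W.E.ka ≤ _
    have b4 : (2 : ℝ) ^ (-((D : ℝ) * (l * W.m))) ≤ 2 ^ (-((rndWav η).p0f * ((i : ℝ) * W.m)) - τ * W.E.n) := by
      apply gn_two_mono
      have := (abs_le.1 hpim).2
      nlinarith
    calc (2 : ℝ) ^ (-((D : ℝ) * (l * W.m))) * W.E.ka ≤ 2 ^ (-((rndWav η).p0f * ((i : ℝ) * W.m)) - τ * W.E.n) * W.E.ka :=
          mul_le_mul_of_nonneg_right b4 hka.le
      _ ≤ (W.ps i).be := by rw [mul_comm]; exact b1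
      _ ≤ Cr * (2 * (W.ps i).be) := by nlinarith
  · rw [gn_s_rpow, en]
    change _ ≤ _ * W.E.ka
    calc Cr * (2 * (W.ps i).be) = (2 * Cr) * (W.ps i).be := by ring
      _ ≤ 2 ^ (1 * (W.m : ℝ)) * (W.E.ka * 2 ^ (-((rndWav η).p0f * ((i : ℝ) * W.m)) + τ * W.E.n)) :=
          mul_le_mul h2 b2 b3 (gn_two_pos _).le
      _ = 2 ^ (1 * (W.m : ℝ) + (-((rndWav η).p0f * ((i : ℝ) * W.m)) + τ * W.E.n)) * W.E.ka := by rw [gn_two_add (1 * (W.m : ℝ))]; ring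
      _ ≤ _ := by
          refine mul_le_mul_of_nonneg_right (gn_two_mono ?_) hka.le
          have := (abs_le.1 hpim).1
          nlinarith

/-- from the cubic readout to the total mass -/
theorem re_rar_tail_fin (hE : ReEntry η) {hg C A : ℕ} {τ : ℝ} (h : W.Ok hg C A τ) (i l : ℕ) (h0 : 0 < i) (hil : i < l) (hl : l ≤ hg)
    (V U : ℕ → Set RdWvPar.Ph) (hU : ∀ J, MeasurableSet (U J)) (D0 D : ℕ) (hD : D0 ≤ D) (R : ℝ) (hR : 0 ≤ R)
    (key : ∑ u, ((W.rx i l U).ins (W.dp i) (W.ps i).gb (W.stk (i - 1)) ([] ++ W.mid i l) (W.mkR i V)).tr u ≤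
      R * ((W.rx i l U).raw (W.stk (i - 1)) ⟨W.dp i, (W.ps i).gb, W.mkR i V⟩ + (W.rx i l U).s ^ (D : ℝ) * (W.rx i l U).e)) :
    ∑ J ∈ W.iv l, W.bm i l V J (U J) ≤ (R * (W.rt i V + 2 ^ (-((D0 : ℝ) * W.m)) * W.E.e)) ^ (2 / 3 : ℝ) *
      (∑ u ∈ Finset.range (W.ps l).nL, ((W.ps l).lQ u).wt η) ^ (1 / 3 : ℝ) := by
  have hT := re_lr_tight W hE h
  have hl0 : 0 < l := by omega
  have he := re_lr_e_pos W h
  rw [re_rar_rx_raw, gn_s_rpow] at key
  have hmn : ∀ u, 0 ≤ ((W.rx i l U).ins (W.dp i) (W.ps i).gb (W.stk (i - 1)) ([] ++ W.mid i l) (W.mkR i V)).m u := fun u => gn_ms_nonneg _ _ _ _ _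
  have hwp : ∀ u, 0 < ((W.rx i l U).ins (W.dp i) (W.ps i).gb (W.stk (i - 1)) ([] ++ W.mid i l) (W.mkR i V)).w u :=
    fun u => hT.wt_pos _ _ ((h.sel l hl0 hl).lb u u.2).2.1
  rw [re_rar_rx_sum W h i l hl0 hl U V hU]
  refine le_trans (re_rar_holder Finset.univ _ _ (fun u _ => hmn u) (fun u _ => hwp u)) ?_
  have ew : ∑ u, ((W.rx i l U).ins (W.dp i) (W.ps i).gb (W.stk (i - 1)) ([] ++ W.mid i l) (W.mkR i V)).w u
      = ∑ u ∈ Finset.range (W.ps l).nL, ((W.ps l).lQ u).wt η := Fin.sum_univ_eq_sum_range (fun u => ((W.ps l).lQ u).wt η) _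
  rw [ew]
  refine mul_le_mul_of_nonneg_right ?_ (Real.rpow_nonneg (ew ▸ Finset.sum_nonneg fun u _ => (hwp u).le) _)
  refine Real.rpow_le_rpow (Finset.sum_nonneg fun u _ => div_nonneg (Real.rpow_nonneg (hmn u) _) (Real.sqrt_nonneg _)) (le_trans key ?_) (by norm_num)
  refine mul_le_mul_of_nonneg_left ?_ hR
  refine add_le_add le_rfl (mul_le_mul_of_nonneg_right (gn_two_mono ?_) he.le)
  change -((D : ℝ) * ((l * W.m : ℕ) : ℝ)) ≤ _
  push_cast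
  have h1 : (D0 : ℝ) ≤ D := by exact_mod_cast hD
  have h2 : (1 : ℝ) ≤ l := by exact_mod_cast hl0
  have h3 : (0 : ℝ) ≤ W.m := Nat.cast_nonneg _
  have h4 : (0 : ℝ) ≤ D0 := Nat.cast_nonneg _
  have h5 : (D0 : ℝ) * W.m ≤ D * W.m := mul_le_mul_of_nonneg_right h1 h3
  have h6 : (D : ℝ) * W.m ≤ D * (l * W.m) := by
    have : (0 : ℝ) ≤ D * W.m := by positivity
    nlinarith
  linarith

/-- **the tail bound behind the restricted stage, read on the labels of the cut `l`** -/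
theorem re_rar_tail (η : ℝ) (hE : ReEntry η) (q : ℕ) (ε : ℝ) (hε : 0 < ε) (C D0 : ℕ) :
    ∃ Cr : ℝ, 1 ≤ Cr ∧ ∃ A0 n0 : ℕ, ∀ (A : ℕ) (τ : ℝ) (p : RdWvPar) (W : ReTw η p), A0 ≤ A → τ ≤ 1 → W.q = q → n0 ≤ W.E.n →
      W.Ok (q - 1) C A τ → ∀ i l, 0 < i → i < l → l < q → ∀ V U : ℕ → Set RdWvPar.Ph, (∀ I, MeasurableSet (V I)) → (∀ J, MeasurableSet (U J)) →
        ∑ J ∈ W.iv l, W.bm i l V J (U J) ≤
          (2 ^ (-((1 / 2 - (rndWav η).Gam - ε) * (((l - i : ℕ) : ℝ) * W.m))) * Real.sqrt (Cr * (2 * (W.ps i).be)) *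
            (W.rt i V + 2 ^ (-((D0 : ℝ) * W.m)) * W.E.e)) ^ (2 / 3 : ℝ) *
          (∑ u ∈ Finset.range (W.ps l).nL, ((W.ps l).lQ u).wt η) ^ (1 / 3 : ℝ) := by
  rcases Nat.eq_zero_or_pos q with hq | hq
  · exact ⟨1, le_rfl, 0, 0, fun A τ p W _ _ _ _ _ i l _ _ hl => by omega⟩
  have hq' : (0 : ℝ) < q := by exact_mod_cast hq
  obtain ⟨C', hC, Hcls⟩ := re_rar_rx_cls η hE q C
  obtain ⟨P0, hP0⟩ := exists_nat_ge |(rndWav η).p0f|
  obtain ⟨Cr, hCr, A0, n1, Ht⟩ := gn_ins_tail_on (rndWav η) 1 hE.gen (rndWav η).Gam (fun _ _ => True)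
    (fun C ε hε => by
      obtain ⟨A, n0, H⟩ := gn_rate_gam (rndWav η) 1 hE.gen C ε hε
      exact ⟨A, n0, fun p E hn hc _ => H p E hn hc⟩) C' (max (C' + 1) (D0 + P0 + 2 * q + 2)) (le_max_left _ _) (1 / q) ε (by positivity) hε
  obtain ⟨m2, h2⟩ := gn_absorb (2 * Cr) 1 one_pos
  refine ⟨Cr, hCr, A0, q * (max n1 m2 + 1), ?_⟩
  rintro A τ p W hA hτ rfl hn h i l h0 hil hlq V U hV hU
  have hli : l ≤ W.q - 1 := by omega
  have hl0 : 0 < l := by omega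
  have hm := re_lr_m_ge W h _ hn
  have hm1 : n1 ≤ W.m := le_trans (le_max_left _ _) hm
  have h2 := h2 W.m (le_trans (le_max_right _ _) hm)
  have hcls := gn_cls_anti (rndWav η) hE.gen.scale hA (Hcls A τ p W rfl h i l h0 hil hlq U hU)
  obtain ⟨c1, c2, c3⟩ := re_rar_tail_cond W h hτ i l h0 hil hli U P0 (max (C' + 1) (D0 + P0 + 2 * W.q + 2)) Cr hP0
    (le_trans (by omega) (le_max_right _ _)) hCr h2
  have key := Ht p (W.rx i l U) (le_trans hm1 (Nat.le_mul_of_pos_left _ hl0)) hcls (W.dp i) (W.ps i).gb (W.stk (i - 1)) [] (W.mid i l) (W.mkR i V)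
      (2 * (W.ps i).be) Finset.univ (re_rar_rx_ins W hE h i l h0 hil hli U V hV) (le_trans (re_lr_gb_le W h i h0 (by omega)) hC)
      c1 c2 c3 (fun _ _ => trivial)
  have e5 : ((l - i : ℕ) : ℝ) * W.m = (((W.rx i l U).kf - W.dp i : ℕ) : ℝ) := by
    rw [re_rar_rx_kf]
    push_cast
    ring
  rw [e5]
  exact re_rar_tail_fin W hE h i l h0 hil hli V U hU D0 (max (C' + 1) (D0 + P0 + 2 * W.q + 2)) (le_trans (by omega) (le_max_right _ _)) _
    (mul_nonneg (gn_two_pos _).le (Real.sqrt_nonneg _)) key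

theorem re_rar_cbrt {G Wt B : ℝ} (hG : 0 ≤ G) (hW : 0 ≤ Wt) (hB : 0 ≤ B) (h : 8 * G ^ 2 * Wt ≤ B ^ 3) :
    2 * (G ^ (2 / 3 : ℝ) * Wt ^ (1 / 3 : ℝ)) ≤ B := by
  have e1 : G ^ (2 / 3 : ℝ) = (G ^ 2) ^ (1 / 3 : ℝ) := by
    rw [← Real.rpow_natCast, ← Real.rpow_mul hG]
    norm_num
  have e2 : (2 : ℝ) = 8 ^ (1 / 3 : ℝ) := by
    rw [show (8 : ℝ) = 2 ^ (3 : ℝ) by norm_num, ← Real.rpow_mul (by norm_num)]
    norm_num
  have e3 : B = (B ^ 3) ^ (1 / 3 : ℝ) := by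
    rw [← Real.rpow_natCast, ← Real.rpow_mul hB]
    norm_num
  calc 2 * (G ^ (2 / 3 : ℝ) * Wt ^ (1 / 3 : ℝ)) = (8 * G ^ 2 * Wt) ^ (1 / 3 : ℝ) := by
        rw [Real.mul_rpow (by positivity) hW, Real.mul_rpow (by norm_num) (by positivity), ← e2, ← e1]
        ring
    _ ≤ (B ^ 3) ^ (1 / 3 : ℝ) := Real.rpow_le_rpow (by positivity) h (by norm_num)
    _ = B := e3.symm

theorem re_rar_sub {a b : ℝ} (ha : 0 ≤ a) (hb : 0 ≤ b) : (a + b) ^ (2 / 3 : ℝ) ≤ a ^ (2 / 3 : ℝ) + b ^ (2 / 3 : ℝ) := by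
  exact Real.rpow_add_le_add_rpow ha hb (by norm_num) (by norm_num)

theorem re_rar_core_arith {e ka Cr R bei bel toti totl Wt aR abi abl ati atl aw c s : ℝ} (he : 0 < e) (hka : 0 < ka) (hCr : 0 ≤ Cr)
    (hR : R = 2 ^ aR) (hbi0 : 0 ≤ bei) (hbi : bei ≤ ka * 2 ^ abi) (hbl : ka * 2 ^ abl ≤ bel) (hti0 : 0 ≤ toti) (hti : toti ≤ e * 2 ^ ati)
    (htl : e * 2 ^ atl ≤ totl) (hW : 0 ≤ Wt) (hw : bel * Wt ≤ e * 2 ^ aw) (hc : 16 * Cr ≤ 2 ^ c)
    (hx : c + 2 * aR + abi + 2 * ati + aw ≤ 3 * s + 3 * atl + abl) :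
    8 * (R * Real.sqrt (Cr * (2 * bei)) * toti) ^ 2 * Wt ≤ (2 ^ s * totl) ^ 3 := by
  have hbl0 : 0 < bel := lt_of_lt_of_le (mul_pos hka (gn_two_pos _)) hbl
  have hsq : Real.sqrt (Cr * (2 * bei)) ^ 2 = Cr * (2 * bei) := Real.sq_sqrt (by positivity)
  refine le_of_mul_le_mul_right ?_ hbl0
  have hR0 : 0 < R := hR ▸ gn_two_pos _
  calc 8 * (R * Real.sqrt (Cr * (2 * bei)) * toti) ^ 2 * Wt * bel
      = (16 * Cr) * R ^ 2 * bei * toti ^ 2 * (bel * Wt) := by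
        rw [mul_pow, mul_pow, hsq]; ring
    _ ≤ 2 ^ c * R ^ 2 * (ka * 2 ^ abi) * (e * 2 ^ ati) ^ 2 * (e * 2 ^ aw) := by
        have p1 := gn_two_pos c
        have p2 := gn_two_pos abi
        have p3 := gn_two_pos ati
        have p4 := gn_two_pos aw
        gcongr
    _ = ka * e ^ 3 * 2 ^ (c + 2 * aR + abi + 2 * ati + aw) := by
        rw [hR, gn_two_add, gn_two_add, gn_two_add, gn_two_add, two_mul aR, two_mul ati, gn_two_add, gn_two_add]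
        ring
    _ ≤ ka * e ^ 3 * 2 ^ (3 * s + 3 * atl + abl) := mul_le_mul_of_nonneg_left (gn_two_mono hx) (by positivity)
    _ = (2 ^ s * (e * 2 ^ atl)) ^ 3 * (ka * 2 ^ abl) := by
        rw [gn_two_add, gn_two_add, show 3 * s = s + s + s by ring, show 3 * atl = atl + atl + atl by ring, gn_two_add, gn_two_add, gn_two_add,
          gn_two_add]
        ring
    _ ≤ (2 ^ s * totl) ^ 3 * bel := by
        have p1 := gn_two_pos s
        have p2 := gn_two_pos atl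
        have p3 := gn_two_pos abl
        have p4 : 0 < totl := lt_of_lt_of_le (mul_pos he p2) htl
        gcongr

theorem re_rar_wt_nonneg (hE : ReEntry η) {hg C A : ℕ} {τ : ℝ} (h : W.Ok hg C A τ) (l : ℕ) (h0 : 0 < l) (hl : l ≤ hg) :
    0 ≤ ∑ u ∈ Finset.range (W.ps l).nL, ((W.ps l).lQ u).wt η :=
  Finset.sum_nonneg fun u hu => ((re_lr_tight W hE h).wt_pos _ _ ((h.sel l h0 hl).lb u (Finset.mem_range.1 hu)).2.1).le

/-- **the exponents cancel** -/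
theorem re_rar_core (hE : ReEntry η) {hg C A : ℕ} {τ : ℝ} (h : W.Ok hg C A τ) (i l : ℕ) (h0 : 0 < i) (hil : i < l) (hl : l ≤ hg) (t ε Cr : ℝ)
    (hτ0 : 0 ≤ τ) (hτ1 : τ ≤ 1) (hτ : τ * (32 * W.q) ≤ t) (hε0 : 0 ≤ ε) (hε : ε * (4 * W.q) ≤ t) (hCr : 1 ≤ Cr)
    (hc : 16 * Cr ≤ 2 ^ (t * W.m)) :
    2 * ((2 ^ (-((1 / 2 - (rndWav η).Gam - ε) * (((l - i : ℕ) : ℝ) * W.m))) * Real.sqrt (Cr * (2 * (W.ps i).be)) * W.rt i fun _ => Set.univ) ^ (2 / 3 : ℝ) *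
      (∑ u ∈ Finset.range (W.ps l).nL, ((W.ps l).lQ u).wt η) ^ (1 / 3 : ℝ)) ≤ 2 ^ (t * W.m) * W.rt l fun _ => Set.univ := by
  have hl0 : 0 < l := by omega
  have he := re_lr_e_pos W h
  have hka : 0 < W.E.ka := (h.cls 0 (Nat.zero_le _)).2.1.ka_pos
  have hW := re_rar_wt_nonneg W hE h l hl0 hl
  obtain ⟨bi1, bi2⟩ := re_rar_be W h hτ1 i h0 (by omega)
  obtain ⟨bl1, bl2⟩ := re_rar_be W h hτ1 l hl0 hl
  have hbi0 : 0 ≤ (W.ps i).be := le_trans (mul_nonneg hka.le (gn_two_pos _).le) bi1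
  have hti := re_at_raw_hi W h i h0 (by omega)
  have htl := h.raw_lo l hl0 hl
  have hw := re_at_cnt W h l hl0 hl
  unfold ReTw.tn at hti htl hw
  rw [mul_assoc, ← gn_two_add] at hti htl hw
  refine re_rar_cbrt (mul_nonneg (mul_nonneg (gn_two_pos _).le (Real.sqrt_nonneg _)) (re_lr_rt_nonneg W _ _)) hW
    (mul_nonneg (gn_two_pos _).le (re_lr_rt_nonneg W _ _)) ?_
  refine re_rar_core_arith he hka (by linarith) rfl hbi0 bi2 bl1 (re_lr_rt_nonneg W _ _) hti htl hW hw hc ?_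
  have hd : (rndWav η).d0f = (rndWav η).Gam + ((rndWav η).p0f - 1) / 2 := rfl
  have hL : ((l - i : ℕ) : ℝ) = (l : ℝ) - i := by rw [Nat.cast_sub hil.le]
  rw [hL, hd]
  have hmR : (0 : ℝ) ≤ W.m := Nat.cast_nonneg _
  have hnR : (0 : ℝ) ≤ W.E.n := Nat.cast_nonneg _
  have hn2 := re_lr_n_le W h
  have hlq : (l : ℝ) - i ≤ W.q := by
    have h1 : (l : ℝ) ≤ W.q := by
      have := h.hg_lt
      exact_mod_cast (by omega : l ≤ W.q)
    have h2 : (0 : ℝ) ≤ i := Nat.cast_nonneg _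
    linarith
  have hli0 : (0 : ℝ) ≤ (l : ℝ) - i := by
    have : (i : ℝ) ≤ l := by exact_mod_cast hil.le
    linarith
  have a1 : 8 * (τ * W.E.n) ≤ t * W.m / 2 := by
    have b1 : τ * W.E.n ≤ τ * (2 * W.q * W.m) := mul_le_mul_of_nonneg_left hn2 hτ0
    have b2 : τ * (32 * W.q) * W.m ≤ t * W.m := mul_le_mul_of_nonneg_right hτ hmR
    nlinarith
  have a2 : 2 * (ε * (((l : ℝ) - i) * W.m)) ≤ t * W.m / 2 := by
    have b1 : ε * (((l : ℝ) - i) * W.m) ≤ ε * (W.q * W.m) := mul_le_mul_of_nonneg_left (mul_le_mul_of_nonneg_right hlq hmR) hε0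
    have b2 : ε * (4 * W.q) * W.m ≤ t * W.m := mul_le_mul_of_nonneg_right hε hmR
    nlinarith
  have a3 : 0 ≤ t * W.m := by
    have : 0 ≤ t := le_trans (by positivity) hτ
    positivity
  nlinarith

theorem re_rar_tot_pos {hg C A : ℕ} {τ : ℝ} (h : W.Ok hg C A τ) (hτ : τ ≤ 1) (l : ℕ) (h0 : 0 < l) (hl : l ≤ hg) :
    0 < W.rt l fun _ => Set.univ :=
  lt_of_lt_of_le (mul_pos (re_lr_e_pos W h) (gn_two_pos _)) (re_lr_tot_lo W h hτ l h0 hl)

/-- the additive error of the tail bound is negligible -/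
theorem re_rar_err2 {hg C A : ℕ} {τ : ℝ} (h : W.Ok hg C A τ) (hτ : τ ≤ 1) (i : ℕ) (h0 : 0 < i) (hi : i ≤ hg) (t N : ℝ) (D0 : ℕ)
    (hD : 3 / 2 * (t + |N| + 1) + |(rndWav η).d0f| * W.q + 2 * W.q ≤ D0) :
    2 ^ (t * W.m) * (2 ^ (-((D0 : ℝ) * W.m)) * W.E.e / W.rt i fun _ => Set.univ) ^ (2 / 3 : ℝ) ≤ 2 ^ (-(N * W.m)) / 2 := by
  have he := re_lr_e_pos W h
  have hpos := re_rar_tot_pos W h hτ i h0 hi
  have h1 : 2 ^ (-((D0 : ℝ) * W.m)) * W.E.e / (W.rt i fun _ => Set.univ) ≤ 2 ^ (-((D0 : ℝ) * W.m) + (|(rndWav η).d0f| * W.q + 2 * W.q) * W.m) := by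
    rw [div_le_iff₀ hpos]
    refine le_trans ?_ (mul_le_mul_of_nonneg_left (re_lr_tot_lo W h hτ i h0 hi) (gn_two_pos _).le)
    rw [mul_comm W.E.e, ← mul_assoc, ← gn_two_add]
    refine mul_le_mul_of_nonneg_right (gn_two_mono ?_) he.le
    linarith
  have h2 := Real.rpow_le_rpow (by positivity) h1 (by norm_num : (0 : ℝ) ≤ 2 / 3)
  rw [gn_two_mul] at h2
  have e2 : (2 : ℝ) ^ (-(N * W.m)) / 2 = 2 ^ (-(N * W.m) - 1) := by
    rw [Real.rpow_sub (by norm_num), Real.rpow_one]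
  rw [e2]
  refine le_trans (mul_le_mul_of_nonneg_left h2 (gn_two_pos _).le) ?_
  rw [← gn_two_add]
  apply gn_two_mono
  have hm : (1 : ℝ) ≤ W.m := by exact_mod_cast h.m_pos
  have h5 : N * W.m ≤ |N| * W.m := mul_le_mul_of_nonneg_right (le_abs_self N) (by linarith)
  have h6 := mul_le_mul_of_nonneg_right hD (by linarith : (0 : ℝ) ≤ W.m)
  nlinarith [abs_nonneg N]

/-- the last step of RAR, real numbers only -/
theorem re_rar_fin_arith {y S1 S2 x d toti totl Rr Wt B Ng : ℝ} (hx : 0 ≤ x) (hd : 0 ≤ d) (hti : 0 < toti) (htl : 0 < totl) (hRr : 0 ≤ Rr)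
    (hB : 0 ≤ B) (hW : 0 ≤ Wt)
    (h1 : y ≤ 2 * S1 + 2 * S2) (h2 : 4 * S2 ≤ Ng * totl) (h3 : S1 ≤ (Rr * (x + d)) ^ (2 / 3 : ℝ) * Wt ^ (1 / 3 : ℝ))
    (h4 : 2 * ((Rr * toti) ^ (2 / 3 : ℝ) * Wt ^ (1 / 3 : ℝ)) ≤ B * totl) (h5 : B * (d / toti) ^ (2 / 3 : ℝ) ≤ Ng / 2) :
    y / totl ≤ B * (x / toti) ^ (2 / 3 : ℝ) + Ng := by
  rw [div_le_iff₀ htl]
  have e1 : Rr * (x + d) = (Rr * toti) * ((x + d) / toti) := by field_simp
  have e2 : (Rr * (x + d)) ^ (2 / 3 : ℝ) = (Rr * toti) ^ (2 / 3 : ℝ) * ((x + d) / toti) ^ (2 / 3 : ℝ) := by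
    rw [e1, Real.mul_rpow (by positivity) (by positivity)]
  have e3 : ((x + d) / toti) ^ (2 / 3 : ℝ) ≤ (x / toti) ^ (2 / 3 : ℝ) + (d / toti) ^ (2 / 3 : ℝ) := by
    rw [add_div]
    exact re_rar_sub (by positivity) (by positivity)
  have z0 : 0 ≤ ((x + d) / toti) ^ (2 / 3 : ℝ) := by positivity
  have a1 : 2 * S1 ≤ B * totl * ((x + d) / toti) ^ (2 / 3 : ℝ) := by
    calc 2 * S1 ≤ 2 * ((Rr * (x + d)) ^ (2 / 3 : ℝ) * Wt ^ (1 / 3 : ℝ)) := by linarith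
      _ = 2 * ((Rr * toti) ^ (2 / 3 : ℝ) * Wt ^ (1 / 3 : ℝ)) * ((x + d) / toti) ^ (2 / 3 : ℝ) := by rw [e2]; ring
      _ ≤ _ := mul_le_mul_of_nonneg_right h4 z0
  have a2 : B * totl * ((x + d) / toti) ^ (2 / 3 : ℝ) ≤ B * totl * ((x / toti) ^ (2 / 3 : ℝ) + (d / toti) ^ (2 / 3 : ℝ)) :=
    mul_le_mul_of_nonneg_left e3 (by positivity)
  have a3 : B * (d / toti) ^ (2 / 3 : ℝ) * totl ≤ Ng / 2 * totl := mul_le_mul_of_nonneg_right h5 htl.le
  nlinarith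

/-- **RAR**   (= `re_f_rar` of `Re/TowC.lean`, with `ReDoc.Rar` unfolded) -/
theorem re_rar_f_rar (η : ℝ) (hη0 : 0 < η) (hη1 : η < 1) (hE : ReEntry η) (q : ℕ) (t N : ℝ) (ht : 0 < t) :
    ∃ τ : ℝ, 0 < τ ∧ ∀ C : ℕ, ∃ A0 n0 : ℕ, ∀ (A : ℕ) (p : RdWvPar) (W : ReTw η p), A0 ≤ A → W.q = q → n0 ≤ W.E.n →
      W.Ok (q - 1) C A τ → ∀ i l, 0 < i → i < l → l < W.doc.q → ∀ (T : W.doc.Row l → Prop) (Sg : W.doc.Row i → Prop),
        (∀ ω ω', T ω' → W.doc.Conn (W.doc.tl t) i l ω ω' → Sg ω) →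
        W.doc.mass l T / W.doc.tot l ≤ W.doc.tl t * (W.doc.mass i Sg / W.doc.tot i) ^ (2 / 3 : ℝ) + W.doc.tl (-N) := by
  rcases Nat.eq_zero_or_pos q with hq | hq
  · refine ⟨1, one_pos, fun C => ⟨0, 0, ?_⟩⟩
    rintro A p W - hWq - - i l - - hl
    change l < W.q at hl
    omega
  have hq' : (0 : ℝ) < q := by exact_mod_cast hq
  refine ⟨min 1 (t / (32 * q)), lt_min one_pos (by positivity), fun C => ?_⟩
  obtain ⟨D0, hD0⟩ := exists_nat_ge (3 / 2 * (t + |N| + 1) + |(rndWav η).d0f| * q + 2 * q)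
  obtain ⟨Cr, hCr, A0, n1, Ht⟩ := re_rar_tail η hE q (t / (4 * q)) (by positivity) C D0
  obtain ⟨n2, hloc⟩ := re_lr_loc η hη0 hη1 hE q t (|N| + 2 + 3 * q + |(rndWav η).d0f| * q) ht C
  obtain ⟨m3, h3⟩ := gn_absorb (16 * Cr) t ht
  refine ⟨A0, max (max n1 n2) (q * (m3 + 1)), ?_⟩
  rintro A p W hA rfl hn h i l h0 hil hlq T Sg hTS
  change l < W.q at hlq
  have hτ1 : min 1 (t / (32 * (W.q : ℝ))) ≤ 1 := min_le_left _ _
  have hτ0 : 0 ≤ min 1 (t / (32 * (W.q : ℝ))) := le_min zero_le_one (by positivity)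
  have hli : l ≤ W.q - 1 := by omega
  have hl0 : 0 < l := by omega
  have hi' : i ≤ W.q - 1 := by omega
  have h3 := h3 W.m (re_lr_m_ge W h m3 (le_trans (le_max_right _ _) hn))
  have hloc := hloc A _ p W rfl (le_trans (le_trans (le_max_right _ _) (le_max_left _ _)) hn) h i l h0 hil hlq
  set Ta : Set (ℕ × ReFc) := {a | ∃ ha : a ∈ W.ats l, T ⟨a, ha⟩} with hTa'
  set Sa : Set (ℕ × ReFc) := {a | ∃ ha : a ∈ W.ats i, Sg ⟨a, ha⟩} with hSa'
  have hTa : Ta ⊆ ↑(W.ats l) := fun a ha => ha.1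
  have Ht := Ht A _ p W hA hτ1 rfl (le_trans (le_trans (le_max_left _ _) (le_max_left _ _)) hn) h i l h0 hil hlq (W.rs i Sa) (W.rs l Ta)
    (re_at_meas_rs W i Sa) (re_at_meas_rs W l Ta)
  rw [re_at_mass W h l hl0 hli T, re_at_mass W h i h0 hi' Sg, re_at_tot W h l hl0 hli, re_at_tot W h i h0 hi']
  set δ : ℝ := 2 ^ (-((|N| + 2 + 3 * W.q + |(rndWav η).d0f| * W.q) * W.m)) * W.E.e with hδ
  have he := re_lr_e_pos W h
  have e2 : W.doc.tl (-N) = 2 ^ (-(N * W.m)) := by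
    unfold ReDoc.tl
    congr 1
    exact neg_mul _ _
  rw [e2]
  refine re_rar_fin_arith (S1 := ∑ J ∈ W.iv l, W.bm i l (W.rs i Sa) J (W.rs l Ta J))
    (S2 := (W.iv l).card * δ) (d := 2 ^ (-((D0 : ℝ) * W.m)) * W.E.e) (re_lr_rt_nonneg W _ _) (mul_nonneg (gn_two_pos _).le he.le)
    (re_rar_tot_pos W h hτ1 i h0 hi') (re_rar_tot_pos W h hτ1 l hl0 hli) (mul_nonneg (gn_two_pos _).le (Real.sqrt_nonneg _)) (gn_two_pos _).le
    (re_rar_wt_nonneg W hE h l hl0 hli) ?_ (re_lr_err W h hτ1 l hl0 hli N) Ht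
    (re_rar_core W hE h i l h0 hil hli t (t / (4 * W.q)) Cr hτ0 hτ1 ?_ (by positivity) ?_ hCr h3) (re_rar_err2 W h hτ1 i h0 hi' t N D0 hD0)
  · have key : ∀ J ∈ W.iv l, W.rm l J (W.rs l Ta J) ≤ 2 * W.bm i l (W.rs i Sa) J (W.rs l Ta J) + 2 * δ := by
      intro J hJ
      have s1 := re_lr_split W hE h i l h0 hil hli hJ Sa (W.rs l Ta J) (re_at_meas_rs W l Ta J)
      have s4 := hloc J hJ (↑(W.ats i) \ Sa) Ta Set.sdiff_subset hTa (by
        intro ω ω' hω hω' _ hc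
        obtain ⟨ha, hT⟩ := hω'
        exact hω.2 ⟨ω.2, hTS ω ω' hT hc⟩)
      linarith
    calc W.rt l (W.rs l Ta) ≤ ∑ J ∈ W.iv l, (2 * W.bm i l (W.rs i Sa) J (W.rs l Ta J) + 2 * δ) := Finset.sum_le_sum key
      _ = _ := by
        rw [Finset.sum_add_distrib, ← Finset.mul_sum, Finset.sum_const, nsmul_eq_mul]
        ring
  · calc min 1 (t / (32 * (W.q : ℝ))) * (32 * W.q) ≤ t / (32 * (W.q : ℝ)) * (32 * W.q) :=
          mul_le_mul_of_nonneg_right (min_le_right _ _) (by positivity)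
      _ = t := by field_simp
  · exact le_of_eq (by field_simp)

end Claimed.Agent.R256
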