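-- KEEP
import Claimed.Agent.R256.Re.TowB
import Claimed.Agent.R256.Re.Tools
import Claimed.Agent.R256.Re.Atom
import Claimed.Agent.R256.Re.Rar

/-!
# Row 256, unit RE, block (I): EXIT of the block RAR + TP (helper272)      (chief helper223)

The ARCHITECT OF THE BLOCK OWNS THIS FILE: keep name + statement; add the imports of your proof files and replace the `sorry`.   Other blocks import this file as a black box.   `Re/TowC.lean` imports all exits.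
-/

set_option autoImplicit false

namespace Claimed.Agent.R256

open MeasureTheory
open scoped BigOperators
open Classical

/-- **RAR** (post BP-256-RE-LOCRAR): lem:rt-laws, rarity transfer.
PLAN.  `Λ := 2^(t m / 3^(q+2))/9`-ish so that `(9Λ)^(3^(q+1)) + 1 ≤ tl t`.   `𝒯` := atoms of `T`, `𝒮` := atoms of `Sg`, `𝒰` := charged atoms of the cut `i` not in `Sg`.   Stage `i`: `1_{S i I} = 1_{S ∩ rs 𝒮} + 1_{S ∩ rs 𝒰} + (null)`.
For `J ∈ iv l`, `I = anc J`:  `pre l J = Φ_J(𝒮) + Φ_J(𝒰)` (`gn_run_add`, `gn_mulR_sum`),  `√(rm l J (rs 𝒯)) ≤ √ms(Φ(𝒮)) + √ms(Φ(𝒰))`.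
(a) `ms (S l J ∩ rs 𝒯) (Φ_J(𝒰)) ≤ (CN Λ^-N' 2^(c1 n))² ‖pre i I‖²` by `re_locs` (stack = stages `i+1 .. l-1`): a connection of rows gives `Conn (tl t)` of the atoms (`re_at_conn`, `Conn` monotone), hence `Sg`.   Sum over `J`: `≤ 2^n e ·` tiny.
(b) `Y` := the prefix of length `l m` with the stack `stk (i-1) ++ [1_{S i ∩ rs 𝒮}] ++ stages i+1..l-1`, labels `u < nL_l`: `(lI u, lQ u, θ_u = 1 on (cell u \ ⋃_{u'<u} cell u') ∩ S l ∩ rs 𝒯)`;  `Σ_u m_u = Σ_J ms(..)(Φ_J(𝒮))` (`re_at_cov`).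
    Hoelder: `Σ m ≤ rd(Y)^(2/3) (Σ w)^(1/3)`;  `re_at_cnt`, `be_lo`;  `gn_tail` for `Y` at the cut `dp i` behind the restricted stage: regularity `Cr 2 be_i` (`hG.rep`, `re_at_reg`), energy `≤ rt i (rs 𝒮)`, package `C' ≥ C` so large that `s^C'` is negligible:
    `rd(Y) ≤ 2^(-(1/2-Γ-ε)(l-i) m) √(2 Cr be_i) (rt i (rs 𝒮) + s^C' e)`;   `2^((Γ-1/2)(l-i) m) E_i √κ_i = E_l √κ_l`.
(c) divide by `tot l ≥ E_l 2^(-τ n)`;  `(x+y)^(2/3) ≤ x^(2/3) + y^(2/3)`. -/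
theorem re_f_rar (η : ℝ) (hη0 : 0 < η) (hη1 : η < 1) (hE : ReEntry η) (hΓ : 0 < (rndWav η).Gam) (q : ℕ) (t N : ℝ) (ht : 0 < t) :
    ∃ τ : ℝ, 0 < τ ∧ ∀ C : ℕ, ∃ A0 n0 : ℕ, ∀ (A : ℕ) (p : RdWvPar) (W : ReTw η p), A0 ≤ A → W.q = q → n0 ≤ W.E.n →
      W.Ok (q - 1) C A τ → W.doc.Rar t N :=
  re_rar_f_rar η hη0 hη1 hE q t N ht

/-- **TP** (post BP-256-RE-LOCRAR).   For `J ∈ iv l`: `𝒫_J` := charged atoms of the cut `i` connected (`Conn (tl t)`) to an atom of `T` over `J`; split the stage `i` as in RAR;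
`ms (..)(Φ_J(𝒫_J)) ≤ ‖1_{S i I ∩ rs 𝒫_J} An pre‖² = rm i I (rs 𝒫_J)` (contractions: `gn_ms_le`, `gn_run_norm_le`, `gn_adj_norm_le`, `gn_mulR_ind_normsq`); the rest by `re_locs`;  `(a+b)² ≤ 2a² + 2b²`, `2 ≤ tl t`.
The sum over `J ∈ image (iv l)`: intervals without atom of `T` contribute nothing. -/
theorem re_f_tp (η : ℝ) (hη0 : 0 < η) (hη1 : η < 1) (hE : ReEntry η) (hΓ : 0 < (rndWav η).Gam) (q : ℕ) (t N : ℝ) (ht : 0 < t) :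
    ∃ τ : ℝ, 0 < τ ∧ ∀ C : ℕ, ∃ A0 n0 : ℕ, ∀ (A : ℕ) (p : RdWvPar) (W : ReTw η p), A0 ≤ A → W.q = q → n0 ≤ W.E.n →
      W.Ok (q - 1) C A τ → W.doc.Tp t N :=
  re_lr_f_tp η hη0 hη1 hE q t N ht

end Claimed.Agent.R256
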