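-- KEEP
import Claimed.Agent.R256.Re.TowB
import Claimed.Agent.R256.Re.XPeel
import Claimed.Agent.R256.Re.Tools
import Claimed.Agent.R256.Re.Atom
import Claimed.Agent.R256.Gen.Lev
import Claimed.Agent.R256.Rt.Wv1

/-!
# Row 256, unit RE, block (I), post SLB (lem:rt-slab-removal, model half), file 1: DEFINITIONS      (architect helper213; prefix `re_sl_`)

NOTATION   `b` = the measuring cut, `Js = q - 2 j` = the cut of the auxiliary peel (`d_{Js} = R_j`), `k = dp Js`, `P` = the peel selection at `k` on the free continuation of `W.Ex b`, `g` = terminal generation (`C + 2`).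
* `W.sgT b T`, `W.stT b T`   the stage `b` restricted to the rows of the set of atoms `T`; the stack `1, .., b-1, (b restricted to T)`
* `W.phT b T I`              the state behind the restricted stage on the interval `I` of the cut `b`
* `W.Yx b P k g T`           the prefix experiment of depth `k`, stack `stT b T`, labels = the successes of `P`, terminal generation `g`
* `W.TailB b T ε Cr g D`     the cube upper bound behind the restricted stage, for ALL experiments with the root of `W.E` and the stack `stT b T`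
* `W.atS b Rm`               the atoms of a predicate on the rows of the document
* `reSlabDir`                directions within `dl` of the slab `|n·(Z,|Z|²) - c| ≤ w`, `Z = (A - Av)/R`, `|Z|² ≤ 2`
-/

set_option autoImplicit false

namespace Claimed.Agent.R256

open MeasureTheory
open scoped BigOperators
open Classical

namespace ReTw

variable {η : ℝ} {p : RdWvPar} (W : ReTw η p)

/-- the stage `b` restricted to the atoms `T` -/
noncomputable def sgT (b : ℕ) (T : Set (ℕ × ReFc)) : Stg (p.sys η) :=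
  reStg η p (W.dp b) (W.ps b).gb fun I => W.S b I ∩ W.rs b T I

/-- the stages `1, .., b - 1` and the restricted stage `b` -/
noncomputable def stT (b : ℕ) (T : Set (ℕ × ReFc)) : List (Stg (p.sys η)) := W.stk (b - 1) ++ [W.sgT b T]

/-- the state behind the restricted stage -/
noncomputable def phT (b : ℕ) (T : Set (ℕ × ReFc)) (I : ℕ) : (p.sys η).Kc :=
  (p.sys η).tz (tmL (W.dp b) I) (W.dp b) (W.ps b).gb ((W.S b I ∩ W.rs b T I).indicator fun _ => 1) (W.pre b I)

/-- the prefix experiment read on the successes of `P` at the generation `g`, stage `b` restricted to `T` -/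
noncomputable def Yx (b : ℕ) (P : RePs) (k g : ℕ) (T : Set (ℕ × ReFc)) : Xp (p.sys η) :=
  W.E.pre (k - W.E.k0) (W.stT b T) g (L' := P.nL) (fun u => P.lI u) (fun u => P.lQ u) (fun u => (P.lR u).indicator fun _ => 1)

/-- the cube upper bound behind the restricted stage -/
def TailB (b : ℕ) (T : Set (ℕ × ReFc)) (ε Cr : ℝ) (g D : ℕ) : Prop :=
  ∀ Z : Xp (p.sys η), Z.Valid → Mdl.SameRoot W.E Z → Z.st = W.stT b T → Z.bT ≤ g → W.dp (b + 1) ≤ Z.kf → Z.kf ≤ W.E.kf →
    Z.rd ≤ 2 ^ (-((1 / 2 - (rndWav η).Gam - ε) * ((Z.kf - W.dp b : ℕ) : ℝ))) * Real.sqrt (Cr * (W.ps b).be) *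
      (W.rt b (W.rs b T) + W.E.s ^ (D : ℝ) * W.E.e)

/-- the atoms of a predicate on the rows of the document -/
def atS (b : ℕ) (Rm : W.doc.Row b → Prop) : Set (ℕ × ReFc) := {a | ∃ ha : a ∈ W.ats b, Rm ⟨a, ha⟩}

end ReTw

/-- directions within `dl` of the slab -/
def reSlabDir (Av : ℝ × ℝ) (R : ℝ) (nn : ℝ × ℝ × ℝ) (c w dl : ℝ) : Set (ℝ × ℝ) :=
  {A | ∃ Z : ℝ × ℝ, rtSq Z ≤ 2 ∧ |nn.1 * Z.1 + nn.2.1 * Z.2 + nn.2.2 * rtSq Z - c| ≤ w ∧ rtSq (A - (Av + R • Z)) ≤ dl ^ 2}

theorem re_sl_defs_eqns_cite : True := by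
  have := @ReTw.sgT.eq_1
  have := @ReTw.stT.eq_1
  have := @ReTw.phT.eq_1
  have := @ReTw.Yx.eq_1
  have := @ReTw.TailB.eq_1
  have := @ReTw.atS.eq_1
  have := @reSlabDir.eq_1
  trivial

end Claimed.Agent.R256
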