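-- KEEP
import Claimed.Agent.R256.Re.SlabDefs

/-!
# Row 256, unit RE, post SLB, file 2: BASIC FACTS on the restricted stage      (architect helper213; prefix `re_sl_`)      every `sorry` = leaf `L-256-SLB-*`

Statements FROZEN; auxiliary lemmas directly above your theorem (prefix `re_sl_aux_`); edit only your block.   `hT : (p.sys η).Tight` is `hE.gen.tight p p.ok`.
-/

set_option autoImplicit false

namespace Claimed.Agent.R256

open MeasureTheory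
open scoped BigOperators
open Classical

variable {η : ℝ} {p : RdWvPar} (W : ReTw η p)

/-! ## B1. the stack -/

/-- **LEAF L-256-SLB-B1** (with the next four).   `List.range_succ`, `List.map_append`; `b - 1 + 1 = b`. -/
theorem re_sl_stk (b : ℕ) (hb : 0 < b) : W.stk b = W.stk (b - 1) ++ [W.sg b] := by
  obtain ⟨c, rfl⟩ : ∃ c, b = c + 1 := ⟨b - 1, by omega⟩
  rw [Nat.add_sub_cancel]
  unfold ReTw.stk
  rw [List.range_succ, List.map_append]
  rfl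

/-- `S ∩ rs univ = S` (`Set.inter_univ`; `rs b univ I = univ`). -/
theorem re_sl_stT_univ (b : ℕ) (hb : 0 < b) : W.stT b Set.univ = W.stk b := by
  rw [re_sl_stk W b hb]
  unfold ReTw.stT
  congr 2
  unfold ReTw.sgT ReTw.sg
  congr 1
  funext I
  have : W.rs b Set.univ I = Set.univ := by
    ext x
    simp [ReTw.rs]
  rw [this, Set.inter_univ]

/-- the depths of the stages `1..b` -/
theorem re_sl_stk_dep (b : ℕ) : ∀ σ ∈ W.stk b, W.E.k0 ≤ σ.k ∧ σ.k ≤ W.dp b := by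
  intro σ hσ
  unfold ReTw.stk at hσ
  rw [List.mem_map] at hσ
  obtain ⟨a, ha, rfl⟩ := hσ
  rw [List.mem_range] at ha
  show W.E.k0 ≤ W.dp (a + 1) ∧ W.dp (a + 1) ≤ W.dp b
  unfold ReTw.dp
  exact ⟨Nat.le_add_right _ _, Nat.add_le_add_left (Nat.mul_le_mul_right _ ha) _⟩

/-- `gn_run_append`, `gn_run_anc` (`re_sl_stk_dep`), `Xp.run` on a singleton; `W.pre b I = run (dp b) I (stk (b-1)) v` by `rfl`. -/
theorem re_sl_at (b : ℕ) (T : Set (ℕ × ReFc)) (k' I' : ℕ) (hk : W.dp b ≤ k') :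
    W.E.at' k' I' (W.stT b T) = W.phT b T (ancI k' (W.dp b) I') := by
  unfold Xp.at' ReTw.stT
  rw [gn_run_append, gn_run_anc hk I' (W.stk (b - 1)) (fun σ hσ => by
    refine ((re_sl_stk_dep W (b - 1) σ hσ).2).trans ?_
    unfold ReTw.dp
    exact Nat.add_le_add_left (Nat.mul_le_mul_right _ (Nat.sub_le _ _)) _)]
  rfl

/-- `Ex 0 = E` for a free base experiment -/
theorem re_sl_Ex0 (h : W.E.st = []) : W.Ex 0 = W.E := by
  have e : W.stk 0 = W.E.st := by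
    rw [h]
    rfl
  unfold ReTw.Ex
  rw [e]
  rfl

/-! ## B2. measurability, energy, regularity, additivity, spectrum of `phT` -/

/-- **LEAF L-256-SLB-B2** (with `re_sl_ph_norm`).   `re_at_meas_S`, `re_at_meas_rs`. -/
theorem re_sl_meas {hg C A : ℕ} {τ : ℝ} (h : W.Ok hg C A τ) (b : ℕ) (h0 : 0 < b) (hb : b ≤ hg) (T : Set (ℕ × ReFc)) (I : ℕ) :
    MeasurableSet (W.S b I ∩ W.rs b T I) := by
  exact (re_at_meas_S W h b h0 hb I).inter (re_at_meas_rs W b T I)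

theorem re_sl_aux_tz_ind (P : PkSys) (hT : P.Tight) (T : ℝ) (k b : ℕ) {S : Set P.X} (hS : MeasurableSet S) (v : P.Kc) :
    ‖P.tz T k b (S.indicator fun _ => 1) v‖ ^ 2 ≤ P.ms T k b S v := by
  have h1 := gn_tz_normsq_le hT T k b (gn_mask_ind hS) v
  have e : (fun x : P.X => (S.indicator (fun _ => (1 : ℝ)) x) ^ 2) = S.indicator (fun _ => (1 : ℝ)) := by
    funext x
    by_cases hx : x ∈ S
    · rw [Set.indicator_of_mem hx]; norm_num
    · rw [Set.indicator_of_notMem hx]; norm_num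
  rw [e] at h1
  exact h1

/-- `gn_tz_normsq_le`, `(1_S)² = 1_S`; `W.rm` unfolds to `ms`. -/
theorem re_sl_ph_norm (hT : (p.sys η).Tight) {hg C A : ℕ} {τ : ℝ} (h : W.Ok hg C A τ) (b : ℕ) (h0 : 0 < b) (hb : b ≤ hg) (T : Set (ℕ × ReFc)) (I : ℕ) :
    ‖W.phT b T I‖ ^ 2 ≤ W.rm b I (W.rs b T I) := by
  exact re_sl_aux_tz_ind (p.sys η) hT (tmL (W.dp b) I) (W.dp b) (W.ps b).gb (re_sl_meas W h b h0 hb T I) (W.pre b I)

/-- **LEAF L-256-SLB-B3.**   The generation of the stage `b` is `≤ C` (`h.cls b`: `GenLe C` of `W.Ex b`, `W.sg b ∈ W.stk b` by `re_sl_stk`). -/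
theorem re_sl_gb_le {hg C A : ℕ} {τ : ℝ} (h : W.Ok hg C A τ) (b : ℕ) (h0 : 0 < b) (hb : b ≤ hg) : (W.ps b).gb ≤ C := by
  have h1 : (W.Ex b).GenLe C := (h.cls b hb).2.2.2.1
  have h2 : W.sg b ∈ (W.Ex b).st := by
    show W.sg b ∈ (List.range b).map fun a => W.sg (a + 1)
    refine List.mem_map.2 ⟨b - 1, List.mem_range.2 (by omega), ?_⟩
    have : b - 1 + 1 = b := by omega
    rw [this]
  exact h1.2.2 _ h2

/-- **LEAF L-256-SLB-B4: plateau and regularity behind the restricted stage.**   `gn_ind_reg (rndWav η) 1 hE.gen C` gives `Cr`;  `κ' = 2 be_b`: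
`ms (cell Q ∩ (S b I ∩ rs T I)) (pre b I) ≤ ms (cell Q ∩ (ps b).S I) (pre b I) ≤ 2 be_b wt Q` (`gn_ms_mono`; `(h.sel b ..).reg`, where `(W.Ex (b-1)).at' (dp b) I (W.Ex (b-1)).st = W.pre b I` by `rfl`);
measurability: `hT.cellM`, `re_sl_meas`, `(ps b).S I` = finite union of the measurable `lR u` (`(h.sel b ..).lb`).   `c = gb_b ≤ C` (`re_sl_gb_le`). -/
theorem re_sl_ph_reg (η : ℝ) (hE : ReEntry η) (C : ℕ) :
    ∃ Cr : ℝ, 1 ≤ Cr ∧ ∀ (p : RdWvPar) (W : ReTw η p) (hg A : ℕ) (τ : ℝ), W.Ok hg C A τ → ∀ b, 0 < b → b ≤ hg → ∀ (T : Set (ℕ × ReFc)), ∀ I ∈ W.iv b,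
      W.phT b T I ∈ (p.sys η).Pl ((W.ps b).gb + 1) ∧
        ∀ b' ≤ C + 1, (p.sys η).Reg (tmL (W.dp b) I) (W.dp b) b' (Cr * (2 * (W.ps b).be)) (W.phT b T I) := by
  obtain ⟨Cr, hCr, H⟩ := gn_ind_reg (rndWav η) 1 hE.gen C
  refine ⟨Cr, hCr, fun p W hg A τ h b h0 hb T I hI => ?_⟩
  have hp : (rndWav η).gd p := (h.cls 0 (Nat.zero_le _)).1
  have hT : (p.sys η).Tight := hE.gen.tight p hp
  have hm := re_sl_meas W h b h0 hb T I
  have hgb := re_sl_gb_le W h b h0 hb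
  have hreg : ∀ Q, (p.sys η).ok Q (W.dp b) →
      (p.sys η).ms (tmL (W.dp b) I) (W.dp b) (W.ps b).gb ((p.sys η).cell Q (tmL (W.dp b) I) (W.dp b) ∩ (W.S b I ∩ W.rs b T I)) (W.pre b I)
        ≤ 2 * (W.ps b).be * (p.sys η).wt Q := by
    intro Q hQ
    have hc := hT.cellM Q (tmL (W.dp b) I) (W.dp b)
    refine (gn_ms_mono _ _ _ (hc.inter hm) (hc.inter (re_at_meas_pS (W.ps b) (h.sel b h0 hb) I)) ?_ _).trans ((h.sel b h0 hb).reg I hI Q hQ)
    exact Set.inter_subset_inter_right _ (fun x hx => hx.1.1)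
  exact ⟨(H p hp _ _ _ 0 _ _ _ hm hgb (Nat.zero_le _) hreg).1, fun b' hb' => (H p hp _ _ _ b' _ _ _ hm hgb hb' hreg).2⟩

theorem re_sl_aux_tz_sum (P : PkSys) (T : ℝ) (k b : ℕ) {ι : Type} (V : Finset ι) (Mk : ι → P.X → ℝ) (hM : ∀ j ∈ V, IsMask (Mk j)) {M : P.X → ℝ} (hM' : IsMask M)
    (hs : ∀ x, ∑ j ∈ V, Mk j x = M x) (v : P.Kc) : P.tz T k b M v = ∑ ν ∈ V, P.tz T k b (Mk ν) v := by
  unfold PkSys.tz
  rw [← map_sum, gn_mulR_sum k V Mk hM hM' hs]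

/-- **LEAF L-256-SLB-B5: additivity in the set of atoms.**   `1_{S ∩ rs (⋃ Tν)} = Σ_ν 1_{S ∩ rs Tν}` pointwise (disjointness), `gn_mulR_sum`, `map_sum` for the adjoint. -/
theorem re_sl_ph_sum {hg C A : ℕ} {τ : ℝ} (h : W.Ok hg C A τ) (b : ℕ) (h0 : 0 < b) (hb : b ≤ hg) {ι : Type} (V : Finset ι) (Tν : ι → Set (ℕ × ReFc))
    (hd : ∀ ν ∈ V, ∀ ν' ∈ V, ν ≠ ν' → Disjoint (Tν ν) (Tν ν')) (I : ℕ) :
    W.phT b (⋃ ν ∈ V, Tν ν) I = ∑ ν ∈ V, W.phT b (Tν ν) I := by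
  unfold ReTw.phT
  refine re_sl_aux_tz_sum (p.sys η) _ _ _ V (fun ν => (W.S b I ∩ W.rs b (Tν ν) I).indicator fun _ => (1 : ℝ))
    (fun ν _ => gn_mask_ind (re_sl_meas W h b h0 hb _ I)) (gn_mask_ind (re_sl_meas W h b h0 hb _ I)) ?_ _
  intro x
  have e : W.S b I ∩ W.rs b (⋃ ν ∈ V, Tν ν) I = ⋃ ν ∈ V, W.S b I ∩ W.rs b (Tν ν) I := by
    ext y
    simp only [ReTw.rs, Set.mem_inter_iff, Set.mem_ofPred_eq, Set.mem_iUnion, exists_prop]
    constructor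
    · rintro ⟨h1, ν, hν, h2⟩
      exact ⟨ν, hν, h1, h2⟩
    · rintro ⟨ν, hν, h1, h2⟩
      exact ⟨h1, ν, hν, h2⟩
  have hpd : (V : Set ι).PairwiseDisjoint fun ν => W.S b I ∩ W.rs b (Tν ν) I := by
    intro ν hν ν' hν' hne
    have := hd ν hν ν' hν' hne
    rw [Function.onFun, Set.disjoint_left]
    intro y hy hy'
    exact Set.disjoint_left.1 this hy.2 hy'.2
  have key := Finset.indicator_biUnion V (fun ν => W.S b I ∩ W.rs b (Tν ν) I) (f := fun _ => (1 : ℝ)) hpd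
  rw [e]
  exact (congrFun key x).symm

/-- **LEAF L-256-SLB-B6: angular spectrum behind the restricted stage.**   `re_spec_syn` with `F = mulR 1_{S ∩ rs T} (An ψ)`; `gn_mulR_coe`: `F x ≠ 0 ⟹ x ∈ rs b T I`. -/
theorem re_sl_ph_spec {hg C A : ℕ} {τ : ℝ} (h : W.Ok hg C A τ) (b : ℕ) (h0 : 0 < b) (hb : b ≤ hg) (T : Set (ℕ × ReFc)) (I : ℕ) (𝒜 : Set (ℝ × ℝ))
    (hA : ∀ y ∈ W.rs b T I, y.1 ∈ 𝒜) : reAngIn (reNb (rdD p.H (W.dp b)) 𝒜) (W.phT b T I) := by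
  have hM : IsMask ((W.S b I ∩ W.rs b T I).indicator fun _ => (1 : ℝ)) := gn_mask_ind (re_sl_meas W h b h0 hb T I)
  unfold ReTw.phT PkSys.tz
  refine re_spec_syn η p _ _ _ 𝒜 _ ?_
  filter_upwards [gn_mulR_coe (P := p.sys η) (W.dp b) hM ((p.sys η).An (tmL (W.dp b) I) (W.dp b) (W.ps b).gb (W.pre b I))] with x hx hne
  by_contra hcon
  apply hne
  have hx' : x ∉ W.S b I ∩ W.rs b T I := fun hmem => hcon (hA x hmem.2)
  have h1 : (W.S b I ∩ W.rs b T I).indicator (fun _ => (1 : ℝ)) x = 0 := Set.indicator_of_notMem hx' _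
  refine hx.trans ?_
  have h2 : (((W.S b I ∩ W.rs b T I).indicator (fun _ => (1 : ℝ)) x : ℝ) : ℂ) = 0 := by rw [h1]; rfl
  exact (congrArg (fun c : ℂ => c • (((p.sys η).An (tmL (W.dp b) I) (W.dp b) (W.ps b).gb (W.pre b I) : (p.sys η).X → (p.sys η).Fb) x)) h2).trans (zero_smul _ _)

/-! ## B3. experiments with the stack `stT b T` -/

/-- **LEAF L-256-SLB-B7: validity of the restricted stack.**   `(h.cls b ..).2.1 : (W.Ex b).Valid`, `re_sl_stk`: only the last mask changes (`gn_mask_ind (re_sl_meas ..)`); fields `st_dep st_mono st_meas st_bd` via `List.mem_append`, `List.pairwise_append`. -/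
theorem re_sl_st_valid {hg C A : ℕ} {τ : ℝ} (h : W.Ok hg C A τ) (b : ℕ) (h0 : 0 < b) (hb : b ≤ hg) (T : Set (ℕ × ReFc)) :
    (W.E.withSt (W.stT b T)).Valid := by
  have hV : (W.Ex b).Valid := (h.cls b hb).2.1
  have hst : (W.Ex b).st = W.stk (b - 1) ++ [W.sg b] := re_sl_stk W b h0
  have hmem1 : ∀ σ ∈ W.stk (b - 1), σ ∈ (W.Ex b).st := fun σ hσ => by rw [hst]; exact List.mem_append_left _ hσ
  have hmem2 : W.sg b ∈ (W.Ex b).st := by rw [hst]; exact List.mem_append_right _ (List.mem_singleton.2 rfl)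
  have hmask : ∀ i, IsMask ((W.sgT b T).M i) := fun i => gn_mask_ind (re_sl_meas W h b h0 hb T i)
  have hcase : ∀ σ ∈ (W.E.withSt (W.stT b T)).st, σ ∈ W.stk (b - 1) ∨ σ = W.sgT b T := by
    intro σ hσ
    rcases List.mem_append.1 hσ with h1 | h1
    · exact Or.inl h1
    · exact Or.inr (List.mem_singleton.1 h1)
  refine
    { e_pos := hV.e_pos, ka_pos := hV.ka_pos, budget := hV.budget, plat := hV.plat, reg := hV.reg,
      st_dep := ?_, st_mono := ?_, st_meas := ?_, st_bd := ?_,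
      iv_in := hV.iv_in, ts_ok := hV.ts_ok, w_pos := hV.w_pos, th_meas := hV.th_meas, th_nn := hV.th_nn, th_supp := hV.th_supp, th_sum := hV.th_sum }
  · intro σ hσ
    rcases hcase σ hσ with h1 | h1
    · exact hV.st_dep σ (hmem1 σ h1)
    · rw [h1]
      exact hV.st_dep (W.sg b) hmem2
  · have hm := hV.st_mono
    rw [hst] at hm
    obtain ⟨m1, -, m3⟩ := List.pairwise_append.1 hm
    refine List.pairwise_append.2 ⟨m1, List.pairwise_singleton _ _, ?_⟩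
    intro a ha c hc
    rw [List.mem_singleton.1 hc]
    exact m3 a ha (W.sg b) (List.mem_singleton.2 rfl)
  · intro σ hσ i
    rcases hcase σ hσ with h1 | h1
    · exact hV.st_meas σ (hmem1 σ h1) i
    · rw [h1]
      exact (hmask i).1
  · intro σ hσ i x
    rcases hcase σ hσ with h1 | h1
    · exact hV.st_bd σ (hmem1 σ h1) i x
    · rw [h1]
      exact (hmask i).2 x

/-- the cut behind the restricted stack -/
theorem re_sl_st_cut (b : ℕ) (T : Set (ℕ × ReFc)) (k : ℕ) (hk : W.dp b ≤ k) (hk' : k ≤ W.E.kf) :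
    (W.E.withSt (W.stT b T)).CutAt k (W.stT b T) [] := by
  have hdp : W.dp (b - 1) ≤ W.dp b := by
    unfold ReTw.dp
    exact Nat.add_le_add_left (Nat.mul_le_mul_right _ (Nat.sub_le _ _)) _
  have hk0 : W.E.k0 ≤ W.dp b := Nat.le_add_right _ _
  refine ⟨(List.append_nil _).symm, ?_, fun σ hσ => absurd hσ (List.not_mem_nil), hk0.trans hk, hk'⟩
  intro σ hσ
  rcases List.mem_append.1 hσ with h1 | h1
  · exact ((re_sl_stk_dep W (b - 1) σ h1).2.trans hdp).trans hk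
  · rw [List.mem_singleton.1 h1]
    exact hk

/-- **LEAF L-256-SLB-B8: validity of `Yx`.**   `gn_pre_valid` for `W.E.withSt (stT b T)` (`re_sl_st_valid`, `re_sl_st_cut`; `(E.withSt st).pre .. = E.pre ..` by `rfl`); the hypotheses from `hP.lb`, `hP.disj`, `hT.wt_pos`;
`Σ_u [lI u = i] 1_{lR u} x ≤ 1`: at most one term is nonzero (`Finset.sum_le_one`-type argument: if `x ∈ lR u ∩ lR u'`, `lI u = lI u' = i` then `u = u'`). -/
theorem re_sl_Yx_valid (hT : (p.sys η).Tight) {hg C A : ℕ} {τ : ℝ} (h : W.Ok hg C A τ) (b : ℕ) (h0 : 0 < b) (hb : b ≤ hg) (P : RePs) (k : ℕ) (ξ : ℝ)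
    (hP : P.Ok (W.Ex b) k ξ) (hk : W.dp b ≤ k) (hk' : k ≤ W.E.kf) (g : ℕ) (T : Set (ℕ × ReFc)) : (W.Yx b P k g T).Valid := by
  have hmask : ∀ u : Fin P.nL, IsMask ((P.lR u).indicator fun _ => (1 : ℝ)) := fun u => gn_mask_ind (hP.lb u u.2).2.2.1
  refine gn_pre_valid (W.E.withSt (W.stT b T)) (re_sl_st_valid W h b h0 hb T) (re_sl_st_cut W b T k hk hk') g (fun u : Fin P.nL => P.lI u) (fun u => P.lQ u)
    (fun u => (P.lR u).indicator fun _ => 1) (fun u => (hP.lb u u.2).1) (fun u => (hP.lb u u.2).2.1) (fun u => hT.wt_pos _ k (hP.lb u u.2).2.1)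
    (fun u => (hmask u).1) (fun u x => ((hmask u).2 x).1) ?_ ?_
  · intro u x hx
    exact (hP.lb u u.2).2.2.2.1 (Set.mem_of_indicator_ne_zero hx)
  · intro i x
    by_cases hex : ∃ u : Fin P.nL, P.lI u = i ∧ x ∈ P.lR u
    · obtain ⟨u, hu1, hu2⟩ := hex
      rw [Finset.sum_eq_single u]
      · rw [if_pos hu1]
        exact ((hmask u).2 x).2
      · intro u' _ hne
        by_cases hi : P.lI u' = i
        · rw [if_pos hi]
          refine Set.indicator_of_notMem ?_ _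
          intro hx'
          have hne' : (u' : ℕ) ≠ (u : ℕ) := fun e => hne (Fin.ext e)
          exact Set.disjoint_left.1 (hP.disj u' u'.2 u u.2 hne' (hi.trans hu1.symm)) hx' hu2
        · rw [if_neg hi]
      · intro hu
        exact absurd (Finset.mem_univ u) hu
    · refine (Finset.sum_eq_zero ?_).le.trans zero_le_one
      intro u _
      by_cases hi : P.lI u = i
      · rw [if_pos hi]
        exact Set.indicator_of_notMem (fun hx' => hex ⟨u, hi, hx'⟩) _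
      · rw [if_neg hi]

/-- **LEAF L-256-SLB-B9: masses of `Yx`.**   `gn_pre_m`, `re_sl_at`; `ms` = `en` of the indicator by `rfl`. -/
theorem re_sl_Yx_m (b : ℕ) (P : RePs) (k g : ℕ) (T : Set (ℕ × ReFc)) (hk : W.dp b ≤ k) (u : Fin P.nL) :
    (W.Yx b P k g T).m u = (p.sys η).ms (tmL k (P.lI u)) k g (P.lR u) (W.phT b T (ancI k (W.dp b) (P.lI u))) ∧
      (W.Yx b P k g T).w u = (P.lQ u).wt η := by
  have hk0 : W.E.k0 ≤ k := le_trans (Nat.le_add_right _ _) hk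
  obtain ⟨h1, h2⟩ := gn_pre_m W.E hk0 (W.stT b T) g (L' := P.nL) (fun u => P.lI u) (fun u => P.lQ u) (fun u => (P.lR u).indicator fun _ => 1) u
  refine ⟨?_, h2⟩
  unfold ReTw.Yx
  rw [h1, re_sl_at W b T k _ hk]
  rfl

/-- **LEAF L-256-SLB-B10: experiments with the restricted stack stay in the class.**   `a0 = 1/(2q)`; `gn_prefix_cls (rndWav η) hE.gen.scale (C+2) a0` gives `C1`;  base: `h.cls 0`, `re_sl_Ex0`, `gn_cls_mono` to `C + 2`;
`Z.st.length = b ≤ C` (`(h.cls b ..)`: `(W.stk b).length ≤ C`, `List.length_map`, `List.length_range`); `GenLe`: `Z.b0 = E.b0`, stages: `re_sl_gb_le` and `GenLe C` of `W.Ex b`;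
`a0 n ≤ Z.n`: `Z.n = Z.kf - k0 ≥ (b+1) m ≥ m`, `n < q (m+1) ≤ 2 q m` (`h.n_hi`, `h.m_pos`). -/
theorem re_sl_cls (η : ℝ) (hE : ReEntry η) (q C : ℕ) :
    ∃ C1 : ℕ, C + 2 ≤ C1 ∧ ∀ (A : ℕ) (p : RdWvPar) (W : ReTw η p) (τ : ℝ), W.q = q → W.Ok (q - 1) C A τ →
      ∀ (b : ℕ) (T : Set (ℕ × ReFc)) (Z : Xp (p.sys η)), 0 < b → b < q → Z.Valid → Mdl.SameRoot W.E Z → Z.st = W.stT b T → Z.bT ≤ C + 2 →
        W.dp (b + 1) ≤ Z.kf → Z.kf ≤ W.E.kf → (rndWav η).Cls C1 A p Z := by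
  have ha : (0 : ℝ) < 1 / (2 * (q : ℝ) + 1) := by positivity
  obtain ⟨C1, hC1, H⟩ := gn_prefix_cls (rndWav η) hE.gen.scale (C + 2) (1 / (2 * (q : ℝ) + 1)) ha
  refine ⟨C1, hC1, fun A p W τ hq h b T Z h0 hbq hZ hR hst hbT hlo hhi => ?_⟩
  have hb : b ≤ q - 1 := by omega
  have hcl := h.cls b hb
  have hstk : (W.Ex b).st = W.stk (b - 1) ++ [W.sg b] := re_sl_stk W b h0
  have hbase : (rndWav η).Cls (C + 2) A p W.E := by
    have h1 := h.cls 0 (Nat.zero_le _)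
    rw [re_sl_Ex0 W h.free] at h1
    exact gn_cls_mono (rndWav η) hE.gen.scale (Nat.le_add_right _ _) h1
  have hlen : Z.st.length ≤ C + 2 := by
    have h1 : (W.Ex b).st.length ≤ C := hcl.2.2.1
    rw [hstk, List.length_append] at h1
    rw [hst]
    show (W.stk (b - 1) ++ [W.sgT b T]).length ≤ C + 2
    rw [List.length_append]
    simp only [List.length_singleton] at h1 ⊢
    omega
  have hgen : Z.GenLe (C + 2) := by
    obtain ⟨g1, -, g3⟩ := hcl.2.2.2.1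
    refine ⟨?_, hbT, ?_⟩
    · rw [hR.2.2.2.2.2]
      exact le_trans g1 (Nat.le_add_right _ _)
    · intro σ hσ
      rw [hst] at hσ
      rcases List.mem_append.1 hσ with h1 | h1
      · exact (g3 σ (by rw [hstk]; exact List.mem_append_left _ h1)).trans (Nat.le_add_right _ _)
      · rw [List.mem_singleton.1 h1]
        exact (g3 (W.sg b) (by rw [hstk]; exact List.mem_append_right _ (List.mem_singleton.2 rfl))).trans (Nat.le_add_right _ _)
  have hk0 : Z.k0 = W.E.k0 := hR.1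
  have hn1 : (b + 1) * W.m ≤ Z.n := by
    unfold ReTw.dp Xp.kf at hlo
    omega
  have hn2 : Z.n ≤ W.E.n := by
    unfold Xp.kf at hhi
    omega
  refine H A p W.E Z hbase hZ hR hlen hgen ?_ hn2
  have hm := h.m_pos
  have hnhi := h.n_hi
  rw [hq] at hnhi
  have hmZ : W.m ≤ Z.n := le_trans (Nat.le_mul_of_pos_left _ (Nat.succ_pos b)) hn1
  have h3 : W.E.n ≤ (2 * q + 1) * Z.n := by
    calc W.E.n ≤ q * (W.m + 1) := hnhi.le
      _ ≤ q * (2 * W.m) := Nat.mul_le_mul_left _ (by omega)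
      _ = 2 * q * W.m := by ring
      _ ≤ (2 * q + 1) * W.m := Nat.mul_le_mul_right _ (by omega)
      _ ≤ (2 * q + 1) * Z.n := Nat.mul_le_mul_left _ hmZ
  have h4 : (W.E.n : ℝ) ≤ (2 * (q : ℝ) + 1) * Z.n := by exact_mod_cast h3
  rw [div_mul_eq_mul_div, one_mul, div_le_iff₀ (by positivity)]
  linarith

/-! ## B4. the peel selection -/

/-- monotonicity in the tolerance   (**LEAF L-256-SLB-B11**: every field; `gn_two_mono`, `X.n ≥ 0`, positivity of `X.ka`, `X.e` is NOT needed: multiply the inequality `2^(..-ξ n) ≤ 2^(..-ξ' n)` by `X.ka`, `X.e` only after a case split on their sign.. simpler: add the hypotheses) -/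
theorem re_sl_ps_mono {P : RePs} {X : Xp (p.sys η)} {k : ℕ} {ξ ξ' : ℝ} (hX : X.Valid) (h : P.Ok X k ξ) (hξ : ξ ≤ ξ') : P.Ok X k ξ' := by
  have hn : (0 : ℝ) ≤ X.n := Nat.cast_nonneg _
  have hm : ξ * X.n ≤ ξ' * X.n := mul_le_mul_of_nonneg_right hξ hn
  have hd : 0 ≤ rdD p.H k := Real.sqrt_nonneg _
  refine { valid := h.valid, gb_le := h.gb_le, plat := h.plat, lb := h.lb, disj := h.disj, reg := h.reg, shape := fun u hu => ?_,
           be_lo := ?_, be_hi := ?_, raw_lo := ?_, raw_hi := ?_, cert := ?_ }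
  · obtain ⟨h1, h2⟩ := h.shape u hu
    exact ⟨h1.trans (mul_le_mul_of_nonneg_right (gn_two_mono hm) hd), (gn_two_mono (by linarith)).trans h2⟩
  · exact (mul_le_mul_of_nonneg_left (gn_two_mono (by linarith)) hX.ka_pos.le).trans h.be_lo
  · exact h.be_hi.trans (mul_le_mul_of_nonneg_left (gn_two_mono (by linarith)) hX.ka_pos.le)
  · exact (mul_le_mul_of_nonneg_left (gn_two_mono (by linarith)) hX.e_pos.le).trans h.raw_lo
  · exact h.raw_hi.trans (mul_le_mul_of_nonneg_left (gn_two_mono (by linarith)) hX.e_pos.le)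
  · exact (gn_two_mono (by nlinarith)).trans h.cert

/-- finite additivity of `ms` over a finset -/
theorem re_sl_aux_ms_bUnion {P : PkSys} (T : ℝ) (k b : ℕ) {ι : Type} (F : Finset ι) (R : ι → Set P.X) (hR : ∀ a ∈ F, MeasurableSet (R a))
    (hd : ∀ a ∈ F, ∀ a' ∈ F, a ≠ a' → Disjoint (R a) (R a')) (v : P.Kc) :
    P.ms T k b (⋃ a ∈ F, R a) v = ∑ a ∈ F, P.ms T k b (R a) v := by
  have hfin := gn_mu_finite (P := P) T k b v
  rw [gn_ms_eq_mu _ _ _ (Finset.measurableSet_biUnion _ hR), measureReal_biUnion_finset (fun a ha a' ha' hne => hd a ha a' ha' hne) hR]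
  exact Finset.sum_congr rfl fun u hu => (gn_ms_eq_mu _ _ _ (hR u hu) v).symm

/-- **LEAF L-256-SLB-B12: the raw mass is the sum of the masses of the successes.**   For `I ∈ ivs`: `P.S I = ⋃_{u < nL, lI u = I} lR u`, disjoint, measurable: `gn_ms_eq_mu`, `measureReal_biUnion_finset`;  then `Finset.sum_fiberwise_of_maps_to` (`lI u ∈ ivs` by `h.lb`). -/
theorem re_sl_raw_eq {P : RePs} {X : Xp (p.sys η)} {k : ℕ} {ξ : ℝ} (h : P.Ok X k ξ) :
    ∑ u ∈ Finset.range P.nL, (p.sys η).ms (tmL k (P.lI u)) k P.gb (P.lR u) (X.at' k (P.lI u) X.st) = P.raw X k := by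
  unfold RePs.raw
  rw [← Finset.sum_fiberwise_of_maps_to (s := Finset.range P.nL) (t := ivs X.k0 X.i0 k) (g := P.lI)
    (fun u hu => (h.lb u (Finset.mem_range.1 hu)).1)]
  refine Finset.sum_congr rfl fun I _ => ?_
  have hS : P.S I = ⋃ u ∈ (Finset.range P.nL).filter (fun u => P.lI u = I), P.lR u := by
    ext x
    simp only [RePs.S, Set.mem_ofPred_eq, Set.mem_iUnion, Finset.mem_filter, Finset.mem_range, exists_prop]
    constructor
    · rintro ⟨u, h1, h2, h3⟩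
      exact ⟨u, ⟨h1, h2⟩, h3⟩
    · rintro ⟨u, ⟨h1, h2⟩, h3⟩
      exact ⟨u, h1, h2, h3⟩
  have hm : ∀ u ∈ (Finset.range P.nL).filter (fun u => P.lI u = I), MeasurableSet (P.lR u) := fun u hu =>
    (h.lb u (Finset.mem_range.1 (Finset.mem_filter.1 hu).1)).2.2.1
  have key := re_sl_aux_ms_bUnion (P := p.sys η) (tmL k I) k P.gb ((Finset.range P.nL).filter (fun u => P.lI u = I)) P.lR hm
    (fun u hu u' hu' hne => h.disj u (Finset.mem_range.1 (Finset.mem_filter.1 hu).1) u' (Finset.mem_range.1 (Finset.mem_filter.1 hu').1) hne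
      ((Finset.mem_filter.1 hu).2.trans (Finset.mem_filter.1 hu').2.symm)) (X.at' k I X.st)
  rw [hS]
  refine Eq.trans ?_ key.symm
  refine Finset.sum_congr rfl fun u hu => ?_
  rw [(Finset.mem_filter.1 hu).2]

/-- **LEAF L-256-SLB-B13: the readout of the full prefix.**   `m_u = ms .. g (lR u) (at')` (`re_sl_Yx_m`, `re_sl_at`, `re_sl_stT_univ`), `= ms .. P.gb ..` by `hT.same` (`hP.plat`, `P.gb ≤ g`; unfold `ms`, `en`);
`be w_u < m_u` (`hP.lb`), `gn_le_tr` (`0 ≤ be`: from `hP.be_lo`, `X.ka > 0`), sum (`Fin.sum_univ_eq_sum_range`), `re_sl_raw_eq`. -/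
theorem re_sl_low (hT : (p.sys η).Tight) {hg C A : ℕ} {τ : ℝ} (h : W.Ok hg C A τ) (b : ℕ) (h0 : 0 < b) (hb : b ≤ hg) (P : RePs) (k : ℕ) (ξ : ℝ)
    (hP : P.Ok (W.Ex b) k ξ) (hk : W.dp b ≤ k) (hk' : k ≤ W.E.kf) (g : ℕ) (hg' : P.gb ≤ g) :
    Real.sqrt P.be * P.raw (W.Ex b) k ≤ (W.Yx b P k g Set.univ).rd := by
  have hV := re_sl_Yx_valid W hT h b h0 hb P k ξ hP hk hk' g Set.univ
  have hbe : 0 ≤ P.be := by
    refine le_trans ?_ hP.be_lo
    have := hP.valid.ka_pos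
    positivity
  have hm : ∀ u : Fin P.nL, (W.Yx b P k g Set.univ).m u
      = (p.sys η).ms (tmL k (P.lI u)) k P.gb (P.lR u) ((W.Ex b).at' k (P.lI u) (W.Ex b).st) := by
    intro u
    rw [(re_sl_Yx_m W b P k g Set.univ hk u).1, ← re_sl_at W b Set.univ k (P.lI u) hk, re_sl_stT_univ W b h0]
    have hpl := hP.plat (P.lI u) (hP.lb u u.2).1
    have hpl' : W.E.at' k (P.lI u) (W.stk b) ∈ (p.sys η).Pl P.gb := hpl
    unfold PkSys.ms PkSys.en
    rw [hT.same _ _ _ _ _ hpl' hg']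
    rfl
  rw [← re_sl_raw_eq hP, gn_rd_eq, Finset.mul_sum,
    ← Fin.sum_univ_eq_sum_range (fun u => Real.sqrt P.be *
      (p.sys η).ms (tmL k (P.lI u)) k P.gb (P.lR u) ((W.Ex b).at' k (P.lI u) (W.Ex b).st)) P.nL]
  refine Finset.sum_le_sum fun u _ => ?_
  have h1 := gn_le_tr (W.Yx b P k g Set.univ) hV u hbe (by
    rw [(re_sl_Yx_m W b P k g Set.univ hk u).2, hm u]
    exact (hP.lb u u.2).2.2.2.2.le)
  rw [hm u] at h1
  exact h1

/-- **LEAF L-256-SLB-B14: splitting the stage `b`.**   `re_split_sub` for `E = W.E.pre (k - k0) (stk (b-1)) g ..` (valid: `gn_pre_valid` as in `re_sl_Yx_valid`, stack `stk (b-1)` = the stack of the valid `W.Ex (b-1)`), `st1 = stk (b-1)`, `st2 = []`, `J = {true, false}`,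
masks `1_{S ∩ rs T}`, `1_{S ∩ rs Tᶜ}`, `M0 = 1_{S ∩ rs univ}`;   `reStg` unfolds to the anonymous constructor by `rfl`. -/
theorem re_sl_split (hT : (p.sys η).Tight) {hg C A : ℕ} {τ : ℝ} (h : W.Ok hg C A τ) (b : ℕ) (h0 : 0 < b) (hb : b ≤ hg) (P : RePs) (k : ℕ) (ξ : ℝ)
    (hP : P.Ok (W.Ex b) k ξ) (hk : W.dp b ≤ k) (hk' : k ≤ W.E.kf) (g : ℕ) (T : Set (ℕ × ReFc)) :
    (W.Yx b P k g Set.univ).rd ^ (1 / 3 : ℝ) ≤ (W.Yx b P k g T).rd ^ (1 / 3 : ℝ) + (W.Yx b P k g Tᶜ).rd ^ (1 / 3 : ℝ) := by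
  have hYv := re_sl_Yx_valid W hT h b h0 hb P k ξ hP hk hk' g T
  obtain ⟨E, hE⟩ : ∃ E : Xp (p.sys η), E = W.E.pre (k - W.E.k0) (W.stk (b - 1)) g (L' := P.nL) (fun u => P.lI u) (fun u => P.lQ u)
      (fun u => (P.lR u).indicator fun _ => 1) := ⟨_, rfl⟩
  have hk0 : W.E.k0 ≤ W.dp b := by
    unfold ReTw.dp
    omega
  have hEv : E.Valid := by
    rw [hE]
    exact
      { e_pos := hYv.e_pos
        ka_pos := hYv.ka_pos
        budget := hYv.budget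
        plat := hYv.plat
        reg := hYv.reg
        st_dep := fun σ hσ => hYv.st_dep σ (List.mem_append_left _ hσ)
        st_mono := (List.pairwise_append.1 hYv.st_mono).1
        st_meas := fun σ hσ => hYv.st_meas σ (List.mem_append_left _ hσ)
        st_bd := fun σ hσ => hYv.st_bd σ (List.mem_append_left _ hσ)
        iv_in := hYv.iv_in
        ts_ok := hYv.ts_ok
        w_pos := hYv.w_pos
        th_meas := hYv.th_meas
        th_nn := hYv.th_nn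
        th_supp := hYv.th_supp
        th_sum := hYv.th_sum }
  have hdp : W.dp (b - 1) ≤ W.dp b := by
    unfold ReTw.dp
    exact Nat.add_le_add_left (Nat.mul_le_mul_right _ (Nat.sub_le _ _)) _
  have hc : E.CutAt (W.dp b) (W.stk (b - 1)) [] := by
    rw [hE]
    refine ⟨(List.append_nil _).symm, fun σ hσ => ((re_sl_stk_dep W (b - 1) σ hσ).2).trans hdp, by simp, hk0, ?_⟩
    show W.dp b ≤ W.E.k0 + (k - W.E.k0)
    omega
  have hsum : ∀ (I : ℕ) (x : RdWvPar.Ph), (W.S b I ∩ W.rs b T I).indicator (fun _ => (1 : ℝ)) x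
      + (W.S b I ∩ W.rs b Tᶜ I).indicator (fun _ => (1 : ℝ)) x = (W.S b I ∩ W.rs b Set.univ I).indicator (fun _ => (1 : ℝ)) x := by
    intro I x
    by_cases hx : x ∈ W.S b I
    · by_cases hxT : (I, W.fc b (RdWvPar.co 0 x)) ∈ T
      · have h1 : x ∈ W.S b I ∩ W.rs b T I := ⟨hx, hxT⟩
        have h2 : x ∉ W.S b I ∩ W.rs b Tᶜ I := fun h => h.2 hxT
        have h3 : x ∈ W.S b I ∩ W.rs b Set.univ I := ⟨hx, Set.mem_univ _⟩
        rw [Set.indicator_of_mem h1, Set.indicator_of_notMem h2, Set.indicator_of_mem h3, add_zero]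
      · have h1 : x ∉ W.S b I ∩ W.rs b T I := fun h => hxT h.2
        have h2 : x ∈ W.S b I ∩ W.rs b Tᶜ I := ⟨hx, hxT⟩
        have h3 : x ∈ W.S b I ∩ W.rs b Set.univ I := ⟨hx, Set.mem_univ _⟩
        rw [Set.indicator_of_notMem h1, Set.indicator_of_mem h2, Set.indicator_of_mem h3, zero_add]
    · have h1 : x ∉ W.S b I ∩ W.rs b T I := fun h => hx h.1
      have h2 : x ∉ W.S b I ∩ W.rs b Tᶜ I := fun h => hx h.1
      have h3 : x ∉ W.S b I ∩ W.rs b Set.univ I := fun h => hx h.1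
      rw [Set.indicator_of_notMem h1, Set.indicator_of_notMem h2, Set.indicator_of_notMem h3, add_zero]
  have key := re_split_sub E hEv (W.dp b) (W.ps b).gb (W.stk (b - 1)) [] hc (Finset.univ : Finset Bool)
    (fun j I => (W.S b I ∩ W.rs b (if j then T else Tᶜ) I).indicator fun _ => (1 : ℝ))
    (fun I => (W.S b I ∩ W.rs b Set.univ I).indicator fun _ => (1 : ℝ))
    (fun j _ I => gn_mask_ind (re_sl_meas W h b h0 hb _ I)) (fun I => gn_mask_ind (re_sl_meas W h b h0 hb _ I))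
    (fun I x => by
      rw [Fintype.sum_bool]
      exact hsum I x)
  rw [Fintype.sum_bool] at key
  subst hE
  exact key

/-! ## B5. masses of sets of atoms -/

/-- **LEAF L-256-SLB-B15** (with the next two).   `re_at_rt_rs`: both sides are sums over `ats b`; `Finset.sum_biUnion`-type: the filters are disjoint; `am ≥ 0` (`gn_ms_nonneg`). -/
theorem re_sl_rt_sum {hg C A : ℕ} {τ : ℝ} (h : W.Ok hg C A τ) (b : ℕ) (h0 : 0 < b) (hb : b ≤ hg) {ι : Type} (V : Finset ι) (Tν : ι → Set (ℕ × ReFc))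
    (hd : ∀ ν ∈ V, ∀ ν' ∈ V, ν ≠ ν' → Disjoint (Tν ν) (Tν ν')) : ∑ ν ∈ V, W.rt b (W.rs b (Tν ν)) ≤ W.rt b fun _ => Set.univ := by
  rw [re_at_rt_univ W h b h0 hb, Finset.sum_congr rfl fun ν _ => re_at_rt_rs W h b h0 hb (Tν ν)]
  have hdis : (V : Set ι).PairwiseDisjoint fun ν => (W.ats b).filter (fun a => a ∈ Tν ν) := by
    intro ν hν ν' hν' hne
    refine Finset.disjoint_left.2 fun a ha ha' => ?_
    exact Set.disjoint_left.1 (hd ν hν ν' hν' hne) (Finset.mem_filter.1 ha).2 (Finset.mem_filter.1 ha').2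
  rw [← Finset.sum_biUnion hdis]
  refine Finset.sum_le_sum_of_subset_of_nonneg ?_ fun a ha _ => (re_at_ats_pos W b a ha).2.le
  intro a ha
  obtain ⟨ν, -, ha'⟩ := Finset.mem_biUnion.1 ha
  exact (Finset.mem_filter.1 ha').1

theorem re_sl_rt_nonneg (b : ℕ) (U : ℕ → Set RdWvPar.Ph) : 0 ≤ W.rt b U := by
  unfold ReTw.rt ReTw.rm
  exact Finset.sum_nonneg fun I _ => gn_ms_nonneg _ _ _ _ _

/-- `re_at_mass`, `re_at_rt_rs`: for `a ∈ ats b`: `a ∉ atS Rm ↔ ¬ Rm ⟨a, _⟩`. -/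
theorem re_sl_rt_compl {hg C A : ℕ} {τ : ℝ} (h : W.Ok hg C A τ) (b : ℕ) (h0 : 0 < b) (hb : b ≤ hg) (Rm : W.doc.Row b → Prop) :
    W.rt b (W.rs b (W.atS b Rm)ᶜ) = W.doc.mass b fun ω => ¬ Rm ω := by
  rw [re_at_mass W h b h0 hb, re_at_rt_rs W h b h0 hb, re_at_rt_rs W h b h0 hb]
  refine Finset.sum_congr ?_ fun _ _ => rfl
  ext a
  simp only [Finset.mem_filter]
  refine and_congr_right fun ha => ?_
  constructor
  · intro hn
    exact ⟨ha, fun hR => hn ⟨ha, hR⟩⟩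
  · rintro ⟨ha', hn⟩ ⟨ha'', hR⟩
    exact hn hR

/-- **LEAF L-256-SLB-B16: the raw energy of a stage at a later cut.**   `raw = Σ_{I' ∈ ivs k'} en (Mk²) (at' k' I' stT) ≤ Σ_{I'} ‖phT b T (anc I')‖²` (`gn_en_le`, `gn_mask_sq`, `re_sl_at`);  fibres of `I' ↦ ancI k' (dp b) I'` over `W.iv b` have `2^(k' - dp b)` elements
(`Finset.sum_fiberwise_of_maps_to`, `gn_mem_ivs`, `gn_anc_anc`, `gn_ivs_card`: the fibre over `I` is `ivs (dp b) I k'`);  `re_sl_ph_norm`. -/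
theorem re_sl_raw_le (hT : (p.sys η).Tight) {hg C A : ℕ} {τ : ℝ} (h : W.Ok hg C A τ) (b : ℕ) (h0 : 0 < b) (hb : b ≤ hg) (T : Set (ℕ × ReFc)) (k' b' : ℕ)
    (hk : W.dp b ≤ k') (Mk : ℕ → RdWvPar.Ph → ℝ) (hM : ∀ i, IsMask (Mk i)) :
    W.E.raw (W.stT b T) ⟨k', b', Mk⟩ ≤ 2 ^ (k' - W.dp b) * W.rt b (W.rs b T) := by
  unfold Xp.raw
  have hk0 : W.E.k0 ≤ W.dp b := by
    unfold ReTw.dp
    omega
  have h1 : ∀ i ∈ ivs W.E.k0 W.E.i0 k', (p.sys η).en (tmL k' i) k' b' (fun x => Mk i x ^ 2) (W.E.at' k' i (W.stT b T))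
      ≤ W.rm b (ancI k' (W.dp b) i) (W.rs b T (ancI k' (W.dp b) i)) := by
    intro i _
    refine (gn_en_le hT _ _ _ (gn_mask_sq (hM i)) _).trans ?_
    rw [re_sl_at W b T k' i hk]
    exact re_sl_ph_norm W hT h b h0 hb T _
  refine (Finset.sum_le_sum h1).trans ?_
  have hmaps : ∀ i ∈ ivs W.E.k0 W.E.i0 k', ancI k' (W.dp b) i ∈ W.iv b := by
    intro i hi
    unfold ReTw.iv
    rw [gn_mem_ivs, gn_anc_anc hk0 hk]
    exact (gn_mem_ivs _ _ _ _).1 hi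
  rw [← Finset.sum_fiberwise_of_maps_to hmaps]
  unfold ReTw.rt
  rw [Finset.mul_sum]
  refine Finset.sum_le_sum fun I _ => ?_
  have h2 : ∑ i ∈ (ivs W.E.k0 W.E.i0 k').filter (fun i => ancI k' (W.dp b) i = I),
      W.rm b (ancI k' (W.dp b) i) (W.rs b T (ancI k' (W.dp b) i))
      = (((ivs W.E.k0 W.E.i0 k').filter (fun i => ancI k' (W.dp b) i = I)).card : ℝ) * W.rm b I (W.rs b T I) := by
    rw [Finset.sum_congr rfl (fun i hi => by rw [(Finset.mem_filter.1 hi).2]), Finset.sum_const, nsmul_eq_mul]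
  rw [h2]
  refine mul_le_mul_of_nonneg_right ?_ (gn_ms_nonneg _ _ _ _ _)
  have h3 : (ivs W.E.k0 W.E.i0 k').filter (fun i => ancI k' (W.dp b) i = I) ⊆ ivs (W.dp b) I k' :=
    fun i hi => (gn_mem_ivs _ _ _ _).2 (Finset.mem_filter.1 hi).2
  have h4 := Finset.card_le_card h3
  rw [gn_ivs_card] at h4
  exact_mod_cast h4

/-! ## B6. scales and polynomial bounds -/

/-- **LEAF L-256-SLB-B17** (with the next two).   `re_at_d_eq` (`q - Js = 2 j`), `Rw j = R0 rdLen (j m)`, `rdLen k = 2^(-k)`. -/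
theorem re_sl_d_eq (j Js : ℕ) (hJ : 2 * j + Js = W.q) : rdD p.H (W.dp Js) = W.Rw j := by
  rw [re_at_d_eq W Js (by omega)]
  unfold ReTw.Rw rdLen
  congr 1
  have e : W.q - Js = 2 * j := by omega
  rw [e, inv_pow, ← Real.rpow_natCast, ← Real.rpow_neg (by norm_num)]
  congr 1
  push_cast
  ring

/-- `H / ℓ_{k - n'} = d_k² 2^(-n')` (`rdD`, `Real.sq_sqrt`, `rdLen (k - n') = rdLen k * 2^n'`). -/
theorem re_sl_H_eq (j Js n' : ℕ) (hJ : 2 * j + Js = W.q) (hn : n' ≤ W.dp Js) :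
    p.H / (rdLen (W.dp Js - n') * W.Rw j ^ 2) = (2 : ℝ)⁻¹ ^ n' ∧ rdD p.H (W.dp Js - n') ^ 2 = W.Rw j ^ 2 * (2 : ℝ)⁻¹ ^ n' := by
  rw [← re_sl_d_eq W j Js hJ]
  have h1 := re_at_hH_eq p.H p.H_pos (W.dp Js)
  have h2 := re_at_hH_eq p.H p.H_pos (W.dp Js - n')
  have h3 : rdLen (W.dp Js) = rdLen (W.dp Js - n') * rdLen n' := by
    rw [← re_at_len_add]
    congr 1
    omega
  have l1 := rdLen_pos (W.dp Js - n')
  have l2 := rdLen_pos n'
  have hd := re_at_hd_pos p.H p.H_pos (W.dp Js)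
  have e : rdLen n' = (2 : ℝ)⁻¹ ^ n' := rfl
  rw [← e]
  constructor
  · rw [div_eq_iff (by positivity)]
    calc p.H = rdLen (W.dp Js) * rdD p.H (W.dp Js) ^ 2 := h1.symm
      _ = _ := by rw [h3]; ring
  · have : rdLen (W.dp Js - n') * rdD p.H (W.dp Js - n') ^ 2 = rdLen (W.dp Js - n') * (rdD p.H (W.dp Js) ^ 2 * rdLen n') := by
      calc rdLen (W.dp Js - n') * rdD p.H (W.dp Js - n') ^ 2 = p.H := h2
        _ = rdLen (W.dp Js) * rdD p.H (W.dp Js) ^ 2 := h1.symm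
        _ = _ := by rw [h3]; ring
    exact mul_left_cancel₀ l1.ne' this

theorem re_sl_d_mono (H : ℝ) (hH : 0 < H) {k k' : ℕ} (h : k ≤ k') : rdD H k ≤ rdD H k' := by
  unfold rdD
  refine Real.sqrt_le_sqrt ?_
  refine div_le_div_of_nonneg_left hH.le (rdLen_pos k') ?_
  unfold rdLen
  exact pow_le_pow_of_le_one (by norm_num) (by norm_num) h

/-- **LEAF L-256-SLB-B18: the setup is polynomial in the aperture.**   `h.cls 0`, `re_sl_Ex0`: `adm` unfolds to `∃ φ, RdSet .. ∧ s^C ≤ H/(ℓ₀ φ.r²) ∧ ..`;   `φ.r² ≤ s^(-C) H/ℓ₀ = s^(-C) d₀²`, `ek_hi : e ≤ s^(-C) κ φ.r⁴ ≤ s^(-3C) κ d₀⁴`, `d₀ ≤ d_k` (`re_sl_d_mono`). -/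
theorem re_sl_poly {hg C A : ℕ} {τ : ℝ} (h : W.Ok hg C A τ) (k : ℕ) (hk : W.E.k0 ≤ k) :
    W.E.e ≤ W.E.s ^ (-(3 * (C : ℝ))) * (W.E.ka * rdD p.H k ^ 4) := by
  have hc := h.cls 0 (Nat.zero_le _)
  rw [re_sl_Ex0 W h.free] at hc
  obtain ⟨_, hv, _, _, φ, hset, hlo, _⟩ := hc
  have hs := gn_s_pos W.E
  have hka := hv.ka_pos
  have hr := hset.r_pos
  have hl := rdLen_pos W.E.k0
  have hd0 := re_at_hd_pos p.H p.H_pos W.E.k0
  have hH := re_at_hH_eq p.H p.H_pos W.E.k0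
  obtain ⟨S, hS⟩ : ∃ S, S = W.E.s ^ (-(C : ℝ)) := ⟨_, rfl⟩
  have hS0 : 0 < S := by rw [hS]; exact Real.rpow_pos_of_pos hs _
  have hSi : W.E.s ^ (C : ℝ) = S⁻¹ := by rw [hS, Real.rpow_neg hs.le, inv_inv]
  have hS3 : W.E.s ^ (-(3 * (C : ℝ))) = S * (S * S) := by
    rw [hS, ← Real.rpow_add hs, ← Real.rpow_add hs]
    congr 1
    ring
  -- `φ.r² ≤ S d₀²`
  have h1 : φ.r ^ 2 ≤ S * rdD p.H W.E.k0 ^ 2 := by
    rw [hSi, le_div_iff₀ (by positivity), ← hH] at hlo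
    have h2 : S⁻¹ * (rdLen W.E.k0 * φ.r ^ 2) = rdLen W.E.k0 * (S⁻¹ * φ.r ^ 2) := by ring
    rw [h2] at hlo
    have h3 := le_of_mul_le_mul_left hlo hl
    rw [inv_mul_le_iff₀ hS0] at h3
    exact h3
  have h4 : φ.r ^ 4 ≤ S * S * rdD p.H W.E.k0 ^ 4 := by
    have := mul_le_mul h1 h1 (by positivity) (by positivity)
    calc φ.r ^ 4 = φ.r ^ 2 * φ.r ^ 2 := by ring
      _ ≤ S * rdD p.H W.E.k0 ^ 2 * (S * rdD p.H W.E.k0 ^ 2) := this
      _ = _ := by ring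
  have h5 : rdD p.H W.E.k0 ^ 4 ≤ rdD p.H k ^ 4 := pow_le_pow_left₀ hd0.le (re_sl_d_mono p.H p.H_pos hk) 4
  have h6 := hset.ek_hi
  rw [← hS] at h6
  rw [hS3]
  calc W.E.e ≤ S * (W.E.ka * φ.r ^ 4) := h6
    _ ≤ S * (W.E.ka * (S * S * rdD p.H k ^ 4)) := by
        refine mul_le_mul_of_nonneg_left (mul_le_mul_of_nonneg_left ?_ hka.le) hS0.le
        exact h4.trans (mul_le_mul_of_nonneg_left h5 (by positivity))
    _ = _ := by ring

/-- **LEAF L-256-SLB-B19: weights of the labels.**   `ok`: `Adm 1` (`f ≤ 1`, `0 < f`, `0 < r`) and `d_k ≤ r f`;   `w = r⁴ f^(1-η) ≥ r⁴ f⁴ = (r f)⁴` (`Real.rpow_le_rpow_of_exponent_ge`, `1 - η ≤ 4`). -/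
theorem re_sl_wt_ge (hη0 : 0 < η) (Q : RdTst) (k : ℕ) (hQ : (p.sys η).ok Q k) : rdD p.H k ^ 4 ≤ Q.wt η := by
  obtain ⟨hadm, hd⟩ := hQ
  have hr : 0 < Q.r := hadm.r_pos
  have hf : 0 < Q.f := hadm.f_pos
  have hf1 : Q.f ≤ 1 := hadm.f_le
  have h0 := re_at_hd_pos p.H p.H_pos k
  have h1 : rdD p.H k ^ 4 ≤ (Q.r * Q.f) ^ 4 := pow_le_pow_left₀ h0.le hd 4
  have h2 : Q.f ^ 4 ≤ Q.f ^ (1 - η) := by
    rw [← Real.rpow_natCast]
    refine Real.rpow_le_rpow_of_exponent_ge hf hf1 ?_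
    push_cast
    linarith
  unfold RdTst.wt
  calc rdD p.H k ^ 4 ≤ (Q.r * Q.f) ^ 4 := h1
    _ = Q.r ^ 4 * Q.f ^ 4 := by ring
    _ ≤ _ := mul_le_mul_of_nonneg_left h2 (by positivity)

/-- **LEAF L-256-SLB-B20: weight count of a peel selection.**   `be w_u < ms (lR u)` (`h.lb`), sum, `re_sl_raw_eq`. -/
theorem re_sl_wt_sum {P : RePs} {X : Xp (p.sys η)} {k : ℕ} {ξ : ℝ} (h : P.Ok X k ξ) :
    P.be * ∑ u ∈ Finset.range P.nL, (P.lQ u).wt η ≤ P.raw X k := by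
  rw [← re_sl_raw_eq h, Finset.mul_sum]
  exact Finset.sum_le_sum fun u hu => ((h.lb u (Finset.mem_range.1 hu)).2.2.2.2).le

end Claimed.Agent.R256
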