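-- KEEP
import Claimed.Agent.R256.Re.SlabDefs

/-!
# Row 256, unit RE, post SLB, file 3: GEOMETRY      (architect helper213; prefix `re_sl_`)      every `sorry` = leaf `L-256-SLB-G*`

PAPER FREE, real algebra only (G1-G3), floors and `ReNear` calculus of `Re/ProfGeo.lean` (G4, G5).   Statements FROZEN; auxiliary lemmas directly above your theorem (prefix `re_sl_aux_`).
`F(Z) = α·Z + β|Z|² - c`, `(α, β) = (nn.1, nn.2.1, nn.2.2)` a unit vector, `disc = |α|² + 4 β c`.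
-/

set_option autoImplicit false

namespace Claimed.Agent.R256

open MeasureTheory
open scoped BigOperators
open Classical

/-- monotonicity of the spectral support -/
theorem re_sl_ang_mono {S S' : Set (ℝ × ℝ)} {G : Lp ℂ 2 (volume : Measure RdWvPar.Mo)} (h : reAngIn S G) (hS : S ⊆ S') : reAngIn S' G := by
  unfold reAngIn at h ⊢
  filter_upwards [h] with z hz h0
  exact hS (hz h0)

/-- **LEAF L-256-SLB-G1: three neighbourhoods.**   `reNb d S`: `rtSq (A - A') ≤ 2 d² ≤ (2 d)²`; triangle inequality `re_aux_sq_add` (`Re/ProfGeo.lean`) twice. -/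
theorem re_sl_nb3 (d1 d2 : ℝ) (h1 : 0 ≤ d1) (h2 : 0 ≤ d2) (S : Set (ℝ × ℝ)) (A : ℝ × ℝ) (hA : A ∈ reNb d2 (reNb d2 (reNb d1 S))) :
    ∃ A0 ∈ S, rtSq (A - A0) ≤ (2 * (d1 + 2 * d2)) ^ 2 := by
  obtain ⟨A1, hA1, q1⟩ := hA
  obtain ⟨A2, hA2, q2⟩ := hA1
  obtain ⟨A0, hA0, q3⟩ := hA2
  refine ⟨A0, hA0, ?_⟩
  have r1 : rtSq (A - A1) ≤ (2 * d2) ^ 2 := by nlinarith [sq_nonneg d2]
  have r2 : rtSq (A1 - A2) ≤ (2 * d2) ^ 2 := by nlinarith [sq_nonneg d2]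
  have r3 : rtSq (A2 - A0) ≤ (2 * d1) ^ 2 := by nlinarith [sq_nonneg d1]
  have s1 := re_aux_sq_add (by positivity) (by positivity) r2 r3
  have s2 := re_aux_sq_add (by positivity) (by positivity) r1 s1
  have e : A - A0 = (A - A1) + ((A1 - A2) + (A2 - A0)) := by abel
  rw [e]
  exact s2.trans (le_of_eq (by ring))

/-- reduction of G2, G3: a point of the triple neighbourhood is within `7 R e` of a point `Av + R Z` of the slab -/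
theorem re_sl_aux_red (Av : ℝ × ℝ) (R e : ℝ) (nn : ℝ × ℝ × ℝ) (c w dl d1 d2 : ℝ) (hR : 0 < R) (he : 0 ≤ e)
    (hdl : 0 ≤ dl) (hdl' : dl ^ 2 ≤ R ^ 2 * e ^ 2) (hd1 : 0 ≤ d1) (hd1' : d1 ^ 2 ≤ R ^ 2 * e ^ 2) (hd2 : 0 ≤ d2)
    (hd2' : d2 ^ 2 ≤ R ^ 2 * e ^ 2) (A : ℝ × ℝ) (hA : A ∈ reNb d2 (reNb d2 (reNb d1 (reSlabDir Av R nn c w dl)))) :
    ∃ Z : ℝ × ℝ, rtSq Z ≤ 2 ∧ |nn.1 * Z.1 + nn.2.1 * Z.2 + nn.2.2 * rtSq Z - c| ≤ w ∧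
      rtSq (A - (Av + R • Z)) ≤ (7 * (R * e)) ^ 2 := by
  obtain ⟨A0, hA0, h0⟩ := re_sl_nb3 d1 d2 hd1 hd2 _ A hA
  obtain ⟨Z, hZ, hF, hd⟩ := hA0
  refine ⟨Z, hZ, hF, ?_⟩
  have hRe : 0 ≤ R * e := by positivity
  have k0 : dl ≤ R * e := (sq_le_sq₀ hdl hRe).1 (by rw [mul_pow]; exact hdl')
  have k1 : d1 ≤ R * e := (sq_le_sq₀ hd1 hRe).1 (by rw [mul_pow]; exact hd1')
  have k2 : d2 ≤ R * e := (sq_le_sq₀ hd2 hRe).1 (by rw [mul_pow]; exact hd2')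
  have h1 := re_aux_sq_add (u := A - A0) (v := A0 - (Av + R • Z)) (by positivity) hdl h0 hd
  rw [sub_add_sub_cancel] at h1
  refine h1.trans ?_
  apply pow_le_pow_left₀ (by positivity)
  linarith

/-- **LEAF L-256-SLB-G2: the transverse case.**   `A = Av + R (Ẑ + ζ)`, `|Ẑ|² ≤ 2`, `|F(Ẑ)| ≤ w ≤ √Δ`, `R |ζ| ≤ dl + 2 (d1 + 2 d2) ≤ 7 R √Δ` (`re_sl_nb3`, `re_aux_sq_add`);
`|Ẑ + ζ| ≤ √2 + 7 ≤ 9`;   `F(Ẑ + ζ) - F(Ẑ) = α·ζ + β (2 Ẑ·ζ + |ζ|²)`, `|·| ≤ |ζ| (1 + 2√2 + |ζ|) ≤ 77 √Δ`  (`|α|, |β| ≤ 1`, Cauchy-Schwarz `rtIp_abs_le`). -/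
theorem re_sl_caseB (Av : ℝ × ℝ) (R Δ : ℝ) (nn : ℝ × ℝ × ℝ) (c w dl d1 d2 Kp : ℝ) (hR : 0 < R) (hΔ : 0 < Δ) (hΔ1 : Δ ≤ 1)
    (hn : nn.1 ^ 2 + nn.2.1 ^ 2 + nn.2.2 ^ 2 = 1) (hw : 0 ≤ w) (hw' : w ^ 2 ≤ Δ) (hdl : 0 ≤ dl) (hdl' : dl ^ 2 ≤ R ^ 2 * Δ)
    (hd1 : 0 ≤ d1) (hd1' : d1 ^ 2 ≤ R ^ 2 * Δ) (hd2 : 0 ≤ d2) (hd2' : d2 ^ 2 ≤ R ^ 2 * Δ) (hKp : 100 ≤ Kp) :
    reNb d2 (reNb d2 (reNb d1 (reSlabDir Av R nn c w dl))) ⊆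
      {A | rtSq (R⁻¹ • (A - Av)) ≤ Kp ^ 2 ∧
        (-c + rtIp (nn.1, nn.2.1) (R⁻¹ • (A - Av)) + nn.2.2 * rtSq (R⁻¹ • (A - Av))) ^ 2 ≤ Kp ^ 2 * Δ} := by
  intro A hA
  obtain ⟨e, he0, he2⟩ : ∃ e : ℝ, 0 ≤ e ∧ e ^ 2 = Δ := ⟨Real.sqrt Δ, Real.sqrt_nonneg _, Real.sq_sqrt hΔ.le⟩
  have he1 : e ≤ 1 := (sq_le_sq₀ he0 zero_le_one).1 (by rw [he2]; simpa using hΔ1)
  have hwe : w ≤ e := (sq_le_sq₀ hw he0).1 (by rw [he2]; exact hw')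
  obtain ⟨Z, hZ, hF, hd⟩ := re_sl_aux_red Av R e nn c w dl d1 d2 hR he0 hdl (by rw [he2]; exact hdl') hd1
    (by rw [he2]; exact hd1') hd2 (by rw [he2]; exact hd2') A hA
  obtain ⟨ζ, hζ⟩ : ∃ ζ : ℝ × ℝ, ζ = R⁻¹ • (A - (Av + R • Z)) := ⟨_, rfl⟩
  have hY : R⁻¹ • (A - Av) = Z + ζ := by
    have h1 : A - (Av + R • Z) = (A - Av) - R • Z := by abel
    rw [hζ, h1, smul_sub R⁻¹ (A - Av) (R • Z), smul_smul, inv_mul_cancel₀ hR.ne', one_smul]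
    abel
  have hζ2 : rtSq ζ ≤ (7 * e) ^ 2 := by
    rw [hζ, re_aux_sq_smul]
    calc (R⁻¹) ^ 2 * rtSq (A - (Av + R • Z)) ≤ (R⁻¹) ^ 2 * (7 * (R * e)) ^ 2 := mul_le_mul_of_nonneg_left hd (sq_nonneg _)
      _ = (7 * e) ^ 2 := by field_simp
  have hZ2 : rtSq Z ≤ (2 : ℝ) ^ 2 := by linarith
  have h7e : 0 ≤ 7 * e := by positivity
  have hα : rtSq (nn.1, nn.2.1) ≤ (1 : ℝ) ^ 2 := by
    simp only [rtSq]
    nlinarith [sq_nonneg nn.2.2]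
  have hβ : |nn.2.2| ≤ 1 := by
    rw [abs_le_one_iff_mul_self_le_one]
    nlinarith [sq_nonneg nn.1, sq_nonneg nn.2.1]
  rw [Set.mem_ofPred_eq, hY]
  constructor
  · have h1 := re_aux_sq_add (by norm_num) h7e hZ2 hζ2
    refine h1.trans ?_
    apply pow_le_pow_left₀ (by positivity)
    linarith
  · have e1 : -c + rtIp (nn.1, nn.2.1) (Z + ζ) + nn.2.2 * rtSq (Z + ζ) =
        (nn.1 * Z.1 + nn.2.1 * Z.2 + nn.2.2 * rtSq Z - c) + rtIp (nn.1, nn.2.1) ζ + nn.2.2 * (2 * rtIp Z ζ + rtSq ζ) := by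
      simp only [rtSq, rtIp, Prod.fst_add, Prod.snd_add]
      ring
    have b1 := rtIp_abs_le zero_le_one h7e hα hζ2
    have b2 := rtIp_abs_le (by norm_num) h7e hZ2 hζ2
    have b3 : |2 * rtIp Z ζ + rtSq ζ| ≤ 77 * e := by
      have h0 := rtSq_nonneg ζ
      have h1 := abs_le.1 b2
      have h2 : (7 * e) ^ 2 ≤ 49 * e := by nlinarith
      rw [abs_le]
      constructor <;> linarith [h1.1, h1.2]
    have b4 : |nn.2.2 * (2 * rtIp Z ζ + rtSq ζ)| ≤ 77 * e := by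
      rw [abs_mul]
      calc |nn.2.2| * |2 * rtIp Z ζ + rtSq ζ| ≤ 1 * (77 * e) := by gcongr
        _ = 77 * e := one_mul _
    have b5 : |-c + rtIp (nn.1, nn.2.1) (Z + ζ) + nn.2.2 * rtSq (Z + ζ)| ≤ 85 * e := by
      rw [e1]
      refine (abs_add_three _ _ _).trans ?_
      linarith
    calc (-c + rtIp (nn.1, nn.2.1) (Z + ζ) + nn.2.2 * rtSq (Z + ζ)) ^ 2 = |-c + rtIp (nn.1, nn.2.1) (Z + ζ) + nn.2.2 * rtSq (Z + ζ)| ^ 2 := (sq_abs _).symm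
      _ ≤ (85 * e) ^ 2 := by gcongr
      _ = 85 ^ 2 * Δ := by rw [mul_pow, he2]
      _ ≤ Kp ^ 2 * Δ := by
        gcongr
        linarith

theorem re_sl_aux_capA (a1 a2 β c w Δ z1 z2 : ℝ) (hΔ : 0 < Δ) (hΔ1 : Δ ≤ 1 / 2) (hn : a1 ^ 2 + a2 ^ 2 + β ^ 2 = 1) (hw : 0 ≤ w) (hw' : w ≤ Δ)
    (hdisc : a1 ^ 2 + a2 ^ 2 + 4 * β * c ≤ Δ) (hZ : z1 ^ 2 + z2 ^ 2 ≤ 2) (hF : |a1 * z1 + a2 * z2 + β * (z1 ^ 2 + z2 ^ 2) - c| ≤ w) :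
    (z1 - -(2 * β)⁻¹ * a1) ^ 2 + (z2 - -(2 * β)⁻¹ * a2) ^ 2 ≤ 2025 * Δ := by
  obtain ⟨hF1, hF2⟩ := abs_le.1 hF
  have hb2 : β ^ 2 ≤ 1 := by linarith [sq_nonneg a1, sq_nonneg a2]
  have hβ1 : |β| ≤ 1 := abs_le.2 (abs_le_of_sq_le_sq' (by rw [one_pow]; exact hb2) zero_le_one)
  -- Cauchy-Schwarz
  have hq0 : 0 ≤ z1 ^ 2 + z2 ^ 2 := by positivity
  have hcs : (a1 * z1 + a2 * z2) ^ 2 ≤ 2 := by
    have h1 : (a1 * z1 + a2 * z2) ^ 2 = (a1 ^ 2 + a2 ^ 2) * (z1 ^ 2 + z2 ^ 2) - (a1 * z2 - a2 * z1) ^ 2 := by ring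
    have h2 : a1 ^ 2 + a2 ^ 2 ≤ 1 := by linarith [sq_nonneg β]
    have h5 : (a1 ^ 2 + a2 ^ 2) * (z1 ^ 2 + z2 ^ 2) ≤ 1 * 2 := mul_le_mul h2 hZ hq0 zero_le_one
    linarith [sq_nonneg (a1 * z2 - a2 * z1)]
  obtain ⟨hip1, hip2⟩ := abs_le_of_sq_le_sq' (a := a1 * z1 + a2 * z2) (b := 3 / 2) (by linarith [show ((3 : ℝ) / 2) ^ 2 = 9 / 4 by norm_num]) (by norm_num)
  have hβq : |β * (z1 ^ 2 + z2 ^ 2)| ≤ 1 * 2 := by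
    rw [abs_mul, abs_of_nonneg hq0]
    exact mul_le_mul hβ1 hZ hq0 zero_le_one
  obtain ⟨hβq1, hβq2⟩ := abs_le.1 hβq
  have hc : |c| ≤ 4 := by
    rw [abs_le]
    constructor <;> linarith
  -- lower bound of |β|
  have hsqabs : β ^ 2 = |β| * |β| := by rw [← sq, sq_abs]
  have hβlo : 1 / 40 ≤ |β| := by
    by_contra hcon
    have hlt : |β| < 1 / 40 := not_le.1 hcon
    have h1 : |β * c| ≤ 1 / 40 * 4 := by
      rw [abs_mul]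
      exact mul_le_mul hlt.le hc (abs_nonneg _) (by norm_num)
    have h2 := (abs_le.1 h1).1
    have h3 : β ^ 2 ≤ 1 / 40 * (1 / 40) := by
      rw [hsqabs]
      exact mul_le_mul hlt.le hlt.le (abs_nonneg _) (by norm_num)
    linarith
  have hβ0 : β ≠ 0 := by
    intro h0
    rw [h0, abs_zero] at hβlo
    norm_num at hβlo
  have hβsq : 1 / 40 * (1 / 40) ≤ β ^ 2 := by
    rw [hsqabs]
    exact mul_le_mul hβlo hβlo (by norm_num) (abs_nonneg _)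
  -- identity
  have hid : β ^ 2 * ((z1 - -(2 * β)⁻¹ * a1) ^ 2 + (z2 - -(2 * β)⁻¹ * a2) ^ 2)
      = β * (a1 * z1 + a2 * z2 + β * (z1 ^ 2 + z2 ^ 2) - c) + (a1 ^ 2 + a2 ^ 2 + 4 * β * c) / 4 := by
    field_simp
    ring
  have hβF : β * (a1 * z1 + a2 * z2 + β * (z1 ^ 2 + z2 ^ 2) - c) ≤ Δ := by
    have h1 : |β * (a1 * z1 + a2 * z2 + β * (z1 ^ 2 + z2 ^ 2) - c)| ≤ 1 * w := by
      rw [abs_mul]
      exact mul_le_mul hβ1 hF (abs_nonneg _) (by norm_num)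
    have := (abs_le.1 h1).2
    linarith
  obtain ⟨X, hX⟩ : ∃ X : ℝ, X = (z1 - -(2 * β)⁻¹ * a1) ^ 2 + (z2 - -(2 * β)⁻¹ * a2) ^ 2 := ⟨_, rfl⟩
  rw [← hX] at hid ⊢
  have hX0 : 0 ≤ X := by rw [hX]; positivity
  have h5 : β ^ 2 * X ≤ 5 / 4 * Δ := by rw [hid]; linarith
  have h6 : 1 / 40 * (1 / 40) * X ≤ β ^ 2 * X := mul_le_mul_of_nonneg_right hβsq hX0
  linarith

/-- **LEAF L-256-SLB-G3: the tiny cap.**   If the slab set is empty take `Ac = 0`.   Otherwise some `|Ẑ|² ≤ 2` has `|F(Ẑ)| ≤ w ≤ 1/2`, so `|c| ≤ √2 + 2 + 1/2 < 9/2`;   `disc = 1 - β² + 4 β c ≤ 1/2` forces `β² + 18 |β| ≥ 1/2`, hence `|β| ≥ 1/40`.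
IDENTITY `β F(Z) = |β Z + α/2|² - disc/4`.   With `Zc = -α/(2β)`: `β² |Ẑ - Zc|² ≤ |β| w + disc/4 ≤ (5/4) Δ`, `|Ẑ - Zc| ≤ 45 √Δ`;   `Ac = Av + R Zc`;   `|A - Ac| ≤ R |Ẑ - Zc| + dl + 2 (d1 + 2 d2) ≤ 52 R √Δ`. -/
theorem re_sl_caseA (Av : ℝ × ℝ) (R Δ : ℝ) (nn : ℝ × ℝ × ℝ) (c w dl d1 d2 Kp : ℝ) (hR : 0 < R) (hΔ : 0 < Δ) (hΔ1 : Δ ≤ 1 / 2)
    (hn : nn.1 ^ 2 + nn.2.1 ^ 2 + nn.2.2 ^ 2 = 1) (hw : 0 ≤ w) (hw' : w ≤ Δ) (hdl : 0 ≤ dl) (hdl' : dl ^ 2 ≤ R ^ 2 * Δ)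
    (hd1 : 0 ≤ d1) (hd1' : d1 ^ 2 ≤ R ^ 2 * Δ) (hd2 : 0 ≤ d2) (hd2' : d2 ^ 2 ≤ R ^ 2 * Δ) (hKp : 100 ≤ Kp)
    (hdisc : nn.1 ^ 2 + nn.2.1 ^ 2 + 4 * nn.2.2 * c ≤ Δ) :
    ∃ Ac : ℝ × ℝ, reNb d2 (reNb d2 (reNb d1 (reSlabDir Av R nn c w dl))) ⊆ {A | rtSq (A - Ac) ≤ (Kp * R) ^ 2 * Δ} := by
  refine ⟨Av + R • ((-(2 * nn.2.2)⁻¹ * nn.1, -(2 * nn.2.2)⁻¹ * nn.2.1) : ℝ × ℝ), fun A hA => ?_⟩
  obtain ⟨A0, hA0, hq⟩ := re_sl_nb3 d1 d2 hd1 hd2 _ A hA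
  obtain ⟨Z, hZ2, hF, hZd⟩ := hA0
  have hcap := re_sl_aux_capA nn.1 nn.2.1 nn.2.2 c w Δ Z.1 Z.2 hΔ hΔ1 hn hw hw' hdisc hZ2 hF
  obtain ⟨s, hs⟩ : ∃ s : ℝ, s = Real.sqrt Δ := ⟨_, rfl⟩
  have hs0 : 0 ≤ s := by rw [hs]; exact Real.sqrt_nonneg _
  have hs2 : s ^ 2 = Δ := by rw [hs]; exact Real.sq_sqrt hΔ.le
  have hRs : 0 ≤ R * s := by positivity
  have hle : ∀ d : ℝ, 0 ≤ d → d ^ 2 ≤ R ^ 2 * Δ → d ≤ R * s := by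
    intro d hd hd'
    refine (pow_le_pow_iff_left₀ hd hRs (two_ne_zero)).1 ?_
    rw [mul_pow, hs2]
    exact hd'
  have k1 := hle d1 hd1 hd1'
  have k2 := hle d2 hd2 hd2'
  have k3 := hle dl hdl hdl'
  set Zc : ℝ × ℝ := (-(2 * nn.2.2)⁻¹ * nn.1, -(2 * nn.2.2)⁻¹ * nn.2.1) with hZc
  have r3 : rtSq (R • (Z - Zc)) ≤ (45 * (R * s)) ^ 2 := by
    rw [re_aux_sq_smul]
    have : rtSq (Z - Zc) ≤ 2025 * Δ := hcap
    have hR2 : 0 ≤ R ^ 2 := by positivity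
    calc R ^ 2 * rtSq (Z - Zc) ≤ R ^ 2 * (2025 * Δ) := mul_le_mul_of_nonneg_left this hR2
      _ = (45 * (R * s)) ^ 2 := by rw [← hs2]; ring
  have s1 := re_aux_sq_add hdl (by positivity) hZd r3
  have s2 := re_aux_sq_add (by positivity) (by positivity) hq s1
  have e : A - (Av + R • Zc) = (A - A0) + ((A0 - (Av + R • Z)) + R • (Z - Zc)) := by
    rw [smul_sub]
    abel
  show rtSq (A - (Av + R • Zc)) ≤ (Kp * R) ^ 2 * Δ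
  rw [e]
  refine s2.trans ?_
  have h1 : 2 * (d1 + 2 * d2) + (dl + 45 * (R * s)) ≤ 52 * (R * s) := by linarith
  have h2 : 52 * (R * s) ≤ Kp * (R * s) := by nlinarith
  calc (2 * (d1 + 2 * d2) + (dl + 45 * (R * s))) ^ 2 ≤ (Kp * (R * s)) ^ 2 := pow_le_pow_left₀ (by positivity) (h1.trans h2) 2
    _ = (Kp * R) ^ 2 * Δ := by rw [← hs2]; ring

variable {η : ℝ} {p : RdWvPar} (W : ReTw η p)

/-- **LEAF L-256-SLB-G4: the directions of the rows of one component.**   `a = (I, fc b (co 0 y)) ∈ T`;  `Â = (fp b a.2).A = reCor2 (R0 δ) y.1` (`δ = rdLen B`), so `0 ≤ y.1 - Â < R0 δ` componentwise (`re_aux_cor`), `rtSq (y.1 - Â) ≤ 2 (R0 δ)²`;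
`Z := W.doc.Zv b j ω = R_j⁻¹ (Â - reCor2 R_j Â) ∈ [0,1)²`;   `W.doc.nm b b j ω = x` gives `reCell2 R_j Â = x.2.1` (`(back b b ω).A = Â`: `re_back_A`), i.e. `reCor2 R_j Â = Av`;   `Av + R_j Z = Â`.
`W.doc.Rw = W.Rw`, `W.doc.pt b ω = W.fp b ω.1.2` by `rfl`;  `0 < R0` (`re_at_R0_pos`). -/
theorem re_sl_dir (b j : ℕ) (x : ReName) (nn : ℝ × ℝ × ℝ) (c w : ℝ) (T : Set (ℕ × ReFc))
    (hT : ∀ a ∈ T, ∃ ha : a ∈ W.ats b, W.doc.nm b b j ⟨a, ha⟩ = x ∧ W.doc.InSlab b j nn c w ⟨a, ha⟩) (I : ℕ) (y : RdWvPar.Ph) (hy : y ∈ W.rs b T I) :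
    y.1 ∈ reSlabDir (W.Rw j * x.2.1.1, W.Rw j * x.2.1.2) (W.Rw j) nn c w (2 * (W.R0 * rdLen W.B)) := by
  obtain ⟨ha, hnm, hsl⟩ := hT _ hy
  obtain ⟨ω, hω⟩ : ∃ ω : W.doc.Row b, ω = ⟨(I, W.fc b (RdWvPar.co 0 y)), ha⟩ := ⟨_, rfl⟩
  rw [← hω] at hnm hsl
  have hR0 := re_at_R0_pos W
  have hε : 0 < W.R0 * rdLen W.B := mul_pos hR0 (rdLen_pos _)
  have hRj : 0 < W.Rw j := mul_pos hR0 (rdLen_pos _)
  obtain ⟨Ah, hAh⟩ : ∃ Ah, Ah = (W.doc.pt b ω).A := ⟨_, rfl⟩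
  have hA1 : Ah.1 = (W.R0 * rdLen W.B) * reCell (W.R0 * rdLen W.B) y.1.1 := by rw [hAh, hω]; rfl
  have hA2 : Ah.2 = (W.R0 * rdLen W.B) * reCell (W.R0 * rdLen W.B) y.1.2 := by rw [hAh, hω]; rfl
  have hZ : W.doc.Zv b j ω = (W.Rw j)⁻¹ • (Ah - reCor2 (W.Rw j) Ah) := by rw [hAh]; rfl
  have hx : x.2.1 = reCell2 (W.Rw j) Ah := by rw [← hnm, hAh]; rfl
  have hx1 : x.2.1.1 = reCell (W.Rw j) Ah.1 := by rw [hx]; rfl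
  have hx2 : x.2.1.2 = reCell (W.Rw j) Ah.2 := by rw [hx]; rfl
  obtain ⟨p1, p2⟩ := re_aux_cor hRj Ah.1
  obtain ⟨q1, q2⟩ := re_aux_cor hRj Ah.2
  obtain ⟨u1, u2⟩ := re_aux_cor hε y.1.1
  obtain ⟨v1, v2⟩ := re_aux_cor hε y.1.2
  have hZ1 : (W.doc.Zv b j ω).1 = (W.Rw j)⁻¹ * (Ah.1 - W.Rw j * reCell (W.Rw j) Ah.1) := by rw [hZ]; rfl
  have hZ2 : (W.doc.Zv b j ω).2 = (W.Rw j)⁻¹ * (Ah.2 - W.Rw j * reCell (W.Rw j) Ah.2) := by rw [hZ]; rfl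
  refine ⟨W.doc.Zv b j ω, ?_, hsl, ?_⟩
  · unfold rtSq
    have z1 : 0 ≤ (W.doc.Zv b j ω).1 := by rw [hZ1]; exact mul_nonneg (inv_nonneg.2 hRj.le) p1
    have z1' : (W.doc.Zv b j ω).1 ≤ 1 := by
      rw [hZ1, inv_mul_le_iff₀ hRj, mul_one]
      exact p2.le
    have z2 : 0 ≤ (W.doc.Zv b j ω).2 := by rw [hZ2]; exact mul_nonneg (inv_nonneg.2 hRj.le) q1
    have z2' : (W.doc.Zv b j ω).2 ≤ 1 := by
      rw [hZ2, inv_mul_le_iff₀ hRj, mul_one]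
      exact q2.le
    nlinarith
  · have e1 : (y.1 - ((W.Rw j * (x.2.1.1 : ℝ), W.Rw j * (x.2.1.2 : ℝ)) + W.Rw j • W.doc.Zv b j ω)).1 = y.1.1 - Ah.1 := by
      show y.1.1 - (W.Rw j * (x.2.1.1 : ℝ) + W.Rw j * (W.doc.Zv b j ω).1) = _
      rw [hZ1, hx1]
      field_simp
      ring
    have e2 : (y.1 - ((W.Rw j * (x.2.1.1 : ℝ), W.Rw j * (x.2.1.2 : ℝ)) + W.Rw j • W.doc.Zv b j ω)).2 = y.1.2 - Ah.2 := by
      show y.1.2 - (W.Rw j * (x.2.1.2 : ℝ) + W.Rw j * (W.doc.Zv b j ω).2) = _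
      rw [hZ2, hx2]
      field_simp
      ring
    unfold rtSq
    rw [e1, e2, hA1, hA2]
    nlinarith

/-- `reCn` as `ReNear` at the later time -/
theorem re_sl_aux_cnt_cn {H Λ T T' R : ℝ} {k k' : ℕ} (hH : 0 < H) (hΛ : 1 ≤ Λ) (hd' : rdD H k' ≤ R) (hd : rdD H k ≤ R) {x x' : RtRow}
    (h : reCn H Λ T k T' k' x x') : ReNear Λ (rdLen k) R (x.flow (T' - T)) x' := by
  obtain ⟨h1, h2, h3⟩ := h
  have hΛ0 : 0 < Λ := lt_of_lt_of_le zero_lt_one hΛ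
  have hl := rdLen_pos k
  have d0 := re_at_d_pos H hH k
  have d0' := re_at_d_pos H hH k'
  refine ⟨?_, ?_, ?_⟩
  · refine h1.trans (pow_le_pow_left₀ (by positivity) ?_ 2)
    exact mul_le_mul_of_nonneg_left hd' hΛ0.le
  · rw [re_at_q_eq H hH k] at h2
    refine h2.trans (pow_le_pow_left₀ (by positivity) ?_ 2)
    rw [mul_assoc]
    exact mul_le_mul_of_nonneg_left (mul_le_mul_of_nonneg_left hd hl.le) hΛ0.le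
  · refine h3.trans ?_
    rw [← re_at_H_eq H hH k]
    have a1 : rdD H k ^ 2 ≤ R ^ 2 := pow_le_pow_left₀ d0.le hd 2
    have a2 : Λ ≤ Λ ^ 2 := by nlinarith
    calc Λ * (rdLen k * rdD H k ^ 2) ≤ Λ ^ 2 * (rdLen k * R ^ 2) :=
          mul_le_mul a2 (mul_le_mul_of_nonneg_left a1 hl.le) (by positivity) (by positivity)
      _ = _ := by ring

/-- a row and the representative of its fine cell are `ReNear 1` at every width `R_j`, `j ≤ q` -/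
theorem re_sl_aux_cnt_rep {η : ℝ} {p : RdWvPar} (W : ReTw η p) {hg C A : ℕ} {τ : ℝ} (h : W.Ok hg C A τ) (b j : ℕ) (hj : j ≤ W.q) (x : RtRow) :
    ReNear 1 (rdLen (W.dp b)) (W.Rw j) x (W.fp b (W.fc b x)) := by
  obtain ⟨a1, a2, b1, b2, y1⟩ := re_at_rep W b x
  obtain ⟨xh, hxh⟩ : ∃ xh, xh = W.fp b (W.fc b x) := ⟨_, rfl⟩
  rw [← hxh] at a1 a2 b1 b2 y1 ⊢
  have hR := re_at_R0_pos W
  have hl := rdLen_pos (W.dp b)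
  obtain ⟨l, hl'⟩ : ∃ l, l = rdLen (W.dp b) := ⟨_, rfl⟩
  rw [← hl'] at b1 b2 y1 hl ⊢
  have hδ0 := rdLen_pos W.B
  have hρ0 := rdLen_pos (j * W.m)
  have hρ1 := re_aux_rdLen_le_one (j * W.m)
  have hδ : 8 * rdLen W.B ≤ rdLen (j * W.m) ^ 2 := by
    have h1 : 3 + 2 * (j * W.m) ≤ W.B := by
      refine le_trans ?_ h.B_ge
      have : j * W.m ≤ W.q * W.m := Nat.mul_le_mul_right _ hj
      nlinarith
    have h2 : rdLen W.B ≤ rdLen (3 + 2 * (j * W.m)) := by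
      unfold rdLen
      exact pow_le_pow_of_le_one (by norm_num) (by norm_num) h1
    have h3 : rdLen (3 + 2 * (j * W.m)) = (1 / 8) * rdLen (j * W.m) ^ 2 := by
      unfold rdLen
      rw [pow_add, pow_mul']
      norm_num
    rw [h3] at h2
    linarith
  unfold ReTw.Rw
  obtain ⟨δ, hδ'⟩ : ∃ δ, δ = rdLen W.B := ⟨_, rfl⟩
  obtain ⟨ρ, hρ'⟩ : ∃ ρ, ρ = rdLen (j * W.m) := ⟨_, rfl⟩
  obtain ⟨R0, hR0⟩ : ∃ R0, R0 = W.R0 := ⟨_, rfl⟩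
  rw [← hδ', ← hR0] at a1 a2 b1 b2 y1
  rw [← hδ'] at hδ0 hδ
  rw [← hρ'] at hρ0 hρ1 hδ ⊢
  rw [← hR0] at hR ⊢
  have hδρ : 8 * δ ≤ ρ := by nlinarith
  have hw : 2 * (R0 * δ) ≤ R0 * ρ := by nlinarith
  have hw0 : 0 < R0 * δ := by positivity
  refine ⟨?_, ?_, ?_⟩
  · unfold rtSq
    have c1 : (xh.A - x.A).1 ^ 2 ≤ (R0 * δ) ^ 2 := by
      rw [← sq_abs]; refine pow_le_pow_left₀ (abs_nonneg _) ?_ 2
      rw [Prod.fst_sub, abs_sub_comm]; exact a1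
    have c2 : (xh.A - x.A).2 ^ 2 ≤ (R0 * δ) ^ 2 := by
      rw [← sq_abs]; refine pow_le_pow_left₀ (abs_nonneg _) ?_ 2
      rw [Prod.snd_sub, abs_sub_comm]; exact a2
    have c3 : (2 * (R0 * δ)) ^ 2 ≤ (R0 * ρ) ^ 2 := pow_le_pow_left₀ (by positivity) hw 2
    nlinarith
  · unfold rtSq
    have c1 : (xh.b - x.b).1 ^ 2 ≤ (l * R0 * δ) ^ 2 := by
      rw [← sq_abs]; refine pow_le_pow_left₀ (abs_nonneg _) ?_ 2
      rw [Prod.fst_sub, abs_sub_comm]; exact b1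
    have c2 : (xh.b - x.b).2 ^ 2 ≤ (l * R0 * δ) ^ 2 := by
      rw [← sq_abs]; refine pow_le_pow_left₀ (abs_nonneg _) ?_ 2
      rw [Prod.snd_sub, abs_sub_comm]; exact b2
    have c3 : (2 * (l * R0 * δ)) ^ 2 ≤ (1 * l * (R0 * ρ)) ^ 2 := by
      refine pow_le_pow_left₀ (by positivity) ?_ 2
      calc 2 * (l * R0 * δ) = l * (2 * (R0 * δ)) := by ring
        _ ≤ l * (R0 * ρ) := mul_le_mul_of_nonneg_left hw hl.le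
        _ = _ := by ring
    nlinarith
  · have e : xh.y - x.y - 2 * rtIp x.A (xh.b - x.b)
        = -((x.y - 2 * rtIp xh.A x.b) - (xh.y - 2 * rtIp xh.A xh.b))
          + 2 * ((x.A.1 - xh.A.1) * (x.b.1 - xh.b.1) + (x.A.2 - xh.A.2) * (x.b.2 - xh.b.2)) := by
      unfold rtIp
      simp only [Prod.fst_sub, Prod.snd_sub]
      ring
    rw [e]
    have m1 := re_at_abs_mul a1 b1
    have m2 := re_at_abs_mul a2 b2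
    have t1 : |-((x.y - 2 * rtIp xh.A x.b) - (xh.y - 2 * rtIp xh.A xh.b))
          + 2 * ((x.A.1 - xh.A.1) * (x.b.1 - xh.b.1) + (x.A.2 - xh.A.2) * (x.b.2 - xh.b.2))|
        ≤ l * R0 ^ 2 * δ + 2 * (R0 * δ * (l * R0 * δ) + R0 * δ * (l * R0 * δ)) := by
      refine (abs_add_le _ _).trans (add_le_add (by rw [abs_neg]; exact y1) ?_)
      rw [abs_mul, abs_two]
      exact mul_le_mul_of_nonneg_left ((abs_add_le _ _).trans (add_le_add m1 m2)) (by norm_num)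
    refine t1.trans ?_
    have hδ1 : δ ≤ 1 := by nlinarith
    have k1 : δ + 4 * δ ^ 2 ≤ ρ ^ 2 := by nlinarith
    have k2 : 0 < l * R0 ^ 2 := by positivity
    calc l * R0 ^ 2 * δ + 2 * (R0 * δ * (l * R0 * δ) + R0 * δ * (l * R0 * δ)) = l * R0 ^ 2 * (δ + 4 * δ ^ 2) := by ring
      _ ≤ l * R0 ^ 2 * ρ ^ 2 := mul_le_mul_of_nonneg_left k1 k2.le
      _ = _ := by ring

/-- one name of the pair -/
theorem re_sl_aux_cnt_one {η : ℝ} {p : RdWvPar} (W : ReTw η p) {hg C A : ℕ} {τ : ℝ} (h : W.Ok hg C A τ)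
    (i j b Js : ℕ) (hib : i ≤ b) (hbJ : b ≤ Js) (hq : 2 * j + Js = W.q) (Λ : ℝ) (hΛ : 1 ≤ Λ) (Q : RdTst) (hQ : (p.sys η).ok Q (W.dp Js))
    (hr : Q.r ≤ Λ * W.Rw j) (I' : ℕ) :
    ∃ L : Finset ReName, (L.card : ℝ) ≤ 2 ^ 15 * (18 * Λ) ^ 6 ∧ ∀ x x' : RtRow, x' ∈ Q.rows (W.dp Js) →
      reCn p.H Λ (tmL (W.dp b) (ancI (W.dp Js) (W.dp b) I')) (W.dp b) (tmL (W.dp Js) I') (W.dp Js) x x' →
      W.nmT b i j (ancI (W.dp Js) (W.dp b) I', W.fc b x) ∈ L := by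
  have hH := p.H_pos
  have hΛ0 : 0 < Λ := lt_of_lt_of_le zero_lt_one hΛ
  have hR : 0 < W.Rw j := re_Rw_pos W.doc hH j
  have hdk : rdD p.H (W.dp Js) = W.Rw j := re_rdD_eq W.doc hH hq
  have hdb : rdD p.H (W.dp b) ≤ W.Rw j := by rw [← hdk]; exact re_rdD_mono W.doc hH hbJ
  have hkb : W.dp b ≤ W.dp Js := by
    unfold ReTw.dp
    exact Nat.add_le_add_left (Nat.mul_le_mul_right _ hbJ) _
  have hki : W.dp i ≤ W.dp b := by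
    unfold ReTw.dp
    exact Nat.add_le_add_left (Nat.mul_le_mul_right _ hib) _
  have hlkb : rdLen (W.dp Js) ≤ rdLen (W.dp b) := by
    unfold rdLen
    exact pow_le_pow_of_le_one (by norm_num) (by norm_num) hkb
  have hlbi : rdLen (W.dp b) ≤ rdLen (W.dp i) := by
    unfold rdLen
    exact pow_le_pow_of_le_one (by norm_num) (by norm_num) hki
  have hlk := rdLen_pos (W.dp Js)
  have hlb := rdLen_pos (W.dp b)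
  have hli := rdLen_pos (W.dp i)
  obtain ⟨-, t0, t1⟩ := gn_cutle_anc hkb I'
  obtain ⟨I, hI⟩ : ∃ I, I = ancI (W.dp Js) (W.dp b) I' := ⟨_, rfl⟩
  rw [← hI] at t0 t1 ⊢
  obtain ⟨-, s0, s1⟩ := gn_cutle_anc hki I
  obtain ⟨t, ht⟩ : ∃ t, t = tmL (W.dp Js) I' - tmL (W.dp b) I := ⟨_, rfl⟩
  obtain ⟨s, hs⟩ : ∃ s, s = tmL (W.dp i) (ancI (W.dp b) (W.dp i) I) - tmL (W.dp b) I := ⟨_, rfl⟩
  have htl : |-t| ≤ rdLen (W.dp b) := by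
    rw [abs_neg, abs_le, ht]
    unfold rdLen
    constructor <;> linarith
  have hsl : |s| ≤ rdLen (W.dp i) := by
    rw [abs_le, hs]
    unfold rdLen
    constructor <;> linarith
  obtain ⟨Lst, hcard, hmem⟩ := re_list (Λ := 18 * Λ) (l := rdLen (W.dp i)) (R := W.Rw j) (R1 := W.Rw j) (R2 := W.Rw j) (δ := W.Rw j) (n := 0)
    (by linarith) hli hR le_rfl le_rfl le_rfl (by simp)
  refine ⟨(Lst (reGn (rdLen (W.dp i)) (W.Rw j) (W.Rw j) (W.Rw j) (((⟨Q.As, Q.bs, Q.ys⟩ : RtRow).flow (-t)).flow s))).image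
    (fun y => (ancI (W.dp b) (W.dp i) I, y)), ?_, ?_⟩
  · exact le_trans (by exact_mod_cast Finset.card_image_le) (hcard _)
  · intro x x' hx' hc
    have hbox : x' ∈ (Q.toT (W.dp Js)).box 2 := by
      obtain ⟨⟨c1, c2, c3⟩, -⟩ := hx'
      exact ⟨c1.trans (by norm_num), c2.trans (by norm_num), c3.trans (by norm_num)⟩
    have N1 : ReNear (2 * Λ) (rdLen (W.dp Js)) (W.Rw j) ⟨Q.As, Q.bs, Q.ys⟩ x' :=
      re_g3_near hΛ hlk hR (Q.toT (W.dp Js)) rfl hQ.1.r_pos hr hbox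
    have N1' : ReNear (2 * Λ) (rdLen (W.dp b)) (W.Rw j) ⟨Q.As, Q.bs, Q.ys⟩ x' :=
      re_near_mono N1 (by positivity) hlk.le hR.le le_rfl hlkb le_rfl
    have N2 : ReNear Λ (rdLen (W.dp b)) (W.Rw j) (x.flow t) x' := by
      rw [ht]
      exact re_sl_aux_cnt_cn hH hΛ hdk.le hdb hc
    have N2' := re_near_symm N2 hΛ0.le hlb.le hR.le
    have N3 := re_near_trans N1' N2' (by positivity) (by positivity) hlb.le hR.le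
    have N4 := re_near_flow (s := -t) N3 (by positivity) hlb.le hR.le le_rfl htl
    rw [re_aux_flow_flow x, add_neg_cancel, re_aux_flow_zero] at N4
    have N5 := re_sl_aux_cnt_rep W h b j (by omega) x
    have N6 := re_near_trans N4 N5 (by positivity) (by norm_num) hlb.le hR.le
    have N7 := re_near_flow (s := s) N6 (by positivity) hlb.le hR.le hlbi hsl
    have N8 : ReNear (18 * Λ) (rdLen (W.dp i)) (W.Rw j) (((⟨Q.As, Q.bs, Q.ys⟩ : RtRow).flow (-t)).flow s) ((W.fp b (W.fc b x)).flow s) :=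
      re_near_mono N7 (by positivity) hli.le hR.le (by linarith) le_rfl le_rfl
    rw [Finset.mem_image]
    refine ⟨_, hmem _ _ N8, ?_⟩
    rw [re_g3_Gn, hs]
    rfl

/-- **LEAF L-256-SLB-G5: a label of the auxiliary peel is connected to few name pairs.**   `cG` ABSOLUTE.   `k = dp Js`, `d_k = R_j` (`2 j + Js = q`), `I = ancI k (dp b) I'`, `t = T_{I'} - T_I ∈ [0, ℓ_b]` (`gn_cutle_anc`).
1. `x' ∈ Q.rows k ⊆ box 1`, `r ≤ Λ R_j`:  `ReNear Λ ℓ_k R_j c_Q x'`, `c_Q = ⟨As, bs, ys⟩`.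
2. `reCn H Λ ..`:  `ReNear Λ ℓ_b R_j (x.flow t) x'`   (`d_k = R_j`;  `q_b = ℓ_b d_b ≤ ℓ_b R_j`;  `H = ℓ_b d_b² ≤ ℓ_b R_j²`;  `Λ ≤ Λ²`).
3. `re_near_mono`, `re_near_symm`, `re_near_trans`, `re_near_flow` (time `-t`):  `ReNear (c Λ) ℓ_b R_j (c_Q.flow (-t)) x`.
4. `x̂ = fp b (fc b x)`:  `ReNear 1 ℓ_b R_j x x̂`  (fine widths `R0 δ ≤ R_j`: `B ≥ 16 (q+1)(m+1) ≥ j m + 2`;  `ŷ - y - 2A·(b̂ - b) = (ỹ^ - ỹ) + 2 (Â - A)·(b̂ - b)`, `ỹ = y - 2Â·b`).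
5. `re_list` (`R = R1 = R2 = δ = R_j`, `n = 0`; `reNm l R = reGn l R R R` by `rfl`) at `(ℓ_b, x̂)` and, after `re_near_flow` over `T_i - T_b` (`|·| ≤ ℓ_i`), at `(ℓ_i, x̂.flow ..)`:  two lists of size `≤ 2^15 (c' Λ)^6` depending only on `c_Q, t`;  `Lst` := product, with the interval indices `ancI .. I'`. -/
theorem re_sl_cnt : ∃ cG : ℝ, 1 ≤ cG ∧ ∀ (η : ℝ) (p : RdWvPar) (W : ReTw η p) (hg C A : ℕ) (τ : ℝ), W.Ok hg C A τ →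
    ∀ (i j b Js : ℕ), i ≤ b → b ≤ Js → 2 * j + Js = W.q → ∀ (Λ : ℝ), 1 ≤ Λ → ∀ (Q : RdTst), (p.sys η).ok Q (W.dp Js) → Q.r ≤ Λ * W.Rw j → ∀ I' : ℕ,
      ∃ Lst : Finset (ReName × ReName), (Lst.card : ℝ) ≤ cG * Λ ^ 12 ∧ ∀ x x' : RtRow, x' ∈ Q.rows (W.dp Js) →
        reCn p.H Λ (tmL (W.dp b) (ancI (W.dp Js) (W.dp b) I')) (W.dp b) (tmL (W.dp Js) I') (W.dp Js) x x' →
        (W.nmT b i j (ancI (W.dp Js) (W.dp b) I', W.fc b x), W.nmT b b j (ancI (W.dp Js) (W.dp b) I', W.fc b x)) ∈ Lst := by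
  refine ⟨2 ^ 30 * 18 ^ 12, by norm_num, ?_⟩
  intro η p W hg C A τ h i j b Js hib hbJ hq Λ hΛ Q hQ hr I'
  obtain ⟨L1, c1, m1⟩ := re_sl_aux_cnt_one W h i j b Js hib hbJ hq Λ hΛ Q hQ hr I'
  obtain ⟨L2, c2, m2⟩ := re_sl_aux_cnt_one W h b j b Js le_rfl hbJ hq Λ hΛ Q hQ hr I'
  refine ⟨L1 ×ˢ L2, ?_, fun x x' hx' hc => Finset.mk_mem_product (m1 x x' hx' hc) (m2 x x' hx' hc)⟩
  rw [Finset.card_product]
  push_cast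
  have hΛ0 : 0 < Λ := lt_of_lt_of_le zero_lt_one hΛ
  calc (L1.card : ℝ) * L2.card ≤ (2 ^ 15 * (18 * Λ) ^ 6) * (2 ^ 15 * (18 * Λ) ^ 6) :=
        mul_le_mul c1 c2 (Nat.cast_nonneg _) (by positivity)
    _ = 2 ^ 30 * 18 ^ 12 * Λ ^ 12 := by ring

end Claimed.Agent.R256
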