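-- KEEP
import Claimed.Agent.R256.Re.SlabBas
import Claimed.Agent.R256.Re.SlabGeo
import Claimed.Agent.R256.Gen.Comp

/-!
# Row 256, unit RE, post SLB, file 4: ONE COMPONENT      (architect helper213; prefix `re_sl_`)      every `sorry` = leaf `L-256-SLB-S*`

  TAILB  `re_sl_tailb`   the cube upper bound behind the restricted stage `b`   (`gn_tail`)
  STEP   `re_sl_step`    the last FREE step behind an inserted row projection: class free, tails = `Xp.tl`, bound `G` of the normalised functional of ALL free steps with the given frame and spectrum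
  LVL    `re_sl_lvl`     `√β raw ≤` TAILB for a peel level
  COMP   `re_sl_comp`    one component (glue: `gn_dec_ins`, LVL, STEP, remainder, `gn_cube`)
-/

set_option autoImplicit false

namespace Claimed.Agent.R256

open MeasureTheory
open scoped BigOperators
open Classical

/-- **LEAF L-256-SLB-S1 = TAILB.**   CONSTANTS: `Cr0` from `re_sl_ph_reg η hE C`, `Cr := 2 Cr0`;  `C1` from `re_sl_cls η hE q C`;  `C2 := max C1 (2 q (D + 8))`;  `gn_tail (rndWav η) 1 hE.gen Γ (gn_rate_gam ..) C2 (1/(2q)) ε` gives `A0, n1`; `n0 := 2 q (n1 + 1)`.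
PROOF for `Z`:  `Cls C2 A0 p Z` (`re_sl_cls`, `gn_cls_mono`, `gn_cls_anti`);  `n1 ≤ Z.n` (`Z.n ≥ m ≥ n/(2q)`);  cut `Z.CutAt (dp b) (stT b T) []`;  `b' = gb_b + 1 ≤ C + 1 ≤ C2`;  `κ' = Cr be_b`;
`Z.at' (dp b) I (stT b T) = phT b T I` (`re_sl_at`, `gn_anc_self`; `Z.at'` sees only `Z.v = W.E.v`), `ivs Z.k0 Z.i0 (dp b) = W.iv b`;  plateau + regularity: `re_sl_ph_reg`;
`Z.s^C2 κ ≤ κ' ≤ Z.s^(-C2) κ`:  `be_lo`, `be_hi` of `h.sel b` with `τ ≤ 1`, `1 ≤ p0f ≤ 3` (`gn_p0f_ge`, `gn_p0f_le`): `κ 2^(-4n) ≤ be_b ≤ κ 2^n`, and `Z.s^C2 = 2^(-C2 Z.n) ≤ 2^(-(D+8) n)`;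
`a0 Z.n ≤ Z.kf - dp b`: `≥ m`;   `Σ_I ‖phT‖² ≤ rt b (rs b T)` (`re_sl_ph_norm`);   `Z.s^C2 Z.e ≤ s^D e`. -/
theorem re_sl_tailb (η : ℝ) (hη0 : 0 < η) (hη1 : η < 1) (hE : ReEntry η) (hΓ : 0 < (rndWav η).Gam) (q : ℕ) (ε : ℝ) (hε : 0 < ε) (C D : ℕ) :
    ∃ Cr : ℝ, 1 ≤ Cr ∧ ∃ A0 n0 : ℕ, ∀ (A : ℕ) (p : RdWvPar) (W : ReTw η p) (τ : ℝ), A0 ≤ A → W.q = q → n0 ≤ W.E.n → τ ≤ 1 → W.Ok (q - 1) C A τ →
      ∀ (b : ℕ) (T : Set (ℕ × ReFc)), 0 < b → b < q → W.TailB b T ε Cr (C + 2) D := by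
  rcases Nat.eq_zero_or_pos q with hq0 | hq0
  · subst hq0
    exact ⟨1, le_rfl, 0, 0, fun A p W τ _ _ _ _ _ b T _ hb => absurd hb (Nat.not_lt_zero _)⟩
  obtain ⟨Cr0, hCr0, Hreg⟩ := re_sl_ph_reg η hE C
  obtain ⟨C1, hC1, Hcls⟩ := re_sl_cls η hE q C
  obtain ⟨C2, hC2⟩ : ∃ C2 : ℕ, C2 = max C1 (2 * q * (D + 8)) := ⟨_, rfl⟩
  have hC21 : C1 ≤ C2 := hC2 ▸ le_max_left _ _
  have hC22 : 2 * q * (D + 8) ≤ C2 := hC2 ▸ le_max_right _ _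
  have hqR : (0 : ℝ) < q := by exact_mod_cast hq0
  have ha0 : (0 : ℝ) < 1 / (2 * q) := by positivity
  obtain ⟨A0, n1, Htail⟩ := gn_tail (rndWav η) 1 hE.gen (rndWav η).Gam (gn_rate_gam (rndWav η) 1 hE.gen) C2 (1 / (2 * q)) ε ha0 hε
  obtain ⟨n2, Habs⟩ := gn_absorb (2 * Cr0) 1 one_pos
  refine ⟨2 * Cr0, by linarith, A0, max (2 * q * (n1 + 1)) n2, ?_⟩
  intro A p W τ hA hq hn hτ hW b T hb0 hbq Z hZv hZr hZst hZbT hZlo hZhi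
  obtain ⟨rk0, ri0, rv, re, rka, rb0⟩ := hZr
  have hT : (p.sys η).Tight := hE.gen.tight p p.ok
  have hbg : b ≤ q - 1 := by omega
  -- natural numbers
  have hnlo : q * W.m ≤ W.E.n := hq ▸ hW.n_lo
  have hnhi : W.E.n < q * (W.m + 1) := hq ▸ hW.n_hi
  have hm : 0 < W.m := hW.m_pos
  have hn1 : 2 * q * (n1 + 1) ≤ W.E.n := le_trans (le_max_left _ _) hn
  have hn2 : n2 ≤ W.E.n := le_trans (le_max_right _ _) hn
  have hm1 : 2 * (n1 + 1) < W.m + 1 := by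
    have h1 : q * (2 * (n1 + 1)) < q * (W.m + 1) := by
      calc q * (2 * (n1 + 1)) = 2 * q * (n1 + 1) := by ring
        _ ≤ W.E.n := hn1
        _ < _ := hnhi
    exact Nat.lt_of_mul_lt_mul_left h1
  have hdpb : W.dp b = W.E.k0 + b * W.m := rfl
  have hdpb1 : W.dp (b + 1) = W.E.k0 + (b + 1) * W.m := rfl
  have hZkf : Z.kf = W.E.k0 + Z.n := by unfold Xp.kf; rw [rk0]
  have hWkf : W.E.kf = W.E.k0 + W.E.n := rfl
  have hZn_lo : (b + 1) * W.m ≤ Z.n := by omega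
  have hZn_hi : Z.n ≤ W.E.n := by omega
  have hbm : (b + 1) * W.m = b * W.m + W.m := by ring
  have hZm : W.m ≤ Z.n := by
    have : 0 ≤ b * W.m := Nat.zero_le _
    omega
  have hkfb : W.m ≤ Z.kf - W.dp b := by omega
  have hn2qm : W.E.n ≤ 2 * q * W.m := by
    have h1 : q * (W.m + 1) ≤ 2 * q * W.m := by
      calc q * (W.m + 1) ≤ q * (2 * W.m) := Nat.mul_le_mul_left _ (by omega)
        _ = 2 * q * W.m := by ring
    omega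
  have hbmn : b * W.m ≤ W.E.n := le_trans (Nat.mul_le_mul_right _ hbq.le) hnlo
  have hC2n : (D + 8) * W.E.n ≤ C2 * Z.n := by
    calc (D + 8) * W.E.n ≤ (D + 8) * (2 * q * W.m) := Nat.mul_le_mul_left _ hn2qm
      _ = 2 * q * (D + 8) * W.m := by ring
      _ ≤ C2 * Z.n := Nat.mul_le_mul hC22 hZm
  -- reals
  have hN0 : (0 : ℝ) ≤ W.E.n := Nat.cast_nonneg _
  have hC2nR : ((D : ℝ) + 8) * W.E.n ≤ (C2 : ℝ) * Z.n := by exact_mod_cast hC2n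
  have hκ : 0 < W.E.ka := rka ▸ hZv.ka_pos
  have he : 0 < W.E.e := re ▸ hZv.e_pos
  have hp1 : (1 : ℝ) ≤ (rndWav η).p0f := gn_p0f_ge (rndWav η) 1 hE.gen hΓ
  have hp3 : (rndWav η).p0f ≤ 3 := by
    have := gn_p0f_le (rndWav η) 1 hE.gen hΓ
    linarith
  have hsel := hW.sel b hb0 hbg
  have hsub : W.dp b - W.E.k0 = b * W.m := by omega
  have hbmR : ((b * W.m : ℕ) : ℝ) ≤ W.E.n := by exact_mod_cast hbmn
  have hbm0 : (0 : ℝ) ≤ ((b * W.m : ℕ) : ℝ) := Nat.cast_nonneg _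
  have hτN : τ * W.E.n ≤ W.E.n := by
    have := mul_le_mul_of_nonneg_right hτ hN0
    linarith only [this]
  have hpb3 : (rndWav η).p0f * ((b * W.m : ℕ) : ℝ) ≤ 3 * W.E.n := by
    have := mul_le_mul_of_nonneg_right hp3 hbm0
    linarith only [this, hbmR]
  have hpb0 : 0 ≤ (rndWav η).p0f * ((b * W.m : ℕ) : ℝ) := mul_nonneg (by linarith only [hp1]) hbm0
  have hDN : 0 ≤ (D : ℝ) * W.E.n := mul_nonneg (Nat.cast_nonneg _) hN0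
  have hlo : W.E.ka * 2 ^ (-(4 * (W.E.n : ℝ))) ≤ (W.ps b).be := by
    have h1 : W.E.ka * (2 : ℝ) ^ (-((rndWav η).p0f * ((W.dp b - W.E.k0 : ℕ) : ℝ)) - τ * W.E.n) ≤ (W.ps b).be := hsel.be_lo
    rw [hsub] at h1
    refine le_trans (mul_le_mul_of_nonneg_left (gn_two_mono ?_) hκ.le) h1
    linarith only [hpb3, hτN]
  have hhi : (W.ps b).be ≤ W.E.ka * 2 ^ ((W.E.n : ℝ)) := by
    have h1 : (W.ps b).be ≤ W.E.ka * (2 : ℝ) ^ (-((rndWav η).p0f * ((W.dp b - W.E.k0 : ℕ) : ℝ)) + τ * W.E.n) := hsel.be_hi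
    rw [hsub] at h1
    refine le_trans h1 (mul_le_mul_of_nonneg_left (gn_two_mono ?_) hκ.le)
    linarith only [hpb0, hτN]
  have hbe0 : 0 < (W.ps b).be := lt_of_lt_of_le (mul_pos hκ (gn_two_pos _)) hlo
  -- the hypotheses of `gn_tail`
  have hcls : (rndWav η).Cls C2 A0 p Z :=
    gn_cls_anti (rndWav η) hE.gen.scale hA (gn_cls_mono (rndWav η) hE.gen.scale hC21
      (Hcls A p W τ hq hW b T Z hb0 hbq hZv ⟨rk0, ri0, rv, re, rka, rb0⟩ hZst hZbT hZlo hZhi))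
  have hZn1 : n1 ≤ Z.n := by omega
  have hcut : Z.CutAt (W.dp b) (W.stT b T) [] := by
    have h0 := re_sl_st_cut W b T (W.dp b) le_rfl (by omega)
    exact ⟨by rw [hZst]; simp, h0.2.1, by simp, by omega, by omega⟩
  have hak : 1 / (2 * (q : ℝ)) * Z.n ≤ ((Z.kf - W.dp b : ℕ) : ℝ) := by
    have h1 : (Z.n : ℝ) ≤ 2 * q * W.m := by exact_mod_cast le_trans hZn_hi hn2qm
    have h2 : (W.m : ℝ) ≤ ((Z.kf - W.dp b : ℕ) : ℝ) := by exact_mod_cast hkfb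
    refine le_trans ?_ h2
    rw [div_mul_eq_mul_div, one_mul, div_le_iff₀ (by positivity)]
    linarith
  have hgb := re_sl_gb_le W hW b hb0 hbg
  have hb' : (W.ps b).gb + 1 ≤ C2 := by omega
  have hκlo : Z.s ^ (C2 : ℝ) * Z.ka ≤ Cr0 * (2 * (W.ps b).be) := by
    rw [gn_s_rpow, rka]
    calc (2 : ℝ) ^ (-((C2 : ℝ) * Z.n)) * W.E.ka ≤ 2 ^ (-(4 * (W.E.n : ℝ))) * W.E.ka :=
          mul_le_mul_of_nonneg_right (gn_two_mono (by linarith only [hC2nR, hDN, hN0])) hκ.le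
      _ = W.E.ka * 2 ^ (-(4 * (W.E.n : ℝ))) := mul_comm _ _
      _ ≤ (W.ps b).be := hlo
      _ ≤ Cr0 * (2 * (W.ps b).be) := by
          have := mul_le_mul_of_nonneg_right hCr0 hbe0.le
          linarith only [this, hbe0]
  have hκhi : Cr0 * (2 * (W.ps b).be) ≤ Z.s ^ (-(C2 : ℝ)) * Z.ka := by
    rw [gn_s_rpow, rka]
    have h1 : 2 * Cr0 ≤ 2 ^ ((W.E.n : ℝ)) := by
      have := Habs W.E.n hn2
      rwa [one_mul] at this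
    calc Cr0 * (2 * (W.ps b).be) = 2 * Cr0 * (W.ps b).be := by ring
      _ ≤ 2 ^ ((W.E.n : ℝ)) * (W.E.ka * 2 ^ ((W.E.n : ℝ))) := mul_le_mul h1 hhi hbe0.le (gn_two_pos _).le
      _ = 2 ^ ((W.E.n : ℝ) + W.E.n) * W.E.ka := by rw [gn_two_add]; ring
      _ ≤ 2 ^ (-(-(C2 : ℝ) * Z.n)) * W.E.ka := mul_le_mul_of_nonneg_right (gn_two_mono (by linarith only [hC2nR, hDN, hN0])) hκ.le
  have hat : ∀ I, Z.at' (W.dp b) I (W.stT b T) = W.phT b T I := by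
    intro I
    have h1 := re_sl_at W b T (W.dp b) I le_rfl
    rw [gn_anc_self] at h1
    unfold Xp.at' at h1 ⊢
    rw [rv]
    exact h1
  have hivs : ivs Z.k0 Z.i0 (W.dp b) = W.iv b := by rw [rk0, ri0]; rfl
  have hst : ∀ i ∈ ivs Z.k0 Z.i0 (W.dp b), Z.at' (W.dp b) i (W.stT b T) ∈ (p.sys η).Pl ((W.ps b).gb + 1) ∧
      (p.sys η).Reg (tmL (W.dp b) i) (W.dp b) ((W.ps b).gb + 1) (Cr0 * (2 * (W.ps b).be)) (Z.at' (W.dp b) i (W.stT b T)) := by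
    intro i hi
    rw [hivs] at hi
    rw [hat]
    obtain ⟨h1, h2⟩ := Hreg p W (q - 1) A τ hW b hb0 hbg T i hi
    exact ⟨h1, h2 _ (by omega)⟩
  have main : Z.rd ≤ 2 ^ (-((1 / 2 - (rndWav η).Gam - ε) * ((Z.kf - W.dp b : ℕ) : ℝ))) * Real.sqrt (Cr0 * (2 * (W.ps b).be)) *
      (∑ i ∈ ivs Z.k0 Z.i0 (W.dp b), ‖Z.at' (W.dp b) i (W.stT b T)‖ ^ 2 + Z.s ^ (C2 : ℝ) * Z.e) :=
    Htail p Z hZn1 hcls (W.dp b) ((W.ps b).gb + 1) (W.stT b T) [] (Cr0 * (2 * (W.ps b).be)) hcut hak hb' hκlo hκhi hst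
  refine main.trans ?_
  have e1 : Cr0 * (2 * (W.ps b).be) = 2 * Cr0 * (W.ps b).be := by ring
  rw [e1]
  refine mul_le_mul_of_nonneg_left (add_le_add ?_ ?_) (mul_nonneg (gn_two_pos _).le (Real.sqrt_nonneg _))
  · rw [hivs]
    unfold ReTw.rt
    refine Finset.sum_le_sum fun I _ => ?_
    rw [hat]
    exact re_sl_ph_norm W hT hW b hb0 hbg T I
  · rw [gn_s_rpow, gn_s_rpow, re]
    refine mul_le_mul_of_nonneg_right (gn_two_mono ?_) he.le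
    linarith only [hC2nR, hN0]

theorem re_sl_step_lim {a c x : ℝ} (hc : 0 ≤ c) (h : ∀ δ : ℝ, 0 < δ → a ≤ c * (x + δ)) : a ≤ c * x := by
  refine le_of_forall_pos_le_add fun ε hε => ?_
  have h1 := h (ε / (c + 1)) (by positivity)
  have h2 : c * (ε / (c + 1)) ≤ ε := by
    rw [mul_div_assoc', div_le_iff₀ (by positivity)]
    nlinarith
  nlinarith

/-- **LEAF L-256-SLB-S2 = STEP.**   `Cr` from `gn_ind_reg (rndWav η) 1 hE.gen (C + 1)`.   `Y' := Y.ins k' b' Y.st [] Mk`, `φ_I := Y.at' k' I (Y.st ++ [⟨k',b',Mk⟩]) = tz (tmL k' I) k' b' (Mk I) (Y.at' k' I Y.st)` (`gn_lvl_at`).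
1. `Y'.Valid` (`gn_ins_valid`), cut `Y'.CutAt k' (Y.st ++ [⟨k',b',Mk⟩]) []` (`gn_ins_cut`);  `Y'.rd = Σ_{I ∈ ivs} Σ_{l ∈ below k' I} tr l` (`gn_rd_eq`, `gn_sum_below` with `S = univ`).
2. For `I ∈ ivs` and ANY `e' > 0` with `‖φ_I‖² ≤ e'`:  `E' := Y'.tl k' I φ_I e' (Cr κt) (b'+1) [] (univ ∩ below k' I)` is valid (`gn_tl_valid`; `hI.ind` + `gn_ind_reg`: `φ_I ∈ Pl (b'+1)`, `Reg .. (b'+1) (Cr κt)`), `E'.rd = Σ_{below} tr` (`gn_tl_rd`),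
   `ReStep η p E' (C+2) Kp φ`:  `free` rfl;  `gen`: `b'+1 ≤ Y.bT ≤ C+2`;  `spec`: `rt_w1_pl`;  `E'.k0 = k'`, `E'.n = Y.kf - k'`, `E'.s = 2⁻¹^(Y.kf - k')` by `rfl`;  `lab`: the labels of `E'` are labels of `Y`.
   Spectrum: `re_spec_tz` (`hI.msk`).   So `E'.val ≤ G`, i.e. (`gn_rd_of_val`) `Σ_{below} tr ≤ 2^(-n'/2) e' √(Cr κt) G`.
3. `e' ↓ ‖φ_I‖²` (`le_of_forall_pos_le_add` or `e' = ‖φ_I‖² + δ`, `δ → 0`):  `Σ_{below} tr ≤ 2^(-n'/2) ‖φ_I‖² √(Cr κt) G`;   `‖φ_I‖² ≤ en (Mk I ²) (Y.at' ..)` (`gn_tz_normsq_le`);  sum over `I`: `Y.raw`. -/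
theorem re_sl_step (η : ℝ) (hη0 : 0 < η) (hη1 : η < 1) (hE : ReEntry η) (C : ℕ) :
    ∃ Cr : ℝ, 1 ≤ Cr ∧ ∀ (p : RdWvPar) (Y : Xp (p.sys η)) (k' b' : ℕ) (Mk : ℕ → RdWvPar.Ph → ℝ) (κt G Kp : ℝ) (φ : RdFrm) (𝒜 : Set (ℝ × ℝ)),
      Y.Valid → Y.InsAt k' b' Y.st [] [] Mk κt → b' ≤ C + 1 → b' + 1 ≤ Y.bT → Y.bT ≤ C + 2 → 0 < κt → 0 ≤ G →
      (∀ I ∈ ivs Y.k0 Y.i0 k', reAngIn 𝒜 (Y.at' k' I Y.st)) →
      1 ≤ Kp → 0 < φ.r → (2 : ℝ)⁻¹ ^ (Y.kf - k') / Kp ≤ p.H / (rdLen k' * φ.r ^ 2) → p.H / (rdLen k' * φ.r ^ 2) ≤ Kp * (2 : ℝ)⁻¹ ^ (Y.kf - k') →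
      (∀ l, φ.r / Kp ≤ (rwT (Y.ts l)).r ∧ (rwT (Y.ts l)).r ≤ Kp * φ.r ∧ 1 / Kp ≤ (rwT (Y.ts l)).f) →
      (∀ E' : Xp (p.sys η), ReStep η p E' (C + 2) Kp φ → E'.n = Y.kf - k' →
        reAngIn (reNb (rdD p.H k') (reNb (rdD p.H k') 𝒜)) E'.v → E'.val ≤ G) →
      (Y.ins k' b' Y.st [] Mk).rd ≤ G * 2 ^ (-(((Y.kf - k' : ℕ) : ℝ) / 2)) * Real.sqrt (Cr * κt) * Y.raw Y.st ⟨k', b', Mk⟩ := by
  obtain ⟨Cr, hCr, Hreg⟩ := gn_ind_reg (rndWav η) 1 hE.gen (C + 1)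
  refine ⟨Cr, hCr, fun p Y k' b' Mk κt G Kp φ 𝒜 hY hI hb' hbT hbT2 hκt hG h𝒜 hKp hφ hHlo hHhi hlab HG => ?_⟩
  have hT : (p.sys η).Tight := hE.gen.tight p p.ok
  have hc : Y.CutAt k' Y.st [] := hI.cut
  obtain ⟨Y', hY'def⟩ : ∃ Y' : Xp (p.sys η), Y' = Y.ins k' b' Y.st [] Mk := ⟨_, rfl⟩
  have hY'v : Y'.Valid := hY'def ▸ gn_ins_valid Y hY hc b' hI.msk
  have hcut' : Y'.CutAt k' (Y.st ++ [⟨k', b', Mk⟩]) [] := hY'def ▸ gn_ins_cut Y hI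
  have hκ' : 0 < Cr * κt := by positivity
  set c : ℝ := 2 ^ (-(((Y.kf - k' : ℕ) : ℝ) / 2)) * Real.sqrt (Cr * κt) * G with hcdef
  have hc0 : 0 ≤ c := by positivity
  have hk0 : Y'.k0 = Y.k0 := by rw [hY'def]; rfl
  have hi0 : Y'.i0 = Y.i0 := by rw [hY'def]; rfl
  have hkf : Y'.kf = Y.kf := by rw [hY'def]; rfl
  have hbT' : Y'.bT = Y.bT := by rw [hY'def]; rfl
  have key : ∀ I ∈ ivs Y.k0 Y.i0 k', ∑ l ∈ Finset.univ ∩ Y'.below k' I, Y'.tr l ≤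
      c * (p.sys η).en (tmL k' I) k' b' (fun x => Mk I x ^ 2) (Y.at' k' I Y.st) := by
    intro I hII
    have hat : Y'.at' k' I (Y.st ++ [⟨k', b', Mk⟩]) = (p.sys η).tz (tmL k' I) k' b' (Mk I) (Y.at' k' I Y.st) := by
      rw [hY'def]
      exact gn_lvl_at Y Y.st ⟨k', b', Mk⟩ I
    obtain ⟨S, hS, hMS, hSreg⟩ := hI.ind I hII
    have hr : (p.sys η).tz (tmL k' I) k' b' (S.indicator fun _ => 1) (Y.at' k' I Y.st) ∈ (p.sys η).Pl (b' + 1) ∧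
        (p.sys η).Reg (tmL k' I) k' (b' + 1) (Cr * κt) ((p.sys η).tz (tmL k' I) k' b' (S.indicator fun _ => 1) (Y.at' k' I Y.st)) :=
      Hreg p p.ok (tmL k' I) k' b' (b' + 1) κt S (Y.at' k' I Y.st) hS hb' (by omega) hSreg
    rw [← hMS, ← hat] at hr
    obtain ⟨hpl, hreg⟩ := hr
    have hsub : Finset.univ ∩ Y'.below k' I ⊆ Y'.below k' I := Finset.inter_subset_right
    have hstep : ∀ δ : ℝ, 0 < δ → ∑ l ∈ Finset.univ ∩ Y'.below k' I, Y'.tr l ≤ c * (‖Y'.at' k' I (Y.st ++ [⟨k', b', Mk⟩])‖ ^ 2 + δ) := by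
      intro δ hδ
      set e' : ℝ := ‖Y'.at' k' I (Y.st ++ [⟨k', b', Mk⟩])‖ ^ 2 + δ with he'
      have he'0 : 0 < e' := by positivity
      obtain ⟨E', hE'def⟩ : ∃ E' : Xp (p.sys η), E' = Y'.tl k' I (Y'.at' k' I (Y.st ++ [⟨k', b', Mk⟩])) e' (Cr * κt) (b' + 1) [] (Finset.univ ∩ Y'.below k' I) := ⟨_, rfl⟩
      have hE'v : E'.Valid := hE'def ▸ gn_tl_valid Y' hY'v hcut' I _ e' (Cr * κt) (b' + 1) _ hsub he'0 hκ' (by rw [he']; linarith) hpl hreg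
      have hE'rd : E'.rd = ∑ l ∈ Finset.univ ∩ Y'.below k' I, Y'.tr l := hE'def ▸ gn_tl_rd Y' hcut' I e' (Cr * κt) (b' + 1) _ hsub
      have hE'n : E'.n = Y.kf - k' := by rw [hE'def, ← hkf]; rfl
      have hE's : E'.s = (2 : ℝ)⁻¹ ^ (Y.kf - k') := by unfold Xp.s; rw [hE'n]
      have hE'k0 : E'.k0 = k' := by rw [hE'def]; rfl
      have hE'v' : E'.v = Y'.at' k' I (Y.st ++ [⟨k', b', Mk⟩]) := by rw [hE'def]; rfl
      have hE'e : E'.e = e' := by rw [hE'def]; rfl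
      have hE'ka : E'.ka = Cr * κt := by rw [hE'def]; rfl
      have hstepE : ReStep η p E' (C + 2) Kp φ := by
        refine ⟨hE'v, by rw [hE'def]; rfl, ?_, ?_, hKp, hφ, by rw [hE's, hE'k0]; exact hHlo, by rw [hE's, hE'k0]; exact hHhi, ?_⟩
        · have e1 : E'.b0 = b' + 1 := by rw [hE'def]; rfl
          have e2 : E'.bT = Y.bT := by rw [hE'def, ← hbT']; rfl
          rw [e1, e2]
          exact ⟨hbT.trans hbT2, hbT2⟩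
        · have e1 : E'.b0 = b' + 1 := by rw [hE'def]; rfl
          rw [e1, hE'v']
          exact (rt_w1_pl p η (b' + 1) _).1 hpl
        · subst hE'def
          subst hY'def
          intro l
          exact hlab _
      have hval : E'.val ≤ G := by
        refine HG E' hstepE hE'n ?_
        rw [hE'v', hat]
        exact re_spec_tz η p (tmL k' I) k' b' (Mk I) (hI.msk I) 𝒜 _ (h𝒜 I hII)
      rw [← hE'rd, gn_rd_of_val E' hE'v, hE'n, hE'e, hE'ka]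
      calc 2 ^ (-(((Y.kf - k' : ℕ) : ℝ) / 2)) * (e' * Real.sqrt (Cr * κt)) * E'.val
          ≤ 2 ^ (-(((Y.kf - k' : ℕ) : ℝ) / 2)) * (e' * Real.sqrt (Cr * κt)) * G := mul_le_mul_of_nonneg_left hval (by positivity)
        _ = c * e' := by rw [hcdef]; ring
    refine (re_sl_step_lim hc0 hstep).trans (mul_le_mul_of_nonneg_left ?_ hc0)
    rw [hat]
    exact gn_tz_normsq_le hT _ _ _ (hI.msk I) _
  rw [← hY'def, gn_rd_eq, gn_sum_below Y' hY'v hcut'.2.2.2.1 hcut'.2.2.2.2 Finset.univ Y'.tr, hk0, hi0]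
  refine (Finset.sum_le_sum key).trans (le_of_eq ?_)
  rw [← Finset.mul_sum, hcdef]
  unfold Xp.raw
  ring

/-- **LEAF L-256-SLB-S3 = LVL.**   `gn_lvl_pre hT (Y.ins ..) (gn_ins_valid ..) hL` gives a valid prefix `Z = (Y.ins ..).pre (k' - k0) (stT b T) b' iv' ts' th'` with `β w < m`, `Z.tm = raw`;   `√β m ≤ tr` (`gn_le_tr`), sum: `√β raw ≤ Z.rd`;
`hTB Z`: same root as `W.E` (`rfl`s), `Z.st = stT b T`, `Z.bT = b'`, `Z.kf = k0 + (k' - k0) = k'`. -/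
theorem re_sl_lvl {η : ℝ} {p : RdWvPar} (W : ReTw η p) (hT : (p.sys η).Tight) (b : ℕ) (T : Set (ℕ × ReFc)) (ε Cr : ℝ) (g D : ℕ) (hTB : W.TailB b T ε Cr g D)
    (Y : Xp (p.sys η)) (hY : Y.Valid) (hr : Mdl.SameRoot W.E Y) (hst : Y.st = W.stT b T) (k' b' : ℕ) (Mk : ℕ → RdWvPar.Ph → ℝ) (β : ℝ) (hβ : 0 < β)
    (hL : (Y.ins k' b' Y.st ([] ++ []) Mk).LvlAt Y.st ⟨k', b', Mk⟩ ([] ++ []) β) (hb' : b' ≤ g) (hk : W.dp (b + 1) ≤ k') (hk' : k' ≤ W.E.kf) :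
    Real.sqrt β * Y.raw Y.st ⟨k', b', Mk⟩ ≤ 2 ^ (-((1 / 2 - (rndWav η).Gam - ε) * ((k' - W.dp b : ℕ) : ℝ))) * Real.sqrt (Cr * (W.ps b).be) *
      (W.rt b (W.rs b T) + W.E.s ^ (D : ℝ) * W.E.e) := by
  obtain ⟨Mk', hMk'⟩ : ∃ Mk' : ℕ → RdWvPar.Ph → ℝ, Mk' = fun i => if i ∈ ivs Y.k0 Y.i0 k' then Mk i else fun _ => 0 := ⟨_, rfl⟩
  have hMeq : ∀ i ∈ ivs Y.k0 Y.i0 k', Mk' i = Mk i := fun i hi => by rw [hMk']; exact if_pos hi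
  have hM' : ∀ i, IsMask (Mk' i) := by
    intro i
    by_cases hi : i ∈ ivs Y.k0 Y.i0 k'
    · obtain ⟨S, hS, hSe⟩ := hL.lvl i hi
      rw [hMeq i hi, show Mk i = S.indicator fun _ => 1 from hSe]
      exact gn_mask_ind hS.meas
    · rw [hMk']
      simp only [if_neg hi]
      exact ⟨measurable_const, fun _ => ⟨le_rfl, zero_le_one⟩⟩
  have hcut := hL.cut
  have hk0 : Y.k0 ≤ k' := hcut.2.2.2.1
  have hkf : k' ≤ Y.kf := hcut.2.2.2.2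
  have hcY : Y.CutAt k' Y.st [] := ⟨(List.append_nil _).symm, hcut.2.1, by simp, hk0, hkf⟩
  have hv : (Y.ins k' b' Y.st [] Mk').Valid := gn_ins_valid Y hY hcY b' hM'
  have hL' : (Y.ins k' b' Y.st [] Mk').LvlAt Y.st ⟨k', b', Mk'⟩ [] β := by
    refine ⟨⟨rfl, hcut.2.1, ?_, hk0, hkf⟩, hL.plat, fun i hi => ?_⟩
    · intro σ hσ
      rw [List.mem_singleton] at hσ
      rw [hσ]
    · obtain ⟨S, hS, hSe⟩ := hL.lvl i hi
      exact ⟨S, hS, (hMeq i hi).trans hSe⟩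
  obtain ⟨L', iv', ts', th', hZv, hZl, hZtm⟩ := gn_lvl_pre hT _ hv hL'
  obtain ⟨Z, hZ⟩ : ∃ Z : Xp (p.sys η), Z = (Y.ins k' b' Y.st [] Mk').pre (k' - Y.k0) Y.st b' iv' ts' th' := ⟨_, rfl⟩
  have hZv' : Z.Valid := hZ ▸ hZv
  have hraw : (Y.ins k' b' Y.st [] Mk').raw Y.st ⟨k', b', Mk'⟩ = Y.raw Y.st ⟨k', b', Mk⟩ := by
    unfold Xp.raw
    refine Finset.sum_congr rfl fun i hi => ?_
    have := hMeq i hi
    show (p.sys η).en (tmL k' i) k' b' (fun x => Mk' i x ^ 2) _ = (p.sys η).en (tmL k' i) k' b' (fun x => Mk i x ^ 2) _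
    rw [this]
    rfl
  have htm : Z.tm = Y.raw Y.st ⟨k', b', Mk⟩ := by
    rw [hZ, ← hraw]
    exact hZtm
  have h1 : Real.sqrt β * Z.tm ≤ Z.rd := by
    rw [gn_rd_eq]
    unfold Xp.tm
    rw [Finset.mul_sum]
    refine Finset.sum_le_sum fun l _ => gn_le_tr Z hZv' l hβ.le ?_
    subst hZ
    exact (hZl l).1.le
  have hZkf : Z.kf = k' := by
    rw [hZ]
    show Y.k0 + (k' - Y.k0) = k'
    omega
  have h2 := hTB Z hZv' (by rw [hZ]; exact hr) (by rw [hZ]; exact hst) (by rw [hZ]; exact hb') (by rw [hZkf]; exact hk)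
    (by rw [hZkf]; exact hk')
  rw [hZkf] at h2
  rw [← htm]
  exact h1.trans h2

/-- **LEAF L-256-SLB-S4: the labels of the auxiliary peel in the frame of width `R_j`.**   `hP.shape`, `hP.lb` (`ok`: `Adm 1` gives `f ≤ 1`, `0 < r`; `d_k ≤ r f ≤ r`), `re_sl_d_eq`: `d_k = R_j`;  `(W.Ex b).n = W.E.n` by `rfl`;  `W.tn ξ = 2^(ξ n) ≥ 1`, `1 / W.tn ξ = 2^(-(ξ n))`. -/
theorem re_sl_lab {η : ℝ} {p : RdWvPar} (W : ReTw η p) (b j Js : ℕ) (hJ : 2 * j + Js = W.q) (P : RePs) (ξ : ℝ) (hξ : 0 ≤ ξ) (hP : P.Ok (W.Ex b) (W.dp Js) ξ)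
    (u : ℕ) (hu : u < P.nL) :
    W.Rw j / W.tn ξ ≤ (P.lQ u).r ∧ (P.lQ u).r ≤ W.tn ξ * W.Rw j ∧ 1 / W.tn ξ ≤ (P.lQ u).f := by
  have hd : rdD p.H (W.dp Js) = W.Rw j := re_sl_d_eq W j Js hJ
  obtain ⟨s1, s2⟩ := hP.shape u hu
  have hn : ((W.Ex b).n : ℝ) = W.E.n := rfl
  rw [hn, hd] at s1
  rw [hn] at s2
  have hok : ((P.lQ u).toT (W.dp Js)).Adm 1 ∧ rdD p.H (W.dp Js) ≤ (P.lQ u).r * (P.lQ u).f := (hP.lb u hu).2.1
  obtain ⟨hadm, hunc⟩ := hok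
  have hr : 0 < (P.lQ u).r := hadm.r_pos
  have hf1 : (P.lQ u).f ≤ 1 := hadm.f_le
  rw [hd] at hunc
  have htn : 1 ≤ W.tn ξ := by
    unfold ReTw.tn
    exact Real.one_le_rpow (by norm_num) (by positivity)
  have hRw : 0 < W.Rw j := by
    unfold ReTw.Rw
    exact mul_pos (re_at_R0_pos W) (rdLen_pos _)
  refine ⟨?_, s1, ?_⟩
  · refine (div_le_self hRw.le htn).trans (hunc.trans ?_)
    calc (P.lQ u).r * (P.lQ u).f ≤ (P.lQ u).r * 1 := mul_le_mul_of_nonneg_left hf1 hr.le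
      _ = _ := mul_one _
  · unfold ReTw.tn
    rw [one_div, ← Real.rpow_neg (by norm_num)]
    exact s2

theorem re_sl_num_rem_nat (q m n Js : ℕ) (hm : 0 < m) (hJ : 0 < Js) (hn : n < q * (m + 1)) : 8 * n ≤ Js * m * (16 * q) := by
  have h1 : q * (m + 1) ≤ 2 * (q * m) := by nlinarith
  have h2 : 1 * (m * (16 * q)) ≤ Js * (m * (16 * q)) := Nat.mul_le_mul_right _ hJ
  nlinarith

/-- **LEAF L-256-SLB-S5: the remainder of the peeled decomposition is negligible** (numbers).   `n < q (m+1) ≤ 2 q m` (`h.n_hi`, `h.m_pos`), `dp Js - k0 = Js m ≥ m`: `(2⁻¹^(Js m))^(16 q) ≤ 2^(-8n)`;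
`be_b ≥ κ 2^(-p0f b m - τ n) ≥ κ 2^(-4n)` (`(h.sel b ..).be_lo`, `p0f ≤ 3` by `gn_p0f_le`, `b m ≤ q m ≤ n`, `τ ≤ 1`, `κ > 0`);   LHS `≤ √κ 2^(-4n + x) ≤ √κ 2^(-3n)`;   RHS `≥ 2^(-x/2) √κ 2^(-2n) ≥ √κ 2^(-5n/2)` (`0 ≤ Γ + ε`). -/
theorem re_sl_num_rem {η : ℝ} {p : RdWvPar} (W : ReTw η p) (hE : ReEntry η) (hΓ : 0 < (rndWav η).Gam) {q C A : ℕ} {τ : ℝ} (h : W.Ok (q - 1) C A τ) (hq : W.q = q)
    (hτ : τ ≤ 1) (b Js x : ℕ) (h0 : 0 < b) (hb : b < q) (hJ : 0 < Js) (hx : x ≤ W.E.n) (ε : ℝ) (hε : 0 ≤ ε) :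
    Real.sqrt (((2 : ℝ)⁻¹ ^ (W.dp Js - W.E.k0)) ^ ((16 * q : ℕ) : ℝ) * W.E.ka) * 2 ^ x ≤
      2 ^ (-((1 / 2 - (rndWav η).Gam - ε) * (x : ℝ))) * Real.sqrt (W.ps b).be := by
  have hκ : 0 < W.E.ka := ((h.cls 0 (Nat.zero_le _)).2.1).ka_pos
  obtain ⟨n, hn⟩ : ∃ n : ℕ, n = W.E.n := ⟨_, rfl⟩
  have h2 : (1 : ℝ) ≤ 2 := by norm_num
  have h20 : (0 : ℝ) < 2 := by norm_num
  have hn0 : (0 : ℝ) ≤ n := Nat.cast_nonneg n
  have hxn : (x : ℝ) ≤ n := by rw [hn]; exact_mod_cast hx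
  have hx0 : (0 : ℝ) ≤ x := Nat.cast_nonneg x
  -- the floor
  have hA : ((2 : ℝ)⁻¹ ^ (W.dp Js - W.E.k0)) ^ ((16 * q : ℕ) : ℝ) ≤ ((2 : ℝ) ^ (-(4 * (n : ℝ)))) ^ 2 := by
    have e1 : W.dp Js - W.E.k0 = Js * W.m := by unfold ReTw.dp; omega
    have e2 : ((2 : ℝ) ^ (-(4 * (n : ℝ)))) ^ 2 = (2 : ℝ)⁻¹ ^ (8 * n) := by
      rw [← Real.rpow_natCast, ← Real.rpow_mul h20.le, inv_pow, ← Real.rpow_natCast, ← Real.rpow_neg h20.le]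
      congr 1
      push_cast
      ring
    rw [Real.rpow_natCast, ← pow_mul, e1, e2]
    refine pow_le_pow_of_le_one (by norm_num) (by norm_num) ?_
    have h3 := h.n_hi
    rw [hq, ← hn] at h3
    exact re_sl_num_rem_nat q W.m n Js h.m_pos hJ h3
  have hL : Real.sqrt (((2 : ℝ)⁻¹ ^ (W.dp Js - W.E.k0)) ^ ((16 * q : ℕ) : ℝ) * W.E.ka) ≤ (2 : ℝ) ^ (-(4 * (n : ℝ))) * Real.sqrt W.E.ka := by
    calc Real.sqrt (((2 : ℝ)⁻¹ ^ (W.dp Js - W.E.k0)) ^ ((16 * q : ℕ) : ℝ) * W.E.ka)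
        ≤ Real.sqrt (((2 : ℝ) ^ (-(4 * (n : ℝ)))) ^ 2 * W.E.ka) := Real.sqrt_le_sqrt (mul_le_mul_of_nonneg_right hA hκ.le)
      _ = _ := by rw [Real.sqrt_mul (sq_nonneg _), Real.sqrt_sq (Real.rpow_nonneg h20.le _)]
  have hX : (2 : ℝ) ^ x ≤ (2 : ℝ) ^ (n : ℝ) := by
    rw [← Real.rpow_natCast]
    exact Real.rpow_le_rpow_of_exponent_le h2 hxn
  -- the threshold
  have hbe := (h.sel b h0 (by omega)).be_lo
  have hka : (W.Ex (b - 1)).ka = W.E.ka := rfl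
  have hk0 : (W.Ex (b - 1)).k0 = W.E.k0 := rfl
  have hnn : ((W.Ex (b - 1)).n : ℝ) = n := by rw [hn]; rfl
  rw [hka, hk0, hnn] at hbe
  have hbm : ((W.dp b - W.E.k0 : ℕ) : ℝ) ≤ n := by
    have e1 : W.dp b - W.E.k0 = b * W.m := by unfold ReTw.dp; omega
    rw [e1, hn]
    have h3 := h.n_lo
    rw [hq] at h3
    have h4 : b * W.m ≤ q * W.m := Nat.mul_le_mul_right _ hb.le
    exact_mod_cast h4.trans h3
  have hbm0 : (0 : ℝ) ≤ ((W.dp b - W.E.k0 : ℕ) : ℝ) := Nat.cast_nonneg _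
  have hp0 : (rndWav η).p0f ≤ 3 := by
    have := gn_p0f_le (rndWav η) 1 hE.gen hΓ
    linarith
  have hexp : -(4 * (n : ℝ)) ≤ -((rndWav η).p0f * ((W.dp b - W.E.k0 : ℕ) : ℝ)) - τ * n := by
    have a1 : (rndWav η).p0f * ((W.dp b - W.E.k0 : ℕ) : ℝ) ≤ 3 * ((W.dp b - W.E.k0 : ℕ) : ℝ) := mul_le_mul_of_nonneg_right hp0 hbm0
    have a2 : τ * n ≤ 1 * n := mul_le_mul_of_nonneg_right hτ hn0
    linarith
  have hbe2 : ((2 : ℝ) ^ (-(2 * (n : ℝ)))) ^ 2 * W.E.ka ≤ (W.ps b).be := by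
    refine le_trans ?_ hbe
    rw [mul_comm]
    refine mul_le_mul_of_nonneg_left ?_ hκ.le
    rw [← Real.rpow_natCast, ← Real.rpow_mul h20.le]
    refine Real.rpow_le_rpow_of_exponent_le h2 (le_trans (le_of_eq ?_) hexp)
    push_cast
    ring
  have hR : (2 : ℝ) ^ (-(2 * (n : ℝ))) * Real.sqrt W.E.ka ≤ Real.sqrt (W.ps b).be := by
    calc (2 : ℝ) ^ (-(2 * (n : ℝ))) * Real.sqrt W.E.ka = Real.sqrt (((2 : ℝ) ^ (-(2 * (n : ℝ)))) ^ 2 * W.E.ka) := by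
          rw [Real.sqrt_mul (sq_nonneg _), Real.sqrt_sq (Real.rpow_nonneg h20.le _)]
      _ ≤ _ := Real.sqrt_le_sqrt hbe2
  have hG : (2 : ℝ) ^ (-((n : ℝ) / 2)) ≤ 2 ^ (-((1 / 2 - (rndWav η).Gam - ε) * (x : ℝ))) := by
    refine Real.rpow_le_rpow_of_exponent_le h2 ?_
    have a1 : 0 ≤ ((rndWav η).Gam + ε) * (x : ℝ) := mul_nonneg (by linarith) hx0
    nlinarith
  have hs : 0 ≤ Real.sqrt W.E.ka := Real.sqrt_nonneg _
  calc Real.sqrt (((2 : ℝ)⁻¹ ^ (W.dp Js - W.E.k0)) ^ ((16 * q : ℕ) : ℝ) * W.E.ka) * 2 ^ x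
      ≤ ((2 : ℝ) ^ (-(4 * (n : ℝ))) * Real.sqrt W.E.ka) * (2 : ℝ) ^ (n : ℝ) := mul_le_mul hL hX (by positivity) (by positivity)
    _ = (2 : ℝ) ^ (-(3 * (n : ℝ))) * Real.sqrt W.E.ka := by
        rw [mul_right_comm, ← Real.rpow_add h20]
        congr 2
        ring
    _ ≤ (2 : ℝ) ^ (-((n : ℝ) / 2) + -(2 * (n : ℝ))) * Real.sqrt W.E.ka := by
        refine mul_le_mul_of_nonneg_right (Real.rpow_le_rpow_of_exponent_le h2 (by linarith)) hs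
    _ = (2 : ℝ) ^ (-((n : ℝ) / 2)) * ((2 : ℝ) ^ (-(2 * (n : ℝ))) * Real.sqrt W.E.ka) := by
        rw [Real.rpow_add h20, mul_assoc]
    _ ≤ _ := mul_le_mul hG hR (by positivity) (by positivity)

/-- the number of bits per mesh step is large -/
theorem re_sl_m_ge {η : ℝ} {p : RdWvPar} (W : ReTw η p) {hg C A : ℕ} {τ : ℝ} (h : W.Ok hg C A τ) (N : ℕ) (hN : W.q * (N + 1) ≤ W.E.n) : N < W.m := by
  have h1 := h.n_hi
  have h2 : W.q * (N + 1) < W.q * (W.m + 1) := lt_of_le_of_lt hN h1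
  have h3 := Nat.lt_of_mul_lt_mul_left h2
  omega

theorem re_sl_aux_cnt (a y n : ℕ) (h : y ≤ n) : a * y + 1 ≤ (a + 1) * (n + 1) := by
  nlinarith [Nat.mul_le_mul_left a h]

set_option maxHeartbeats 1000000 in
/-- **COMP (glue, PROVED): one component.**   `k' = dp Js - n'`;  `gn_dec_ins` for `Y = Yx ..` at the cut `k'`, generation `gb_b + 1`, floor `s^(16 q)`;  levels: STEP + LVL;  remainder: STEP + `re_sl_raw_le` + `re_sl_num_rem`;  `gn_cube`. -/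
theorem re_sl_comp (η : ℝ) (hη0 : 0 < η) (hη1 : η < 1) (hE : ReEntry η) (hΓ : 0 < (rndWav η).Gam) (q : ℕ) (ε : ℝ) (hε : 0 < ε) (C D : ℕ) :
    ∃ Cc : ℝ, 0 ≤ Cc ∧ ∃ A0 n0 : ℕ, ∀ (A : ℕ) (p : RdWvPar) (W : ReTw η p) (τ ξ : ℝ), A0 ≤ A → W.q = q → n0 ≤ W.E.n → τ ≤ 1 → 0 ≤ ξ → W.Ok (q - 1) C A τ →
      ∀ (b j Js : ℕ) (P : RePs) (T : Set (ℕ × ReFc)) (n' : ℕ) (G : ℝ) (φ : RdFrm) (𝒜0 : Set (ℝ × ℝ)), 0 < b → 0 < j → 2 * j + Js = q →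
        P.Ok (W.Ex b) (W.dp Js) ξ → W.dp (b + 1) + n' ≤ W.dp Js → φ.r = W.Rw j → 0 ≤ G → (∀ I, ∀ y ∈ W.rs b T I, y.1 ∈ 𝒜0) →
        (∀ E' : Xp (p.sys η), ReStep η p E' (C + 2) (W.tn ξ) φ → E'.n = n' →
          reAngIn (reNb (rdD p.H (W.dp Js - n')) (reNb (rdD p.H (W.dp Js - n')) (reNb (rdD p.H (W.dp b)) 𝒜0))) E'.v → E'.val ≤ G) →
        (W.Yx b P (W.dp Js) (C + 2) T).rd ≤ Cc * ((W.E.n : ℝ) + 1) ^ 3 * (G * 2 ^ (-((n' : ℝ) / 2)) *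
          (2 ^ (-((1 / 2 - (rndWav η).Gam - ε) * ((W.dp Js - n' - W.dp b : ℕ) : ℝ))) * Real.sqrt (W.ps b).be *
            (W.rt b (W.rs b T) + W.E.s ^ (D : ℝ) * W.E.e))) := by
  obtain ⟨Cr1, hCr1, A1, n1, HTB⟩ := re_sl_tailb η hη0 hη1 hE hΓ q ε hε C D
  obtain ⟨C1, hC1, Hcls⟩ := re_sl_cls η hE q C
  obtain ⟨Cs, hCs, A2, n2, Hdec⟩ := gn_dec_ins (rndWav η) 1 hE.gen C1 (16 * q)
  obtain ⟨Cr2, hCr2, Hstep⟩ := re_sl_step η hη0 hη1 hE C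
  refine ⟨((16 * q + 1 : ℕ) : ℝ) ^ 3 * (Real.sqrt (2 * Cr2) * Real.sqrt Cr1 + Real.sqrt (Cr2 * Cs)), by positivity, max A1 A2, max n1 (q * (n2 + 1)), ?_⟩
  intro A p W τ ξ hA hq hn hτ hξ hW b j Js P T n' G φ 𝒜0 hb0 hj0 hJ hP hn' hφ hG h𝒜 HG
  have hT : (p.sys η).Tight := hE.gen.tight p p.ok
  have hbq : b < q := by
    have h1 : W.dp (b + 1) ≤ W.dp Js := by omega
    unfold ReTw.dp at h1
    have h2 : (b + 1) * W.m ≤ Js * W.m := by omega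
    have h3 := Nat.le_of_mul_le_mul_right h2 hW.m_pos
    omega
  have hbg : b ≤ q - 1 := by omega
  have hm2 : n2 < W.m := re_sl_m_ge W hW n2 (by rw [hq]; exact le_trans (le_max_right _ _) hn)
  have hdb : W.dp b ≤ W.dp (b + 1) := by unfold ReTw.dp; nlinarith
  have hk0 : W.E.k0 ≤ W.dp b := by unfold ReTw.dp; omega
  have hkf : W.dp Js ≤ W.E.kf := by
    have h1 := hW.n_lo
    rw [hq] at h1
    have h2 : Js * W.m ≤ q * W.m := Nat.mul_le_mul_right _ (by omega)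
    unfold ReTw.dp Xp.kf
    omega
  have hTB := HTB A p W τ (le_trans (le_max_left _ _) hA) hq (le_trans (le_max_left _ _) hn) hτ hW b T hb0 hbq
  -- the experiment
  obtain ⟨Y, hYdef⟩ : ∃ Y : Xp (p.sys η), Y = W.Yx b P (W.dp Js) (C + 2) T := ⟨_, rfl⟩
  obtain ⟨k', hk'def⟩ : ∃ k' : ℕ, k' = W.dp Js - n' := ⟨_, rfl⟩
  have hYv : Y.Valid := hYdef ▸ re_sl_Yx_valid W hT hW b hb0 hbg P (W.dp Js) ξ hP (by omega) hkf (C + 2) T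
  have hYr : Mdl.SameRoot W.E Y := by rw [hYdef]; exact ⟨rfl, rfl, rfl, rfl, rfl, rfl⟩
  have hYst : Y.st = W.stT b T := by rw [hYdef]; rfl
  have hYbT : Y.bT = C + 2 := by rw [hYdef]; rfl
  have hYkf : Y.kf = W.dp Js := by
    rw [hYdef]
    show W.E.k0 + (W.dp Js - W.E.k0) = W.dp Js
    omega
  have hYn : Y.n = W.dp Js - W.E.k0 := by rw [hYdef]; rfl
  have hYk0 : Y.k0 = W.E.k0 := by rw [hYdef]; rfl
  have hYi0 : Y.i0 = W.E.i0 := by rw [hYdef]; rfl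
  have hYka : Y.ka = W.E.ka := by rw [hYdef]; rfl
  have hYcls : (rndWav η).Cls C1 A p Y := Hcls A p W τ hq hW b T Y hb0 hbq hYv hYr hYst (by rw [hYbT]) (by rw [hYkf]; omega) (by rw [hYkf]; exact hkf)
  have hYcls2 : (rndWav η).Cls C1 A2 p Y := gn_cls_anti (rndWav η) hE.gen.scale (le_trans (le_max_right _ _) hA) hYcls
  have hJs0 : 0 < Js := by
    by_contra h0
    have : Js = 0 := by omega
    subst this
    unfold ReTw.dp at hn'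
    have := hW.m_pos
    nlinarith
  have hYn2 : n2 ≤ Y.n := by
    rw [hYn]
    unfold ReTw.dp
    have : W.m ≤ Js * W.m := Nat.le_mul_of_pos_left _ hJs0
    omega
  have hkk : W.dp (b + 1) ≤ k' := by omega
  have hk'J : k' ≤ W.dp Js := by omega
  have hnk : Y.kf - k' = n' := by rw [hYkf]; omega
  have hcut0 := re_sl_st_cut W b T k' (by omega) (by omega)
  have hcut : Y.CutAt k' Y.st ([] ++ []) := by
    refine ⟨by simp, ?_, by simp, by rw [hYk0]; omega, by rw [hYkf]; exact hk'J⟩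
    rw [hYst]
    exact hcut0.2.1
  have hgb := re_sl_gb_le W hW b hb0 hbg
  have hat : ∀ I, Y.at' k' I Y.st = W.phT b T (ancI k' (W.dp b) I) := by
    intro I
    rw [hYst, hYdef]
    exact re_sl_at W b T k' I (by omega)
  have hpl : ∀ I ∈ ivs Y.k0 Y.i0 k', Y.at' k' I Y.st ∈ ((rndWav η).sys p).Pl ((W.ps b).gb + 1) := by
    intro I _
    rw [hat]
    exact gn_tz_pl hT _ _ _ _ _
  obtain ⟨Mk, Hl, Hr, Hs⟩ := Hdec p Y hYn2 hYcls2 k' ((W.ps b).gb + 1) Y.st [] [] hcut (by simp) (by simp) (by omega) hpl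
  -- the common data of STEP
  have hspec : ∀ I ∈ ivs Y.k0 Y.i0 k', reAngIn (reNb (rdD p.H (W.dp b)) 𝒜0) (Y.at' k' I Y.st) := by
    intro I _
    rw [hat]
    exact re_sl_ph_spec W hW b hb0 hbg T _ 𝒜0 (h𝒜 _)
  have hKp : 1 ≤ W.tn ξ := by
    unfold ReTw.tn
    exact Real.one_le_rpow (by norm_num) (by positivity)
  have hRw : 0 < W.Rw j := by
    unfold ReTw.Rw
    exact mul_pos (re_at_R0_pos W) (rdLen_pos _)
  have hHeq := (re_sl_H_eq W j Js n' (by rw [hq]; exact hJ) (by omega)).1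
  have hpw : (0 : ℝ) < (2 : ℝ)⁻¹ ^ n' := by positivity
  have hlab : ∀ l, φ.r / W.tn ξ ≤ (rwT (Y.ts l)).r ∧ (rwT (Y.ts l)).r ≤ W.tn ξ * φ.r ∧ 1 / W.tn ξ ≤ (rwT (Y.ts l)).f := by
    rw [hYdef, hφ]
    intro l
    exact re_sl_lab W b j Js (by rw [hq]; exact hJ) P ξ hξ hP l l.2
  have hstep : ∀ (M : ℕ → RdWvPar.Ph → ℝ) (κt : ℝ), Y.InsAt k' ((W.ps b).gb + 1) Y.st [] [] M κt → 0 < κt →
      (Y.ins k' ((W.ps b).gb + 1) Y.st [] M).rd ≤ G * 2 ^ (-((n' : ℝ) / 2)) * Real.sqrt (Cr2 * κt) * Y.raw Y.st ⟨k', (W.ps b).gb + 1, M⟩ := by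
    intro M κt hI hκ
    have := Hstep p Y k' ((W.ps b).gb + 1) M κt G (W.tn ξ) φ (reNb (rdD p.H (W.dp b)) 𝒜0) hYv hI (by omega) (by rw [hYbT]; omega) (by rw [hYbT]) hκ hG hspec hKp
      (by rw [hφ]; exact hRw) (by rw [hnk, hφ, hk'def, hHeq]; exact div_le_self hpw.le hKp) (by rw [hnk, hφ, hk'def, hHeq]; exact le_mul_of_one_le_left hpw.le hKp) hlab
      (fun E' h1 h2 h3 => HG E' h1 (by rw [h2, hnk]) (by rw [← hk'def]; exact h3))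
    rwa [hnk] at this
  -- the benchmark
  obtain ⟨X0, hX0⟩ : ∃ X0 : ℝ, X0 = 2 ^ (-((1 / 2 - (rndWav η).Gam - ε) * ((k' - W.dp b : ℕ) : ℝ))) * Real.sqrt (W.ps b).be *
      (W.rt b (W.rs b T) + W.E.s ^ (D : ℝ) * W.E.e) := ⟨_, rfl⟩
  have hWv : W.E.Valid := by
    have := (hW.cls 0 (Nat.zero_le _)).2.1
    rwa [re_sl_Ex0 W hW.free] at this
  have hrt0 := re_sl_rt_nonneg W b (W.rs b T)
  have hse : 0 ≤ W.E.s ^ (D : ℝ) * W.E.e := mul_nonneg (Real.rpow_nonneg (gn_s_pos _).le _) hWv.e_pos.le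
  have hX00 : 0 ≤ X0 := by rw [hX0]; positivity
  have hG2 : 0 ≤ G * 2 ^ (-((n' : ℝ) / 2)) := mul_nonneg hG (gn_two_pos _).le
  have hκ : 0 < Y.ka := hYv.ka_pos
  have hraw : ∀ M : ℕ → RdWvPar.Ph → ℝ, (∀ i, IsMask (M i)) → Y.raw Y.st ⟨k', (W.ps b).gb + 1, M⟩ ≤ 2 ^ (k' - W.dp b) * W.rt b (W.rs b T) := by
    intro M hM
    rw [hYst, hYdef]
    exact re_sl_raw_le W hT hW b hb0 hbg T k' _ (by omega) _ hM
  have hpc : ∀ i < 16 * q * Y.n + 1, (Y.ins k' ((W.ps b).gb + 1) Y.st ([] ++ []) (Mk i)).rd ≤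
      G * 2 ^ (-((n' : ℝ) / 2)) * ((Real.sqrt (2 * Cr2) * Real.sqrt Cr1 + Real.sqrt (Cr2 * Cs)) * X0) := by
    intro i hi
    rcases Nat.lt_succ_iff_lt_or_eq.1 hi with hi | hi
    · obtain ⟨b1, -, -⟩ := gn_dec_beta Y hκ (16 * q) Cs hCs i hi
      have s1 := hstep (Mk i) _ (Hl i hi).2 (by positivity)
      have s2 := re_sl_lvl W hT b T ε Cr1 (C + 2) D hTB Y hYv hYr hYst k' ((W.ps b).gb + 1) (Mk i) _ b1 (Hl i hi).1 (by omega) hkk (by omega)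
      have e1 : Real.sqrt (Cr2 * (2 * ((2 : ℝ)⁻¹ ^ (i + 1) * (Cs * Y.ka)))) = Real.sqrt (2 * Cr2) * Real.sqrt ((2 : ℝ)⁻¹ ^ (i + 1) * (Cs * Y.ka)) := by
        rw [← Real.sqrt_mul (by positivity)]
        congr 1
        ring
      have e2 : Real.sqrt (Cr1 * (W.ps b).be) = Real.sqrt Cr1 * Real.sqrt (W.ps b).be := Real.sqrt_mul (by positivity) _
      rw [e2] at s2
      refine s1.trans ?_
      rw [e1]
      calc G * 2 ^ (-((n' : ℝ) / 2)) * (Real.sqrt (2 * Cr2) * Real.sqrt ((2 : ℝ)⁻¹ ^ (i + 1) * (Cs * Y.ka))) * Y.raw Y.st ⟨k', (W.ps b).gb + 1, Mk i⟩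
          = G * 2 ^ (-((n' : ℝ) / 2)) * (Real.sqrt (2 * Cr2) * (Real.sqrt ((2 : ℝ)⁻¹ ^ (i + 1) * (Cs * Y.ka)) * Y.raw Y.st ⟨k', (W.ps b).gb + 1, Mk i⟩)) := by ring
        _ ≤ G * 2 ^ (-((n' : ℝ) / 2)) * (Real.sqrt (2 * Cr2) * (Real.sqrt Cr1 * X0)) := by
            refine mul_le_mul_of_nonneg_left (mul_le_mul_of_nonneg_left (s2.trans (le_of_eq ?_)) (Real.sqrt_nonneg _)) hG2
            rw [hX0]
            ring
        _ ≤ _ := by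
            refine mul_le_mul_of_nonneg_left ?_ hG2
            have : 0 ≤ Real.sqrt (Cr2 * Cs) * X0 := by positivity
            nlinarith
    · rw [hi]
      have e3 : Y.s = (2 : ℝ)⁻¹ ^ (W.dp Js - W.E.k0) := by unfold Xp.s; rw [hYn]
      have Hr0 : Y.InsAt k' ((W.ps b).gb + 1) Y.st [] [] (Mk (16 * q * Y.n)) (Y.s ^ ((16 * q : ℕ) : ℝ) * (Cs * Y.ka)) := Hr
      rw [e3, hYka] at Hr0
      have hκt : 0 < ((2 : ℝ)⁻¹ ^ (W.dp Js - W.E.k0)) ^ ((16 * q : ℕ) : ℝ) * (Cs * W.E.ka) := mul_pos (Real.rpow_pos_of_pos (by positivity) _) (by rw [← hYka]; positivity)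
      have s1 := hstep (Mk (16 * q * Y.n)) _ Hr0 hκt
      have s2 : Y.raw Y.st ⟨k', (W.ps b).gb + 1, Mk (16 * q * Y.n)⟩ ≤ 2 ^ (k' - W.dp b) * W.rt b (W.rs b T) := hraw _ Hr.msk
      have s3 := re_sl_num_rem W hE hΓ hW hq hτ b Js (k' - W.dp b) hb0 hbq hJs0 (by unfold Xp.kf at hkf; omega) ε hε.le
      have e1 : ∀ x y : ℝ, Real.sqrt (Cr2 * (x * (Cs * y))) = Real.sqrt (Cr2 * Cs) * Real.sqrt (x * y) := by
        intro x y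
        rw [← Real.sqrt_mul (by positivity)]
        congr 1
        ring
      refine s1.trans ?_
      rw [e1]
      have hraw0 : 0 ≤ Y.raw Y.st ⟨k', (W.ps b).gb + 1, Mk (16 * q * Y.n)⟩ := gn_raw_nonneg _ _ _
      calc G * 2 ^ (-((n' : ℝ) / 2)) * (Real.sqrt (Cr2 * Cs) * Real.sqrt (((2 : ℝ)⁻¹ ^ (W.dp Js - W.E.k0)) ^ ((16 * q : ℕ) : ℝ) * W.E.ka)) * Y.raw Y.st ⟨k', (W.ps b).gb + 1, Mk (16 * q * Y.n)⟩
          ≤ G * 2 ^ (-((n' : ℝ) / 2)) * (Real.sqrt (Cr2 * Cs) * Real.sqrt (((2 : ℝ)⁻¹ ^ (W.dp Js - W.E.k0)) ^ ((16 * q : ℕ) : ℝ) * W.E.ka)) * (2 ^ (k' - W.dp b) * W.rt b (W.rs b T)) :=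
            mul_le_mul_of_nonneg_left s2 (by positivity)
        _ = G * 2 ^ (-((n' : ℝ) / 2)) * (Real.sqrt (Cr2 * Cs) * ((Real.sqrt (((2 : ℝ)⁻¹ ^ (W.dp Js - W.E.k0)) ^ ((16 * q : ℕ) : ℝ) * W.E.ka) * 2 ^ (k' - W.dp b)) * W.rt b (W.rs b T))) := by ring
        _ ≤ G * 2 ^ (-((n' : ℝ) / 2)) * (Real.sqrt (Cr2 * Cs) * X0) := by
            refine mul_le_mul_of_nonneg_left (mul_le_mul_of_nonneg_left ?_ (Real.sqrt_nonneg _)) hG2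
            rw [hX0]
            refine mul_le_mul s3 (by linarith) hrt0 (by positivity)
        _ ≤ _ := by
            refine mul_le_mul_of_nonneg_left ?_ hG2
            have : 0 ≤ Real.sqrt (2 * Cr2) * Real.sqrt Cr1 * X0 := by positivity
            nlinarith
  have hcube := gn_cube Y.rd _ (gn_rd_nonneg Y hYv) (16 * q * Y.n + 1) (fun i => (Y.ins k' ((W.ps b).gb + 1) Y.st ([] ++ []) (Mk i)).rd)
    (fun i => gn_ins_rd_nonneg Y hYv _ _ _ _ _) hpc Hs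
  rw [← hYdef]
  refine hcube.trans ?_
  have hcnt : (((16 * q * Y.n + 1 : ℕ) : ℝ)) ^ 3 ≤ ((16 * q + 1 : ℕ) : ℝ) ^ 3 * ((W.E.n : ℝ) + 1) ^ 3 := by
    rw [← mul_pow]
    refine pow_le_pow_left₀ (Nat.cast_nonneg _) ?_ 3
    have h1 : Y.n ≤ W.E.n := by rw [hYn]; unfold Xp.kf at hkf; omega
    have h2 : 16 * q * Y.n + 1 ≤ (16 * q + 1) * (W.E.n + 1) := re_sl_aux_cnt _ _ _ h1
    exact_mod_cast h2
  have hk'' : k' - W.dp b = W.dp Js - n' - W.dp b := by rw [hk'def]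
  rw [hk''] at hX0
  rw [← hX0]
  calc (((16 * q * Y.n + 1 : ℕ) : ℝ)) ^ 3 * (G * 2 ^ (-((n' : ℝ) / 2)) * ((Real.sqrt (2 * Cr2) * Real.sqrt Cr1 + Real.sqrt (Cr2 * Cs)) * X0))
      ≤ (((16 * q + 1 : ℕ) : ℝ) ^ 3 * ((W.E.n : ℝ) + 1) ^ 3) * (G * 2 ^ (-((n' : ℝ) / 2)) * ((Real.sqrt (2 * Cr2) * Real.sqrt Cr1 + Real.sqrt (Cr2 * Cs)) * X0)) :=
        mul_le_mul_of_nonneg_right hcnt (by positivity)
    _ = _ := by ring
end Claimed.Agent.R256
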