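-- KEEP
import Claimed.Agent.R256.Re.SlabStep

/-!
# Row 256, unit RE, post SLB, file 5: ONE COMPONENT IN A SLAB      (architect helper213; prefix `re_sl_`)      every `sorry` = leaf `L-256-SLB-C*`

  `re_sl_compB`   transverse case (`RePlaneB`), glue PROVED          `re_sl_compA`   tiny cap (`RePlaneA`), glue PROVED          `re_sl_slab`   the two cases with the gain `2^(-g S m)`
-/

set_option autoImplicit false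

namespace Claimed.Agent.R256

open MeasureTheory
open scoped BigOperators
open Classical

/-- **LEAF L-256-SLB-C1: the fine scale is below everything.**   `Rw j = R0 rdLen (j m)`, `rdLen k = 2⁻¹^k`;  `(2 · 2⁻¹^B)² = 2⁻¹^(2B - 2) ≤ 2⁻¹^(2 j m + n')` since `B ≥ 16 (q+1) (m+1) ≥ j m + n' + 1` (`h.B_ge`);  `0 < R0` (`re_at_R0_pos`). -/
theorem re_sl_fine {η : ℝ} {p : RdWvPar} (W : ReTw η p) {hg C A : ℕ} {τ : ℝ} (h : W.Ok hg C A τ) (j n' : ℕ) (hj : j ≤ W.q) (hn : n' ≤ W.q * W.m) :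
    (2 * (W.R0 * rdLen W.B)) ^ 2 ≤ W.Rw j ^ 2 * (2 : ℝ)⁻¹ ^ n' := by
  have hR0 := re_at_R0_pos W
  have hB := h.B_ge
  have hjm : j * W.m ≤ W.q * W.m := Nat.mul_le_mul_right _ hj
  have hBq : 2 * (j * W.m) + n' + 2 ≤ 2 * W.B := by
    have e : 16 * (W.q + 1) * (W.m + 1) = 16 * (W.q * W.m) + 16 * W.q + 16 * W.m + 16 := by ring
    omega
  have key : 4 * ((2 : ℝ)⁻¹ ^ W.B) ^ 2 ≤ ((2 : ℝ)⁻¹ ^ (j * W.m)) ^ 2 * (2 : ℝ)⁻¹ ^ n' := by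
    rw [← pow_mul, ← pow_mul, ← pow_add]
    have e4 : (4 : ℝ) * (2 : ℝ)⁻¹ ^ (W.B * 2) = (2 : ℝ)⁻¹ ^ (W.B * 2 - 2) := by
      obtain ⟨r, hr⟩ : ∃ r, W.B * 2 = r + 2 := ⟨W.B * 2 - 2, by omega⟩
      rw [hr, Nat.add_sub_cancel, pow_add]
      have e5 : ((2 : ℝ)⁻¹) ^ 2 = 1 / 4 := by norm_num
      rw [e5]
      ring
    rw [e4]
    exact pow_le_pow_of_le_one (by norm_num) (by norm_num) (by omega)
  unfold ReTw.Rw rdLen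
  calc (2 * (W.R0 * (2 : ℝ)⁻¹ ^ W.B)) ^ 2 = W.R0 ^ 2 * (4 * ((2 : ℝ)⁻¹ ^ W.B) ^ 2) := by ring
    _ ≤ W.R0 ^ 2 * (((2 : ℝ)⁻¹ ^ (j * W.m)) ^ 2 * (2 : ℝ)⁻¹ ^ n') := mul_le_mul_of_nonneg_left key (by positivity)
    _ = (W.R0 * (2 : ℝ)⁻¹ ^ (j * W.m)) ^ 2 * (2 : ℝ)⁻¹ ^ n' := by ring

/-- common facts on the scales of one step -/
theorem re_sl_scales {η : ℝ} {p : RdWvPar} (W : ReTw η p) {q C A : ℕ} {τ : ℝ} (h : W.Ok (q - 1) C A τ) (hq : W.q = q) (b j Js n' : ℕ) (hJ : 2 * j + Js = q)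
    (hn' : W.dp (b + 1) + n' ≤ W.dp Js) :
    0 < W.Rw j ∧ (2 * (W.R0 * rdLen W.B)) ^ 2 ≤ W.Rw j ^ 2 * (2 : ℝ)⁻¹ ^ n' ∧ rdD p.H (W.dp b) ^ 2 ≤ W.Rw j ^ 2 * (2 : ℝ)⁻¹ ^ n' ∧
      rdD p.H (W.dp Js - n') ^ 2 ≤ W.Rw j ^ 2 * (2 : ℝ)⁻¹ ^ n' ∧ 0 ≤ rdD p.H (W.dp b) ∧ 0 ≤ rdD p.H (W.dp Js - n') ∧ 0 ≤ 2 * (W.R0 * rdLen W.B) := by
  have hR0 := re_at_R0_pos W
  have hRw : 0 < W.Rw j := by
    unfold ReTw.Rw
    exact mul_pos hR0 (rdLen_pos _)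
  have h2 := (re_sl_H_eq W j Js n' (by rw [hq]; exact hJ) (by omega)).2
  have hdb : W.dp b ≤ W.dp (b + 1) := by unfold ReTw.dp; nlinarith
  have h3 : rdD p.H (W.dp b) ≤ rdD p.H (W.dp Js - n') := re_sl_d_mono p.H p.H_pos (by omega)
  have h4 : 0 ≤ rdD p.H (W.dp b) := Real.sqrt_nonneg _
  have hnq : n' ≤ W.q * W.m := by
    have e1 : Js * W.m ≤ W.q * W.m := Nat.mul_le_mul_right _ (by omega)
    unfold ReTw.dp at hn'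
    omega
  refine ⟨hRw, re_sl_fine W h j n' (by omega) hnq, ?_, h2.le, h4, Real.sqrt_nonneg _, by have := rdLen_pos W.B; positivity⟩
  rw [← h2]
  exact pow_le_pow_left₀ h4 h3 2

/-- **COMP-B (glue, PROVED)** -/
theorem re_sl_compB (η : ℝ) (hη0 : 0 < η) (hη1 : η < 1) (hE : ReEntry η) (hΓ : 0 < (rndWav η).Gam) (hB : RePlaneB η) :
    ∃ C0 : ℝ, 0 ≤ C0 ∧ ∀ ν : ℝ, 0 < ν → ∀ (q : ℕ) (ε : ℝ), 0 < ε → ∀ C D : ℕ, ∃ Cc : ℝ, 0 ≤ Cc ∧ ∃ A0 n0 : ℕ, ∀ (A : ℕ) (p : RdWvPar) (W : ReTw η p) (τ ξ : ℝ),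
      A0 ≤ A → W.q = q → n0 ≤ W.E.n → τ ≤ 1 → 0 ≤ ξ → 100 ≤ W.tn ξ → W.Ok (q - 1) C A τ →
      ∀ (b j Js : ℕ) (P : RePs) (T : Set (ℕ × ReFc)) (n' : ℕ) (x : ReName) (nn : ℝ × ℝ × ℝ) (c w Pp : ℝ), 0 < b → 0 < j → 2 * j + Js = q →
        P.Ok (W.Ex b) (W.dp Js) ξ → W.dp (b + 1) + n' ≤ W.dp Js → nn.1 ^ 2 + nn.2.1 ^ 2 + nn.2.2 ^ 2 = 1 → 0 ≤ w → w ^ 2 ≤ (2 : ℝ)⁻¹ ^ n' → 2 ≤ Pp →
        Pp ^ (-2 : ℝ) ≤ nn.1 ^ 2 + nn.2.1 ^ 2 + 4 * nn.2.2 * c →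
        (∀ a ∈ T, ∃ ha : a ∈ W.ats b, W.doc.nm b b j ⟨a, ha⟩ = x ∧ W.doc.InSlab b j nn c w ⟨a, ha⟩) →
        (W.Yx b P (W.dp Js) (C + 2) T).rd ≤ Cc * ((W.E.n : ℝ) + 1) ^ 3 * (W.tn ξ ^ C0 * Pp ^ C0 * 2 ^ ((4 * η + ν) * (n' : ℝ)) * 2 ^ (-((n' : ℝ) / 2)) *
          (2 ^ (-((1 / 2 - (rndWav η).Gam - ε) * ((W.dp Js - n' - W.dp b : ℕ) : ℝ))) * Real.sqrt (W.ps b).be *
            (W.rt b (W.rs b T) + W.E.s ^ (D : ℝ) * W.E.e))) := by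
  obtain ⟨C0B, HB⟩ := hB
  refine ⟨max C0B 0, le_max_right _ _, fun ν hν q ε hε C D => ?_⟩
  obtain ⟨CB, HB'⟩ := HB ν (C + 2) hν
  obtain ⟨Cc, hCc, A0, n0, Hc⟩ := re_sl_comp η hη0 hη1 hE hΓ q ε hε C D
  refine ⟨Cc * |CB|, by positivity, A0, n0, ?_⟩
  intro A p W τ ξ hA hq hn hτ hξ hK hW b j Js P T n' x nn c w Pp hb0 hj0 hJ hP hn' hnn hw hw' hPp hdisc hT
  obtain ⟨hRw, f1, f2, f3, f4, f5, f6⟩ := re_sl_scales W hW hq b j Js n' hJ hn'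
  have hK1 : 1 ≤ W.tn ξ := by linarith
  have hP1 : 1 ≤ Pp := by linarith
  have hΔ : (0 : ℝ) < (2 : ℝ)⁻¹ ^ n' := by positivity
  have hΔ1 : (2 : ℝ)⁻¹ ^ n' ≤ 1 := pow_le_one₀ (by norm_num) (by norm_num)
  have key := Hc A p W τ ξ hA hq hn hτ hξ hW b j Js P T n' (|CB| * W.tn ξ ^ (max C0B 0) * Pp ^ (max C0B 0) * 2 ^ ((4 * η + ν) * (n' : ℝ)))
    ⟨W.Rw j, (W.Rw j * x.2.1.1, W.Rw j * x.2.1.2), 0, 0⟩ (reSlabDir (W.Rw j * x.2.1.1, W.Rw j * x.2.1.2) (W.Rw j) nn c w (2 * (W.R0 * rdLen W.B)))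
    hb0 hj0 hJ hP hn' rfl (by positivity) (fun I y hy => re_sl_dir W b j x nn c w T hT I y hy) ?_
  · refine key.trans (le_of_eq ?_)
    ring
  · intro E' hS hEn hsp
    have hs : E'.s = (2 : ℝ)⁻¹ ^ n' := by unfold Xp.s; rw [hEn]
    have h1 := HB' p E' (W.tn ξ) Pp ⟨W.Rw j, (W.Rw j * x.2.1.1, W.Rw j * x.2.1.2), 0, 0⟩ (-c) nn.2.2 (nn.1, nn.2.1) hS hPp
      (by unfold rtSq; exact hnn) (by unfold rtSq; simp only; linarith)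
      (by
        rw [hs]
        exact re_sl_ang_mono hsp (re_sl_caseB _ _ _ nn c w _ _ _ (W.tn ξ) hRw hΔ hΔ1 hnn hw hw' f6 f1 f4 f2 f5 f3 hK))
    rw [hEn] at h1
    refine h1.trans ?_
    have a1 : W.tn ξ ^ C0B ≤ W.tn ξ ^ (max C0B 0) := Real.rpow_le_rpow_of_exponent_le hK1 (le_max_left _ _)
    have a2 : Pp ^ C0B ≤ Pp ^ (max C0B 0) := Real.rpow_le_rpow_of_exponent_le hP1 (le_max_left _ _)
    have a3 : 0 < W.tn ξ ^ C0B := Real.rpow_pos_of_pos (by linarith) _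
    have a4 : 0 < Pp ^ C0B := Real.rpow_pos_of_pos (by linarith) _
    have a5 : (0 : ℝ) < 2 ^ ((4 * η + ν) * (n' : ℝ)) := gn_two_pos _
    calc CB * W.tn ξ ^ C0B * Pp ^ C0B * 2 ^ ((4 * η + ν) * (n' : ℝ)) ≤ |CB| * W.tn ξ ^ C0B * Pp ^ C0B * 2 ^ ((4 * η + ν) * (n' : ℝ)) := by
          have := le_abs_self CB
          gcongr
      _ ≤ _ := by gcongr

/-- **COMP-A (glue, PROVED)** -/
theorem re_sl_compA (η : ℝ) (hη0 : 0 < η) (hη1 : η < 1) (hE : ReEntry η) (hΓ : 0 < (rndWav η).Gam) (hAA : RePlaneA η) :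
    ∃ C0 : ℝ, 0 ≤ C0 ∧ ∀ (q : ℕ) (ε : ℝ), 0 < ε → ∀ C D : ℕ, ∃ Cc : ℝ, 0 ≤ Cc ∧ ∃ A0 n0 : ℕ, ∀ (A : ℕ) (p : RdWvPar) (W : ReTw η p) (τ ξ : ℝ),
      A0 ≤ A → W.q = q → n0 ≤ W.E.n → τ ≤ 1 → 0 ≤ ξ → 100 ≤ W.tn ξ → W.Ok (q - 1) C A τ →
      ∀ (b j Js : ℕ) (P : RePs) (T : Set (ℕ × ReFc)) (n' : ℕ) (x : ReName) (nn : ℝ × ℝ × ℝ) (c w : ℝ), 0 < b → 0 < j → 2 * j + Js = q →
        P.Ok (W.Ex b) (W.dp Js) ξ → W.dp (b + 1) + n' ≤ W.dp Js → 0 < n' → nn.1 ^ 2 + nn.2.1 ^ 2 + nn.2.2 ^ 2 = 1 → 0 ≤ w → w ≤ (2 : ℝ)⁻¹ ^ n' →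
        nn.1 ^ 2 + nn.2.1 ^ 2 + 4 * nn.2.2 * c ≤ (2 : ℝ)⁻¹ ^ n' →
        (∀ a ∈ T, ∃ ha : a ∈ W.ats b, W.doc.nm b b j ⟨a, ha⟩ = x ∧ W.doc.InSlab b j nn c w ⟨a, ha⟩) →
        (W.Yx b P (W.dp Js) (C + 2) T).rd ≤ Cc * ((W.E.n : ℝ) + 1) ^ 3 * (W.tn ξ ^ C0 * 2 ^ (-((n' : ℝ) / 2)) *
          (2 ^ (-((1 / 2 - (rndWav η).Gam - ε) * ((W.dp Js - n' - W.dp b : ℕ) : ℝ))) * Real.sqrt (W.ps b).be *
            (W.rt b (W.rs b T) + W.E.s ^ (D : ℝ) * W.E.e))) := by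
  obtain ⟨C0A, HA⟩ := hAA
  refine ⟨max C0A 0, le_max_right _ _, fun q ε hε C D => ?_⟩
  obtain ⟨CA, HA'⟩ := HA (C + 2)
  obtain ⟨Cc, hCc, A0, n0, Hc⟩ := re_sl_comp η hη0 hη1 hE hΓ q ε hε C D
  refine ⟨Cc * |CA|, by positivity, A0, n0, ?_⟩
  intro A p W τ ξ hA hq hn hτ hξ hK hW b j Js P T n' x nn c w hb0 hj0 hJ hP hn' hn0 hnn hw hw' hdisc hT
  obtain ⟨hRw, f1, f2, f3, f4, f5, f6⟩ := re_sl_scales W hW hq b j Js n' hJ hn'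
  have hK1 : 1 ≤ W.tn ξ := by linarith
  have hΔ : (0 : ℝ) < (2 : ℝ)⁻¹ ^ n' := by positivity
  have hΔ1 : (2 : ℝ)⁻¹ ^ n' ≤ 1 / 2 := by
    calc (2 : ℝ)⁻¹ ^ n' ≤ (2 : ℝ)⁻¹ ^ 1 := pow_le_pow_of_le_one (by norm_num) (by norm_num) hn0
      _ = 1 / 2 := by norm_num
  obtain ⟨Ac, hAc⟩ := re_sl_caseA (W.Rw j * x.2.1.1, W.Rw j * x.2.1.2) (W.Rw j) ((2 : ℝ)⁻¹ ^ n') nn c w (2 * (W.R0 * rdLen W.B)) (rdD p.H (W.dp b))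
    (rdD p.H (W.dp Js - n')) (W.tn ξ) hRw hΔ hΔ1 hnn hw hw' f6 f1 f4 f2 f5 f3 hK hdisc
  have key := Hc A p W τ ξ hA hq hn hτ hξ hW b j Js P T n' (|CA| * W.tn ξ ^ (max C0A 0))
    ⟨W.Rw j, Ac, 0, 0⟩ (reSlabDir (W.Rw j * x.2.1.1, W.Rw j * x.2.1.2) (W.Rw j) nn c w (2 * (W.R0 * rdLen W.B)))
    hb0 hj0 hJ hP hn' rfl (by positivity) (fun I y hy => re_sl_dir W b j x nn c w T hT I y hy) ?_
  · refine key.trans (le_of_eq ?_)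
    ring
  · intro E' hS hEn hsp
    have hs : E'.s = (2 : ℝ)⁻¹ ^ n' := by unfold Xp.s; rw [hEn]
    have h1 := HA' p E' (W.tn ξ) ⟨W.Rw j, Ac, 0, 0⟩ hS
      (by
        rw [hs]
        exact re_sl_ang_mono hsp hAc)
    refine h1.trans ?_
    have a1 : W.tn ξ ^ C0A ≤ W.tn ξ ^ (max C0A 0) := Real.rpow_le_rpow_of_exponent_le hK1 (le_max_left _ _)
    have a3 : 0 < W.tn ξ ^ C0A := Real.rpow_pos_of_pos (by linarith) _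
    calc CA * W.tn ξ ^ C0A ≤ |CA| * W.tn ξ ^ C0A := by
          have := le_abs_self CA
          gcongr
      _ ≤ _ := by gcongr

theorem re_sl_numA (Γ ε lam L x n' : ℝ) (hΓ0 : 0 < Γ) (hΓ1 : Γ ≤ 1) (hε : 0 ≤ ε) (hn1 : lam * L - 1 ≤ n') (hn0 : 0 ≤ n') :
    (2 : ℝ) ^ (-(n' / 2)) * 2 ^ (-((1 / 2 - Γ - ε) * (x - n'))) ≤ 2 * (2 ^ (-(Γ * lam * L)) * 2 ^ (-((1 / 2 - Γ - ε) * x))) := by
  have e2 : ∀ y : ℝ, 2 * y = 2 ^ (1 : ℝ) * y := fun y => by rw [Real.rpow_one]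
  rw [e2, ← gn_two_add, ← gn_two_add, ← gn_two_add]
  refine gn_two_mono ?_
  nlinarith [mul_nonneg hε hn0]

theorem re_sl_numB (Γ η ν ε C0 C0B lam hB g L x n' : ℝ) (hΓ0 : 0 < Γ) (hΓ1 : Γ ≤ 1) (hε : 0 ≤ ε) (hC : C0B ≤ C0) (hL : 0 ≤ lam * L) (hL0 : 0 ≤ L)
    (hν : 4 * η + ν - Γ ≤ -(Γ / 2)) (hn1 : hB * L - 1 ≤ n') (hn0 : 0 ≤ n') (hg : C0 * lam - Γ / 2 * hB ≤ -g) :
    ((2 : ℝ) ^ (lam * L)) ^ C0B * 2 ^ ((4 * η + ν) * n') * 2 ^ (-(n' / 2)) * 2 ^ (-((1 / 2 - Γ - ε) * (x - n'))) ≤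
      2 * (2 ^ (-(g * L)) * 2 ^ (-((1 / 2 - Γ - ε) * x))) := by
  have e2 : ∀ y : ℝ, 2 * y = 2 ^ (1 : ℝ) * y := fun y => by rw [Real.rpow_one]
  rw [gn_two_mul, e2, ← gn_two_add, ← gn_two_add, ← gn_two_add, ← gn_two_add, ← gn_two_add]
  refine gn_two_mono ?_
  have h1 : lam * L * C0B ≤ lam * L * C0 := mul_le_mul_of_nonneg_left hC hL
  have h2 : (4 * η + ν - Γ) * n' ≤ -(Γ / 2) * n' := mul_le_mul_of_nonneg_right hν hn0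
  have h3 : -(Γ / 2) * n' ≤ -(Γ / 2) * (hB * L - 1) := by nlinarith
  have h4 : (C0 * lam - Γ / 2 * hB) * L ≤ -g * L := mul_le_mul_of_nonneg_right hg hL0
  nlinarith [mul_nonneg hε hn0]

theorem re_sl_aux_inv_pow (n : ℕ) : (2 : ℝ)⁻¹ ^ n = 2 ^ (-(n : ℝ)) := by
  rw [gn_two_neg, gn_two_nat, inv_pow]

/-- final rearrangement -/
theorem re_sl_aux_fin (c c' N k k' u v Z : ℝ) (hc : 0 ≤ c) (hcc : c ≤ c') (hN : 0 ≤ N) (hk : 0 ≤ k) (hkk : k ≤ k') (hu : 0 ≤ u) (huv : u ≤ 2 * v) (hZ : 0 ≤ Z) :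
    c * N * (k * u * Z) ≤ 2 * c' * N * (k' * v * Z) := by
  have h1 : k * u ≤ k' * (2 * v) := mul_le_mul hkk huv hu (hk.trans hkk)
  have h2 : k * u * Z ≤ k' * (2 * v) * Z := mul_le_mul_of_nonneg_right h1 hZ
  have h3 : c * N ≤ c' * N := mul_le_mul_of_nonneg_right hcc hN
  have h4 : 0 ≤ k * u * Z := by positivity
  calc c * N * (k * u * Z) ≤ c' * N * (k' * (2 * v) * Z) := mul_le_mul h3 h2 h4 (mul_nonneg (hc.trans hcc) hN)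
    _ = _ := by ring

set_option maxHeartbeats 1000000 in
/-- **SLAB (glue, PROVED): one component in a slab loses `2^(-g S m)`.**   `C0 = max C0A C0B 1`, `es1 = min es 1`, `λ = Γ es1 / (320 C0)`, `g = Γ λ`, `ν = Γ/4`;  transverse step `n' = ⌊es1 S m / 20⌋`, `P = 2^(λ S m)`;  tiny cap `n' = ⌊λ S m⌋`. -/
theorem re_sl_slab (η : ℝ) (hη0 : 0 < η) (hη1 : η < 1) (hE : ReEntry η) (hAA : RePlaneA η) (hB : RePlaneB η) (hΓ : 100 * η < (rndWav η).Gam) (es : ℝ) (hes : 0 < es) :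
    ∃ g C0 : ℝ, 0 < g ∧ 0 ≤ C0 ∧ ∀ (q : ℕ) (ε : ℝ), 0 < ε → ∀ C D : ℕ, ∃ Cc : ℝ, 0 ≤ Cc ∧ ∃ A0 n0 : ℕ, ∀ (A : ℕ) (p : RdWvPar) (W : ReTw η p) (τ ξ : ℝ),
      A0 ≤ A → W.q = q → n0 ≤ W.E.n → τ ≤ 1 → 0 ≤ ξ → 100 ≤ W.tn ξ → W.Ok (q - 1) C A τ →
      ∀ (b j Js S : ℕ) (P : RePs) (T : Set (ℕ × ReFc)) (x : ReName) (nn : ℝ × ℝ × ℝ) (c : ℝ), 0 < b → 0 < j → 0 < S → 2 * j + Js = q → b + 1 + S ≤ Js →
        P.Ok (W.Ex b) (W.dp Js) ξ → nn.1 ^ 2 + nn.2.1 ^ 2 + nn.2.2 ^ 2 = 1 →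
        (∀ a ∈ T, ∃ ha : a ∈ W.ats b, W.doc.nm b b j ⟨a, ha⟩ = x ∧ W.doc.InSlab b j nn c (W.doc.tl (-(es * S))) ⟨a, ha⟩) →
        (W.Yx b P (W.dp Js) (C + 2) T).rd ≤ Cc * ((W.E.n : ℝ) + 1) ^ 3 * (W.tn ξ ^ C0 * (2 ^ (-(g * ((S * W.m : ℕ) : ℝ))) *
          2 ^ (-((1 / 2 - (rndWav η).Gam - ε) * ((W.dp Js - W.dp b : ℕ) : ℝ)))) * (Real.sqrt (W.ps b).be *
            (W.rt b (W.rs b T) + W.E.s ^ (D : ℝ) * W.E.e))) := by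
  have hΓ0 : 0 < (rndWav η).Gam := by linarith
  have hΓ1 : (rndWav η).Gam ≤ 1 := gn_gam_le_one (rndWav η) 1 hE.gen
  obtain ⟨Γ, hΓdef⟩ : ∃ Γ : ℝ, Γ = (rndWav η).Gam := ⟨_, rfl⟩
  rw [← hΓdef] at hΓ hΓ0 hΓ1
  obtain ⟨C0A, hC0A, HA⟩ := re_sl_compA η hη0 hη1 hE (hΓdef ▸ hΓ0) hAA
  obtain ⟨C0B, hC0B, HB⟩ := re_sl_compB η hη0 hη1 hE (hΓdef ▸ hΓ0) hB
  obtain ⟨C0, hC0def⟩ : ∃ C0 : ℝ, C0 = max (max C0A C0B) 1 := ⟨_, rfl⟩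
  have hC01 : 1 ≤ C0 := hC0def ▸ le_max_right _ _
  have hC0a : C0A ≤ C0 := hC0def ▸ le_trans (le_max_left _ _) (le_max_left _ _)
  have hC0b : C0B ≤ C0 := hC0def ▸ le_trans (le_max_right _ _) (le_max_left _ _)
  obtain ⟨es1, hes1def⟩ : ∃ es1 : ℝ, es1 = min es 1 := ⟨_, rfl⟩
  have hes0 : 0 < es1 := hes1def ▸ lt_min hes one_pos
  have hese : es1 ≤ es := hes1def ▸ min_le_left _ _
  have hes1 : es1 ≤ 1 := hes1def ▸ min_le_right _ _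
  obtain ⟨lam, hlamdef⟩ : ∃ lam : ℝ, lam = Γ * es1 / (320 * C0) := ⟨_, rfl⟩
  have hlam0 : 0 < lam := by rw [hlamdef]; positivity
  have hlamC : C0 * lam = Γ * es1 / 320 := by rw [hlamdef]; field_simp
  have hlam1 : lam ≤ es1 / 320 := by
    have : lam ≤ C0 * lam := le_mul_of_one_le_left hlam0.le hC01
    nlinarith
  refine ⟨Γ * lam, C0, by positivity, by linarith, fun q ε hε C D => ?_⟩
  obtain ⟨CcA, hCcA, A1, n1, HA'⟩ := HA q ε hε C D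
  obtain ⟨CcB, hCcB, A2, n2, HB'⟩ := HB (Γ / 4) (by positivity) q ε hε C D
  obtain ⟨m0, hm0⟩ := exists_nat_ge (1 / lam)
  refine ⟨2 * (CcA + CcB), by positivity, max A1 A2, max (max n1 n2) (q * (m0 + 1)), ?_⟩
  intro A p W τ ξ hA hq hn hτ hξ hK hW b j Js S P T x nn c hb0 hj0 hS0 hJ hbS hP hnn hT
  rw [← hΓdef]
  have hm : m0 < W.m := re_sl_m_ge W hW m0 (by rw [hq]; exact le_trans (le_max_right _ _) hn)
  obtain ⟨L, hLdef⟩ : ∃ L : ℝ, L = ((S * W.m : ℕ) : ℝ) := ⟨_, rfl⟩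
  rw [← hLdef]
  have hLm : (W.m : ℝ) ≤ L := by
    rw [hLdef]
    exact_mod_cast Nat.le_mul_of_pos_left _ hS0
  have hL0 : 0 ≤ L := by rw [hLdef]; positivity
  have hL1 : 1 ≤ lam * L := by
    have h1 : (m0 : ℝ) ≤ L := le_trans (by exact_mod_cast hm.le) hLm
    have h2 : 1 / lam ≤ L := hm0.trans h1
    rw [div_le_iff₀ hlam0] at h2
    linarith
  have hK1 : 1 ≤ W.tn ξ := by linarith
  have hK0 : 0 < W.tn ξ := by linarith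
  have hw : W.doc.tl (-(es * S)) = 2 ^ (-(es * L)) := by
    unfold ReDoc.tl
    rw [hLdef]
    congr 1
    show -(es * (S : ℝ)) * (W.m : ℝ) = _
    push_cast
    ring
  rw [hw] at hT
  have hdpJ : W.dp (b + 1) + S * W.m ≤ W.dp Js := by
    unfold ReTw.dp
    have : (b + 1 + S) * W.m ≤ Js * W.m := Nat.mul_le_mul_right _ hbS
    nlinarith
  have hdb : W.dp b ≤ W.dp (b + 1) := by unfold ReTw.dp; nlinarith
  obtain ⟨xx, hxdef⟩ : ∃ xx : ℝ, xx = ((W.dp Js - W.dp b : ℕ) : ℝ) := ⟨_, rfl⟩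
  rw [← hxdef]
  have hsub : ∀ n' : ℕ, n' ≤ S * W.m → ((W.dp Js - n' - W.dp b : ℕ) : ℝ) = xx - n' := by
    intro n' hn'
    rw [hxdef, Nat.cast_sub (by omega), Nat.cast_sub (by omega), Nat.cast_sub (by omega)]
    ring
  have hWv : W.E.Valid := by
    have := (hW.cls 0 (Nat.zero_le _)).2.1
    rwa [re_sl_Ex0 W hW.free] at this
  have hZ : 0 ≤ Real.sqrt (W.ps b).be * (W.rt b (W.rs b T) + W.E.s ^ (D : ℝ) * W.E.e) :=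
    mul_nonneg (Real.sqrt_nonneg _) (add_nonneg (re_sl_rt_nonneg W b _) (mul_nonneg (Real.rpow_nonneg (gn_s_pos _).le _) hWv.e_pos.le))
  have hN3 : 0 ≤ ((W.E.n : ℝ) + 1) ^ 3 := by positivity
  by_cases hd : (2 : ℝ) ^ (-(2 * (lam * L))) ≤ nn.1 ^ 2 + nn.2.1 ^ 2 + 4 * nn.2.2 * c
  · -- transverse
    obtain ⟨n', hn'def⟩ : ∃ n' : ℕ, n' = ⌊es1 / 20 * L⌋₊ := ⟨_, rfl⟩
    have f1 : (n' : ℝ) ≤ es1 / 20 * L := hn'def ▸ Nat.floor_le (by positivity)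
    have f2 : es1 / 20 * L - 1 ≤ n' := by
      have := Nat.lt_floor_add_one (es1 / 20 * L)
      rw [← hn'def] at this
      linarith
    have f3 : n' ≤ S * W.m := by
      have : (n' : ℝ) ≤ ((S * W.m : ℕ) : ℝ) := by
        rw [← hLdef]
        nlinarith
      exact_mod_cast this
    have key := HB' A p W τ ξ (le_trans (le_max_right _ _) hA) hq (le_trans (le_trans (le_max_right _ _) (le_max_left _ _)) hn) hτ hξ hK hW b j Js P T n' x nn c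
      (2 ^ (-(es * L))) (2 ^ (lam * L)) hb0 hj0 hJ hP (by omega) hnn (gn_two_pos _).le
      (by
        rw [re_sl_aux_inv_pow, ← Real.rpow_natCast, gn_two_mul]
        refine gn_two_mono ?_
        push_cast
        nlinarith)
      (by
        calc (2 : ℝ) = 2 ^ (1 : ℝ) := (Real.rpow_one 2).symm
          _ ≤ _ := gn_two_mono hL1)
      (by
        rw [gn_two_mul]
        refine le_trans (le_of_eq ?_) hd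
        congr 1
        ring) hT
    rw [hsub n' f3, ← hΓdef] at key
    refine key.trans ?_
    have num := re_sl_numB Γ η (Γ / 4) ε C0 C0B lam (es1 / 20) (Γ * lam) L xx n' hΓ0 hΓ1 hε.le hC0b (by positivity) hL0 (by linarith) f2 (Nat.cast_nonneg _)
      (by rw [hlamC]; nlinarith)
    have fin := re_sl_aux_fin CcB (CcA + CcB) (((W.E.n : ℝ) + 1) ^ 3) (W.tn ξ ^ C0B) (W.tn ξ ^ C0)
      (((2 : ℝ) ^ (lam * L)) ^ C0B * 2 ^ ((4 * η + Γ / 4) * (n' : ℝ)) * 2 ^ (-((n' : ℝ) / 2)) * 2 ^ (-((1 / 2 - Γ - ε) * (xx - n'))))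
      (2 ^ (-(Γ * lam * L)) * 2 ^ (-((1 / 2 - Γ - ε) * xx))) _ hCcB (by linarith) hN3 (Real.rpow_nonneg hK0.le _)
      (Real.rpow_le_rpow_of_exponent_le hK1 hC0b) (by positivity) num hZ
    refine le_trans (le_of_eq ?_) fin
    ring
  · -- tiny cap
    push Not at hd
    obtain ⟨n', hn'def⟩ : ∃ n' : ℕ, n' = ⌊lam * L⌋₊ := ⟨_, rfl⟩
    have f1 : (n' : ℝ) ≤ lam * L := hn'def ▸ Nat.floor_le (by positivity)
    have f2 : lam * L - 1 ≤ n' := by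
      have := Nat.lt_floor_add_one (lam * L)
      rw [← hn'def] at this
      linarith
    have f3 : n' ≤ S * W.m := by
      have : (n' : ℝ) ≤ ((S * W.m : ℕ) : ℝ) := by
        rw [← hLdef]
        nlinarith
      exact_mod_cast this
    have f4 : 0 < n' := by
      rw [hn'def]
      exact Nat.floor_pos.2 hL1
    have key := HA' A p W τ ξ (le_trans (le_max_left _ _) hA) hq (le_trans (le_trans (le_max_left _ _) (le_max_left _ _)) hn) hτ hξ hK hW b j Js P T n' x nn c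
      (2 ^ (-(es * L))) hb0 hj0 hJ hP (by omega) f4 hnn (gn_two_pos _).le
      (by
        rw [re_sl_aux_inv_pow]
        refine gn_two_mono ?_
        nlinarith)
      (by
        rw [re_sl_aux_inv_pow]
        refine hd.le.trans (gn_two_mono ?_)
        nlinarith) hT
    rw [hsub n' f3, ← hΓdef] at key
    refine key.trans ?_
    have num := re_sl_numA Γ ε lam L xx n' hΓ0 hΓ1 hε.le f2 (Nat.cast_nonneg _)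
    have fin := re_sl_aux_fin CcA (CcA + CcB) (((W.E.n : ℝ) + 1) ^ 3) (W.tn ξ ^ C0A) (W.tn ξ ^ C0)
      (2 ^ (-((n' : ℝ) / 2)) * 2 ^ (-((1 / 2 - Γ - ε) * (xx - n'))))
      (2 ^ (-(Γ * lam * L)) * 2 ^ (-((1 / 2 - Γ - ε) * xx))) _ hCcA (by linarith) hN3 (Real.rpow_nonneg hK0.le _)
      (Real.rpow_le_rpow_of_exponent_le hK1 hC0a) (by positivity) num hZ
    refine le_trans (le_of_eq ?_) fin
    ring

end Claimed.Agent.R256
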