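-- KEEP
import Claimed.Agent.R256.Re.SlabCase

/-!
# Row 256, unit RE, post SLB, file 6: RECOMBINATION OF THE COMPONENTS      (architect helper213; prefix `re_sl_`)      every `sorry` = leaf `L-256-SLB-R*`

  `W.Tc i j b Rm lab ν`   the component `ν = (name pair, portion)` of the removed atoms
  LOC     `re_sl_loc`      rows of the cut `b` that are not connected to `S'` contribute a negligible mass        (`re_locs`, empty stack)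
  RECOMB  `re_sl_recomb`   `‖Σ_ν v_ν‖³ ≤ (N+1)² (Σ ‖v_ν‖³ + er³)` on every label
  REC     `re_sl_rec`      glue (PROVED): LOC + `re_sl_cnt` + RECOMB for the components
-/

set_option autoImplicit false

namespace Claimed.Agent.R256

open MeasureTheory
open scoped BigOperators
open Classical

/-- the component `ν = (name pair, portion)` -/
def ReTw.Tc {η : ℝ} {p : RdWvPar} (W : ReTw η p) (i j b : ℕ) {Np : ℕ} (Rm : W.doc.Row b → Prop) (lab : W.doc.Row b → Fin Np)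
    (ν : (ReName × ReName) × Fin Np) : Set (ℕ × ReFc) :=
  W.atS b fun ω => Rm ω ∧ (W.doc.nm b i j ω, W.doc.nm b b j ω) = ν.1 ∧ lab ω = ν.2

theorem re_sl_rec_eqns_cite : True := by
  have := @ReTw.Tc.eq_1
  trivial

variable {η : ℝ} {p : RdWvPar} (W : ReTw η p)

/-- different components are disjoint -/
theorem re_sl_Tc_disj (i j b : ℕ) {Np : ℕ} (Rm : W.doc.Row b → Prop) (lab : W.doc.Row b → Fin Np) (ν ν' : (ReName × ReName) × Fin Np) (h : ν ≠ ν') :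
    Disjoint (W.Tc i j b Rm lab ν) (W.Tc i j b Rm lab ν') := by
  refine Set.disjoint_left.2 fun a h1 h2 => h ?_
  obtain ⟨ha, -, e1, e2⟩ := h1
  obtain ⟨ha', -, e1', e2'⟩ := h2
  exact Prod.ext (e1.symm.trans e1') (e2.symm.trans e2')

/-- the components exhaust the removed atoms -/
theorem re_sl_Tc_union (i j b : ℕ) {Np : ℕ} (Rm : W.doc.Row b → Prop) (lab : W.doc.Row b → Fin Np) :
    (⋃ ν ∈ (Finset.univ.image fun ω : W.doc.Row b => (W.doc.nm b i j ω, W.doc.nm b b j ω)) ×ˢ (Finset.univ : Finset (Fin Np)), W.Tc i j b Rm lab ν) = W.atS b Rm := by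
  ext a
  simp only [Set.mem_iUnion]
  constructor
  · rintro ⟨ν, -, ha, h1, -⟩
    exact ⟨ha, h1⟩
  · rintro ⟨ha, h1⟩
    exact ⟨((W.doc.nm b i j ⟨a, ha⟩, W.doc.nm b b j ⟨a, ha⟩), lab ⟨a, ha⟩),
      Finset.mem_product.2 ⟨Finset.mem_image.2 ⟨⟨a, ha⟩, Finset.mem_univ _, rfl⟩, Finset.mem_univ _⟩, ha, h1, rfl, rfl⟩

theorem re_sl_aux_loc_pre {η : ℝ} {p : RdWvPar} (W : ReTw η p) (hT : (p.sys η).Tight) {hg C A : ℕ} {τ : ℝ} (h : W.Ok hg C A τ)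
    (b : ℕ) (hb : b ≤ hg) (I : ℕ) : ‖W.pre b I‖ ^ 2 ≤ W.E.e := by
  have hV : (W.Ex (b - 1)).Valid := (h.cls (b - 1) (by omega)).2.1
  refine le_trans ?_ hV.budget
  have := gn_run_norm_le hT (W.dp b) I (W.stk (b - 1)) (gn_valid_stm (W.Ex (b - 1)) hV) W.E.v
  exact pow_le_pow_left₀ (norm_nonneg _) this 2

/-- **LEAF L-256-SLB-R1 = LOC.**   `re_locs η hη0 hη1 hE 0 bm` gives `c1'`, then `CN'`;  `c1 := max c1' 0`, `CN := |CN'|`.   `st = []` (`StOk` trivial, `Xp.run .. [] v = v`), `(9Λ)^(3^(0+1)) = (9Λ)^3`, `S = W.S b I ∩ W.rs b T I` (`re_sl_meas`), `F = An ψ`, `ψ = W.pre b I`: `phT` unfolds to `adjoint (An) (mulR 1_S (An ψ))` (`PkSys.tz`);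
`‖F‖² ≤ ‖ψ‖² ≤ e` (`hT.contr`, `gn_run_norm_le`, `Valid.budget` of `W.Ex (b-1)`);   `2^(c1' (k - dp b)) ≤ 2^(c1 n)` (`k ≤ kf = k0 + n`, `k0 ≤ dp b`);  `RdWvPar.co T x` does not depend on `T` (`rfl`). -/
theorem re_sl_loc (η : ℝ) (hη0 : 0 < η) (hη1 : η < 1) (hE : ReEntry η) (bm : ℕ) :
    ∃ c1 : ℝ, 0 ≤ c1 ∧ ∀ N : ℕ, ∃ CN : ℝ, 0 ≤ CN ∧ ∀ (p : RdWvPar) (W : ReTw η p) (hg C A : ℕ) (τ : ℝ), W.Ok hg C A τ → ∀ Λ : ℝ, 1 ≤ Λ →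
      ∀ (b k I' g : ℕ) (T : Set (ℕ × ReFc)) (S' : Set RdWvPar.Ph), 0 < b → b ≤ hg → W.dp b ≤ k → k ≤ W.E.kf → (W.ps b).gb ≤ bm → g ≤ bm → MeasurableSet S' →
        (∀ x ∈ W.S b (ancI k (W.dp b) I') ∩ W.rs b T (ancI k (W.dp b) I'), ∀ x' ∈ S',
          ¬ reCn p.H ((9 * Λ) ^ 3) (tmL (W.dp b) (ancI k (W.dp b) I')) (W.dp b) (tmL k I') k (RdWvPar.co 0 x) (RdWvPar.co 0 x')) →
        (p.sys η).ms (tmL k I') k g S' (W.phT b T (ancI k (W.dp b) I')) ≤ (CN * Λ ^ (-(N : ℝ)) * 2 ^ (c1 * W.E.n) * Real.sqrt W.E.e) ^ 2 := by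
  obtain ⟨c1', hloc⟩ := re_locs η hη0 hη1 hE 0 bm
  refine ⟨max c1' 0, le_max_right _ _, fun N => ?_⟩
  obtain ⟨CN', hCN⟩ := hloc N
  refine ⟨|CN'|, abs_nonneg _, ?_⟩
  intro p W hg C A τ h Λ hΛ b k I' g T S' h0 hb hk hkf hgb hg' hS' hno
  have hT : (p.sys η).Tight := hE.gen.tight p p.ok
  have hΛ0 : 0 < Λ := by linarith
  have hmain := hCN p Λ hΛ (W.dp b) k I' (W.ps b).gb g [] hk
    ⟨by simp, by simp, by simp, by simp, by simp⟩ hgb hg'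
    (W.S b (ancI k (W.dp b) I') ∩ W.rs b T (ancI k (W.dp b) I')) S'
    (re_sl_meas W h b h0 hb _ _) hS' hno
    ((p.sys η).An (tmL (W.dp b) (ancI k (W.dp b) I')) (W.dp b) (W.ps b).gb (W.pre b (ancI k (W.dp b) I')))
  refine le_trans hmain ?_
  have he : 0 ≤ W.E.e := le_trans (by positivity) (re_sl_aux_loc_pre W hT h b hb 0)
  have hF : ‖(p.sys η).An (tmL (W.dp b) (ancI k (W.dp b) I')) (W.dp b) (W.ps b).gb (W.pre b (ancI k (W.dp b) I'))‖ ^ 2 ≤ W.E.e :=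
    (pow_le_pow_left₀ (norm_nonneg _) (hT.contr _ _ _ _) 2).trans (re_sl_aux_loc_pre W hT h b hb _)
  have hp : 0 < Λ ^ (-(N : ℝ)) := Real.rpow_pos_of_pos hΛ0 _
  have hd0 : (0 : ℝ) ≤ (k : ℝ) - W.dp b := by
    have : (W.dp b : ℝ) ≤ k := by exact_mod_cast hk
    linarith
  have hd1 : (k : ℝ) - W.dp b ≤ W.E.n := by
    have h1 : k ≤ W.E.k0 + W.E.n := hkf
    have h2 : W.E.k0 ≤ W.dp b := Nat.le_add_right _ _
    have h1' : (k : ℝ) ≤ (W.E.k0 : ℝ) + W.E.n := by exact_mod_cast h1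
    have h2' : (W.E.k0 : ℝ) ≤ W.dp b := by exact_mod_cast h2
    linarith
  have h2 : (2 : ℝ) ^ (c1' * ((k : ℝ) - W.dp b)) ≤ 2 ^ (max c1' 0 * (W.E.n : ℝ)) :=
    Real.rpow_le_rpow_of_exponent_le (by norm_num)
      ((mul_le_mul_of_nonneg_right (le_max_left _ _) hd0).trans (mul_le_mul_of_nonneg_left hd1 (le_max_right _ _)))
  have h2p : (0 : ℝ) < 2 ^ (c1' * ((k : ℝ) - W.dp b)) := Real.rpow_pos_of_pos (by norm_num) _
  have hsq : (CN' * Λ ^ (-(N : ℝ)) * 2 ^ (c1' * ((k : ℝ) - W.dp b))) ^ 2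
      ≤ (|CN'| * Λ ^ (-(N : ℝ)) * 2 ^ (max c1' 0 * (W.E.n : ℝ))) ^ 2 := by
    rw [← sq_abs (CN' * Λ ^ (-(N : ℝ)) * 2 ^ (c1' * ((k : ℝ) - W.dp b))), abs_mul, abs_mul, abs_of_pos hp, abs_of_pos h2p]
    exact pow_le_pow_left₀ (by positivity) (mul_le_mul_of_nonneg_left h2 (by positivity)) 2
  rw [mul_pow _ (Real.sqrt W.E.e), Real.sq_sqrt he]
  exact mul_le_mul hsq hF (by positivity) (by positivity)

/-- `x^(3/2) = (√x)³` -/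
theorem re_sl_recomb_sq {x : ℝ} (hx : 0 ≤ x) : x ^ (3 / 2 : ℝ) = Real.sqrt x ^ 3 := by
  rw [Real.sqrt_eq_rpow, ← Real.rpow_natCast, ← Real.rpow_mul hx]
  norm_num

/-- power mean for `M + 1` terms -/
theorem re_sl_recomb_pm {ι : Type} (S : Finset ι) (a : ι → ℝ) (ha : ∀ ν ∈ S, 0 ≤ a ν) (x er N : ℝ) (hx : 0 ≤ x) (her : 0 ≤ er) (hN : (S.card : ℝ) ≤ N)
    (h : Real.sqrt x ≤ ∑ ν ∈ S, Real.sqrt (a ν) + er) : x ^ (3 / 2 : ℝ) ≤ (N + 1) ^ 2 * (∑ ν ∈ S, a ν ^ (3 / 2 : ℝ) + er ^ 3) := by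
  have h1 : x ^ (3 / 2 : ℝ) ≤ (∑ ν ∈ S, Real.sqrt (a ν) + er) ^ 3 := by
    rw [re_sl_recomb_sq hx]
    exact pow_le_pow_left₀ (Real.sqrt_nonneg _) h 3
  have h2 := pow_sum_div_card_le_sum_pow (s := Finset.insertNone S) (f := fun o : Option ι => o.elim er fun ν => Real.sqrt (a ν)) (by
    intro o _
    cases o with
    | none => exact her
    | some ν => exact Real.sqrt_nonneg _) 2
  rw [Finset.sum_insertNone, Finset.sum_insertNone, Finset.card_insertNone] at h2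
  simp only [Option.elim] at h2
  have hc : (0 : ℝ) < (((S.card + 1 : ℕ) : ℝ)) ^ 2 := by positivity
  rw [div_le_iff₀ hc] at h2
  have h3 : ∑ ν ∈ S, Real.sqrt (a ν) ^ (2 + 1) = ∑ ν ∈ S, a ν ^ (3 / 2 : ℝ) :=
    Finset.sum_congr rfl fun ν hν => (re_sl_recomb_sq (ha ν hν)).symm
  rw [h3] at h2
  have h4 : 0 ≤ ∑ ν ∈ S, a ν ^ (3 / 2 : ℝ) + er ^ 3 :=
    add_nonneg (Finset.sum_nonneg fun ν hν => Real.rpow_nonneg (ha ν hν) _) (pow_nonneg her 3)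
  have h5 : (((S.card + 1 : ℕ) : ℝ)) ^ 2 ≤ (N + 1) ^ 2 := by
    refine pow_le_pow_left₀ (by positivity) ?_ 2
    push_cast
    linarith
  calc x ^ (3 / 2 : ℝ) ≤ (∑ ν ∈ S, Real.sqrt (a ν) + er) ^ 3 := h1
    _ = (er + ∑ ν ∈ S, Real.sqrt (a ν)) ^ (2 + 1) := by rw [add_comm]
    _ ≤ (er ^ (2 + 1) + ∑ ν ∈ S, a ν ^ (3 / 2 : ℝ)) * (((S.card + 1 : ℕ) : ℝ)) ^ 2 := h2
    _ = (((S.card + 1 : ℕ) : ℝ)) ^ 2 * (∑ ν ∈ S, a ν ^ (3 / 2 : ℝ) + er ^ 3) := by ring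
    _ ≤ _ := mul_le_mul_of_nonneg_right h5 h4

/-- the readout of `Yx` as a sum over `range` -/
theorem re_sl_recomb_rd (b : ℕ) (P : RePs) (k g : ℕ) (T : Set (ℕ × ReFc)) (hk : W.dp b ≤ k) :
    (W.Yx b P k g T).rd = ∑ u ∈ Finset.range P.nL,
      (p.sys η).ms (tmL k (P.lI u)) k g (P.lR u) (W.phT b T (ancI k (W.dp b) (P.lI u))) ^ (3 / 2 : ℝ) / Real.sqrt ((P.lQ u).wt η) := by
  rw [Finset.sum_range]
  show ∑ u : Fin P.nL, (W.Yx b P k g T).m u ^ (3 / 2 : ℝ) / Real.sqrt ((W.Yx b P k g T).w u) = _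
  refine Finset.sum_congr rfl fun u _ => ?_
  rw [(re_sl_Yx_m W b P k g T hk u).1, (re_sl_Yx_m W b P k g T hk u).2]

/-- **LEAF L-256-SLB-R2 = RECOMB.**   `rd = Σ_u m_u^(3/2) / √w_u` (`re_sl_Yx_m`; `Fin.sum_univ_eq_sum_range`), `m^(3/2) = (√m)³`.   For the label `u`, `I = ancI k (dp b) (lI u)`:
`phT b (⋃_V Tν) I = Σ_{ν ∈ Vu u} phT b (Tν) I + phT b (⋃_{V \ Vu u} Tν) I`   (`re_sl_ph_sum` three times, `Finset.sum_sdiff`);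
`√m_u ≤ Σ_{ν ∈ Vu u} √m_{u,ν} + er`   (`gn_ms_tri_sum` on `insert`/`Option`, `hloc`, `Real.sqrt_le_left`);
`(Σ_{M terms} a + er)³ ≤ (M+1)² (Σ a³ + er³)`   (`pow_sum_div_card_le_sum_pow` on `M + 1` terms, or Hoelder), `M ≤ N`;
`Σ_u Σ_{ν ∈ Vu u} (..) ≤ Σ_{ν ∈ biUnion} Σ_u (..)`   (all terms `≥ 0`; `Finset.sum_comm'`, `Finset.sum_le_sum_of_subset_of_nonneg`). -/
theorem re_sl_recomb (hT : (p.sys η).Tight) {hg C A : ℕ} {τ : ℝ} (h : W.Ok hg C A τ) (b : ℕ) (h0 : 0 < b) (hb : b ≤ hg) (P : RePs) (k : ℕ) (ξ : ℝ)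
    (hP : P.Ok (W.Ex b) k ξ) (hk : W.dp b ≤ k) (hk' : k ≤ W.E.kf) (g : ℕ) {ι : Type} [DecidableEq ι] (V : Finset ι) (Tν : ι → Set (ℕ × ReFc))
    (hd : ∀ ν ∈ V, ∀ ν' ∈ V, ν ≠ ν' → Disjoint (Tν ν) (Tν ν')) (Vu : ℕ → Finset ι) (hVu : ∀ u, Vu u ⊆ V) (N : ℝ) (hN : ∀ u < P.nL, ((Vu u).card : ℝ) ≤ N)
    (er : ℝ) (her : 0 ≤ er)
    (hloc : ∀ u < P.nL, (p.sys η).ms (tmL k (P.lI u)) k g (P.lR u) (W.phT b (⋃ ν ∈ V \ Vu u, Tν ν) (ancI k (W.dp b) (P.lI u))) ≤ er ^ 2) :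
    (W.Yx b P k g (⋃ ν ∈ V, Tν ν)).rd ≤ (N + 1) ^ 2 * (∑ ν ∈ (Finset.range P.nL).biUnion Vu, (W.Yx b P k g (Tν ν)).rd +
      er ^ 3 * ∑ u ∈ Finset.range P.nL, 1 / Real.sqrt ((P.lQ u).wt η)) := by
  obtain ⟨M, hM⟩ : ∃ M : ℕ → Set (ℕ × ReFc) → ℝ, M = fun u T =>
    (p.sys η).ms (tmL k (P.lI u)) k g (P.lR u) (W.phT b T (ancI k (W.dp b) (P.lI u))) := ⟨_, rfl⟩
  have hM0 : ∀ u T, 0 ≤ M u T := fun u T => by
    rw [hM]
    exact gn_ms_nonneg _ _ _ _ _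
  have hrd : ∀ T, (W.Yx b P k g T).rd = ∑ u ∈ Finset.range P.nL, M u T ^ (3 / 2 : ℝ) / Real.sqrt ((P.lQ u).wt η) := fun T => by
    rw [hM]
    exact re_sl_recomb_rd W b P k g T hk
  -- one label
  have hone : ∀ u < P.nL, M u (⋃ ν ∈ V, Tν ν) ^ (3 / 2 : ℝ) ≤ (N + 1) ^ 2 * (∑ ν ∈ Vu u, M u (Tν ν) ^ (3 / 2 : ℝ) + er ^ 3) := by
    intro u hu
    refine re_sl_recomb_pm (Vu u) (fun ν => M u (Tν ν)) (fun ν _ => hM0 u _) _ er N (hM0 u _) her (hN u hu) ?_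
    have hmeas : MeasurableSet (P.lR u) := (hP.lb u hu).2.2.1
    have e1 : W.phT b (⋃ ν ∈ V, Tν ν) (ancI k (W.dp b) (P.lI u)) =
        ∑ ν ∈ Vu u, W.phT b (Tν ν) (ancI k (W.dp b) (P.lI u)) + W.phT b (⋃ ν ∈ V \ Vu u, Tν ν) (ancI k (W.dp b) (P.lI u)) := by
      rw [re_sl_ph_sum W h b h0 hb V Tν hd, re_sl_ph_sum W h b h0 hb (V \ Vu u) Tν
        (fun ν hν ν' hν' hne => hd ν (Finset.mem_sdiff.1 hν).1 ν' (Finset.mem_sdiff.1 hν').1 hne), add_comm, Finset.sum_sdiff (hVu u)]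
    have e2 : Real.sqrt (M u (⋃ ν ∈ V \ Vu u, Tν ν)) ≤ er := by
      rw [hM]
      exact (Real.sqrt_le_left her).2 (hloc u hu)
    have e3 : Real.sqrt (M u (⋃ ν ∈ V, Tν ν)) ≤
        Real.sqrt ((p.sys η).ms (tmL k (P.lI u)) k g (P.lR u) (∑ ν ∈ Vu u, W.phT b (Tν ν) (ancI k (W.dp b) (P.lI u)))) + Real.sqrt (M u (⋃ ν ∈ V \ Vu u, Tν ν)) := by
      rw [hM]
      show Real.sqrt ((p.sys η).ms (tmL k (P.lI u)) k g (P.lR u) (W.phT b (⋃ ν ∈ V, Tν ν) (ancI k (W.dp b) (P.lI u)))) ≤ _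
      rw [e1]
      exact gn_en_tri _ _ _ (gn_mask_ind hmeas) _ _
    have e4 := gn_ms_tri_sum (P := p.sys η) (tmL k (P.lI u)) k g hmeas (Vu u) (fun ν => W.phT b (Tν ν) (ancI k (W.dp b) (P.lI u)))
    have e5 : ∑ ν ∈ Vu u, Real.sqrt ((p.sys η).ms (tmL k (P.lI u)) k g (P.lR u) (W.phT b (Tν ν) (ancI k (W.dp b) (P.lI u)))) = ∑ ν ∈ Vu u, Real.sqrt (M u (Tν ν)) := by
      rw [hM]
    rw [e5] at e4
    linarith
  rw [hrd]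
  have hsw : ∑ ν ∈ (Finset.range P.nL).biUnion Vu, (W.Yx b P k g (Tν ν)).rd =
      ∑ u ∈ Finset.range P.nL, ∑ ν ∈ (Finset.range P.nL).biUnion Vu, M u (Tν ν) ^ (3 / 2 : ℝ) / Real.sqrt ((P.lQ u).wt η) := by
    rw [Finset.sum_comm]
    exact Finset.sum_congr rfl fun ν _ => hrd _
  rw [hsw, Finset.mul_sum, ← Finset.sum_add_distrib, Finset.mul_sum]
  refine Finset.sum_le_sum fun u hu => ?_
  have hu' := Finset.mem_range.1 hu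
  have hw : 0 ≤ Real.sqrt ((P.lQ u).wt η) := Real.sqrt_nonneg _
  have hsub : ∑ ν ∈ Vu u, M u (Tν ν) ^ (3 / 2 : ℝ) ≤ ∑ ν ∈ (Finset.range P.nL).biUnion Vu, M u (Tν ν) ^ (3 / 2 : ℝ) :=
    Finset.sum_le_sum_of_subset_of_nonneg (Finset.subset_biUnion_of_mem Vu hu) fun ν _ _ => Real.rpow_nonneg (hM0 u _) _
  have hN0 : (0 : ℝ) ≤ (N + 1) ^ 2 := sq_nonneg _
  calc M u (⋃ ν ∈ V, Tν ν) ^ (3 / 2 : ℝ) / Real.sqrt ((P.lQ u).wt η)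
      ≤ ((N + 1) ^ 2 * (∑ ν ∈ (Finset.range P.nL).biUnion Vu, M u (Tν ν) ^ (3 / 2 : ℝ) + er ^ 3)) / Real.sqrt ((P.lQ u).wt η) := by
        refine div_le_div_of_nonneg_right ((hone u hu').trans ?_) hw
        exact mul_le_mul_of_nonneg_left (by linarith) hN0
    _ = _ := by
        rw [← Finset.sum_div]
        ring

/-- **REC (glue, PROVED)**: `Λ = 2^(ξ n)`, lists of `re_sl_cnt` at the enlargement `(9Λ)³`. -/
theorem re_sl_rec (η : ℝ) (hη0 : 0 < η) (hη1 : η < 1) (hE : ReEntry η) (C : ℕ) :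
    ∃ cG c1 : ℝ, 1 ≤ cG ∧ 0 ≤ c1 ∧ ∀ N : ℕ, ∃ CN : ℝ, 0 ≤ CN ∧ ∀ (p : RdWvPar) (W : ReTw η p) (q A : ℕ) (τ ξ : ℝ), W.q = q → 0 ≤ ξ → W.Ok (q - 1) C A τ →
      ∀ (i j b Js : ℕ) (P : RePs) (Np : ℕ) (Rm : W.doc.Row b → Prop) (lab : W.doc.Row b → Fin Np), 0 < b → i ≤ b → b ≤ Js → b < q → 2 * j + Js = q →
        P.Ok (W.Ex b) (W.dp Js) ξ →
        ∃ V' : Finset ((ReName × ReName) × Fin Np), (V'.card : ℝ) ≤ P.nL * (cG * ((9 * W.tn ξ) ^ 3) ^ 12 * Np) ∧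
          (W.Yx b P (W.dp Js) (C + 2) (W.atS b Rm)).rd ≤ (cG * ((9 * W.tn ξ) ^ 3) ^ 12 * Np + 1) ^ 2 *
            (∑ ν ∈ V', (W.Yx b P (W.dp Js) (C + 2) (W.Tc i j b Rm lab ν)).rd +
              (CN * W.tn ξ ^ (-(N : ℝ)) * 2 ^ (c1 * W.E.n) * Real.sqrt W.E.e) ^ 3 * ∑ u ∈ Finset.range P.nL, 1 / Real.sqrt ((P.lQ u).wt η)) := by
  obtain ⟨cG, hcG, Hcnt⟩ := re_sl_cnt
  obtain ⟨c1, hc1, Hloc⟩ := re_sl_loc η hη0 hη1 hE (C + 2)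
  refine ⟨cG, c1, hcG, hc1, fun N => ?_⟩
  obtain ⟨CN, hCN, Hloc'⟩ := Hloc N
  refine ⟨CN, hCN, ?_⟩
  intro p W q A τ ξ hq hξ hW i j b Js P Np Rm lab hb0 hib hbJ hbq hJ hP
  have hT : (p.sys η).Tight := hE.gen.tight p p.ok
  have hbg : b ≤ q - 1 := by omega
  have hΛ : 1 ≤ W.tn ξ := by
    unfold ReTw.tn
    exact Real.one_le_rpow (by norm_num) (by positivity)
  have hΛ9 : 1 ≤ 9 * W.tn ξ := by linarith
  have hΛ' : 1 ≤ (9 * W.tn ξ) ^ 3 := one_le_pow₀ hΛ9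
  have hΛΛ : W.tn ξ ≤ (9 * W.tn ξ) ^ 3 := by
    calc W.tn ξ ≤ 9 * W.tn ξ := by linarith
      _ = (9 * W.tn ξ) ^ 1 := (pow_one _).symm
      _ ≤ _ := pow_le_pow_right₀ hΛ9 (by norm_num)
  have hRw : 0 < W.Rw j := by
    unfold ReTw.Rw
    exact mul_pos (re_at_R0_pos W) (rdLen_pos _)
  have hk : W.dp b ≤ W.dp Js := by
    unfold ReTw.dp
    have := Nat.mul_le_mul_right W.m hbJ
    omega
  have hkf : W.dp Js ≤ W.E.kf := by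
    have h1 := hW.n_lo
    rw [hq] at h1
    have h2 : Js * W.m ≤ q * W.m := Nat.mul_le_mul_right _ (by omega)
    unfold ReTw.dp Xp.kf
    omega
  have H : ∀ u : ℕ, ∃ Lst : Finset (ReName × ReName), u < P.nL → ((Lst.card : ℝ) ≤ cG * ((9 * W.tn ξ) ^ 3) ^ 12 ∧ ∀ x x' : RtRow, x' ∈ (P.lQ u).rows (W.dp Js) →
      reCn p.H ((9 * W.tn ξ) ^ 3) (tmL (W.dp b) (ancI (W.dp Js) (W.dp b) (P.lI u))) (W.dp b) (tmL (W.dp Js) (P.lI u)) (W.dp Js) x x' →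
      (W.nmT b i j (ancI (W.dp Js) (W.dp b) (P.lI u), W.fc b x), W.nmT b b j (ancI (W.dp Js) (W.dp b) (P.lI u), W.fc b x)) ∈ Lst) := by
    intro u
    by_cases hu : u < P.nL
    · obtain ⟨Lst, h1, h2⟩ := Hcnt η p W (q - 1) C A τ hW i j b Js hib hbJ (by rw [hq]; exact hJ) ((9 * W.tn ξ) ^ 3) hΛ' (P.lQ u) (hP.lb u hu).2.1
        ((re_sl_lab W b j Js (by rw [hq]; exact hJ) P ξ hξ hP u hu).2.1.trans (mul_le_mul_of_nonneg_right hΛΛ hRw.le)) (P.lI u)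
      exact ⟨Lst, fun _ => ⟨h1, h2⟩⟩
    · exact ⟨∅, fun h => absurd h hu⟩
  choose Lst hLst using H
  obtain ⟨V, hV⟩ : ∃ V : Finset ((ReName × ReName) × Fin Np),
    V = (Finset.univ.image fun ω : W.doc.Row b => (W.doc.nm b i j ω, W.doc.nm b b j ω)) ×ˢ (Finset.univ : Finset (Fin Np)) := ⟨_, rfl⟩
  obtain ⟨Vu, hVu⟩ : ∃ Vu : ℕ → Finset ((ReName × ReName) × Fin Np), Vu = fun u => V.filter fun ν => ν.1 ∈ Lst u := ⟨_, rfl⟩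
  have hcard : ∀ u < P.nL, ((Vu u).card : ℝ) ≤ cG * ((9 * W.tn ξ) ^ 3) ^ 12 * Np := by
    intro u hu
    have h1 : Vu u ⊆ Lst u ×ˢ (Finset.univ : Finset (Fin Np)) := by
      rw [hVu]
      intro ν hν
      exact Finset.mem_product.2 ⟨(Finset.mem_filter.1 hν).2, Finset.mem_univ _⟩
    have h2 := Finset.card_le_card h1
    rw [Finset.card_product, Finset.card_univ, Fintype.card_fin] at h2
    calc ((Vu u).card : ℝ) ≤ (((Lst u).card * Np : ℕ) : ℝ) := by exact_mod_cast h2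
      _ = ((Lst u).card : ℝ) * Np := by push_cast; ring
      _ ≤ _ := mul_le_mul_of_nonneg_right (hLst u hu).1 (Nat.cast_nonneg _)
  have hWv : W.E.Valid := by
    have := (hW.cls 0 (Nat.zero_le _)).2.1
    rwa [re_sl_Ex0 W hW.free] at this
  have key := re_sl_recomb W hT hW b hb0 hbg P (W.dp Js) ξ hP hk hkf (C + 2) V (W.Tc i j b Rm lab)
    (fun ν _ ν' _ h => re_sl_Tc_disj W i j b Rm lab ν ν' h) Vu (fun u => by rw [hVu]; exact Finset.filter_subset _ _)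
    (cG * ((9 * W.tn ξ) ^ 3) ^ 12 * Np) hcard (CN * W.tn ξ ^ (-(N : ℝ)) * 2 ^ (c1 * W.E.n) * Real.sqrt W.E.e)
    (by have := Real.rpow_nonneg (le_trans zero_le_one hΛ) (-(N : ℝ)); positivity) ?_
  · rw [hV, re_sl_Tc_union] at key
    refine ⟨_, ?_, key⟩
    refine le_trans (b := ((∑ u ∈ Finset.range P.nL, (Vu u).card : ℕ) : ℝ)) (by exact_mod_cast Finset.card_biUnion_le) ?_
    calc ((∑ u ∈ Finset.range P.nL, (Vu u).card : ℕ) : ℝ)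
        = ∑ u ∈ Finset.range P.nL, ((Vu u).card : ℝ) := by push_cast; rfl
      _ ≤ ∑ _u ∈ Finset.range P.nL, cG * ((9 * W.tn ξ) ^ 3) ^ 12 * Np := Finset.sum_le_sum fun u hu => hcard u (Finset.mem_range.1 hu)
      _ = _ := by rw [Finset.sum_const, Finset.card_range, nsmul_eq_mul]
  · intro u hu
    refine Hloc' p W (q - 1) C A τ hW (W.tn ξ) hΛ b (W.dp Js) (P.lI u) (C + 2) _ (P.lR u) hb0 hbg hk hkf
      ((re_sl_gb_le W hW b hb0 hbg).trans (by omega)) le_rfl (hP.lb u hu).2.2.1 ?_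
    intro x hx x' hx' hcn
    have hx2 := hx.2
    unfold ReTw.rs at hx2
    simp only [Set.mem_ofPred_eq, Set.mem_iUnion] at hx2
    obtain ⟨ν, hν, ha, -, hnm, -⟩ := hx2
    have hrow : RdWvPar.co 0 x' ∈ (P.lQ u).rows (W.dp Js) := (hP.lb u hu).2.2.2.1 hx'
    have hin := (hLst u hu).2 _ _ hrow hcn
    have e1 : W.doc.nm b i j ⟨_, ha⟩ = W.nmT b i j (ancI (W.dp Js) (W.dp b) (P.lI u), W.fc b (RdWvPar.co 0 x)) := re_at_nm W b i j ⟨_, ha⟩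
    have e2 : W.doc.nm b b j ⟨_, ha⟩ = W.nmT b b j (ancI (W.dp Js) (W.dp b) (P.lI u), W.fc b (RdWvPar.co 0 x)) := re_at_nm W b b j ⟨_, ha⟩
    rw [e1, e2] at hnm
    rw [hnm] at hin
    have hν' := hν
    rw [Finset.mem_sdiff] at hν'
    obtain ⟨hν1, hν2⟩ := hν'
    apply hν2
    rw [hVu]
    exact Finset.mem_filter.2 ⟨hν1, hin⟩

end Claimed.Agent.R256
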