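-- KEEP
import Claimed.Agent.R256.Re.SlabRec

/-!
# Row 256, unit RE, post SLB, file 7: THE REMOVED FIELD, THE RESIDUAL FIELD, EXIT      (architect helper213; prefix `re_sl_`)      every `sorry` = leaf `L-256-SLB-M*`

  BENCH  `re_sl_bench`   `2^(-(1/2-Γ) x) √be_b E_b ≤ 2^((τ/2 + 3ξ/2) n) √be* raw*`  (exact cancellation `d0 - p0/2 = Γ - 1/2`)
  REM    `re_sl_rem`, `re_sl_rem_fin`  in `Re/SlabRem.lean`;   TOP = `Re/SlabFin.lean` (helper272)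
-/

set_option autoImplicit false

namespace Claimed.Agent.R256

open MeasureTheory
open scoped BigOperators
open Classical

variable {η : ℝ} {p : RdWvPar} (W : ReTw η p)

/-- **LEAF L-256-SLB-M2 = BENCH.**   `be_b ≤ κ 2^(-p0 b m + τ n)` (`(h.sel b ..).be_hi`; `X = W.Ex (b-1)`, `dp b - k0 = b m`), `be* ≥ κ 2^(-p0 Js m - ξ n)`, `raw* ≥ e 2^(d0 Js m - ξ n)` (`hP.be_lo`, `hP.raw_lo`);  `Real.sqrt_le_sqrt`, `gn_two_sqrt`, `Real.sqrt_mul`;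
exponents: `-(1/2-Γ)(Js-b) m - p0 b m/2 + τ n/2 + d0 b m = τ n/2 - p0 Js m/2 + d0 Js m` because `d0f = Γ + (p0f - 1)/2` (`Mdl.d0f`). -/
theorem re_sl_bench {q C A : ℕ} {τ : ℝ} (h : W.Ok (q - 1) C A τ) (b Js : ℕ) (h0 : 0 < b) (hb : b < q) (hbJ : b ≤ Js) (P : RePs) (ξ : ℝ) (hP : P.Ok (W.Ex b) (W.dp Js) ξ) :
    2 ^ (-((1 / 2 - (rndWav η).Gam) * ((W.dp Js - W.dp b : ℕ) : ℝ))) * Real.sqrt (W.ps b).be * (W.E.e * 2 ^ ((rndWav η).d0f * b * W.m)) ≤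
      2 ^ ((τ / 2 + 3 / 2 * ξ) * W.E.n) * (Real.sqrt P.be * P.raw (W.Ex b) (W.dp Js)) := by
  have hsel := h.sel b h0 (by omega)
  have h1 : (W.ps b).be ≤ W.E.ka * (2 : ℝ) ^ (-((rndWav η).p0f * ((W.dp b - W.E.k0 : ℕ) : ℝ)) + τ * W.E.n) := hsel.be_hi
  have h2 : W.E.ka * (2 : ℝ) ^ (-((rndWav η).p0f * ((W.dp Js - W.E.k0 : ℕ) : ℝ)) - ξ * W.E.n) ≤ P.be := hP.be_lo
  have h3 : W.E.e * (2 : ℝ) ^ ((rndWav η).d0f * ((W.dp Js - W.E.k0 : ℕ) : ℝ) - ξ * W.E.n) ≤ P.raw (W.Ex b) (W.dp Js) := hP.raw_lo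
  have hk : 0 < W.E.ka := hP.valid.ka_pos
  have he : 0 < W.E.e := hP.valid.e_pos
  have c1 : ((W.dp b - W.E.k0 : ℕ) : ℝ) = b * W.m := by
    unfold ReTw.dp
    rw [Nat.add_sub_cancel_left]
    push_cast
    ring
  have c2 : ((W.dp Js - W.E.k0 : ℕ) : ℝ) = Js * W.m := by
    unfold ReTw.dp
    rw [Nat.add_sub_cancel_left]
    push_cast
    ring
  have c3 : ((W.dp Js - W.dp b : ℕ) : ℝ) = Js * W.m - b * W.m := by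
    have hle : W.dp b ≤ W.dp Js := by
      unfold ReTw.dp
      have := Nat.mul_le_mul_right W.m hbJ
      omega
    rw [Nat.cast_sub hle]
    unfold ReTw.dp
    push_cast
    ring
  rw [c1] at h1
  rw [c2] at h2 h3
  rw [c3]
  have s1 : Real.sqrt (W.ps b).be ≤ Real.sqrt W.E.ka * 2 ^ ((-((rndWav η).p0f * ((b : ℝ) * W.m)) + τ * W.E.n) / 2) := by
    calc Real.sqrt (W.ps b).be ≤ Real.sqrt (W.E.ka * (2 : ℝ) ^ (-((rndWav η).p0f * ((b : ℝ) * W.m)) + τ * W.E.n)) := Real.sqrt_le_sqrt h1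
      _ = _ := by rw [Real.sqrt_mul hk.le, gn_two_sqrt]
  have s2 : Real.sqrt W.E.ka * 2 ^ ((-((rndWav η).p0f * ((Js : ℝ) * W.m)) - ξ * W.E.n) / 2) ≤ Real.sqrt P.be := by
    rw [← gn_two_sqrt, ← Real.sqrt_mul hk.le]
    exact Real.sqrt_le_sqrt h2
  have key : (2 : ℝ) ^ (-((1 / 2 - (rndWav η).Gam) * ((Js : ℝ) * W.m - b * W.m))) * 2 ^ ((-((rndWav η).p0f * ((b : ℝ) * W.m)) + τ * W.E.n) / 2) * 2 ^ ((rndWav η).d0f * b * W.m)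
      = 2 ^ ((τ / 2 + 3 / 2 * ξ) * W.E.n) * 2 ^ ((-((rndWav η).p0f * ((Js : ℝ) * W.m)) - ξ * W.E.n) / 2) * 2 ^ ((rndWav η).d0f * ((Js : ℝ) * W.m) - ξ * W.E.n) := by
    rw [← Real.rpow_add (by norm_num), ← Real.rpow_add (by norm_num), ← Real.rpow_add (by norm_num), ← Real.rpow_add (by norm_num)]
    congr 1
    unfold Mdl.d0f
    ring
  have p1 : (0 : ℝ) < 2 ^ (-((1 / 2 - (rndWav η).Gam) * ((Js : ℝ) * W.m - b * W.m))) := gn_two_pos _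
  have p2 : (0 : ℝ) < 2 ^ ((rndWav η).d0f * b * W.m) := gn_two_pos _
  have p3 : (0 : ℝ) < 2 ^ ((τ / 2 + 3 / 2 * ξ) * W.E.n) := gn_two_pos _
  have p4 : (0 : ℝ) < 2 ^ ((rndWav η).d0f * ((Js : ℝ) * W.m) - ξ * W.E.n) := gn_two_pos _
  have p5 : (0 : ℝ) < 2 ^ ((-((rndWav η).p0f * ((Js : ℝ) * W.m)) - ξ * W.E.n) / 2) := gn_two_pos _
  have hsk : 0 < Real.sqrt W.E.ka := Real.sqrt_pos.2 hk
  calc 2 ^ (-((1 / 2 - (rndWav η).Gam) * ((Js : ℝ) * W.m - b * W.m))) * Real.sqrt (W.ps b).be * (W.E.e * 2 ^ ((rndWav η).d0f * b * W.m))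
      ≤ 2 ^ (-((1 / 2 - (rndWav η).Gam) * ((Js : ℝ) * W.m - b * W.m))) * (Real.sqrt W.E.ka * 2 ^ ((-((rndWav η).p0f * ((b : ℝ) * W.m)) + τ * W.E.n) / 2)) * (W.E.e * 2 ^ ((rndWav η).d0f * b * W.m)) := by
        gcongr
    _ = Real.sqrt W.E.ka * W.E.e * (2 ^ (-((1 / 2 - (rndWav η).Gam) * ((Js : ℝ) * W.m - b * W.m))) * 2 ^ ((-((rndWav η).p0f * ((b : ℝ) * W.m)) + τ * W.E.n) / 2) * 2 ^ ((rndWav η).d0f * b * W.m)) := by ring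
    _ = 2 ^ ((τ / 2 + 3 / 2 * ξ) * W.E.n) * ((Real.sqrt W.E.ka * 2 ^ ((-((rndWav η).p0f * ((Js : ℝ) * W.m)) - ξ * W.E.n) / 2)) * (W.E.e * 2 ^ ((rndWav η).d0f * ((Js : ℝ) * W.m) - ξ * W.E.n))) := by
        rw [key]
        ring
    _ ≤ _ := by
        refine mul_le_mul_of_nonneg_left ?_ p3.le
        exact mul_le_mul s2 h3 (by positivity) (Real.sqrt_nonneg _)

/-- **LEAF L-256-SLB-M3: the budget in units of the auxiliary peel.**   `re_sl_poly`: `e ≤ s^(-3C) κ d⁴`;  `hP.be_lo`: `κ ≤ be* 2^(p0 Js m + ξ n) ≤ be* 2^(4n)`  (`p0f ≤ 3`: `gn_p0f_le`, `0 < Γ`; `Js m ≤ n`; `ξ ≤ 1`). -/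
theorem re_sl_e_le (hE : ReEntry η) (hΓ : 0 < (rndWav η).Gam) {q C A : ℕ} {τ : ℝ} (h : W.Ok (q - 1) C A τ) (hq : W.q = q) (b Js : ℕ) (hJ : Js ≤ q) (P : RePs) (ξ : ℝ) (hξ : ξ ≤ 1)
    (hP : P.Ok (W.Ex b) (W.dp Js) ξ) : W.E.e ≤ 2 ^ ((3 * (C : ℝ) + 4) * W.E.n) * (P.be * rdD p.H (W.dp Js) ^ 4) := by
  have h1 := re_sl_poly W h (W.dp Js) (Nat.le_add_right _ _)
  rw [gn_s_rpow] at h1
  have h2 : W.E.ka * (2 : ℝ) ^ (-((rndWav η).p0f * ((W.dp Js - W.E.k0 : ℕ) : ℝ)) - ξ * W.E.n) ≤ P.be := hP.be_lo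
  have hka : 0 < W.E.ka := hP.valid.ka_pos
  have hp0 : (rndWav η).p0f ≤ 3 := by
    have := gn_p0f_le (rndWav η) 1 hE.gen hΓ
    linarith
  have hsub : W.dp Js - W.E.k0 = Js * W.m := by
    unfold ReTw.dp
    omega
  rw [hsub] at h2
  have hn : ((Js * W.m : ℕ) : ℝ) ≤ W.E.n := by
    have h3 : Js * W.m ≤ W.q * W.m := Nat.mul_le_mul_right _ (by rw [hq]; exact hJ)
    exact_mod_cast h3.trans h.n_lo
  have hJm : (0 : ℝ) ≤ ((Js * W.m : ℕ) : ℝ) := Nat.cast_nonneg _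
  have hn0 : (0 : ℝ) ≤ W.E.n := Nat.cast_nonneg _
  have hbe : 0 < P.be := lt_of_lt_of_le (mul_pos hka (gn_two_pos _)) h2
  have hd : 0 < rdD p.H (W.dp Js) := re_at_hd_pos p.H p.H_pos _
  have hexp : (rndWav η).p0f * ((Js * W.m : ℕ) : ℝ) + ξ * W.E.n ≤ 4 * W.E.n := by
    have a1 : (rndWav η).p0f * ((Js * W.m : ℕ) : ℝ) ≤ 3 * ((Js * W.m : ℕ) : ℝ) := mul_le_mul_of_nonneg_right hp0 hJm
    have a2 : ξ * W.E.n ≤ 1 * W.E.n := mul_le_mul_of_nonneg_right hξ hn0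
    linarith
  have h4 : W.E.ka ≤ P.be * 2 ^ (4 * (W.E.n : ℝ)) := by
    have e : -((rndWav η).p0f * ((Js * W.m : ℕ) : ℝ)) - ξ * W.E.n = -((rndWav η).p0f * ((Js * W.m : ℕ) : ℝ) + ξ * W.E.n) := by ring
    rw [e, gn_two_neg, ← div_eq_mul_inv, div_le_iff₀ (gn_two_pos _)] at h2
    exact h2.trans (mul_le_mul_of_nonneg_left (gn_two_mono hexp) hbe.le)
  calc W.E.e ≤ 2 ^ (-(-(3 * (C : ℝ)) * W.E.n)) * (W.E.ka * rdD p.H (W.dp Js) ^ 4) := h1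
    _ ≤ 2 ^ (-(-(3 * (C : ℝ)) * W.E.n)) * (P.be * 2 ^ (4 * (W.E.n : ℝ)) * rdD p.H (W.dp Js) ^ 4) :=
        mul_le_mul_of_nonneg_left (mul_le_mul_of_nonneg_right h4 (by positivity)) (gn_two_pos _).le
    _ = 2 ^ ((3 * (C : ℝ) + 4) * W.E.n) * (P.be * rdD p.H (W.dp Js) ^ 4) := by
        have e : (3 * (C : ℝ) + 4) * W.E.n = -(-(3 * (C : ℝ)) * W.E.n) + 4 * (W.E.n : ℝ) := by ring
        rw [e, gn_two_add]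
        ring

/-- **LEAF L-256-SLB-M4: the sum of `w^(-1/2)`.**   `w ≥ d⁴` (`re_sl_wt_ge`, `hP.lb`): `1/√w = w / (w √w) ≤ w / d⁶`;  `re_sl_wt_sum`. -/
theorem re_sl_sumw (hη0 : 0 < η) (X : Xp (p.sys η)) (k : ℕ) (P : RePs) (ξ : ℝ) (hP : P.Ok X k ξ) (hbe : 0 ≤ P.be) :
    P.be * rdD p.H k ^ 6 * ∑ u ∈ Finset.range P.nL, 1 / Real.sqrt ((P.lQ u).wt η) ≤ P.raw X k := by
  have hd : 0 < rdD p.H k := re_at_hd_pos p.H p.H_pos k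
  refine le_trans ?_ (re_sl_wt_sum hP)
  rw [mul_assoc]
  refine mul_le_mul_of_nonneg_left ?_ hbe
  rw [Finset.mul_sum]
  refine Finset.sum_le_sum fun u hu => ?_
  have hw : rdD p.H k ^ 4 ≤ (P.lQ u).wt η := re_sl_wt_ge hη0 (P.lQ u) k (hP.lb u (Finset.mem_range.1 hu)).2.1
  have hw0 : 0 < (P.lQ u).wt η := lt_of_lt_of_le (by positivity) hw
  have hs : rdD p.H k ^ 2 ≤ Real.sqrt ((P.lQ u).wt η) := by
    refine Real.le_sqrt_of_sq_le ?_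
    calc (rdD p.H k ^ 2) ^ 2 = rdD p.H k ^ 4 := by ring
      _ ≤ _ := hw
  have hs0 : 0 < Real.sqrt ((P.lQ u).wt η) := Real.sqrt_pos.2 hw0
  rw [mul_one_div, div_le_iff₀ hs0]
  calc rdD p.H k ^ 6 = rdD p.H k ^ 4 * rdD p.H k ^ 2 := by ring
    _ ≤ (P.lQ u).wt η * Real.sqrt ((P.lQ u).wt η) := mul_le_mul hw hs (by positivity) hw0.le

/-- **LEAF L-256-SLB-M5: the number of labels.**   `nL be* d⁴ ≤ be* Σ w ≤ raw* ≤ e 2^(d0 Js m + ξ n) ≤ e 2^(2n)` (`re_sl_wt_ge`, `re_sl_wt_sum`, `hP.raw_hi`, `d0f ≤ 1`: `gn_d0f_le`), `re_sl_e_le`, divide by `be* d⁴ > 0`. -/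
theorem re_sl_nL (hη0 : 0 < η) (hE : ReEntry η) (hΓ : 0 < (rndWav η).Gam) {q C A : ℕ} {τ : ℝ} (h : W.Ok (q - 1) C A τ) (hq : W.q = q) (b Js : ℕ) (hJ : Js ≤ q) (P : RePs) (ξ : ℝ)
    (hξ : ξ ≤ 1) (hP : P.Ok (W.Ex b) (W.dp Js) ξ) : (P.nL : ℝ) ≤ 2 ^ ((3 * (C : ℝ) + 6) * W.E.n) := by
  have hd : 0 < rdD p.H (W.dp Js) := re_at_hd_pos p.H p.H_pos _
  have hbe : 0 < P.be := lt_of_lt_of_le (mul_pos hP.valid.ka_pos (gn_two_pos _)) hP.be_lo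
  have he : 0 < W.E.e := hP.valid.e_pos
  have h1 : (P.nL : ℝ) * rdD p.H (W.dp Js) ^ 4 ≤ ∑ u ∈ Finset.range P.nL, (P.lQ u).wt η := by
    have : ∑ _u ∈ Finset.range P.nL, rdD p.H (W.dp Js) ^ 4 ≤ ∑ u ∈ Finset.range P.nL, (P.lQ u).wt η :=
      Finset.sum_le_sum fun u hu => re_sl_wt_ge hη0 (P.lQ u) (W.dp Js) (hP.lb u (Finset.mem_range.1 hu)).2.1
    rwa [Finset.sum_const, Finset.card_range, nsmul_eq_mul] at this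
  have h2 := re_sl_wt_sum hP
  have h3 : P.raw (W.Ex b) (W.dp Js) ≤ W.E.e * (2 : ℝ) ^ ((rndWav η).d0f * ((W.dp Js - W.E.k0 : ℕ) : ℝ) + ξ * W.E.n) := hP.raw_hi
  have hdp : W.dp Js - W.E.k0 = Js * W.m := by
    unfold ReTw.dp
    exact Nat.add_sub_cancel_left _ _
  rw [hdp] at h3
  obtain ⟨hd0, hd1⟩ := gn_d0f_le (rndWav η) 1 hE.gen hΓ
  have hJm : ((Js * W.m : ℕ) : ℝ) ≤ W.E.n := by
    have : Js * W.m ≤ W.E.n := (Nat.mul_le_mul_right _ (hq ▸ hJ : Js ≤ W.q)).trans h.n_lo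
    exact_mod_cast this
  have hn : (0 : ℝ) ≤ W.E.n := Nat.cast_nonneg _
  have hJ0 : (0 : ℝ) ≤ ((Js * W.m : ℕ) : ℝ) := Nat.cast_nonneg _
  have h4 : (2 : ℝ) ^ ((rndWav η).d0f * ((Js * W.m : ℕ) : ℝ) + ξ * W.E.n) ≤ 2 ^ (2 * (W.E.n : ℝ)) := by
    apply gn_two_mono
    have a1 : (rndWav η).d0f * ((Js * W.m : ℕ) : ℝ) ≤ 1 * ((Js * W.m : ℕ) : ℝ) := mul_le_mul_of_nonneg_right hd1 hJ0
    have a2 : ξ * W.E.n ≤ 1 * W.E.n := mul_le_mul_of_nonneg_right hξ hn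
    linarith
  have h5 := re_sl_e_le W hE hΓ h hq b Js hJ P ξ hξ hP
  have hbd : 0 < P.be * rdD p.H (W.dp Js) ^ 4 := by positivity
  have h6 : (P.nL : ℝ) * (P.be * rdD p.H (W.dp Js) ^ 4) ≤ 2 ^ ((3 * (C : ℝ) + 6) * W.E.n) * (P.be * rdD p.H (W.dp Js) ^ 4) := by
    calc (P.nL : ℝ) * (P.be * rdD p.H (W.dp Js) ^ 4) = P.be * ((P.nL : ℝ) * rdD p.H (W.dp Js) ^ 4) := by ring
      _ ≤ P.be * ∑ u ∈ Finset.range P.nL, (P.lQ u).wt η := mul_le_mul_of_nonneg_left h1 hbe.le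
      _ ≤ P.raw (W.Ex b) (W.dp Js) := h2
      _ ≤ W.E.e * (2 : ℝ) ^ ((rndWav η).d0f * ((Js * W.m : ℕ) : ℝ) + ξ * W.E.n) := h3
      _ ≤ W.E.e * 2 ^ (2 * (W.E.n : ℝ)) := mul_le_mul_of_nonneg_left h4 he.le
      _ ≤ (2 ^ ((3 * (C : ℝ) + 4) * W.E.n) * (P.be * rdD p.H (W.dp Js) ^ 4)) * 2 ^ (2 * (W.E.n : ℝ)) :=
          mul_le_mul_of_nonneg_right h5 (gn_two_pos _).le
      _ = 2 ^ ((3 * (C : ℝ) + 6) * W.E.n) * (P.be * rdD p.H (W.dp Js) ^ 4) := by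
          have : (3 * (C : ℝ) + 6) * W.E.n = (3 * (C : ℝ) + 4) * W.E.n + 2 * (W.E.n : ℝ) := by ring
          rw [this, gn_two_add]
          ring
  exact le_of_mul_le_mul_right h6 hbd

/-- positivity of the thresholds -/
theorem re_sl_be_pos {P : RePs} {X : Xp (p.sys η)} {k : ℕ} {ξ : ℝ} (hX : X.Valid) (h : P.Ok X k ξ) : 0 < P.be :=
  lt_of_lt_of_le (mul_pos hX.ka_pos (gn_two_pos _)) h.be_lo

/-! ## numbers -/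

/-- **LEAF L-256-SLB-M6 (numbers).**   Exponent of `2`: `72 ξ n + (g/4) L + C0 ξ n - g L + ε xx + τ n + (τ/2 + 3ξ/2) n + 1 ≤ -(3 g / (16 (q+1))) n + 1` (`L ≥ n / (2 (q+1))`, `xx ≤ n`);  the constant `128 cG² 9^72 Cc` and `(n+1)³` are absorbed by `gn_absorb_poly 1 K δ`. -/
theorem re_sl_num1 (g C0 cG Cc : ℝ) (q : ℕ) (hg : 0 < g) (hC0 : 0 ≤ C0) (hcG : 1 ≤ cG) (hCc : 0 ≤ Cc) :
    ∃ n0 : ℕ, ∀ (n : ℕ) (ξ τ L xx N1 : ℝ), n0 ≤ n → 0 ≤ ξ → ξ ≤ g / (16 * ((q : ℝ) + 1) * (74 + C0)) → τ ≤ g / (24 * ((q : ℝ) + 1)) → (n : ℝ) ≤ 2 * ((q : ℝ) + 1) * L →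
      0 ≤ xx → xx ≤ n → 0 ≤ N1 → N1 + 1 ≤ 2 * cG * 9 ^ 36 * 2 ^ (36 * ξ * n + g / 8 * L) →
      (N1 + 1) ^ 2 * (Cc * ((n : ℝ) + 1) ^ 3 * ((2 : ℝ) ^ (ξ * n)) ^ C0 * 2 ^ (-(g * L)) * 2 ^ (g / (16 * ((q : ℝ) + 1)) * xx) * 2 * 2 ^ (τ * n) * 2 ^ ((τ / 2 + 3 / 2 * ξ) * n)) ≤ 1 / 16 := by
  have hq : (0 : ℝ) < (q : ℝ) + 1 := by positivity
  obtain ⟨δ, hδ⟩ : ∃ δ : ℝ, δ = g / (16 * ((q : ℝ) + 1)) := ⟨_, rfl⟩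
  have hδ0 : 0 < δ := by rw [hδ]; positivity
  obtain ⟨n0, hn0⟩ := gn_absorb_poly 1 (32 * (2 * cG * 9 ^ 36) ^ 2 * Cc) (3 * δ) (by positivity)
  refine ⟨n0, fun n ξ τ L xx N1 hn hξ0 hξ hτ hL hxx0 hxx hN0 hN => ?_⟩
  have hK := hn0 n hn
  have hcast : ((1 * n + 1 : ℕ) : ℝ) = (n : ℝ) + 1 := by push_cast; ring
  rw [hcast] at hK
  have hnn : (0 : ℝ) ≤ n := Nat.cast_nonneg _
  obtain ⟨Aa, hAa⟩ : ∃ Aa : ℝ, Aa = 2 * cG * 9 ^ 36 := ⟨_, rfl⟩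
  have hAa0 : 0 < Aa := by rw [hAa]; positivity
  rw [← hAa] at hN hK
  rw [← hδ]
  -- the square
  have hsq : (N1 + 1) ^ 2 ≤ Aa ^ 2 * 2 ^ (72 * ξ * n + g / 4 * L) := by
    have h1 : (N1 + 1) ^ 2 ≤ (Aa * 2 ^ (36 * ξ * n + g / 8 * L)) ^ 2 := pow_le_pow_left₀ (by linarith) hN 2
    refine h1.trans (le_of_eq ?_)
    rw [mul_pow, sq ((2 : ℝ) ^ (36 * ξ * n + g / 8 * L)), ← gn_two_add]
    congr 2
    ring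
  -- the inner factor
  have hin : Cc * ((n : ℝ) + 1) ^ 3 * ((2 : ℝ) ^ (ξ * n)) ^ C0 * 2 ^ (-(g * L)) * 2 ^ (δ * xx) * 2 * 2 ^ (τ * n) * 2 ^ ((τ / 2 + 3 / 2 * ξ) * n)
      = 2 * (Cc * ((n : ℝ) + 1) ^ 3) * 2 ^ (ξ * n * C0 + -(g * L) + δ * xx + τ * n + (τ / 2 + 3 / 2 * ξ) * n) := by
    rw [gn_two_mul, gn_two_add, gn_two_add, gn_two_add, gn_two_add]
    ring
  rw [hin]
  have hX : 0 ≤ Cc * ((n : ℝ) + 1) ^ 3 := by positivity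
  have hin0 : 0 ≤ 2 * (Cc * ((n : ℝ) + 1) ^ 3) * 2 ^ (ξ * n * C0 + -(g * L) + δ * xx + τ * n + (τ / 2 + 3 / 2 * ξ) * n) :=
    mul_nonneg (by positivity) (gn_two_pos _).le
  refine (mul_le_mul_of_nonneg_right hsq hin0).trans ?_
  have e1 : Aa ^ 2 * 2 ^ (72 * ξ * n + g / 4 * L) * (2 * (Cc * ((n : ℝ) + 1) ^ 3) * 2 ^ (ξ * n * C0 + -(g * L) + δ * xx + τ * n + (τ / 2 + 3 / 2 * ξ) * n))
      = (2 * Aa ^ 2 * (Cc * ((n : ℝ) + 1) ^ 3)) * 2 ^ ((72 * ξ * n + g / 4 * L) + (ξ * n * C0 + -(g * L) + δ * xx + τ * n + (τ / 2 + 3 / 2 * ξ) * n)) := by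
    rw [gn_two_add (72 * ξ * n + g / 4 * L)]
    ring
  rw [e1]
  -- the exponent
  have hexp : (72 * ξ * n + g / 4 * L) + (ξ * n * C0 + -(g * L) + δ * xx + τ * n + (τ / 2 + 3 / 2 * ξ) * n) ≤ -(3 * δ * n) := by
    have a1 : (74 + C0) * ξ ≤ δ := by
      have h74 : 0 < 74 + C0 := by linarith
      have : ξ ≤ δ / (74 + C0) := by
        rw [hδ, div_div]
        exact hξ
      rw [le_div_iff₀ h74] at this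
      linarith
    have a2 : (74 + C0) * ξ * n ≤ δ * n := mul_le_mul_of_nonneg_right a1 hnn
    have a3 : δ * xx ≤ δ * n := mul_le_mul_of_nonneg_left hxx hδ0.le
    have a4 : 3 / 2 * τ ≤ δ := by
      have : g / (24 * ((q : ℝ) + 1)) = 2 / 3 * δ := by
        rw [hδ]; field_simp; ring
      rw [this] at hτ
      linarith
    have a5 : 3 / 2 * τ * n ≤ δ * n := mul_le_mul_of_nonneg_right a4 hnn
    have a6 : 8 * δ * n ≤ g * L := by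
      have h1 : δ * (n : ℝ) ≤ δ * (2 * ((q : ℝ) + 1) * L) := mul_le_mul_of_nonneg_left hL hδ0.le
      have h2 : δ * (2 * ((q : ℝ) + 1) * L) = g / 8 * L := by
        rw [hδ]; field_simp; ring
      rw [h2] at h1
      linarith
    have a7 : 0 ≤ ξ * n := mul_nonneg hξ0 hnn
    nlinarith
  have hpow : (2 : ℝ) ^ ((72 * ξ * n + g / 4 * L) + (ξ * n * C0 + -(g * L) + δ * xx + τ * n + (τ / 2 + 3 / 2 * ξ) * n)) ≤ 2 ^ (-(3 * δ * n)) :=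
    gn_two_mono hexp
  refine (mul_le_mul_of_nonneg_left hpow (by positivity)).trans ?_
  rw [gn_two_neg]
  have hp : (0 : ℝ) < 2 ^ (3 * δ * n) := gn_two_pos _
  rw [← div_eq_mul_inv, div_le_iff₀ hp]
  nlinarith

/-- **LEAF L-256-SLB-M7 (numbers).**   Exponent: `72 ξ n + (g/4) L + 3 (-N ξ + c1 + (3C+4)/2) n ≤ -3 n`;  constant `64 cG² 9^72 CN³ ≤ 2^(3n)` (`gn_absorb`). -/
theorem re_sl_num2 (g cG CN c1 ξ : ℝ) (C N : ℕ) (hg : 0 < g) (hcG : 1 ≤ cG) (hCN : 0 ≤ CN) (hξ : 0 < ξ) (hN : c1 + (3 * (C : ℝ) + 4) / 2 + 24 * ξ + g / 12 + 1 ≤ N * ξ) :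
    ∃ n0 : ℕ, ∀ (n : ℕ) (L N1 : ℝ), n0 ≤ n → 0 ≤ L → L ≤ n → 0 ≤ N1 → N1 + 1 ≤ 2 * cG * 9 ^ 36 * 2 ^ (36 * ξ * n + g / 8 * L) →
      (N1 + 1) ^ 2 * (CN * ((2 : ℝ) ^ (ξ * n)) ^ (-(N : ℝ)) * 2 ^ (c1 * n) * 2 ^ ((3 * (C : ℝ) + 4) / 2 * n)) ^ 3 ≤ 1 / 16 := by
  obtain ⟨n0, hn0⟩ := gn_absorb (16 * ((2 * cG * 9 ^ 36) ^ 2 * CN ^ 3)) 3 (by norm_num)
  refine ⟨n0, fun n L N1 hn hL0 hL hN1 hb => ?_⟩
  have hnn : (0 : ℝ) ≤ n := Nat.cast_nonneg _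
  have hK := hn0 n hn
  obtain ⟨a, ha⟩ : ∃ a : ℝ, a = 36 * ξ * n + g / 8 * L := ⟨_, rfl⟩
  obtain ⟨b, hbdef⟩ : ∃ b : ℝ, b = ξ * n * -(N : ℝ) + c1 * n + (3 * (C : ℝ) + 4) / 2 * n := ⟨_, rfl⟩
  rw [← ha] at hb
  have e1 : CN * ((2 : ℝ) ^ (ξ * n)) ^ (-(N : ℝ)) * 2 ^ (c1 * n) * 2 ^ ((3 * (C : ℝ) + 4) / 2 * n) = CN * 2 ^ b := by
    rw [gn_two_mul, hbdef, gn_two_add, gn_two_add]
    ring
  rw [e1]
  have e2 : ((2 : ℝ) ^ a) ^ 2 * ((2 : ℝ) ^ b) ^ 3 = 2 ^ (2 * a + 3 * b) := by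
    rw [← Real.rpow_natCast, ← Real.rpow_natCast, gn_two_mul, gn_two_mul, ← gn_two_add]
    congr 1
    push_cast
    ring
  have hexp : 2 * a + 3 * b ≤ -(3 * (n : ℝ)) := by
    have h1 : g / 8 * L ≤ g / 8 * n := mul_le_mul_of_nonneg_left hL (by positivity)
    have h2 := mul_le_mul_of_nonneg_right hN hnn
    rw [ha, hbdef]
    nlinarith
  have h3 : (N1 + 1) ^ 2 ≤ (2 * cG * 9 ^ 36 * 2 ^ a) ^ 2 := pow_le_pow_left₀ (by linarith) hb 2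
  have hp : (0 : ℝ) ≤ (CN * 2 ^ b) ^ 3 := by
    have := gn_two_pos b
    positivity
  have hc0 : (0 : ℝ) ≤ (2 * cG * 9 ^ 36) ^ 2 * CN ^ 3 := by positivity
  calc (N1 + 1) ^ 2 * (CN * 2 ^ b) ^ 3 ≤ (2 * cG * 9 ^ 36 * 2 ^ a) ^ 2 * (CN * 2 ^ b) ^ 3 := mul_le_mul_of_nonneg_right h3 hp
    _ = ((2 * cG * 9 ^ 36) ^ 2 * CN ^ 3) * (((2 : ℝ) ^ a) ^ 2 * ((2 : ℝ) ^ b) ^ 3) := by ring
    _ = ((2 * cG * 9 ^ 36) ^ 2 * CN ^ 3) * 2 ^ (2 * a + 3 * b) := by rw [e2]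
    _ ≤ ((2 * cG * 9 ^ 36) ^ 2 * CN ^ 3) * 2 ^ (-(3 * (n : ℝ))) := mul_le_mul_of_nonneg_left (gn_two_mono hexp) hc0
    _ ≤ 1 / 16 := by
        rw [gn_two_neg]
        have hpos := gn_two_pos (3 * (n : ℝ))
        rw [← div_eq_mul_inv, div_le_iff₀ hpos]
        linarith

/-- **LEAF L-256-SLB-M8 (numbers).**   Exponent `(3C + 6 + 36 ξ + g/8 - D) n ≤ -n`;  `2 cG 9^36 ≤ 2^n` (`gn_absorb`). -/
theorem re_sl_num3 (g cG ξ : ℝ) (C D : ℕ) (hg : 0 < g) (hcG : 1 ≤ cG) (hξ : 0 ≤ ξ) (hD : 3 * (C : ℝ) + 7 + 36 * ξ + g / 8 ≤ D) :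
    ∃ n0 : ℕ, ∀ (n : ℕ) (L N1 nL : ℝ), n0 ≤ n → 0 ≤ L → L ≤ n → 0 ≤ N1 → N1 + 1 ≤ 2 * cG * 9 ^ 36 * 2 ^ (36 * ξ * n + g / 8 * L) → 0 ≤ nL → nL ≤ 2 ^ ((3 * (C : ℝ) + 6) * n) →
      nL * N1 * 2 ^ (-((D : ℝ) * n)) ≤ 1 := by
  obtain ⟨n0, hn0⟩ := gn_absorb (2 * cG * 9 ^ 36) 1 one_pos
  refine ⟨n0, fun n L N1 nL hn hL0 hL hN1 hb hnL0 hnL => ?_⟩
  have hnn : (0 : ℝ) ≤ n := Nat.cast_nonneg _
  have hK := hn0 n hn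
  have hc0 : (0 : ℝ) ≤ 2 * cG * 9 ^ 36 := by positivity
  have h1 : N1 ≤ 2 ^ (1 * (n : ℝ)) * 2 ^ (36 * ξ * n + g / 8 * L) :=
    le_trans (by linarith) (hb.trans (mul_le_mul_of_nonneg_right hK (gn_two_pos _).le))
  have hexp : (3 * (C : ℝ) + 6) * n + (1 * (n : ℝ) + (36 * ξ * n + g / 8 * L)) + -((D : ℝ) * n) ≤ 0 := by
    have h2 : g / 8 * L ≤ g / 8 * n := mul_le_mul_of_nonneg_left hL (by positivity)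
    have h3 := mul_le_mul_of_nonneg_right hD hnn
    nlinarith
  calc nL * N1 * 2 ^ (-((D : ℝ) * n))
      ≤ 2 ^ ((3 * (C : ℝ) + 6) * n) * (2 ^ (1 * (n : ℝ)) * 2 ^ (36 * ξ * n + g / 8 * L)) * 2 ^ (-((D : ℝ) * n)) :=
        mul_le_mul_of_nonneg_right (mul_le_mul hnL h1 hN1 (gn_two_pos _).le) (gn_two_pos _).le
    _ = 2 ^ ((3 * (C : ℝ) + 6) * n + (1 * (n : ℝ) + (36 * ξ * n + g / 8 * L)) + -((D : ℝ) * n)) := by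
        rw [gn_two_add _ (-((D : ℝ) * n)), gn_two_add ((3 * (C : ℝ) + 6) * n), gn_two_add (1 * (n : ℝ))]
    _ ≤ 2 ^ (0 : ℝ) := gn_two_mono hexp
    _ = 1 := Real.rpow_zero 2

/-- cube roots -/
theorem re_sl_cbrt (a u v w : ℝ) (ha : 0 ≤ a) (hv : 0 ≤ v) (hw : 0 ≤ w) (h1 : a ≤ u) (h2 : u ^ (1 / 3 : ℝ) ≤ v ^ (1 / 3 : ℝ) + w ^ (1 / 3 : ℝ)) (h3 : v ≤ 1 / 8 * a) :
    1 / 8 * a ≤ w := by
  have e1 : a ^ (1 / 3 : ℝ) ≤ u ^ (1 / 3 : ℝ) := Real.rpow_le_rpow ha h1 (by norm_num)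
  have e2 : v ^ (1 / 3 : ℝ) ≤ (1 / 8 * a) ^ (1 / 3 : ℝ) := Real.rpow_le_rpow hv h3 (by norm_num)
  have e3 : (1 / 8 * a) ^ (1 / 3 : ℝ) = 1 / 2 * a ^ (1 / 3 : ℝ) := by
    rw [Real.mul_rpow (by norm_num) ha]
    congr 1
    rw [show (1 / 8 : ℝ) = (1 / 2) ^ (3 : ℝ) by norm_num, ← Real.rpow_mul (by norm_num)]
    norm_num
  have e4 : (1 / 8 * a) ^ (1 / 3 : ℝ) ≤ w ^ (1 / 3 : ℝ) := by
    rw [e3] at e2 ⊢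
    linarith
  exact (Real.rpow_le_rpow_iff (by positivity) hw (by norm_num)).1 e4

end Claimed.Agent.R256
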