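-- KEEP
import Claimed.Agent.R256.Re.SlabMain

/-!
# Row 256, unit RE, post SLB, file 8: THE REMOVED FIELD      (architect helper213; prefix `re_sl_`)      SORRY-FREE GLUE

  `re_sl_asm_*`     assembly of real numbers
  `re_sl_rem`       REC (`re_sl_rec`) + one component (`re_sl_slab`) + BENCH + numbers `re_sl_num1/2/3`
  `re_sl_rem_fin`   = the statement of `re_st_rem` (`Re/SlabFin.lean`), VERBATIM   (`re_sl_ps_mono`: the tolerance `ξ` is raised to `ξ0`)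
-/

set_option autoImplicit false

namespace Claimed.Agent.R256

open MeasureTheory
open scoped BigOperators
open Classical

/-- the sum over the components -/
theorem re_sl_asm_sum {ι : Type} (V : Finset ι) (rd rt : ι → ℝ) (K sb z R R' : ℝ) (hK : 0 ≤ K) (hsb : 0 ≤ sb)
    (h1 : ∀ ν ∈ V, rd ν ≤ K * (sb * (rt ν + z))) (h2 : ∑ ν ∈ V, rt ν ≤ R) (h3 : (V.card : ℝ) * z ≤ R') :
    ∑ ν ∈ V, rd ν ≤ K * (sb * (R + R')) := by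
  calc ∑ ν ∈ V, rd ν ≤ ∑ ν ∈ V, K * (sb * (rt ν + z)) := Finset.sum_le_sum h1
    _ = K * (sb * (∑ ν ∈ V, rt ν + V.card * z)) := by
      rw [← Finset.mul_sum, ← Finset.mul_sum, Finset.sum_add_distrib, Finset.sum_const, nsmul_eq_mul]
    _ ≤ _ := mul_le_mul_of_nonneg_left (mul_le_mul_of_nonneg_left (add_le_add h2 h3) hsb) hK

/-- the main term -/
theorem re_sl_asm_main (N1 Cn Lc gL ex0 ex1 sb Eb tt bb Bs Sr : ℝ) (hCn : 0 ≤ Cn) (hLc : 0 ≤ Lc) (hgL : 0 ≤ gL) (hex1 : 0 ≤ ex1) (htt : 0 ≤ tt)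
    (hBs : 0 ≤ Bs) (h1 : Sr ≤ Cn * (Lc * (gL * (ex0 * ex1))) * (sb * (Eb * tt + Eb * tt))) (h2 : ex0 * sb * Eb ≤ bb * Bs)
    (h3 : (N1 + 1) ^ 2 * (Cn * Lc * gL * ex1 * 2 * tt * bb) ≤ 1 / 16) : (N1 + 1) ^ 2 * Sr ≤ 1 / 16 * Bs := by
  have hk : 0 ≤ Cn * Lc * gL * ex1 * 2 * tt := by positivity
  calc (N1 + 1) ^ 2 * Sr ≤ (N1 + 1) ^ 2 * (Cn * (Lc * (gL * (ex0 * ex1))) * (sb * (Eb * tt + Eb * tt))) := mul_le_mul_of_nonneg_left h1 (sq_nonneg _)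
    _ = (N1 + 1) ^ 2 * (Cn * Lc * gL * ex1 * 2 * tt * (ex0 * sb * Eb)) := by ring
    _ ≤ (N1 + 1) ^ 2 * (Cn * Lc * gL * ex1 * 2 * tt * (bb * Bs)) := mul_le_mul_of_nonneg_left (mul_le_mul_of_nonneg_left h2 hk) (sq_nonneg _)
    _ = (N1 + 1) ^ 2 * (Cn * Lc * gL * ex1 * 2 * tt * bb) * Bs := by ring
    _ ≤ 1 / 16 * Bs := mul_le_mul_of_nonneg_right h3 hBs

/-- the error term -/
theorem re_sl_asm_err (N1 a e M be d SW raw : ℝ) (ha : 0 ≤ a) (hM : 0 ≤ M) (hbe : 0 ≤ be) (hd : 0 ≤ d) (hSW : 0 ≤ SW)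
    (h1 : e ≤ M ^ 2 * (be * d ^ 4)) (h2 : be * d ^ 6 * SW ≤ raw) (h3 : (N1 + 1) ^ 2 * (a * M) ^ 3 ≤ 1 / 16) :
    (N1 + 1) ^ 2 * ((a * Real.sqrt e) ^ 3 * SW) ≤ 1 / 16 * (Real.sqrt be * raw) := by
  have hs : Real.sqrt e ≤ M * (Real.sqrt be * d ^ 2) := by
    have : M ^ 2 * (be * d ^ 4) = (M * (Real.sqrt be * d ^ 2)) ^ 2 := by
      have := Real.sq_sqrt hbe
      calc M ^ 2 * (be * d ^ 4) = M ^ 2 * (Real.sqrt be ^ 2 * d ^ 4) := by rw [this]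
        _ = _ := by ring
    rw [this] at h1
    exact Real.sqrt_le_iff.2 ⟨by positivity, h1⟩
  have hsb := Real.sqrt_nonneg be
  have hc : (a * Real.sqrt e) ^ 3 ≤ (a * (M * (Real.sqrt be * d ^ 2))) ^ 3 :=
    pow_le_pow_left₀ (mul_nonneg ha (Real.sqrt_nonneg _)) (mul_le_mul_of_nonneg_left hs ha) 3
  have he3 : (a * (M * (Real.sqrt be * d ^ 2))) ^ 3 = (a * M) ^ 3 * Real.sqrt be * (be * d ^ 6) := by
    have := Real.sq_sqrt hbe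
    calc (a * (M * (Real.sqrt be * d ^ 2))) ^ 3 = (a * M) ^ 3 * Real.sqrt be * (Real.sqrt be ^ 2 * d ^ 6) := by ring
      _ = _ := by rw [this]
  have hk : 0 ≤ (a * M) ^ 3 * Real.sqrt be := by positivity
  have hraw : 0 ≤ raw := le_trans (by positivity) h2
  calc (N1 + 1) ^ 2 * ((a * Real.sqrt e) ^ 3 * SW) ≤ (N1 + 1) ^ 2 * ((a * M) ^ 3 * Real.sqrt be * (be * d ^ 6) * SW) := by
        rw [← he3]
        exact mul_le_mul_of_nonneg_left (mul_le_mul_of_nonneg_right hc hSW) (sq_nonneg _)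
    _ = (N1 + 1) ^ 2 * ((a * M) ^ 3 * Real.sqrt be * (be * d ^ 6 * SW)) := by ring
    _ ≤ (N1 + 1) ^ 2 * ((a * M) ^ 3 * Real.sqrt be * raw) := mul_le_mul_of_nonneg_left (mul_le_mul_of_nonneg_left h2 hk) (sq_nonneg _)
    _ = (N1 + 1) ^ 2 * (a * M) ^ 3 * (Real.sqrt be * raw) := by ring
    _ ≤ _ := mul_le_mul_of_nonneg_right h3 (mul_nonneg hsb hraw)

/-- the number of components per label -/
theorem re_sl_asm_N1 (cG x y Np : ℝ) (hcG : 1 ≤ cG) (hx : 0 ≤ x) (hy : 0 ≤ y) (hNp0 : 0 ≤ Np) (hNp : Np ≤ 2 ^ y) :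
    cG * ((9 * (2 : ℝ) ^ x) ^ 3) ^ 12 * Np + 1 ≤ 2 * cG * 9 ^ 36 * 2 ^ (36 * x + y) := by
  have e1 : ((9 * (2 : ℝ) ^ x) ^ 3) ^ 12 = 9 ^ 36 * 2 ^ (36 * x) := by
    rw [← pow_mul, mul_pow]
    congr 1
    rw [← Real.rpow_natCast, gn_two_mul]
    congr 1
    push_cast
    ring
  rw [e1, gn_two_add]
  have p1 : (1 : ℝ) ≤ 2 ^ (36 * x) := Real.one_le_rpow (by norm_num) (by positivity)
  have p2 : (1 : ℝ) ≤ 2 ^ y := Real.one_le_rpow (by norm_num) hy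
  have p3 : (1 : ℝ) ≤ 9 ^ 36 := one_le_pow₀ (by norm_num)
  have q1 : cG * (9 ^ 36 * 2 ^ (36 * x)) * Np ≤ cG * (9 ^ 36 * 2 ^ (36 * x)) * 2 ^ y := mul_le_mul_of_nonneg_left hNp (by positivity)
  have q2 : 1 ≤ cG * (9 ^ 36 * 2 ^ (36 * x)) * 2 ^ y := by
    have := one_le_mul_of_one_le_of_one_le p3 p1
    have := one_le_mul_of_one_le_of_one_le hcG this
    exact one_le_mul_of_one_le_of_one_le this p2
  calc cG * (9 ^ 36 * 2 ^ (36 * x)) * Np + 1 ≤ cG * (9 ^ 36 * 2 ^ (36 * x)) * 2 ^ y + cG * (9 ^ 36 * 2 ^ (36 * x)) * 2 ^ y := add_le_add q1 q2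
    _ = _ := by ring

set_option maxHeartbeats 1000000 in
/-- **REM (glue).**   `g, C0` of `re_sl_slab`;  `ts = g/8`, `ξ0 = min 1 (g / (16 (q+1) (74 + C0)))`, `τ0 = min 1 (g / (24 (q+1)))`, `ε = g / (16 (q+1))`;  `b = i + 3 S`, `Js = q - 2 j`. -/
theorem re_sl_rem (η : ℝ) (hη0 : 0 < η) (hη1 : η < 1) (hE : ReEntry η) (hA : RePlaneA η) (hB : RePlaneB η) (hΓ : 100 * η < (rndWav η).Gam) (q : ℕ) (es : ℝ) (hes : 0 < es) :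
    ∃ ts : ℝ, 0 < ts ∧ ∃ ξ0 : ℝ, 0 < ξ0 ∧ ∀ ξ : ℝ, 0 < ξ → ξ ≤ ξ0 → ∃ τ0 : ℝ, 0 < τ0 ∧ ∀ C : ℕ, ∃ A0 n0 : ℕ, ∀ (A : ℕ) (p : RdWvPar) (W : ReTw η p) (τ : ℝ), A0 ≤ A →
      W.q = q → n0 ≤ W.E.n → 0 ≤ τ → τ ≤ τ0 → W.Ok (q - 1) C A τ →
      ∀ (i j S : ℕ), 0 < S → RnDom q 3 i j S → ∀ (Np : ℕ), (Np : ℝ) ≤ W.doc.tl (ts * S) →
      ∀ (Rm : W.doc.Row (i + 3 * S) → Prop) (lab : W.doc.Row (i + 3 * S) → Fin Np) (pn : ReName × ReName → Fin Np → ℝ × ℝ × ℝ) (pc : ReName × ReName → Fin Np → ℝ),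
      (∀ x ν, (pn x ν).1 ^ 2 + (pn x ν).2.1 ^ 2 + (pn x ν).2.2 ^ 2 = 1) →
      (∀ ω, Rm ω → W.doc.InSlab (i + 3 * S) j (pn (W.doc.nm (i + 3 * S) i j ω, W.doc.nm (i + 3 * S) (i + 3 * S) j ω) (lab ω))
        (pc (W.doc.nm (i + 3 * S) i j ω, W.doc.nm (i + 3 * S) (i + 3 * S) j ω) (lab ω)) (W.doc.tl (-(es * S))) ω) →
      ∀ P : RePs, P.Ok (W.Ex (i + 3 * S)) (W.dp (q - 2 * j)) ξ →
        (W.Yx (i + 3 * S) P (W.dp (q - 2 * j)) (C + 2) (W.atS (i + 3 * S) Rm)).rd ≤ 1 / 8 * (Real.sqrt P.be * P.raw (W.Ex (i + 3 * S)) (W.dp (q - 2 * j))) := by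
  have hΓ0 : 0 < (rndWav η).Gam := by linarith
  obtain ⟨g, C0, hg, hC0, Hslab⟩ := re_sl_slab η hη0 hη1 hE hA hB hΓ es hes
  have hq1 : (0 : ℝ) < (q : ℝ) + 1 := by positivity
  refine ⟨g / 8, by positivity, min 1 (g / (16 * ((q : ℝ) + 1) * (74 + C0))), lt_min one_pos (by positivity), fun ξ hξ hξ0 => ?_⟩
  have hξ1 : ξ ≤ 1 := hξ0.trans (min_le_left _ _)
  have hξ2 : ξ ≤ g / (16 * ((q : ℝ) + 1) * (74 + C0)) := hξ0.trans (min_le_right _ _)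
  refine ⟨min 1 (g / (24 * ((q : ℝ) + 1))), lt_min one_pos (by positivity), fun C => ?_⟩
  obtain ⟨cG, c1, hcG, hc1, Hrec⟩ := re_sl_rec η hη0 hη1 hE C
  obtain ⟨D, hD⟩ := exists_nat_ge (3 * (C : ℝ) + 7 + 36 * ξ + g / 8)
  obtain ⟨N, hN'⟩ := exists_nat_ge ((c1 + (3 * (C : ℝ) + 4) / 2 + 24 * ξ + g / 12 + 1) / ξ)
  have hN : c1 + (3 * (C : ℝ) + 4) / 2 + 24 * ξ + g / 12 + 1 ≤ N * ξ := (div_le_iff₀ hξ).1 hN'
  obtain ⟨CN, hCN, Hrec'⟩ := Hrec N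
  have hε : 0 < g / (16 * ((q : ℝ) + 1)) := by positivity
  obtain ⟨Cc, hCc, A0, n0, Hs⟩ := Hslab q _ hε C D
  obtain ⟨n1, H1⟩ := re_sl_num1 g C0 cG Cc q hg hC0 hcG hCc
  obtain ⟨n2, H2⟩ := re_sl_num2 g cG CN c1 ξ C N hg hcG hCN hξ hN
  obtain ⟨n3, H3⟩ := re_sl_num3 g cG ξ C D hg hcG hξ.le hD
  obtain ⟨n4, H4⟩ := gn_absorb 100 ξ hξ
  refine ⟨A0, max (max n0 n1) (max (max n2 n3) n4), ?_⟩
  intro A p W τ hA0 hq hn hτ0 hτ hW i j S hS hDom Np hNp Rm lab pn pc hpn hsl P hP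
  have hn0 : n0 ≤ W.E.n := le_trans (le_trans (le_max_left _ _) (le_max_left _ _)) hn
  have hn1 : n1 ≤ W.E.n := le_trans (le_trans (le_max_right _ _) (le_max_left _ _)) hn
  have hn2 : n2 ≤ W.E.n := le_trans (le_trans (le_trans (le_max_left _ _) (le_max_left _ _)) (le_max_right _ _)) hn
  have hn3 : n3 ≤ W.E.n := le_trans (le_trans (le_trans (le_max_right _ _) (le_max_left _ _)) (le_max_right _ _)) hn
  have hn4 : n4 ≤ W.E.n := le_trans (le_trans (le_max_right _ _) (le_max_right _ _)) hn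
  have hτ1 : τ ≤ 1 := hτ.trans (min_le_left _ _)
  have hτ2 : τ ≤ g / (24 * ((q : ℝ) + 1)) := hτ.trans (min_le_right _ _)
  obtain ⟨hi0, hj0, hdom⟩ := hDom
  obtain ⟨Js, hJs⟩ : ∃ Js : ℕ, Js = q - 2 * j := ⟨_, rfl⟩
  rw [← hJs] at hP ⊢
  have hJ : 2 * j + Js = q := by omega
  have hb0 : 0 < i + 3 * S := by omega
  have hib : i ≤ i + 3 * S := by omega
  have hbJ : i + 3 * S ≤ Js := by omega
  have hbq : i + 3 * S < q := by omega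
  have hbg : i + 3 * S ≤ q - 1 := by omega
  have hbS : i + 3 * S + 1 + S ≤ Js := by omega
  have hJq : Js ≤ q := by omega
  have hT : (p.sys η).Tight := hE.gen.tight p p.ok
  have h100 : 100 ≤ W.tn ξ := H4 _ hn4
  -- natural numbers
  have hnlo := hW.n_lo
  have hnhi := hW.n_hi
  have hm0 := hW.m_pos
  rw [hq] at hnlo hnhi
  have hL1 : W.E.n ≤ 2 * (q + 1) * (S * W.m) := by
    have a1 : q * (W.m + 1) ≤ q * (2 * W.m) := Nat.mul_le_mul_left _ (by omega)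
    have a2 : W.m ≤ S * W.m := Nat.le_mul_of_pos_left _ hS
    have a3 : q * (2 * W.m) ≤ (q + 1) * (2 * (S * W.m)) := Nat.mul_le_mul (by omega) (by omega)
    calc W.E.n ≤ q * (W.m + 1) := hnhi.le
      _ ≤ (q + 1) * (2 * (S * W.m)) := a1.trans a3
      _ = _ := by ring
  have hL2 : S * W.m ≤ W.E.n := le_trans (Nat.mul_le_mul_right _ (by omega)) hnlo
  have hx2 : W.dp Js - W.dp (i + 3 * S) ≤ W.E.n := by
    have : W.dp Js - W.dp (i + 3 * S) ≤ Js * W.m := by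
      unfold ReTw.dp
      omega
    exact this.trans (le_trans (Nat.mul_le_mul_right _ hJq) hnlo)
  obtain ⟨L, hLdef⟩ : ∃ L : ℝ, L = ((S * W.m : ℕ) : ℝ) := ⟨_, rfl⟩
  obtain ⟨xx, hxdef⟩ : ∃ xx : ℝ, xx = ((W.dp Js - W.dp (i + 3 * S) : ℕ) : ℝ) := ⟨_, rfl⟩
  have hL0 : 0 ≤ L := hLdef ▸ Nat.cast_nonneg _
  have hx0 : 0 ≤ xx := hxdef ▸ Nat.cast_nonneg _
  have hLn : L ≤ W.E.n := by rw [hLdef]; exact_mod_cast hL2
  have hxn : xx ≤ W.E.n := by rw [hxdef]; exact_mod_cast hx2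
  have hnL : (W.E.n : ℝ) ≤ 2 * ((q : ℝ) + 1) * L := by rw [hLdef]; exact_mod_cast hL1
  -- the number of components per label
  obtain ⟨N1, hN1def⟩ : ∃ N1 : ℝ, N1 = cG * ((9 * W.tn ξ) ^ 3) ^ 12 * Np := ⟨_, rfl⟩
  have hΛ0 : 0 < W.tn ξ := gn_two_pos _
  have hN10 : 0 ≤ N1 := by rw [hN1def]; positivity
  have hNp' : (Np : ℝ) ≤ 2 ^ (g / 8 * L) := by
    refine hNp.trans (le_of_eq ?_)
    unfold ReDoc.tl
    rw [hLdef]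
    congr 1
    show g / 8 * (S : ℝ) * (W.m : ℝ) = _
    push_cast
    ring
  have hN1 : N1 + 1 ≤ 2 * cG * 9 ^ 36 * 2 ^ (36 * ξ * W.E.n + g / 8 * L) := by
    have := re_sl_asm_N1 cG (ξ * W.E.n) (g / 8 * L) Np hcG (by positivity) (by positivity) (Nat.cast_nonneg _) hNp'
    rw [hN1def]
    refine this.trans (le_of_eq ?_)
    congr 2
    ring
  obtain ⟨V', hcard, hrd⟩ := Hrec' p W q A τ ξ hq hξ.le hW i j (i + 3 * S) Js P Np Rm lab hb0 hib hbJ hbq hJ hP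
  rw [← hN1def] at hcard hrd
  have hXv : (W.Ex (i + 3 * S)).Valid := hP.valid
  have hbe : 0 < P.be := re_sl_be_pos hXv hP
  have he0 : 0 < W.E.e := hXv.e_pos
  have hraw0 : 0 ≤ P.raw (W.Ex (i + 3 * S)) (W.dp Js) := le_trans (mul_pos hXv.e_pos (gn_two_pos _)).le hP.raw_lo
  have hBs : 0 ≤ Real.sqrt P.be * P.raw (W.Ex (i + 3 * S)) (W.dp Js) := mul_nonneg (Real.sqrt_nonneg _) hraw0
  obtain ⟨Eb, hEb⟩ : ∃ Eb : ℝ, Eb = W.E.e * 2 ^ ((rndWav η).d0f * ((i + 3 * S : ℕ) : ℝ) * W.m) := ⟨_, rfl⟩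
  have hd0 := (gn_d0f_le (rndWav η) 1 hE.gen hΓ0).1
  have heE : W.E.e ≤ Eb := by
    rw [hEb]
    have : (1 : ℝ) ≤ 2 ^ ((rndWav η).d0f * ((i + 3 * S : ℕ) : ℝ) * W.m) := Real.one_le_rpow (by norm_num) (by positivity)
    nlinarith
  have htt : 1 ≤ W.tn τ := Real.one_le_rpow (by norm_num) (by positivity)
  have hEtt : W.E.e ≤ Eb * W.tn τ := by nlinarith
  -- one component
  have hcomp : ∀ ν ∈ V', (W.Yx (i + 3 * S) P (W.dp Js) (C + 2) (W.Tc i j (i + 3 * S) Rm lab ν)).rd ≤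
      (Cc * ((W.E.n : ℝ) + 1) ^ 3 * (W.tn ξ ^ C0 * (2 ^ (-(g * L)) * 2 ^ (-((1 / 2 - (rndWav η).Gam - g / (16 * ((q : ℝ) + 1))) * xx))))) *
        (Real.sqrt (W.ps (i + 3 * S)).be * (W.rt (i + 3 * S) (W.rs (i + 3 * S) (W.Tc i j (i + 3 * S) Rm lab ν)) + W.E.s ^ (D : ℝ) * W.E.e)) := by
    intro ν _
    rw [hLdef, hxdef]
    refine (Hs A p W τ ξ hA0 hq hn0 hτ1 hξ.le h100 hW (i + 3 * S) j Js S P _ ν.1.2 (pn ν.1 ν.2) (pc ν.1 ν.2) hb0 hj0 hS hJ hbS hP (hpn _ _) ?_).trans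
      (le_of_eq (mul_assoc _ _ _).symm)
    rintro a ⟨ha, hRm, e1, e2⟩
    refine ⟨ha, ?_, ?_⟩
    · rw [← e1]
    · have := hsl ⟨a, ha⟩ hRm
      rw [e1, e2] at this
      exact this
  have hsum : ∑ ν ∈ V', W.rt (i + 3 * S) (W.rs (i + 3 * S) (W.Tc i j (i + 3 * S) Rm lab ν)) ≤ Eb * W.tn τ := by
    refine le_trans (re_sl_rt_sum W hW (i + 3 * S) hb0 hbg V' (fun ν => W.Tc i j (i + 3 * S) Rm lab ν)
      (fun ν _ ν' _ hne => re_sl_Tc_disj W i j _ Rm lab ν ν' hne)) ?_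
    rw [hEb]
    exact re_at_raw_hi W hW (i + 3 * S) hb0 hbg
  have hnLb := re_sl_nL W hη0 hE hΓ0 hW hq (i + 3 * S) Js hJq P ξ hξ1 hP
  have hcz : (V'.card : ℝ) * (W.E.s ^ (D : ℝ) * W.E.e) ≤ Eb * W.tn τ := by
    rw [gn_s_rpow]
    have h3 := H3 W.E.n L N1 P.nL hn3 hL0 hLn hN10 hN1 (Nat.cast_nonneg _) hnLb
    calc (V'.card : ℝ) * (2 ^ (-((D : ℝ) * W.E.n)) * W.E.e) ≤ (P.nL * N1) * (2 ^ (-((D : ℝ) * W.E.n)) * W.E.e) :=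
          mul_le_mul_of_nonneg_right hcard (mul_nonneg (gn_two_pos _).le he0.le)
      _ = (P.nL * N1 * 2 ^ (-((D : ℝ) * W.E.n))) * W.E.e := by ring
      _ ≤ 1 * W.E.e := mul_le_mul_of_nonneg_right h3 he0.le
      _ ≤ _ := by rw [one_mul]; exact hEtt
  have hSr := re_sl_asm_sum V' _ _ _ _ _ _ _ (by positivity) (Real.sqrt_nonneg _) hcomp hsum hcz
  have hsplit : (2 : ℝ) ^ (-((1 / 2 - (rndWav η).Gam - g / (16 * ((q : ℝ) + 1))) * xx)) =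
      2 ^ (-((1 / 2 - (rndWav η).Gam) * xx)) * 2 ^ (g / (16 * ((q : ℝ) + 1)) * xx) := by
    rw [← gn_two_add]
    congr 1
    ring
  rw [hsplit] at hSr
  have hbench := re_sl_bench W hW (i + 3 * S) Js hb0 hbq hbJ P ξ hP
  rw [← hxdef, ← hEb] at hbench
  have hmain := re_sl_asm_main N1 _ _ _ _ _ _ _ _ _ _ _ (by positivity) (Real.rpow_nonneg hΛ0.le _) (gn_two_pos _).le (gn_two_pos _).le (gn_two_pos _).le hBs hSr hbench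
    (H1 W.E.n ξ τ L xx N1 hn1 hξ.le hξ2 hτ2 hnL hx0 hxn hN10 hN1)
  -- the error
  have hele := re_sl_e_le W hE hΓ0 hW hq (i + 3 * S) Js hJq P ξ hξ1 hP
  have hM2 : (2 : ℝ) ^ ((3 * (C : ℝ) + 4) * W.E.n) = (2 ^ ((3 * (C : ℝ) + 4) / 2 * W.E.n)) ^ 2 := by
    rw [← Real.rpow_natCast, gn_two_mul]
    congr 1
    push_cast
    ring
  rw [hM2] at hele
  have hSW : 0 ≤ ∑ u ∈ Finset.range P.nL, 1 / Real.sqrt ((P.lQ u).wt η) := Finset.sum_nonneg fun u _ => by positivity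
  have herr := re_sl_asm_err N1 (CN * W.tn ξ ^ (-(N : ℝ)) * 2 ^ (c1 * W.E.n)) W.E.e _ P.be (rdD p.H (W.dp Js)) _ _
    (mul_nonneg (mul_nonneg hCN (Real.rpow_nonneg hΛ0.le _)) (gn_two_pos _).le) (gn_two_pos _).le hbe.le (Real.sqrt_nonneg _) hSW hele
    (re_sl_sumw hη0 (W.Ex (i + 3 * S)) (W.dp Js) P ξ hP hbe.le) (H2 W.E.n L N1 hn2 hL0 hLn hN10 hN1)
  refine hrd.trans ?_
  rw [mul_add]
  linarith

/-- **REM, final form** = `re_st_rem` of `Re/SlabFin.lean`, verbatim. -/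
theorem re_sl_rem_fin (η : ℝ) (hη0 : 0 < η) (hη1 : η < 1) (hE : ReEntry η) (hA : RePlaneA η) (hB : RePlaneB η) (hΓ : 100 * η < (rndWav η).Gam)
    (q : ℕ) (es : ℝ) (hes : 0 < es) :
    ∃ ts ξ0 : ℝ, 0 < ts ∧ 0 < ξ0 ∧ ∀ C : ℕ, ∃ A0 n0 : ℕ, ∀ (A : ℕ) (p : RdWvPar) (W : ReTw η p) (τ ξ : ℝ), A0 ≤ A → W.q = q → n0 ≤ W.E.n →
      0 ≤ τ → τ ≤ ξ0 → 0 ≤ ξ → ξ ≤ ξ0 → W.Ok (q - 1) C A τ →
      ∀ (i j S : ℕ) (P : RePs), 0 < S → RnDom q 3 i j S → P.Ok (W.Ex (i + 3 * S)) (W.dp (q - 2 * j)) ξ →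
      ∀ (Np : ℕ), (Np : ℝ) ≤ W.doc.tl (ts * S) →
      ∀ (Rm : W.doc.Row (i + 3 * S) → Prop) (lab : W.doc.Row (i + 3 * S) → Fin Np) (pn : ReName × ReName → Fin Np → ℝ × ℝ × ℝ)
        (pc : ReName × ReName → Fin Np → ℝ),
        (∀ x ν, (pn x ν).1 ^ 2 + (pn x ν).2.1 ^ 2 + (pn x ν).2.2 ^ 2 = 1) →
        (∀ ω, Rm ω → W.doc.InSlab (i + 3 * S) j (pn (W.doc.nm (i + 3 * S) i j ω, W.doc.nm (i + 3 * S) (i + 3 * S) j ω) (lab ω))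
          (pc (W.doc.nm (i + 3 * S) i j ω, W.doc.nm (i + 3 * S) (i + 3 * S) j ω) (lab ω)) (W.doc.tl (-(es * S))) ω) →
        (W.Yx (i + 3 * S) P (W.dp (q - 2 * j)) (C + 2) (W.atS (i + 3 * S) Rm)).rd
          ≤ 1 / 8 * (Real.sqrt P.be * P.raw (W.Ex (i + 3 * S)) (W.dp (q - 2 * j))) := by
  obtain ⟨ts, hts, ξ0, hξ0, H⟩ := re_sl_rem η hη0 hη1 hE hA hB hΓ q es hes
  obtain ⟨τ0, hτ0, H'⟩ := H ξ0 hξ0 le_rfl
  refine ⟨ts, min ξ0 τ0, hts, lt_min hξ0 hτ0, fun C => ?_⟩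
  obtain ⟨A0, n0, H''⟩ := H' C
  refine ⟨A0, n0, ?_⟩
  intro A p W τ ξ hA0 hq hn hτ hτ' _ hξ' hW i j S P hS hD hP Np hNp Rm lab pn pc h1 h2
  exact H'' A p W τ hA0 hq hn hτ (hτ'.trans (min_le_right _ _)) hW i j S hS hD Np hNp Rm lab pn pc h1 h2 P
    (re_sl_ps_mono hP.valid hP (hξ'.trans (min_le_left _ _)))

end Claimed.Agent.R256
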