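-- KEEP
import Claimed.Agent.R256.Re.SlabStep
import Claimed.Agent.R256.Re.SlabRem
import Claimed.Agent.R256.Re.XPeel
import Claimed.Agent.R256.Re.Rar

/-!
# Row 256, unit RE, post SLB, file 5: THE TOP GLUE of `re_f_slab`      (helper272 for helper213; prefix `re_st_`)

    `re_st_main` (= the statement of `re_f_slab`)  ⟸  REM `re_st_rem` (step 3 of the plan: OWNER helper213)  +  PEEL `re_st_peel` (step 1)  +  RES `re_st_res` (steps 2, 4, 5).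
ORDER OF THE CONSTANTS   `q es` → `ts ξ0` (REM) → `t` → `ξ := min ξ0 (t/(16 q))` → `τ := min (min τ_P ξ0) (min 1 (t/(16 q)))` (`τ_P` of PEEL at `ξ`) → `C` → `A0 n0` (max of the three).
-/

set_option autoImplicit false

namespace Claimed.Agent.R256

open MeasureTheory
open scoped BigOperators
open Classical

/-- the numerology of the residue (step 4 of SLB), real numbers only -/
theorem re_st_num {e ka Cr beS rawS beb x tot rd aS1 aS2 aR ab at' aD c1 tm : ℝ} (he : 0 < e) (hka : 0 < ka) (hCr : 1 ≤ Cr)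
    (h1 : ka * 2 ^ aS1 ≤ beS) (h2 : e * 2 ^ aS2 ≤ rawS) (h3 : Real.sqrt beS * rawS / 8 ≤ rd)
    (h4 : rd ≤ 2 ^ aR * Real.sqrt (Cr * beb) * (x + 2 ^ aD * e)) (h5 : beb ≤ ka * 2 ^ ab) (h6 : tot ≤ e * 2 ^ at')
    (hc : 16 * Real.sqrt Cr ≤ 2 ^ c1) (hx1 : tm + at' ≤ aS1 / 2 + aS2 - aR - ab / 2 - c1) (hx2 : aD ≤ aS1 / 2 + aS2 - aR - ab / 2 - c1) :
    2 ^ tm * tot ≤ x := by
  have sk : 0 < Real.sqrt ka := Real.sqrt_pos.2 hka
  have sC : 0 < Real.sqrt Cr := Real.sqrt_pos.2 (by linarith)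
  have a1 : Real.sqrt ka * 2 ^ (aS1 / 2) ≤ Real.sqrt beS := by
    rw [← gn_two_sqrt, ← Real.sqrt_mul hka.le]
    exact Real.sqrt_le_sqrt h1
  have a2 : Real.sqrt (Cr * beb) ≤ Real.sqrt Cr * (Real.sqrt ka * 2 ^ (ab / 2)) := by
    rw [← gn_two_sqrt, ← Real.sqrt_mul hka.le, ← Real.sqrt_mul (by linarith)]
    exact Real.sqrt_le_sqrt (mul_le_mul_of_nonneg_left h5 (by linarith))
  have a3 : Real.sqrt ka * 2 ^ (aS1 / 2) * (e * 2 ^ aS2) ≤ Real.sqrt beS * rawS :=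
    mul_le_mul a1 h2 (mul_pos he (gn_two_pos _)).le (Real.sqrt_nonneg _)
  have p0 : 0 < Real.sqrt ka * 2 ^ (aS1 / 2) * (e * 2 ^ aS2) := mul_pos (mul_pos sk (gn_two_pos _)) (mul_pos he (gn_two_pos _))
  have hrd : 0 < rd := by linarith
  have hy : 0 < x + 2 ^ aD * e := by
    by_contra hn
    push Not at hn
    have : 2 ^ aR * Real.sqrt (Cr * beb) * (x + 2 ^ aD * e) ≤ 0 :=
      mul_nonpos_of_nonneg_of_nonpos (mul_nonneg (gn_two_pos _).le (Real.sqrt_nonneg _)) hn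
    linarith
  have a4 : Real.sqrt ka * 2 ^ (aS1 / 2) * (e * 2 ^ aS2) / 8 ≤ 2 ^ aR * (Real.sqrt Cr * (Real.sqrt ka * 2 ^ (ab / 2))) * (x + 2 ^ aD * e) := by
    refine le_trans (by linarith) (le_trans h4 ?_)
    exact mul_le_mul_of_nonneg_right (mul_le_mul_of_nonneg_left a2 (gn_two_pos _).le) hy.le
  -- divide by `√ka 2^aR 2^(ab/2)`
  have a5 : 2 * (e * 2 ^ (aS1 / 2 + aS2 - aR - ab / 2)) ≤ 16 * Real.sqrt Cr * (x + 2 ^ aD * e) := by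
    have e1 : (2 : ℝ) ^ (aS1 / 2) * 2 ^ aS2 = 2 ^ (aS1 / 2 + aS2 - aR - ab / 2) * (2 ^ aR * 2 ^ (ab / 2)) := by
      rw [← gn_two_add, ← gn_two_add, ← gn_two_add]
      congr 1
      ring
    have p1 : 0 < Real.sqrt ka * (2 ^ aR * 2 ^ (ab / 2)) := mul_pos sk (mul_pos (gn_two_pos _) (gn_two_pos _))
    refine le_of_mul_le_mul_right ?_ p1
    calc 2 * (e * 2 ^ (aS1 / 2 + aS2 - aR - ab / 2)) * (Real.sqrt ka * (2 ^ aR * 2 ^ (ab / 2)))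
        = 16 * (Real.sqrt ka * (2 ^ (aS1 / 2) * 2 ^ aS2) * e / 8) := by rw [e1]; ring
      _ = 16 * (Real.sqrt ka * 2 ^ (aS1 / 2) * (e * 2 ^ aS2) / 8) := by ring
      _ ≤ 16 * (2 ^ aR * (Real.sqrt Cr * (Real.sqrt ka * 2 ^ (ab / 2))) * (x + 2 ^ aD * e)) := by linarith
      _ = _ := by ring
  have a6 : 2 * (e * 2 ^ (aS1 / 2 + aS2 - aR - ab / 2)) ≤ 2 ^ c1 * (x + 2 ^ aD * e) := le_trans a5 (mul_le_mul_of_nonneg_right hc hy.le)
  have a7 : 2 * (e * 2 ^ (aS1 / 2 + aS2 - aR - ab / 2 - c1)) ≤ x + 2 ^ aD * e := by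
    refine le_of_mul_le_mul_left ?_ (gn_two_pos c1)
    calc (2 : ℝ) ^ c1 * (2 * (e * 2 ^ (aS1 / 2 + aS2 - aR - ab / 2 - c1))) = 2 * (e * (2 ^ c1 * 2 ^ (aS1 / 2 + aS2 - aR - ab / 2 - c1))) := by ring
      _ = 2 * (e * 2 ^ (aS1 / 2 + aS2 - aR - ab / 2)) := by rw [← gn_two_add]; congr 3; ring
      _ ≤ _ := a6
  have a8 : (2 : ℝ) ^ aD * e ≤ e * 2 ^ (aS1 / 2 + aS2 - aR - ab / 2 - c1) := by
    rw [mul_comm]
    exact mul_le_mul_of_nonneg_left (gn_two_mono hx2) he.le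
  calc (2 : ℝ) ^ tm * tot ≤ 2 ^ tm * (e * 2 ^ at') := mul_le_mul_of_nonneg_left h6 (gn_two_pos _).le
    _ = e * 2 ^ (tm + at') := by rw [gn_two_add]; ring
    _ ≤ e * 2 ^ (aS1 / 2 + aS2 - aR - ab / 2 - c1) := mul_le_mul_of_nonneg_left (gn_two_mono hx1) he.le
    _ ≤ x := by linarith

/-- from the splitting to the residue -/
theorem re_st_cube {u r s L : ℝ} (hu : 0 ≤ u) (hr : 0 ≤ r) (hs : 0 ≤ s) (hL : L ≤ u) (h1 : u ^ (1 / 3 : ℝ) ≤ r ^ (1 / 3 : ℝ) + s ^ (1 / 3 : ℝ))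
    (h2 : r ≤ 1 / 8 * L) : L / 8 ≤ s := by
  have e1 : r ^ (1 / 3 : ℝ) ≤ u ^ (1 / 3 : ℝ) / 2 := by
    have : r ≤ 1 / 8 * u := by linarith
    calc r ^ (1 / 3 : ℝ) ≤ (1 / 8 * u) ^ (1 / 3 : ℝ) := Real.rpow_le_rpow hr this (by norm_num)
      _ = (1 / 8 : ℝ) ^ (1 / 3 : ℝ) * u ^ (1 / 3 : ℝ) := Real.mul_rpow (by norm_num) hu
      _ = _ := by
        have : (1 / 8 : ℝ) ^ (1 / 3 : ℝ) = 1 / 2 := by
          rw [show (1 / 8 : ℝ) = (1 / 2) ^ (3 : ℝ) by norm_num, ← Real.rpow_mul (by norm_num)]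
          norm_num
        rw [this]; ring
  have e2 : u ^ (1 / 3 : ℝ) / 2 ≤ s ^ (1 / 3 : ℝ) := by linarith
  have e3 : (u ^ (1 / 3 : ℝ) / 2) ^ 3 ≤ (s ^ (1 / 3 : ℝ)) ^ 3 := pow_le_pow_left₀ (by positivity) e2 3
  have c1 : (u ^ (1 / 3 : ℝ)) ^ 3 = u := by
    rw [← Real.rpow_natCast, ← Real.rpow_mul hu]; norm_num
  have c2 : (s ^ (1 / 3 : ℝ)) ^ 3 = s := by
    rw [← Real.rpow_natCast, ← Real.rpow_mul hs]; norm_num
  rw [div_pow, c1, c2] at e3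
  linarith

/-- **REM** (step 3 of the plan of `re_f_slab`; OWNER helper213: cases A/B, recombination, `re_sl_comp`, `re_sl_cnt`): the removed field reads at most one eighth of the certificate.
`ts` and the tolerance `ξ0` depend only on `(q, es)` (and on `η`, `C0` of `hA`, `hB`). -/
theorem re_st_rem (η : ℝ) (hη0 : 0 < η) (hη1 : η < 1) (hE : ReEntry η) (hA : RePlaneA η) (hB : RePlaneB η) (hΓ : 100 * η < (rndWav η).Gam)
    (q : ℕ) (es : ℝ) (hes : 0 < es) :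
    ∃ ts ξ0 : ℝ, 0 < ts ∧ 0 < ξ0 ∧ ∀ C : ℕ, ∃ A0 n0 : ℕ, ∀ (A : ℕ) (p : RdWvPar) (W : ReTw η p) (τ ξ : ℝ), A0 ≤ A → W.q = q → n0 ≤ W.E.n →
      0 ≤ τ → τ ≤ ξ0 → 0 ≤ ξ → ξ ≤ ξ0 → W.Ok (q - 1) C A τ →
      ∀ (i j S : ℕ) (P : RePs), 0 < S → RnDom q 3 i j S → P.Ok (W.Ex (i + 3 * S)) (W.dp (q - 2 * j)) ξ →
      ∀ (Np : ℕ), (Np : ℝ) ≤ W.doc.tl (ts * S) →
      ∀ (Rm : W.doc.Row (i + 3 * S) → Prop) (lab : W.doc.Row (i + 3 * S) → Fin Np) (pn : ReName × ReName → Fin Np → ℝ × ℝ × ℝ)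
        (pc : ReName × ReName → Fin Np → ℝ),
        (∀ x ν, (pn x ν).1 ^ 2 + (pn x ν).2.1 ^ 2 + (pn x ν).2.2 ^ 2 = 1) →
        (∀ ω, Rm ω → W.doc.InSlab (i + 3 * S) j (pn (W.doc.nm (i + 3 * S) i j ω, W.doc.nm (i + 3 * S) (i + 3 * S) j ω) (lab ω))
          (pc (W.doc.nm (i + 3 * S) i j ω, W.doc.nm (i + 3 * S) (i + 3 * S) j ω) (lab ω)) (W.doc.tl (-(es * S))) ω) →
        (W.Yx (i + 3 * S) P (W.dp (q - 2 * j)) (C + 2) (W.atS (i + 3 * S) Rm)).rd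
          ≤ 1 / 8 * (Real.sqrt P.be * P.raw (W.Ex (i + 3 * S)) (W.dp (q - 2 * j))) :=
  re_sl_rem_fin η hη0 hη1 hE hA hB hΓ q es hes

/-- **LEAF L-256-SLB-T1 = PEEL**: the auxiliary peel selection at the cut `Js` on the free continuation of `W.Ex b`.
PLAN (120 l.): `q = 0` trivial.   `re_peelsel .. (K := q) (a0 := 1/(2q)) ξ` gives `τ`, then `A0 n0` at `C`.   `X := W.Ex b`, `k := W.dp Js`;  `X.n = W.E.n`, `X.k0 = W.E.k0`, `X.s = W.E.s`, `X.tw = W.E.tw`, `X.st = W.stk b` by `rfl`.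
`Cls`: `h.cls b`;  length `= b ≤ q` (`re_stk_len` of `Re/TowB.lean` or `simp [ReTw.stk]`);  `tw`: `h.tw`, `gn_s_anti` (`τ' ≤ τ`), `e/ka > 0`;  certificate: `h.cert b`, `gn_two_mono`;
stages: `σ = sg a`, `a ≤ b` (`re_lr_stk_mem`), `dp a + n/(2q) ≤ dp b + m ≤ dp Js` (`re_lr_n_le`: `n ≤ 2 q m`);  `k - k0 = Js m`: `n/(2q) ≤ m ≤ Js m`, `Js m ≤ (q - 2) m ≤ n - 2 m ≤ (1 - 1/(2q)) n` (`h.n_lo`). -/
theorem re_st_peel (η : ℝ) (hη0 : 0 < η) (hη1 : η < 1) (hE : ReEntry η) (hΓ : 0 < (rndWav η).Gam) (hte : ReTE η) (hpl : RePL η) (q : ℕ) (ξ : ℝ)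
    (hξ : 0 < ξ) :
    ∃ τ : ℝ, 0 < τ ∧ ∀ C : ℕ, ∃ A0 n0 : ℕ, ∀ (A : ℕ) (p : RdWvPar) (W : ReTw η p) (τ' : ℝ), A0 ≤ A → W.q = q → n0 ≤ W.E.n → τ' ≤ τ →
      W.Ok (q - 1) C A τ' → ∀ b Js : ℕ, b < Js → Js + 2 ≤ q → ∃ P : RePs, P.Ok (W.Ex b) (W.dp Js) ξ := by
  rcases Nat.eq_zero_or_pos q with hq | hq
  · refine ⟨1, one_pos, fun C => ⟨0, 0, ?_⟩⟩
    intro A p W τ' _ _ _ _ _ b Js _ hJ
    omega
  have hq' : (0 : ℝ) < q := by exact_mod_cast hq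
  have ha0 : (0 : ℝ) < 1 / (2 * q) := by positivity
  obtain ⟨τ, hτ, H⟩ := re_peelsel η hη0 hη1 hE hΓ hte hpl q (1 / (2 * q)) ξ ha0 hξ
  refine ⟨τ, hτ, fun C => ?_⟩
  obtain ⟨A0, n0, H⟩ := H C
  refine ⟨A0, n0, ?_⟩
  rintro A p W τ' hA rfl hn hττ h b Js hbJ hJq
  have hb : b ≤ W.q - 1 := by omega
  have hcl := h.cls b hb
  have hval : (W.Ex b).Valid := hcl.2.1
  have he : 0 < W.E.e := hval.e_pos
  have hka : 0 < W.E.ka := hval.ka_pos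
  have hnle := re_lr_n_le W h
  have hm0 : (0 : ℝ) ≤ W.m := Nat.cast_nonneg _
  -- `a0 n ≤ m`
  have han : 1 / (2 * (W.q : ℝ)) * W.E.n ≤ W.m := by
    rw [div_mul_eq_mul_div, one_mul, div_le_iff₀ (by positivity)]
    linarith
  have hkk : W.dp Js - W.E.k0 = Js * W.m := by
    unfold ReTw.dp
    omega
  have hJ1 : (1 : ℝ) ≤ Js := by exact_mod_cast (by omega : 1 ≤ Js)
  refine H A p (W.Ex b) (W.dp Js) hA hn hcl ?_ ?_ ?_ ?_ ?_ ?_ ?_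
  · show (W.stk b).length ≤ W.q
    rw [re_stk_len]
    omega
  · show W.E.tw ≤ W.E.e / W.E.ka * W.E.s ^ (-((rndWav η).p0f + (rndWav η).d0f) - τ)
    refine le_trans h.tw ?_
    exact mul_le_mul_of_nonneg_left (gn_s_anti W.E (by linarith)) (div_pos he hka).le
  · refine le_trans ?_ (h.cert b hb)
    show (2 : ℝ) ^ (((rndWav η).Gam - τ) * W.E.n) ≤ _
    exact gn_two_mono (mul_le_mul_of_nonneg_right (by linarith) (Nat.cast_nonneg _))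
  · intro σ hσ
    obtain ⟨a, ha0', hab, rfl⟩ := re_lr_stk_mem W (show σ ∈ W.stk b from hσ)
    show ((W.dp a : ℕ) : ℝ) + 1 / (2 * (W.q : ℝ)) * W.E.n ≤ (W.dp Js : ℕ)
    have h1 : W.dp a + W.m ≤ W.dp Js := by
      unfold ReTw.dp
      have : (a + 1) * W.m ≤ Js * W.m := Nat.mul_le_mul_right _ (by omega)
      have e : (a + 1) * W.m = a * W.m + W.m := by ring
      omega
    have h2 : ((W.dp a : ℕ) : ℝ) + W.m ≤ (W.dp Js : ℕ) := by exact_mod_cast h1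
    linarith
  · show W.E.k0 ≤ W.dp Js
    unfold ReTw.dp
    omega
  · show 1 / (2 * (W.q : ℝ)) * W.E.n ≤ ((W.dp Js - W.E.k0 : ℕ) : ℝ)
    rw [hkk]
    push_cast
    nlinarith
  · show ((W.dp Js - W.E.k0 : ℕ) : ℝ) ≤ (1 - 1 / (2 * (W.q : ℝ))) * W.E.n
    rw [hkk]
    have h1 : Js * W.m + 2 * W.m ≤ W.E.n := by
      refine le_trans ?_ h.n_lo
      have : (Js + 2) * W.m ≤ W.q * W.m := Nat.mul_le_mul_right _ hJq
      have e : (Js + 2) * W.m = Js * W.m + 2 * W.m := by ring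
      omega
    have h2 : ((Js * W.m : ℕ) : ℝ) + 2 * W.m ≤ W.E.n := by exact_mod_cast h1
    linarith

/-- **LEAF L-256-SLB-T2 = RES** (steps 2, 4, 5): if the part `T` of the stage `b` reads at most one eighth of the certificate, the complement carries the raw mass `2^(-t m) tot b`.
PLAN (200 l.): `q = 0` trivial.   `ε := t/(16 q)`;  `D : ℕ` with `|d0f| + t ≤ D`;  `re_sl_tailb .. q ε C D` gives `Cr A0 n1`;  `gn_absorb (16 √Cr) (t/4)` gives `m2`;  `n0 := max n1 (q (m2+1))` (`re_lr_m_ge`).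
`k := dp Js`, `L := √be* raw*`, `u, r, s := rd` of `Yx .. univ`, `Yx .. T`, `Yx .. Tᶜ` (`≥ 0`: `gn_rd_nonneg`, `re_sl_Yx_valid`);  `P.gb ≤ C + 2` (`hP.gb_le C (h.cls b).2.2.2.1`);
`L ≤ u` (`re_sl_low`), `u^(1/3) ≤ r^(1/3) + s^(1/3)` (`re_sl_split`), so `L/8 ≤ s` (`re_st_cube`).   `TailB` at `Z = Yx b P k (C+2) Tᶜ` (`SameRoot` by `rfl`s, `Z.kf = k0 + (k - k0) = k`, `dp (b+1) ≤ dp Js ≤ kf`).
`re_st_num` with `aS1 = -(p0f (Js m)) - ξ n`, `aS2 = d0f (Js m) - ξ n` (`hP.be_lo`, `hP.raw_lo`; `k - k0 = Js m`), `aR = -((1/2-Γ-ε) ((Js-b) m))`, `ab = -(p0f (b m)) + τ n` (`re_rar_be`), `at' = d0f b m + τ n` (`re_at_raw_hi`),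
`aD = -(D n)` (`gn_s_rpow`), `c1 = (t/4) m`, `tm = -(t m)`;   `E := aS1/2 + aS2 - aR - ab/2 = d0f b m - ε (Js-b) m - (3/2) ξ n - τ n / 2` (`d0f = Γ + (p0f-1)/2` by `rfl`);
`hx1`: `ε q m + 3 ξ q m + 3 τ q m ≤ (7/16) t m ≤ (3/4) t m` (`n ≤ 2 q m`);   `hx2`: `D n ≥ D q m ≥ |d0f| q m + t m`. -/
theorem re_st_res (η : ℝ) (hη0 : 0 < η) (hη1 : η < 1) (hE : ReEntry η) (hΓ : 0 < (rndWav η).Gam) (q : ℕ) (t : ℝ) (ht : 0 < t) (C : ℕ) :
    ∃ A0 n0 : ℕ, ∀ (A : ℕ) (p : RdWvPar) (W : ReTw η p) (τ ξ : ℝ), A0 ≤ A → W.q = q → n0 ≤ W.E.n → 0 ≤ τ → τ ≤ 1 → τ * (16 * q) ≤ t → 0 ≤ ξ →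
      ξ * (16 * q) ≤ t → W.Ok (q - 1) C A τ →
      ∀ (b Js : ℕ) (P : RePs) (T : Set (ℕ × ReFc)), 0 < b → b < Js → Js < q → P.Ok (W.Ex b) (W.dp Js) ξ →
        (W.Yx b P (W.dp Js) (C + 2) T).rd ≤ 1 / 8 * (Real.sqrt P.be * P.raw (W.Ex b) (W.dp Js)) →
        2 ^ (-(t * W.m)) * W.rt b (fun _ => Set.univ) ≤ W.rt b (W.rs b Tᶜ) := by
  rcases Nat.eq_zero_or_pos q with hq | hq
  · refine ⟨0, 0, ?_⟩
    intro A p W τ ξ _ _ _ _ _ _ _ _ _ b Js P T _ _ hJ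
    omega
  have hq' : (0 : ℝ) < q := by exact_mod_cast hq
  have hq1 : (1 : ℝ) ≤ q := by exact_mod_cast hq
  obtain ⟨ε, hεd⟩ : ∃ ε : ℝ, ε = t / (16 * q) := ⟨_, rfl⟩
  have hε : 0 < ε := by rw [hεd]; positivity
  have hεq : ε * (16 * q) = t := by rw [hεd]; field_simp
  obtain ⟨D, hD⟩ := exists_nat_ge (|(rndWav η).d0f| + t)
  obtain ⟨Cr, hCr, A0, n1, Htail⟩ := re_sl_tailb η hη0 hη1 hE hΓ q ε hε C D
  obtain ⟨m2, Habs⟩ := gn_absorb (16 * Real.sqrt Cr) (t / 4) (by positivity)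
  refine ⟨A0, max n1 (q * (m2 + 1)), ?_⟩
  rintro A p W τ ξ hA rfl hn hτ0 hτ1 hτq hξ0 hξq h b Js P T hb0 hbJ hJq hP hrd
  have hT : (p.sys η).Tight := hE.gen.tight p p.ok
  have hb : b ≤ W.q - 1 := by omega
  have hTB := Htail A p W τ hA rfl (le_trans (le_max_left _ _) hn) hτ1 h b Tᶜ hb0 (by omega)
  have hm2 : m2 ≤ W.m := re_lr_m_ge W h m2 (le_trans (le_max_right _ _) hn)
  have hcl := h.cls b hb
  have hval : (W.Ex b).Valid := hcl.2.1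
  have he : 0 < W.E.e := hval.e_pos
  have hka : 0 < W.E.ka := hval.ka_pos
  have hnle := re_lr_n_le W h
  have hm0 : (0 : ℝ) ≤ W.m := Nat.cast_nonneg _
  have hk : W.dp b ≤ W.dp Js := re_lr_dp_mono W hbJ.le
  have hk' : W.dp Js ≤ W.E.kf := by
    unfold ReTw.dp Xp.kf
    have : Js * W.m ≤ W.q * W.m := Nat.mul_le_mul_right _ hJq.le
    have := h.n_lo
    omega
  have hgb : P.gb ≤ C + 2 := by
    have := hP.gb_le C hcl.2.2.2.1
    omega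
  have hkk : W.dp Js - W.E.k0 = Js * W.m := by
    unfold ReTw.dp
    omega
  have hkb : W.dp Js - W.dp b = (Js - b) * W.m := by
    unfold ReTw.dp
    rw [Nat.sub_mul]
    have : b * W.m ≤ Js * W.m := Nat.mul_le_mul_right _ hbJ.le
    omega
  have vU := re_sl_Yx_valid W hT h b hb0 hb P (W.dp Js) ξ hP hk hk' (C + 2) Set.univ
  have vT := re_sl_Yx_valid W hT h b hb0 hb P (W.dp Js) ξ hP hk hk' (C + 2) T
  have vC := re_sl_Yx_valid W hT h b hb0 hb P (W.dp Js) ξ hP hk hk' (C + 2) Tᶜ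
  have hlow := re_sl_low W hT h b hb0 hb P (W.dp Js) ξ hP hk hk' (C + 2) hgb
  have hspl := re_sl_split W hT h b hb0 hb P (W.dp Js) ξ hP hk hk' (C + 2) T
  have hcube := re_st_cube (gn_rd_nonneg _ vU) (gn_rd_nonneg _ vT) (gn_rd_nonneg _ vC) hlow hspl hrd
  have hkf : (W.Yx b P (W.dp Js) (C + 2) Tᶜ).kf = W.dp Js := by
    show W.E.k0 + (W.dp Js - W.E.k0) = W.dp Js
    unfold ReTw.dp
    omega
  have htl := hTB (W.Yx b P (W.dp Js) (C + 2) Tᶜ) vC ⟨rfl, rfl, rfl, rfl, rfl, rfl⟩ rfl le_rfl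
    (by rw [hkf]; exact re_lr_dp_mono W hbJ) (by rw [hkf]; exact hk')
  rw [hkf, hkb, gn_s_rpow] at htl
  have hbe := (re_rar_be W h hτ1 b hb0 hb).2
  have hraw := re_at_raw_hi W h b hb0 hb
  have hbl := hP.be_lo
  have hrl := hP.raw_lo
  have hJb : ((Js - b : ℕ) : ℝ) = (Js : ℝ) - b := by
    rw [Nat.cast_sub hbJ.le]
  have hJq' : (Js : ℝ) ≤ W.q := by exact_mod_cast hJq.le
  have hb0' : (0 : ℝ) ≤ b := Nat.cast_nonneg _
  have hbJ' : (b : ℝ) ≤ Js := by exact_mod_cast hbJ.le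
  have hnlo : (W.q : ℝ) * W.m ≤ W.E.n := by exact_mod_cast h.n_lo
  have hd0 : (rndWav η).d0f = (rndWav η).Gam + ((rndWav η).p0f - 1) / 2 := rfl
  obtain ⟨n, hn'⟩ : ∃ n : ℝ, n = W.E.n := ⟨_, rfl⟩
  obtain ⟨m, hm'⟩ : ∃ m : ℝ, m = W.m := ⟨_, rfl⟩
  obtain ⟨Q, hQ'⟩ : ∃ Q : ℝ, Q = W.q := ⟨_, rfl⟩
  obtain ⟨d0, hd0'⟩ : ∃ d0 : ℝ, d0 = (rndWav η).d0f := ⟨_, rfl⟩
  obtain ⟨p0, hp0'⟩ : ∃ p0 : ℝ, p0 = (rndWav η).p0f := ⟨_, rfl⟩
  obtain ⟨Γ, hΓ'⟩ : ∃ Γ : ℝ, Γ = (rndWav η).Gam := ⟨_, rfl⟩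
  rw [← hn', ← hm', ← hQ'] at hnle
  rw [← hn', ← hm', ← hQ'] at hnlo
  rw [← hm'] at hm0
  rw [← hQ'] at hεq hτq hξq hJq' hq1
  rw [← hd0'] at hD
  have hn0 : 0 ≤ n := by rw [hn']; exact Nat.cast_nonneg _
  have htm : 0 ≤ t * m := mul_nonneg ht.le hm0
  have hQm : 0 ≤ Q * m := mul_nonneg (by linarith only [hq1]) hm0
  have A1 : ε * ((Js - b) * m) ≤ t * m / 16 := by
    have h1 : ((Js : ℝ) - b) * m ≤ Q * m := mul_le_mul_of_nonneg_right (by linarith only [hJq', hb0']) hm0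
    have h2 := mul_le_mul_of_nonneg_left h1 hε.le
    have h3 : ε * (Q * m) = t * m / 16 := by rw [← hεq]; ring
    linarith only [h2, h3]
  have A2 : ξ * n ≤ t * m / 8 := by
    have h2 := mul_le_mul_of_nonneg_left hnle hξ0
    have h3 := mul_le_mul_of_nonneg_right hξq hm0
    have h4 : ξ * (2 * Q * m) = ξ * (16 * Q) * m / 8 := by ring
    linarith only [h2, h3, h4]
  have A3 : τ * n ≤ t * m / 8 := by
    have h2 := mul_le_mul_of_nonneg_left hnle hτ0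
    have h3 := mul_le_mul_of_nonneg_right hτq hm0
    have h4 : τ * (2 * Q * m) = τ * (16 * Q) * m / 8 := by ring
    linarith only [h2, h3, h4]
  have hdd : (-(p0 * (Js * m)) - ξ * n) / 2 + (d0 * (Js * m) - ξ * n) - -((1 / 2 - Γ - ε) * ((Js - b) * m)) - (-(p0 * (b * m)) + τ * n) / 2
      = d0 * b * m - ε * ((Js - b) * m) - 3 / 2 * (ξ * n) - τ * n / 2 := by
    rw [hd0', hd0, ← hΓ', ← hp0']
    ring
  have A4 : (|d0| + t) * (Q * m) ≤ D * n := by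
    calc (|d0| + t) * (Q * m) ≤ D * (Q * m) := mul_le_mul_of_nonneg_right hD hQm
      _ ≤ D * n := mul_le_mul_of_nonneg_left hnlo (Nat.cast_nonneg _)
  have A5 : -(|d0| * (Q * m)) ≤ d0 * b * m := by
    have h1 : (b : ℝ) * m ≤ Q * m := mul_le_mul_of_nonneg_right (by linarith only [hJq', hbJ']) hm0
    have h2 : |d0| * (b * m) ≤ |d0| * (Q * m) := mul_le_mul_of_nonneg_left h1 (abs_nonneg _)
    have h3 : -(|d0| * (b * m)) ≤ d0 * (b * m) := by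
      have := mul_le_mul_of_nonneg_right (neg_abs_le d0) (mul_nonneg hb0' hm0)
      linarith only [this]
    linarith only [h2, h3]
  have A6 : t * m ≤ t * (Q * m) := by
    have : m ≤ Q * m := le_mul_of_one_le_left hm0 hq1
    exact mul_le_mul_of_nonneg_left this ht.le
  refine re_st_num (e := W.E.e) (ka := W.E.ka) (Cr := Cr) (beS := P.be) (rawS := P.raw (W.Ex b) (W.dp Js)) (beb := (W.ps b).be)
    (rd := (W.Yx b P (W.dp Js) (C + 2) Tᶜ).rd)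
    (aS1 := -(p0 * (Js * m)) - ξ * n) (aS2 := d0 * (Js * m) - ξ * n) (aR := -((1 / 2 - Γ - ε) * ((Js - b) * m)))
    (ab := -(p0 * (b * m)) + τ * n) (at' := d0 * b * m + τ * n) (aD := -(D * n)) (c1 := t / 4 * m) he hka hCr ?_ ?_ ?_ ?_ ?_ ?_ ?_ ?_ ?_
  · subst hn' hm' hp0'
    have := hbl
    rw [show (W.Ex b).k0 = W.E.k0 from rfl, hkk] at this
    push_cast at this
    exact this
  · subst hn' hm' hd0'
    have := hrl
    rw [show (W.Ex b).k0 = W.E.k0 from rfl, hkk] at this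
    push_cast at this
    exact this
  · exact hcube
  · subst hn' hm' hΓ'
    have := htl
    rw [Nat.cast_mul, hJb] at this
    exact this
  · subst hn' hm' hp0'
    exact hbe
  · subst hn' hm' hd0'
    rw [gn_two_add, ← mul_assoc]
    exact hraw
  · subst hm'
    exact Habs W.m hm2
  · rw [← hm']
    linarith only [A1, A2, A3, hdd, htm]
  · linarith only [A1, A2, A3, hdd, htm, A4, A5, A6]

/-- **SLB, top glue**   (= the statement of `re_f_slab`) -/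
theorem re_st_main (η : ℝ) (hη0 : 0 < η) (hη1 : η < 1) (hE : ReEntry η) (hte : ReTE η) (hpl : RePL η) (hA : RePlaneA η) (hB : RePlaneB η)
    (hΓ : 100 * η < (rndWav η).Gam) (q : ℕ) (es : ℝ) (hes : 0 < es) :
    ∃ ts : ℝ, 0 < ts ∧ ∀ t : ℝ, 0 < t → ∃ τ : ℝ, 0 < τ ∧ ∀ C : ℕ, ∃ A0 n0 : ℕ, ∀ (A : ℕ) (p : RdWvPar) (W : ReTw η p), A0 ≤ A →
      W.q = q → n0 ≤ W.E.n → W.Ok (q - 1) C A τ → W.doc.Slb t 3 es ts := by
  have hΓ0 : 0 < (rndWav η).Gam := lt_trans (by positivity) hΓ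
  obtain ⟨ts, ξ0, hts, hξ0, Hrem⟩ := re_st_rem η hη0 hη1 hE hA hB hΓ q es hes
  refine ⟨ts, hts, fun t ht => ?_⟩
  rcases Nat.eq_zero_or_pos q with hq | hq
  · refine ⟨1, one_pos, fun C => ⟨0, 0, ?_⟩⟩
    rintro A p W - hWq - - i j S - hd
    have := hd.2.2
    change _ < W.q at this
    omega
  have hq' : (0 : ℝ) < q := by exact_mod_cast hq
  have hξ : 0 < min ξ0 (t / (16 * q)) := lt_min hξ0 (by positivity)
  obtain ⟨τP, hτP, Hpeel⟩ := re_st_peel η hη0 hη1 hE hΓ0 hte hpl q _ hξ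
  refine ⟨min (min τP ξ0) (min 1 (t / (16 * q))), lt_min (lt_min hτP hξ0) (lt_min one_pos (by positivity)), fun C => ?_⟩
  obtain ⟨A1, n1, Hrem⟩ := Hrem C
  obtain ⟨A2, n2, Hpeel⟩ := Hpeel C
  obtain ⟨A3, n3, Hres⟩ := re_st_res η hη0 hη1 hE hΓ0 q t ht C
  refine ⟨max A1 (max A2 A3), max n1 (max n2 n3), ?_⟩
  rintro A p W hA' rfl hn h i j S hS hd Np hNp Rm lab pn pc hpn hsl
  have hd' : RnDom W.q 3 i j S := hd
  obtain ⟨hi0, hj0, hlt⟩ := hd'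
  have a1 : A1 ≤ A := le_trans (le_max_left _ _) hA'
  have a2 : A2 ≤ A := le_trans (le_trans (le_max_left _ _) (le_max_right _ _)) hA'
  have a3 : A3 ≤ A := le_trans (le_trans (le_max_right _ _) (le_max_right _ _)) hA'
  have b1 : n1 ≤ W.E.n := le_trans (le_max_left _ _) hn
  have b2 : n2 ≤ W.E.n := le_trans (le_trans (le_max_left _ _) (le_max_right _ _)) hn
  have b3 : n3 ≤ W.E.n := le_trans (le_trans (le_max_right _ _) (le_max_right _ _)) hn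
  set τ : ℝ := min (min τP ξ0) (min 1 (t / (16 * (W.q : ℝ)))) with hτ
  set ξ : ℝ := min ξ0 (t / (16 * (W.q : ℝ))) with hξ'
  have hτ0 : 0 ≤ τ := le_min (le_min hτP.le hξ0.le) (le_min zero_le_one (by positivity))
  have t1 : τ ≤ τP := le_trans (min_le_left _ _) (min_le_left _ _)
  have t2 : τ ≤ ξ0 := le_trans (min_le_left _ _) (min_le_right _ _)
  have t3 : τ ≤ 1 := le_trans (min_le_right _ _) (min_le_left _ _)
  have t4 : τ * (16 * W.q) ≤ t := by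
    calc τ * (16 * W.q) ≤ t / (16 * (W.q : ℝ)) * (16 * W.q) :=
          mul_le_mul_of_nonneg_right (le_trans (min_le_right _ _) (min_le_right _ _)) (by positivity)
      _ = t := by field_simp
  have x4 : ξ * (16 * W.q) ≤ t := by
    calc ξ * (16 * W.q) ≤ t / (16 * (W.q : ℝ)) * (16 * W.q) := mul_le_mul_of_nonneg_right (min_le_right _ _) (by positivity)
      _ = t := by field_simp
  obtain ⟨P, hP⟩ := Hpeel A p W τ a2 rfl b2 t1 h (i + 3 * S) (W.q - 2 * j) (by omega) (by omega)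
  have hrem := Hrem A p W τ ξ a1 rfl b1 hτ0 t2 hξ.le (min_le_left _ _) h i j S P hS hd hP Np hNp Rm lab pn pc hpn hsl
  have hres := Hres A p W τ ξ a3 rfl b3 hτ0 t3 t4 hξ.le x4 h (i + 3 * S) (W.q - 2 * j) P (W.atS (i + 3 * S) Rm) (by omega) (by omega) (by omega) hP hrem
  have hb : i + 3 * S ≤ W.q - 1 := by omega
  rw [re_sl_rt_compl W h (i + 3 * S) (by omega) hb Rm, ← re_at_tot W h (i + 3 * S) (by omega) hb] at hres
  have e2 : W.doc.tl (-t) = 2 ^ (-(t * W.m)) := by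
    unfold ReDoc.tl
    congr 1
    exact neg_mul _ _
  rw [e2]
  exact hres

end Claimed.Agent.R256
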