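-- KEEP
import Claimed.Agent.R256.Re.TowB
import Claimed.Agent.R256.Re.Tools
import Claimed.Agent.R256.Re.Atom
import Claimed.Agent.R256.Re.XPeel
import Claimed.Agent.R256.Re.SlabFin

/-!
# Row 256, unit RE, block (I): EXIT of the block SLB (helper213)      (chief helper223)

The ARCHITECT OF THE BLOCK OWNS THIS FILE: keep name + statement; add the imports of your proof files and replace the `sorry`.   Other blocks import this file as a black box.   `Re/TowC.lean` imports all exits.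
-/

set_option autoImplicit false

namespace Claimed.Agent.R256

open MeasureTheory
open scoped BigOperators
open Classical

/-- **SLB** (post BP-256-RE-SLB): lem:rt-slab-removal, model half (08 l.866-975).   `b = i + 3 S`, `J* = q - 2 j > b + 6 S` (`RnDom`), `R_j = d_{J*}`, `ρ = 2^(-S m)`; w.l.o.g. `es ≤ 1`.
CONSTANTS: `C0` of `hA`, `hB`;  `h_B := es S / 20` (mesh steps), `λ` with `C0 λ S ≤ (Γ - 4η - ν) h_B / 4`, `h_A := λ S / 2`, gains `g_B = (Γ-4η-ν) h_B - C0 λ S`, `g_A = Γ h_A`;  `ts := min g_A g_B / (8 S)` (independent of `S`, `q`).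
DETAILED NOTES: report 941 (team database).
PLAN.  1. `re_peelsel` for `X = W.Ex b` at `k = dp J*`: selection `P*`, `Y := P*.pre X k`, `rd Y ≥ √β* z* ≥ E_{J*} √κ_{J*} 2^(-ξ n)`.
2. Stage `b`: `1_{S b} = 1_{Rm} + 1_{res}`; `re_split_sub`: `rd(Y)^(1/3) ≤ rd(Y_rem)^(1/3) + rd(Y_res)^(1/3)`.
3. `rd(Y_rem) ≤ 2^(-σ m) E√κ`:  components `ν = (name pair, portion)`; a label of `P*` (`r ≤ 2^(ξ n) R_j`) is connected to `≤ 2^(O(ξ) n)` name pairs (`re_locs`, backflow as in `Re/ProfGeo.lean`), so `‖Σ_ν v‖³ ≤ N² Σ ‖v_ν‖³`, `N ≤ 2^(O(ξ) n) Np`.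
   One component: `gn_dec` at the depth `dp J* - ⌊h' m⌋` (`h' = h_A` if `|α|² - 4β d0 ≤ ρ^(2λ)`, else `h_B`); level `(z, κ̃)`: `z √κ̃ ≤ 2^(-(1/2-Γ-ε)(..)) e_comp √(Cr 2 be_b)` (`gn_tail` + `gn_lvl_pre`);
   last step = FREE tails (`Xp.tl`) of length `⌊h' m⌋`, frame `φ = (R_j, A_v or the centre of the cap)`, `H/(ℓ R_j²) = Δ` exactly, spectrum by `re_spec_syn`, `re_spec_tz` (`d_b, d_{i'} ≤ √Δ R_j`), `ReStep`, `hA` / `hB` with `Kp = 2^(ξ n)`, `Pp = ρ^-λ`.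
4. `rd(Y_res) ≥ rd(Y)/8`; `gn_tail` at the cut `dp b` behind `1_{res}`: raw mass of `res` `≥ 2^(-t m) tot b`.   Atoms ↔ rows: `Re/Atom.lean`. -/
theorem re_f_slab (η : ℝ) (hη0 : 0 < η) (hη1 : η < 1) (hE : ReEntry η) (hte : ReTE η) (hpl : RePL η) (hA : RePlaneA η) (hB : RePlaneB η)
    (hΓ : 100 * η < (rndWav η).Gam) (q : ℕ) (es : ℝ) (hes : 0 < es) :
    ∃ ts : ℝ, 0 < ts ∧ ∀ t : ℝ, 0 < t → ∃ τ : ℝ, 0 < τ ∧ ∀ C : ℕ, ∃ A0 n0 : ℕ, ∀ (A : ℕ) (p : RdWvPar) (W : ReTw η p), A0 ≤ A →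
      W.q = q → n0 ≤ W.E.n → W.Ok (q - 1) C A τ → W.doc.Slb t 3 es ts :=
  re_st_main η hη0 hη1 hE hte hpl hA hB hΓ q es hes

end Claimed.Agent.R256
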