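-- KEEP
import Claimed.Agent.R256.Re.Atom

/-!
# Row 256, unit RE, block (I), file 5: THE STATIC FIELDS of the document of a tower      (architect helper141; post BP-256-RE-STATIC; prefix `re_st_`)

Every static field of `ReDoc.OkS` (`Re/TowC.lean`) for `W.doc`, under explicit numerical hypotheses `c + τ n ≤ t m`; `re_st_arith` supplies them for `τ = t / (8 (q+1))`, `n ≥ n0`.
Glue: `re_f_static` in `Re/XStatic.lean`.
-/

set_option autoImplicit false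

namespace Claimed.Agent.R256

open MeasureTheory
open scoped BigOperators
open Classical

/-- exponent arithmetic: `n < q (m+1) ≤ 2 q m`, `m` large -/
theorem re_st_arith (q : ℕ) (t c : ℝ) (ht : 0 < t) : ∃ n0 : ℕ, ∀ n m : ℕ, n0 ≤ n → n < q * (m + 1) → 0 < m →
    c + 4 * (t / (8 * ((q : ℝ) + 1))) * n ≤ t * m := by
  obtain ⟨n0, hn0⟩ := exists_nat_ge (2 * (q : ℝ) * ((q : ℝ) + 1) * c / t)
  refine ⟨n0, fun n m h1 h2 h3 => ?_⟩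
  have hq : (0 : ℝ) ≤ q := Nat.cast_nonneg _
  have hq1 : (0 : ℝ) < (q : ℝ) + 1 := by positivity
  have e1 : (n : ℝ) ≤ 2 * q * m := by
    have : n ≤ 2 * q * m := by nlinarith
    exact_mod_cast this
  have e2 : 2 * (q : ℝ) * ((q : ℝ) + 1) * c ≤ t * n := by
    have : 2 * (q : ℝ) * ((q : ℝ) + 1) * c / t ≤ n := hn0.trans (by exact_mod_cast h1)
    rw [div_le_iff₀ ht] at this
    linarith
  have hm : (0 : ℝ) < m := by exact_mod_cast h3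
  have hqpos : (0 : ℝ) < q := by
    rcases Nat.eq_zero_or_pos q with h | h
    · subst h; simp at h2
    · exact_mod_cast h
  -- c (q+1) ≤ t m
  have e3 : ((q : ℝ) + 1) * c ≤ t * m := by
    have : 2 * (q : ℝ) * (((q : ℝ) + 1) * c) ≤ 2 * q * (t * m) := by nlinarith
    exact le_of_mul_le_mul_left this (by positivity)
  have e4 : 4 * (t / (8 * ((q : ℝ) + 1))) * n ≤ t * m * q / ((q : ℝ) + 1) := by
    rw [le_div_iff₀ hq1]
    have : 4 * (t / (8 * ((q : ℝ) + 1))) * n * ((q : ℝ) + 1) = t * n / 2 := by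
      field_simp
      ring
    rw [this]
    nlinarith
  have e5 : c ≤ t * m / ((q : ℝ) + 1) := by
    rw [le_div_iff₀ hq1]
    linarith
  have e6 : t * m * q / ((q : ℝ) + 1) + t * m / ((q : ℝ) + 1) = t * m := by
    field_simp
  linarith

variable {η : ℝ} {p : RdWvPar} (W : ReTw η p)

theorem re_st_pos {hg C A : ℕ} {τ : ℝ} (h : W.Ok hg C A τ) : 0 < W.doc.H ∧ 0 < W.doc.e ∧ 0 < W.doc.ka :=
  ⟨p.H_pos, (h.cls 0 (Nat.zero_le _)).2.1.e_pos, (h.cls 0 (Nat.zero_le _)).2.1.ka_pos⟩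

theorem re_st_ms_nn (i : ℕ) (ω : W.doc.Row i) : 0 ≤ W.doc.ms i ω := gn_ms_nonneg _ _ _ _ _

theorem re_st_massLo {hg C A : ℕ} {τ : ℝ} (h : W.Ok hg C A τ) (t : ℝ) (hτ : τ * W.E.n ≤ t * W.m) (i : ℕ) (h0 : 0 < i) (hi : i ≤ hg) :
    W.doc.tl (-t) * W.doc.Eb (rndWav η).d0f i ≤ W.doc.tot i := by
  rw [re_at_tot W h i h0 hi]
  refine le_trans ?_ (h.raw_lo i h0 hi)
  have he : 0 < W.E.e := (re_st_pos W h).2.1
  show (2 : ℝ) ^ (-t * W.m) * (W.E.e * (2 : ℝ) ^ ((rndWav η).d0f * i * W.m)) ≤ W.E.e * (2 : ℝ) ^ ((rndWav η).d0f * i * W.m) * (2 : ℝ) ^ (-τ * W.E.n)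
  have : (2 : ℝ) ^ (-t * W.m) ≤ (2 : ℝ) ^ (-τ * W.E.n) := Real.rpow_le_rpow_of_exponent_le (by norm_num) (by linarith)
  rw [mul_comm]
  exact mul_le_mul_of_nonneg_left this (by positivity)

theorem re_st_massHi {hg C A : ℕ} {τ : ℝ} (h : W.Ok hg C A τ) (t : ℝ) (hτ : τ * W.E.n ≤ t * W.m) (i : ℕ) (h0 : 0 < i) (hi : i ≤ hg) :
    W.doc.tot i ≤ W.doc.tl t * W.doc.Eb (rndWav η).d0f i := by
  rw [re_at_tot W h i h0 hi]
  refine le_trans (re_at_raw_hi W h i h0 hi) ?_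
  have he : 0 < W.E.e := (re_st_pos W h).2.1
  show W.E.e * (2 : ℝ) ^ ((rndWav η).d0f * i * W.m) * (2 : ℝ) ^ (τ * W.E.n) ≤ (2 : ℝ) ^ (t * W.m) * (W.E.e * (2 : ℝ) ^ ((rndWav η).d0f * i * W.m))
  have : (2 : ℝ) ^ (τ * W.E.n) ≤ (2 : ℝ) ^ (t * W.m) := Real.rpow_le_rpow_of_exponent_le (by norm_num) hτ
  rw [mul_comm ((2 : ℝ) ^ (t * W.m))]
  exact mul_le_mul_of_nonneg_left this (by positivity)

theorem re_st_dp_sub (i : ℕ) : ((W.dp i - W.E.k0 : ℕ) : ℝ) = (i : ℝ) * W.m := by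
  unfold ReTw.dp
  rw [Nat.add_sub_cancel_left, Nat.cast_mul]

theorem re_st_lbAdm {hg C A : ℕ} {τ : ℝ} (h : W.Ok hg C A τ) (t : ℝ) (hτ : τ * W.E.n ≤ t * W.m) (i : ℕ) (h0 : 0 < i) (hi : i ≤ hg)
    (u : W.doc.Lb i) :
    ((W.doc.lQ i u).toT (W.doc.dp i)).Adm 1 ∧ rdD W.doc.H (W.doc.dp i) ≤ (W.doc.lQ i u).r * (W.doc.lQ i u).f ∧
      (W.doc.lQ i u).r ≤ W.doc.tl t * rdD W.doc.H (W.doc.dp i) ∧ W.doc.tl (-t) ≤ (W.doc.lQ i u).f := by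
  have hs := h.sel i h0 hi
  have u' : Fin (W.ps i).nL := u
  obtain ⟨-, hok, -⟩ := hs.lb (u : Fin (W.ps i).nL).1 (u : Fin (W.ps i).nL).2
  obtain ⟨s1, s2⟩ := hs.shape (u : Fin (W.ps i).nL).1 (u : Fin (W.ps i).nL).2
  refine ⟨hok.1, hok.2, s1.trans ?_, le_trans ?_ s2⟩
  · have hd : 0 ≤ rdD p.H (W.dp i) := Real.sqrt_nonneg _
    refine mul_le_mul_of_nonneg_right ?_ hd
    exact Real.rpow_le_rpow_of_exponent_le (by norm_num) hτ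
  · show (2 : ℝ) ^ (-t * W.m) ≤ (2 : ℝ) ^ (-(τ * W.E.n))
    exact Real.rpow_le_rpow_of_exponent_le (by norm_num) (by linarith)

theorem re_st_lbCnt {hg C A : ℕ} {τ : ℝ} (h : W.Ok hg C A τ) (t : ℝ) (hτ : 2 * (τ * W.E.n) ≤ t * W.m) (i : ℕ) (h0 : 0 < i) (hi : i ≤ hg) :
    ∑ u : W.doc.Lb i, (W.doc.lQ i u).wt η ≤ W.doc.tl t * (W.doc.Eb (rndWav η).d0f i / W.doc.Kb (rndWav η).p0f i) := by
  have hs := h.sel i h0 hi
  have he : 0 < W.E.e := (re_st_pos W h).2.1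
  have hk : 0 < W.E.ka := (re_st_pos W h).2.2
  have e1 : ∑ u : W.doc.Lb i, (W.doc.lQ i u).wt η = ∑ u ∈ Finset.range (W.ps i).nL, ((W.ps i).lQ u).wt η :=
    Fin.sum_univ_eq_sum_range (fun u => ((W.ps i).lQ u).wt η) (W.ps i).nL
  rw [e1]
  set Sw := ∑ u ∈ Finset.range (W.ps i).nL, ((W.ps i).lQ u).wt η with hSw
  have hcnt := re_at_cnt W h i h0 hi
  rw [← hSw] at hcnt
  have hSw0 : 0 ≤ Sw := by
    refine Finset.sum_nonneg fun u hu => ?_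
    have hok := (hs.lb u (Finset.mem_range.1 hu)).2.1
    have h1 := hok.1.r_pos
    have h2 := hok.1.f_pos
    have h1' : 0 < ((W.ps i).lQ u).r := h1
    have h2' : 0 < ((W.ps i).lQ u).f := h2
    unfold RdTst.wt
    positivity
  have hbe : W.E.ka * (2 : ℝ) ^ (-((rndWav η).p0f * ((i : ℝ) * W.m)) - τ * W.E.n) ≤ (W.ps i).be := by
    have := hs.be_lo
    rw [show (((W.dp i - (W.Ex (i - 1)).k0 : ℕ) : ℝ)) = (i : ℝ) * W.m from re_st_dp_sub W i] at this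
    exact this
  show Sw ≤ (2 : ℝ) ^ (t * W.m) * ((W.E.e * (2 : ℝ) ^ ((rndWav η).d0f * i * W.m)) / (W.E.ka * (2 : ℝ) ^ (-((rndWav η).p0f * i * W.m))))
  have hK : 0 < W.E.ka * (2 : ℝ) ^ (-((rndWav η).p0f * i * W.m)) := by positivity
  rw [← mul_div_assoc, le_div_iff₀ hK]
  have e2 : W.E.ka * (2 : ℝ) ^ (-((rndWav η).p0f * ((i : ℝ) * W.m)) - τ * W.E.n)
      = W.E.ka * (2 : ℝ) ^ (-((rndWav η).p0f * i * W.m)) * (2 : ℝ) ^ (-(τ * W.E.n)) := by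
    rw [mul_assoc, ← Real.rpow_add (by norm_num)]
    congr 2
    ring
  rw [e2] at hbe
  have e3 : W.E.ka * (2 : ℝ) ^ (-((rndWav η).p0f * i * W.m)) * (2 : ℝ) ^ (-(τ * W.E.n)) * Sw
      ≤ W.E.e * (2 : ℝ) ^ ((rndWav η).d0f * i * W.m) * (2 : ℝ) ^ (τ * W.E.n) :=
    (mul_le_mul_of_nonneg_right hbe hSw0).trans hcnt
  have e4 : Sw * (W.E.ka * (2 : ℝ) ^ (-((rndWav η).p0f * i * W.m)))
      = (W.E.ka * (2 : ℝ) ^ (-((rndWav η).p0f * i * W.m)) * (2 : ℝ) ^ (-(τ * W.E.n)) * Sw) * (2 : ℝ) ^ (τ * W.E.n) := by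
    have : (2 : ℝ) ^ (-(τ * W.E.n)) * (2 : ℝ) ^ (τ * W.E.n) = 1 := by
      rw [← Real.rpow_add (by norm_num)]
      simp
    calc Sw * (W.E.ka * (2 : ℝ) ^ (-((rndWav η).p0f * i * W.m)))
        = Sw * (W.E.ka * (2 : ℝ) ^ (-((rndWav η).p0f * i * W.m))) * ((2 : ℝ) ^ (-(τ * W.E.n)) * (2 : ℝ) ^ (τ * W.E.n)) := by
          rw [this, mul_one]
      _ = _ := by ring
  rw [e4]
  calc (W.E.ka * (2 : ℝ) ^ (-((rndWav η).p0f * i * W.m)) * (2 : ℝ) ^ (-(τ * W.E.n)) * Sw) * (2 : ℝ) ^ (τ * W.E.n)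
      ≤ (W.E.e * (2 : ℝ) ^ ((rndWav η).d0f * i * W.m) * (2 : ℝ) ^ (τ * W.E.n)) * (2 : ℝ) ^ (τ * W.E.n) :=
        mul_le_mul_of_nonneg_right e3 (by positivity)
    _ = (2 : ℝ) ^ (2 * (τ * W.E.n)) * (W.E.e * (2 : ℝ) ^ ((rndWav η).d0f * i * W.m)) := by
        rw [two_mul, Real.rpow_add (by norm_num)]
        ring
    _ ≤ (2 : ℝ) ^ (t * W.m) * (W.E.e * (2 : ℝ) ^ ((rndWav η).d0f * i * W.m)) :=
        mul_le_mul_of_nonneg_right (Real.rpow_le_rpow_of_exponent_le (by norm_num) hτ) (by positivity)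

theorem re_st_cov_aux {hg C A : ℕ} {τ : ℝ} (h : W.Ok hg C A τ) (i : ℕ) (h0 : 0 < i) (hi : i ≤ hg) (a : ℕ × ReFc) (ha : 0 < W.am i a) :
    ∃ u, ∃ _ : u < (W.ps i).nL, (W.ps i).lI u = a.1 ∧ W.fp i a.2 ∈ (((W.ps i).lQ u).toT (W.dp i)).set 2 := by
  have hs := h.sel i h0 hi
  have hne : (W.S i a.1 ∩ W.fs i a.2).Nonempty := by
    by_contra hc
    rw [Set.not_nonempty_iff_eq_empty] at hc
    have e : W.am i a = (p.sys η).ms (tmL (W.dp i) a.1) (W.dp i) (W.ps i).gb (∅ : Set (p.sys η).X) (W.pre i a.1) :=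
      congrArg (fun U : Set (p.sys η).X => (p.sys η).ms (tmL (W.dp i) a.1) (W.dp i) (W.ps i).gb U (W.pre i a.1)) hc
    rw [e, gn_ms_empty] at ha
    exact lt_irrefl _ ha
  obtain ⟨x, hx1, hx2⟩ := hne
  obtain ⟨u, hu, hI, hx⟩ := re_at_cov W h i h0 hi a.1 x hx1
  have hok := (hs.lb u hu).2.1
  refine ⟨u, hu, hI, ?_⟩
  have hiq : i ≤ W.q := le_trans hi (le_of_lt h.hg_lt)
  refine re_at_test W h i hiq ((W.ps i).lQ u) hok.1 hok.2 (RdWvPar.co 0 x) (W.fp i a.2) ?_ hx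
  rw [re_at_fc_fp]
  exact hx2

theorem re_st_lbCov {hg C A : ℕ} {τ : ℝ} (h : W.Ok hg C A τ) (i : ℕ) (h0 : 0 < i) (hi : i ≤ hg) (ω : W.doc.Row i)
    (hω : 0 < W.doc.ms i ω) :
    ∃ u : W.doc.Lb i, W.doc.lI i u = W.doc.iv i ω ∧ W.doc.pt i ω ∈ ((W.doc.lQ i u).toT (W.doc.dp i)).set 2 := by
  obtain ⟨u, hu, h1, h2⟩ := re_st_cov_aux W h i h0 hi (ω : {a : ℕ × ReFc // a ∈ W.ats i}).1 hω
  exact ⟨(⟨u, hu⟩ : Fin (W.ps i).nL), h1, h2⟩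

theorem re_st_flat_mono {α : Type} (i : ℕ) (X : ℕ × ReFc → α) (x t t' : ℝ) (htt : t ≤ t') (hf : W.FlatT i X x t) : W.FlatT i X x t' := by
  have hm : (0 : ℝ) ≤ W.m := Nat.cast_nonneg _
  refine ⟨hf.1.trans (Real.rpow_le_rpow_of_exponent_le (by norm_num) ?_), fun v => (hf.2 v).trans ?_⟩
  · exact mul_le_mul_of_nonneg_right (by linarith) hm
  · refine mul_le_mul_of_nonneg_right (Real.rpow_le_rpow_of_exponent_le (by norm_num) ?_) ?_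
    · exact mul_le_mul_of_nonneg_right (by linarith) hm
    · exact Finset.sum_nonneg fun a _ => gn_ms_nonneg _ _ _ _ _

theorem re_st_flatC {hg C A : ℕ} {τ : ℝ} (h : W.Ok hg C A τ) (t : ℝ) (hτ : τ * (W.q + 1) ≤ t) (i j : ℕ) (hv : RnVal W.q i j) (hi : i ≤ hg) :
    W.doc.Flat i (W.doc.nm i i j) (W.doc.Dn i j) t := by
  have e : W.doc.nm i i j = fun ω => W.nmT i i j ω.1 := funext fun ω => re_at_nm W i i j ω
  rw [e]
  exact (re_at_flat W i (W.nmT i i j) (W.Dn i j) t).2 (re_st_flat_mono W i _ _ _ _ hτ (h.flatC i j hi hv))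

theorem re_st_flatG {hg C A : ℕ} {τ : ℝ} (h : W.Ok hg C A τ) (t : ℝ) (hτ : τ * (W.q + 1) ≤ t) (i j w : ℕ) (hv : RnVal W.q i w) (hi : i ≤ hg)
    (hjw : j ≤ w) : W.doc.Flat i (fun ω => (W.doc.nm i i j ω, W.doc.an i w ω)) (W.doc.Gn i j w) t := by
  have e : (fun ω : W.doc.Row i => (W.doc.nm i i j ω, W.doc.an i w ω)) = fun ω => (fun a => (W.nmT i i j a, W.anT i w a)) ω.1 :=
    funext fun ω => by rw [re_at_nm W i i j ω, re_at_an W i w ω]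
  rw [e]
  exact (re_at_flat W i (fun a => (W.nmT i i j a, W.anT i w a)) (W.Gn i j w) t).2 (re_st_flat_mono W i _ _ _ _ hτ (h.flatG i j w hi hv hjw))

theorem re_st_be_pos {hg C A : ℕ} {τ : ℝ} (h : W.Ok hg C A τ) (i : ℕ) (h0 : 0 < i) (hi : i ≤ hg) : 0 < (W.ps i).be := by
  have hk : 0 < W.E.ka := (re_st_pos W h).2.2
  refine lt_of_lt_of_le ?_ (h.sel i h0 hi).be_lo
  have hk' : 0 < (W.Ex (i - 1)).ka := hk
  positivity

/-- rows inside the doubled test: `rt_G1` + `re_at_reg` -/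
theorem re_st_reg_row (η : ℝ) (hη0 : 0 < η) (hη1 : η < 1) : ∃ Cg : ℝ, 0 < Cg ∧ ∀ (p : RdWvPar) (W : ReTw η p) (hg C A : ℕ) (τ : ℝ),
    W.Ok hg C A τ → ∀ i, 0 < i → i ≤ hg → ∀ I ∈ W.iv i, ∀ Q : RdTst, (Q.toT (W.dp i)).Adm 1 → rdD p.H (W.dp i) ≤ Q.r * Q.f →
    ∀ U : Set RdWvPar.Ph, MeasurableSet U → (∀ x ∈ U, RdWvPar.co 0 x ∈ (Q.toT (W.dp i)).set 2) →
      W.rm i I U ≤ 2 * (W.ps i).be * (2 ^ Cg * Q.wt η) := by
  obtain ⟨Cg, hC, G1⟩ := rt_G1 η hη0 hη1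
  refine ⟨Cg, hC, fun p W hg C A τ h i h0 hi I hI Q hQ hu U hU hsub => ?_⟩
  have hA2 : (Q.toT (W.dp i)).Adm 2 := by
    obtain ⟨b1, b2, b3, b4, b5⟩ := hQ.bd
    refine ⟨hQ.l_pos, hQ.r_pos, hQ.f_pos, hQ.f_le, hQ.disc, ⟨by linarith, by linarith, by nlinarith, by linarith, by linarith⟩⟩
  obtain ⟨N, σ, h1, h2, h3⟩ := G1 2 (Q.toT (W.dp i)) le_rfl hA2
  have hQs : ∀ j, (⟨(σ j).r, (σ j).f, (σ j).As, (σ j).bs, (σ j).ys, (σ j).n⟩ : RdTst).toT (W.dp i) = σ j := by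
    intro j
    have hl : (σ j).l = rdLen (W.dp i) := (h1 j).2.1
    unfold RdTst.toT
    rw [← hl]
  have hbe := re_st_be_pos W h i h0 hi
  have hSm := re_at_meas_S W h i h0 hi I
  have hcm : ∀ j, MeasurableSet ((p.sys η).cell (⟨(σ j).r, (σ j).f, (σ j).As, (σ j).bs, (σ j).ys, (σ j).n⟩ : RdTst) (tmL (W.dp i) I) (W.dp i)) :=
    fun j => rt_w1_cell_meas _ _ _
  have hss : W.S i I ∩ U ⊆ ⋃ j, (W.S i I ∩ (p.sys η).cell (⟨(σ j).r, (σ j).f, (σ j).As, (σ j).bs, (σ j).ys, (σ j).n⟩ : RdTst) (tmL (W.dp i) I) (W.dp i)) := by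
    rintro x ⟨hx1, hx2⟩
    obtain ⟨j, hj⟩ := Set.mem_iUnion.1 (h2 (hsub x hx2))
    refine Set.mem_iUnion.2 ⟨j, hx1, ?_⟩
    show RdWvPar.co (tmL (W.dp i) I) x ∈ ((⟨(σ j).r, (σ j).f, (σ j).As, (σ j).bs, (σ j).ys, (σ j).n⟩ : RdTst).toT (W.dp i)).set 1
    rw [hQs j]
    exact hj
  calc W.rm i I U
      ≤ (p.sys η).ms (tmL (W.dp i) I) (W.dp i) (W.ps i).gb
          (⋃ j, (W.S i I ∩ (p.sys η).cell (⟨(σ j).r, (σ j).f, (σ j).As, (σ j).bs, (σ j).ys, (σ j).n⟩ : RdTst) (tmL (W.dp i) I) (W.dp i))) (W.pre i I) :=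
        gn_ms_mono _ _ _ (hSm.inter hU) (MeasurableSet.iUnion fun j => hSm.inter (hcm j)) hss _
    _ ≤ ∑ j, (p.sys η).ms (tmL (W.dp i) I) (W.dp i) (W.ps i).gb
          (W.S i I ∩ (p.sys η).cell (⟨(σ j).r, (σ j).f, (σ j).As, (σ j).bs, (σ j).ys, (σ j).n⟩ : RdTst) (tmL (W.dp i) I) (W.dp i)) (W.pre i I) :=
        gn_ms_iUnion_le _ _ _ _ (fun j => hSm.inter (hcm j)) _
    _ ≤ ∑ j, 2 * (W.ps i).be * (σ j).w η := by
        refine Finset.sum_le_sum fun j _ => ?_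
        refine re_at_reg W h i h0 hi I hI (⟨(σ j).r, (σ j).f, (σ j).As, (σ j).bs, (σ j).ys, (σ j).n⟩ : RdTst) ⟨?_, ?_⟩
        · rw [hQs j]; exact (h1 j).1
        · exact hu.trans (h1 j).2.2
    _ = 2 * (W.ps i).be * ∑ j, (σ j).w η := by rw [Finset.mul_sum]
    _ ≤ 2 * (W.ps i).be * (2 ^ Cg * Q.wt η) := mul_le_mul_of_nonneg_left h3 (by positivity)

theorem re_st_reg (η : ℝ) (hη0 : 0 < η) (hη1 : η < 1) : ∃ Cg : ℝ, ∀ (p : RdWvPar) (W : ReTw η p) (hg C A : ℕ) (τ : ℝ),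
    W.Ok hg C A τ → ∀ t : ℝ, Cg + τ * W.E.n ≤ t * W.m → ∀ i, 0 < i → i ≤ hg → ∀ (I : ℕ) (Q : RdTst), (Q.toT (W.doc.dp i)).Adm 1 →
    rdD W.doc.H (W.doc.dp i) ≤ Q.r * Q.f →
      W.doc.mass i (fun ω => W.doc.iv i ω = I ∧ W.doc.pt i ω ∈ Q.rows (W.doc.dp i)) ≤ W.doc.tl t * W.doc.Kb (rndWav η).p0f i * Q.wt η := by
  obtain ⟨Cg, hC, H⟩ := re_st_reg_row η hη0 hη1
  refine ⟨Cg + 1, fun p W hg C A τ h t hτ i h0 hi I Q hQ hu => ?_⟩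
  have hs := h.sel i h0 hi
  have hk : 0 < W.E.ka := (re_st_pos W h).2.2
  have hbe := re_st_be_pos W h i h0 hi
  have hw : 0 < Q.wt η := by
    have h1 : 0 < Q.r := hQ.r_pos
    have h2 : 0 < Q.f := hQ.f_pos
    unfold RdTst.wt
    positivity
  have hiq : i ≤ W.q := le_trans hi (le_of_lt h.hg_lt)
  rw [re_at_mass W h i h0 hi]
  set T : Set (ℕ × ReFc) := {a | ∃ ha : a ∈ W.ats i, (fun ω : W.doc.Row i => W.doc.iv i ω = I ∧ W.doc.pt i ω ∈ Q.rows (W.doc.dp i)) ⟨a, ha⟩} with hT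
  have hB0 : 0 ≤ 2 * (W.ps i).be * (2 ^ Cg * Q.wt η) := by positivity
  have key : ∀ I' ∈ W.iv i, W.rm i I' (W.rs i T I') ≤ if I' = I then 2 * (W.ps i).be * (2 ^ Cg * Q.wt η) else 0 := by
    intro I' hI'
    split_ifs with hII
    · subst hII
      refine H p W hg C A τ h i h0 hi I' hI' Q hQ hu _ (re_at_meas_rs W i T I') fun x hx => ?_
      obtain ⟨ha, -, hx2⟩ := hx
      have hx3 : W.fp i (W.fc i (RdWvPar.co 0 x)) ∈ (Q.toT (W.dp i)).set 1 := hx2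
      exact re_at_test W h i hiq Q hQ hu _ _ (re_at_fc_fp W i _) hx3
    · have he : W.rs i T I' = ∅ := by
        ext x
        simp only [Set.mem_empty_iff_false, iff_false]
        rintro ⟨ha, hx1, -⟩
        exact hII hx1
      have e : W.rm i I' (W.rs i T I') = (p.sys η).ms (tmL (W.dp i) I') (W.dp i) (W.ps i).gb (∅ : Set (p.sys η).X) (W.pre i I') := by
        refine congrArg (fun U : Set (p.sys η).X => (p.sys η).ms (tmL (W.dp i) I') (W.dp i) (W.ps i).gb U (W.pre i I')) ?_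
        show W.S i I' ∩ W.rs i T I' = ∅
        rw [he, Set.inter_empty]
      rw [e, gn_ms_empty]
  have hsum : W.rt i (W.rs i T) ≤ 2 * (W.ps i).be * (2 ^ Cg * Q.wt η) := by
    unfold ReTw.rt
    refine (Finset.sum_le_sum key).trans ?_
    rw [Finset.sum_ite_eq']
    split_ifs
    · exact le_rfl
    · exact hB0
  refine hsum.trans ?_
  have hbh : (W.ps i).be ≤ W.E.ka * (2 : ℝ) ^ (-((rndWav η).p0f * ((i : ℝ) * W.m)) + τ * W.E.n) := by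
    have := hs.be_hi
    rw [show (((W.dp i - (W.Ex (i - 1)).k0 : ℕ) : ℝ)) = (i : ℝ) * W.m from re_st_dp_sub W i] at this
    exact this
  show 2 * (W.ps i).be * (2 ^ Cg * Q.wt η) ≤ (2 : ℝ) ^ (t * W.m) * (W.E.ka * (2 : ℝ) ^ (-((rndWav η).p0f * i * W.m))) * Q.wt η
  calc 2 * (W.ps i).be * (2 ^ Cg * Q.wt η)
      ≤ 2 * (W.E.ka * (2 : ℝ) ^ (-((rndWav η).p0f * ((i : ℝ) * W.m)) + τ * W.E.n)) * (2 ^ Cg * Q.wt η) := by gcongr
    _ = (2 : ℝ) ^ (Cg + 1 + τ * W.E.n) * (W.E.ka * (2 : ℝ) ^ (-((rndWav η).p0f * i * W.m))) * Q.wt η := by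
        rw [Real.rpow_add (by norm_num), Real.rpow_add (by norm_num), Real.rpow_add (by norm_num), Real.rpow_one, mul_assoc ((rndWav η).p0f)]
        ring
    _ ≤ (2 : ℝ) ^ (t * W.m) * (W.E.ka * (2 : ℝ) ^ (-((rndWav η).p0f * i * W.m))) * Q.wt η := by
        have := Real.rpow_le_rpow_of_exponent_le (x := (2 : ℝ)) (by norm_num) hτ
        gcongr

end Claimed.Agent.R256
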