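-- KEEP
import Claimed.Agent.R256.Re.TowB
import Claimed.Agent.R256.Re.Atom
import Claimed.Agent.R256.Re.Static

/-!
# Row 256, unit RE, block (I): EXIT of the block STATIC (helper141)      (chief helper223)

The ARCHITECT OF THE BLOCK OWNS THIS FILE: keep name + statement; add the imports of your proof files and replace the `sorry`.   Other blocks import this file as a black box.   `Re/TowC.lean` imports all exits.
-/

set_option autoImplicit false

namespace Claimed.Agent.R256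

open MeasureTheory
open scoped BigOperators
open Classical

/-- **STATIC** (post BP-256-RE-STATIC).   `τ ≤ t / (8 (q+1))`, so that `2^(4 τ n) ≤ 2^(t m)` (`n < q (m+1) ≤ 2 q m`); `n0` absorbs the constants.
massLo/Hi: `re_at_tot`, `raw_lo`, `re_at_raw_hi`.   reg: atoms with representative in `Q.rows` have all their rows in `(Q.toT k).set 2` (`re_at_fc_fp`, `re_at_test`); `rt_G1` (`M = 2`) covers it by admissible tests of total weight `2^C w`; `re_at_reg`, `be_hi`.
lbAdm: `(p.sys η).ok` unfolds; `shape`.   lbCnt: `re_at_cnt`, `be_lo`.   lbCov: a charged cell contains a selected row; `re_at_cov`, `re_at_test`.   flatC/G: `re_at_flat`, `re_at_nm`, `re_at_an`. -/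
theorem re_f_static (η : ℝ) (hη0 : 0 < η) (hη1 : η < 1) (hE : ReEntry η) (hΓ : 0 < (rndWav η).Gam) (q : ℕ) (t : ℝ) (ht : 0 < t) :
    ∃ τ : ℝ, 0 < τ ∧ ∀ C : ℕ, ∃ A0 n0 : ℕ, ∀ (A : ℕ) (p : RdWvPar) (W : ReTw η p), A0 ≤ A → W.q = q → n0 ≤ W.E.n →
      W.Ok (q - 1) C A τ → W.doc.OkS η (rndWav η).p0f (rndWav η).d0f t := by
  obtain ⟨Cg, HR⟩ := re_st_reg η hη0 hη1
  refine ⟨t / (8 * ((q : ℝ) + 1)), by positivity, fun C => ?_⟩
  obtain ⟨n0, hn0⟩ := re_st_arith q t (max Cg 0) ht
  refine ⟨0, n0, fun A p W _ hq hn hW => ?_⟩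
  have hτ0 : 0 < t / (8 * ((q : ℝ) + 1)) := by positivity
  have hn' : (0 : ℝ) ≤ t / (8 * ((q : ℝ) + 1)) * W.E.n := by positivity
  have key : max Cg 0 + 4 * (t / (8 * ((q : ℝ) + 1))) * W.E.n ≤ t * W.m :=
    hn0 W.E.n W.m hn (by rw [← hq]; exact hW.n_hi) hW.m_pos
  have m1 := le_max_left Cg 0
  have m2 := le_max_right Cg 0
  have k1 : t / (8 * ((q : ℝ) + 1)) * W.E.n ≤ t * W.m := by linarith
  have k2 : 2 * (t / (8 * ((q : ℝ) + 1)) * W.E.n) ≤ t * W.m := by linarith
  have k3 : Cg + t / (8 * ((q : ℝ) + 1)) * W.E.n ≤ t * W.m := by linarith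
  have k4 : t / (8 * ((q : ℝ) + 1)) * ((W.q : ℝ) + 1) ≤ t := by
    rw [hq]
    have : t / (8 * ((q : ℝ) + 1)) * ((q : ℝ) + 1) = t / 8 := by
      field_simp
    rw [this]
    linarith
  have hlt : ∀ i, i < W.doc.q → i ≤ q - 1 := fun i hi => by
    have : i < W.q := hi
    omega
  exact
    { H_pos := (re_st_pos W hW).1
      e_pos := (re_st_pos W hW).2.1
      ka_pos := (re_st_pos W hW).2.2
      ms_nn := re_st_ms_nn W
      massLo := fun i h0 hi => re_st_massLo W hW t k1 i h0 (hlt i hi)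
      massHi := fun i h0 hi => re_st_massHi W hW t k1 i h0 (hlt i hi)
      reg := fun i h0 hi I Q hQ hu => HR p W _ C A _ hW t k3 i h0 (hlt i hi) I Q hQ hu
      lbAdm := fun i h0 hi u => re_st_lbAdm W hW t k1 i h0 (hlt i hi) u
      lbCnt := fun i h0 hi => re_st_lbCnt W hW t k2 i h0 (hlt i hi)
      lbCov := fun i h0 hi ω hω => re_st_lbCov W hW i h0 (hlt i hi) ω hω
      flatC := fun i j hv hi => re_st_flatC W hW t k4 i j hv (hlt i hi)
      flatG := fun i j w hv hi hjw => re_st_flatG W hW t k4 i j w hv (hlt i hi) hjw }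

end Claimed.Agent.R256
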