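-- KEEP
import Claimed.Agent.R256.Re.XPeel
import Claimed.Agent.R256.Re.XFlat
import Claimed.Agent.R256.Re.XStatic
import Claimed.Agent.R256.Re.XRar
import Claimed.Agent.R256.Re.XSlab

/-!
# Row 256, unit RE, block (I), file 2: CONTRACT of `re_src`      (chief helper223; prefix `re_`)

    `re_src`  ⟸  `re_tow` (towers of full height exist)  +  the FIELD BLOCKS (every field of `ReDoc.Ok` for the document of a tower of full height).
ORDER OF THE CONSTANTS.   `q es` → `ts` (SLB) → `t N m0` → `τ` (minimum over the field blocks) → `C` (`re_tow`) → `A0 n0` (field blocks at `C`) → the tower.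
    In every block:   `∃ τ > 0, ∀ C, ∃ A0 n0, ∀ A ≥ A0, ∀ p W, ..`     (`τ` is PACKAGE FREE; it may depend on the number of stages `≤ q + 3`: decision F of Gen).
FILES: `Re/TowB.lean` (basics, fields of a document), EXITS `Re/XPeel, XFlat, XStatic, XRar, XSlab.lean` (one per block, owned by its architect; statements + plans), this file = GLUE ONLY, sorry-free.
BLOCKS (model level; `Gen/Contract.lean`, `ReEntry`, `Re/Tools.lean`)
  BASE    `re_tow_base`    free homogeneous extremisers (`gn_extf`), `gn_cnt`, `m = n / q`, `B = 16 (q+1) (m+1)`                                                      PROVED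
  PEELSEL `re_peelsel`     ONE peel selection on the free continuation of an experiment with a certificate: crude regularity (`Sgl`), `Floor`, `gn_peel`, `gn_split` (levels),
                           remainder excluded (`gn_tail`), (CE) = `gn_ss2f`, shapes: `re_split_sub`, TE / PL on `P.pre`, `gn_tail`, raw_lo = `gn_ss3f`                  1500 l.   ARCHITECT POST
  FLAT    `re_flat`        preflattening of the finite list of names at the new cut: logarithmic bins of the pre-law, `re_split_sub`, tiny classes (`gn_tail` + polynomial cardinality), `gn_ss3f`     900 l.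
  TOW     `re_tw_ok_mono`, `re_tow_step`, `re_tow`   (glue)                                                                                                     PROVED
  STATIC  `re_f_static`    fields H_pos .. lbCov, flatC, flatG: atoms versus rows (`Re/Tools.lean`: finiteness, additivity, perturbation of tests, `rt_G1`)            800 l.
  RAR     `re_f_rar`       lem:rt-laws, rarity transfer: `re_locs`, `gn_tail` on the prefix experiment read on the labels of the cut `l`, Hoelder, `lbCnt`            700 l.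
  TP      `re_f_tp`        contraction per interval of the later cut + `re_locs`                                                                                    350 l.
  SLB     `re_f_slab`      lem:rt-slab-removal, model half: `re_peelsel` at the cut `q - 2 j`, `re_locs`, `re_split_sub`, `gn_peel`, `gn_tail`, `RePlaneA/B`, `re_spec_*`    2500 l.   ARCHITECT POST
-/

set_option autoImplicit false

namespace Claimed.Agent.R256

open MeasureTheory
open scoped BigOperators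
open Classical

/-! ## 1. Towers exist -/

/-- **BASE** (leaf TOWGLUE).   PLAN: `ξ' = τ' = τ/4`; `C` from `gn_extf` (FREE, `Hom (p0 ± ξ')`, `val ≥ 2^((Γ-τ') n)`); `gn_rate_gam` at `(C, τ')` gives `A1 n1`; take the extremiser for `(max A A1, max n0 (max n1 q))`, `gn_cls_anti`;
`gn_cnt` gives `tw`; `m = n / q`, `B = 16 (q+1) (m+1)`, `ps cl Dn Gn` arbitrary; `Ex 0 = E` since `E.st = []`; all fields about `0 < i ≤ 0` are vacuous. -/
theorem re_tow_base (η : ℝ) (hη0 : 0 < η) (hη1 : η < 1) (hE : ReEntry η) (hΓ : 0 < (rndWav η).Gam) (q : ℕ) (hq : 0 < q) (τ : ℝ)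
    (hτ : 0 < τ) : ∃ C : ℕ, ∀ A n0 : ℕ, ∃ (p : RdWvPar) (W : ReTw η p), W.q = q ∧ n0 ≤ W.E.n ∧ W.Ok 0 C A τ := by
  have hG := hE.gen
  obtain ⟨C, H⟩ := gn_extf (rndWav η) 1 hG hΓ (τ / 4) (τ / 4) (by positivity) (by positivity)
  obtain ⟨A1, n1, HR⟩ := gn_rate_gam (rndWav η) 1 hG C (τ / 4) (by positivity)
  refine ⟨C, fun A n0 => ?_⟩
  obtain ⟨p, E, hn, hcls, hfree, hHom, hval⟩ := H (max A A1) (max n0 (max n1 q))
  have hn0 : n0 ≤ E.n := le_trans (le_max_left _ _) hn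
  have hn1 : n1 ≤ E.n := le_trans (le_trans (le_max_left _ _) (le_max_right _ _)) hn
  have hnq : q ≤ E.n := le_trans (le_trans (le_max_right _ _) (le_max_right _ _)) hn
  have hc1 : (rndWav η).Cls C A1 p E := gn_cls_anti _ hG.scale (le_max_right _ _) hcls
  have hcA : (rndWav η).Cls C A p E := gn_cls_anti _ hG.scale (le_max_left _ _) hcls
  have hhi := HR p E hn1 hc1
  have hV : E.Valid := hcA.2.1
  have hcnt := (gn_cnt E hV (rndWav η).Gam (rndWav η).p0f (τ / 4) (τ / 4) (by positivity) (by positivity) hHom hval hhi).2.2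
  have hnn : (0 : ℝ) ≤ E.n := Nat.cast_nonneg _
  let W : ReTw η p := ⟨E, q, E.n / q, 16 * (q + 1) * (E.n / q + 1), fun _ => rePs0, fun _ => ∅, fun _ _ => 0, fun _ _ _ => 0⟩
  have hEx : W.Ex 0 = E := re_withSt_nil E hfree
  refine ⟨p, W, rfl, hn0, ?_⟩
  refine ⟨hfree, Nat.mul_div_le _ _, Nat.lt_mul_div_succ _ hq, Nat.div_pos hnq hq, hq, le_rfl, ?_, ?_, ?_, ?_, ?_, ?_, ?_⟩
  · intro i hi
    obtain rfl : i = 0 := by omega
    rw [hEx]
    exact hcA
  · intro i hi
    obtain rfl : i = 0 := by omega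
    rw [hEx]
    exact le_trans (gn_two_mono (by nlinarith)) hval
  · refine le_trans hcnt (mul_le_mul_of_nonneg_left (gn_s_anti _ ?_) (div_pos hV.e_pos hV.ka_pos).le)
    unfold Mdl.d0f
    linarith
  · intro i h0 hi
    omega
  · intro i h0 hi
    omega
  · intro i j hi hv
    have := hv.1
    omega
  · intro i j w hi hv _
    have := hv.1
    omega

/-- **STEP** (glue of PEELSEL with `K = q`, `a0 = 1/(2q)`, and FLAT) -/
theorem re_tow_step (η : ℝ) (hη0 : 0 < η) (hη1 : η < 1) (hE : ReEntry η) (hΓ : 0 < (rndWav η).Gam) (hte : ReTE η) (hpl : RePL η)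
    (q : ℕ) (ξ : ℝ) (hξ : 0 < ξ) :
    ∃ τ : ℝ, 0 < τ ∧ ∀ C : ℕ, ∃ A0 n0 : ℕ, ∀ (A : ℕ) (p : RdWvPar) (W : ReTw η p) (hg : ℕ), A0 ≤ A → W.q = q → n0 ≤ W.E.n →
      W.Ok hg C A τ → hg + 1 < q → ∃ W' : ReTw η p, W'.q = q ∧ W'.E = W.E ∧ W'.Ok (hg + 1) (C + 1) A ξ := by
  rcases Nat.eq_zero_or_pos q with hq | hq
  · subst hq
    exact ⟨1, one_pos, fun _ => ⟨0, 0, fun _ _ _ _ _ _ _ _ h => absurd h (Nat.not_lt_zero _)⟩⟩
  have hqR : (0 : ℝ) < q := by exact_mod_cast hq
  obtain ⟨τF, hτF, HF⟩ := re_flat η hη0 hη1 hE hΓ q ξ hξ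
  obtain ⟨τP, hτP, HP⟩ := re_peelsel η hη0 hη1 hE hΓ hte hpl q (1 / (2 * q)) τF (by positivity) hτF
  refine ⟨min τF τP, lt_min hτF hτP, fun C => ?_⟩
  obtain ⟨AF, nF, HF⟩ := HF C
  obtain ⟨AP, nP, HP⟩ := HP C
  refine ⟨max AF AP, max nF nP, fun A p W hg hA hWq hn hW hlt => ?_⟩
  have hWF := re_tw_ok_mono W hW (min_le_left _ _)
  have hWP := re_tw_ok_mono W hW (min_le_right _ _)
  -- arithmetic
  have hm1 : 1 ≤ W.m := hW.m_pos
  have hnhi := hW.n_hi
  have hnlo := hW.n_lo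
  rw [hWq] at hnhi hnlo
  have hmR : (1 : ℝ) ≤ W.m := by exact_mod_cast hm1
  have hnhiR : (W.E.n : ℝ) < q * ((W.m : ℝ) + 1) := by exact_mod_cast hnhi
  have hnloR : (q : ℝ) * W.m ≤ W.E.n := by exact_mod_cast hnlo
  have ha0 : 1 / (2 * (q : ℝ)) * W.E.n ≤ W.m := by
    rw [div_mul_eq_mul_div, one_mul, div_le_iff₀ (by positivity)]
    nlinarith
  have hkk : W.dp (hg + 1) - W.E.k0 = (hg + 1) * W.m := by
    unfold ReTw.dp
    omega
  have hgR : ((hg : ℝ) + 1) + 1 ≤ q := by exact_mod_cast hlt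
  obtain ⟨P, hP⟩ := HP A p (W.Ex hg) (W.dp (hg + 1)) (le_trans (le_max_right _ _) hA) (le_trans (le_max_right _ _) hn)
    (hW.cls hg le_rfl) (by
      show (W.stk hg).length ≤ q
      rw [re_stk_len]
      omega) hWP.tw (hWP.cert hg le_rfl) (by
      intro σ hσ
      obtain ⟨a, _, ha, rfl⟩ := re_stk_mem W hg σ hσ
      show ((W.dp a : ℕ) : ℝ) + 1 / (2 * (q : ℝ)) * W.E.n ≤ (W.dp (hg + 1) : ℕ)
      have h1 : W.dp a + W.m ≤ W.dp (hg + 1) := by
        unfold ReTw.dp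
        have : a * W.m ≤ hg * W.m := Nat.mul_le_mul_right _ ha
        nlinarith
      have h2 : ((W.dp a : ℕ) : ℝ) + W.m ≤ (W.dp (hg + 1) : ℕ) := by exact_mod_cast h1
      linarith) (by
      show W.E.k0 ≤ W.dp (hg + 1)
      unfold ReTw.dp
      omega) (by
      show 1 / (2 * (q : ℝ)) * W.E.n ≤ ((W.dp (hg + 1) - W.E.k0 : ℕ) : ℝ)
      rw [hkk]
      push_cast
      nlinarith) (by
      show ((W.dp (hg + 1) - W.E.k0 : ℕ) : ℝ) ≤ (1 - 1 / (2 * (q : ℝ))) * W.E.n
      rw [hkk]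
      push_cast
      nlinarith)
  obtain ⟨c, dn, gn, hW'⟩ := HF A p W hg P (le_trans (le_max_left _ _) hA) hWq (le_trans (le_max_left _ _) hn) hWF hlt hP
  exact ⟨W.upd (hg + 1) P c dn gn, hWq, rfl, hW'⟩

/-- towers of every height -/
theorem re_tow_ht (η : ℝ) (hη0 : 0 < η) (hη1 : η < 1) (hE : ReEntry η) (hΓ : 0 < (rndWav η).Gam) (hte : ReTE η) (hpl : RePL η)
    (q : ℕ) (hg : ℕ) (hq : hg < q) (τ : ℝ) (hτ : 0 < τ) :
    ∃ C : ℕ, ∀ A n0 : ℕ, ∃ (A' : ℕ) (p : RdWvPar) (W : ReTw η p), A ≤ A' ∧ W.q = q ∧ n0 ≤ W.E.n ∧ W.Ok hg C A' τ := by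
  induction hg generalizing τ with
  | zero =>
    obtain ⟨C, h⟩ := re_tow_base η hη0 hη1 hE hΓ q hq τ hτ
    refine ⟨C, fun A n0 => ?_⟩
    obtain ⟨p, W, h1, h2, h3⟩ := h A n0
    exact ⟨A, p, W, le_rfl, h1, h2, h3⟩
  | succ hg ih =>
    obtain ⟨τ', hτ', hs⟩ := re_tow_step η hη0 hη1 hE hΓ hte hpl q τ hτ
    obtain ⟨C, h⟩ := ih (by omega) τ' hτ'
    obtain ⟨A0, n1, hs⟩ := hs C
    refine ⟨C + 1, fun A n0 => ?_⟩
    obtain ⟨A', p, W, h0, h1, h2, h3⟩ := h (max A A0) (max n0 n1)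
    obtain ⟨W', g1, g2, g3⟩ := hs A' p W hg (le_trans (le_max_right _ _) h0) h1 (le_trans (le_max_right _ _) h2) h3 hq
    exact ⟨A', p, W', le_trans (le_max_left _ _) h0, g1, by rw [g2]; exact le_trans (le_max_left _ _) h2, g3⟩

/-- **TOW**: towers of full height -/
theorem re_tow (η : ℝ) (hη0 : 0 < η) (hη1 : η < 1) (hE : ReEntry η) (hΓ : 0 < (rndWav η).Gam) (hte : ReTE η) (hpl : RePL η)
    (q : ℕ) (hq : 0 < q) (τ : ℝ) (hτ : 0 < τ) :
    ∃ C : ℕ, ∀ A n0 : ℕ, ∃ (A' : ℕ) (p : RdWvPar) (W : ReTw η p), A ≤ A' ∧ W.q = q ∧ n0 ≤ W.E.n ∧ W.Ok (q - 1) C A' τ :=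
  re_tow_ht η hη0 hη1 hE hΓ hte hpl q (q - 1) (by omega) τ hτ

/-! ## 2. The field blocks -/

/-! ## 3. Glue -/

/-- the empty document -/
noncomputable def reDoc0 (q m : ℕ) : ReDoc where
  q := q
  m := m
  k0 := 0
  H := 1
  e := 1
  ka := 1
  Row := fun _ => Empty
  fin := fun _ => inferInstance
  ms := fun _ _ => 0
  iv := fun _ _ => 0
  pt := fun _ _ => ⟨0, 0, 0⟩
  Lb := fun _ => Empty
  finL := fun _ => inferInstance
  lI := fun _ _ => 0
  lQ := fun _ u => u.elim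
  Dn := fun _ _ => 0
  Gn := fun _ _ _ => 0

theorem re_doc0_ok (m : ℕ) (η p d t N : ℝ) (K : ℕ) (es ts : ℝ) : (reDoc0 0 m).Ok η p d t N K es ts where
  H_pos := one_pos
  e_pos := one_pos
  ka_pos := one_pos
  ms_nn := fun _ _ => le_rfl
  massLo := fun i _ h => absurd h (Nat.not_lt_zero i)
  massHi := fun i _ h => absurd h (Nat.not_lt_zero i)
  reg := fun i _ h => absurd h (Nat.not_lt_zero i)
  lbAdm := fun i _ h => absurd h (Nat.not_lt_zero i)
  lbCnt := fun i _ h => absurd h (Nat.not_lt_zero i)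
  lbCov := fun i _ h => absurd h (Nat.not_lt_zero i)
  rar := fun _ l _ _ h => absurd h (Nat.not_lt_zero l)
  tp := fun _ l _ _ h => absurd h (Nat.not_lt_zero l)
  flatC := fun i _ _ h => absurd h (Nat.not_lt_zero i)
  flatG := fun i _ _ _ h => absurd h (Nat.not_lt_zero i)
  slab := fun _ _ _ _ h => absurd h.2.2 (Nat.not_lt_zero _)

/-- **BLOCK (I)** -/
theorem re_src_main (η : ℝ) (hη0 : 0 < η) (hη1 : η < 1) (hE : ReEntry η) (hte : ReTE η) (hpl : RePL η) (hA : RePlaneA η) (hB : RePlaneB η)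
    (hΓ : 100 * η < (rndWav η).Gam) : ReSrc η (rndWav η).p0f (rndWav η).d0f 3 := by
  have hΓ0 : 0 < (rndWav η).Gam := lt_trans (by positivity) hΓ
  intro q es hes
  rcases Nat.eq_zero_or_pos q with hq | hq
  · subst hq
    exact ⟨1, one_pos, fun t N m0 _ => ⟨reDoc0 0 m0, rfl, le_rfl, re_doc0_ok m0 _ _ _ _ _ _ _ _⟩⟩
  obtain ⟨ts, hts, hS⟩ := re_f_slab η hη0 hη1 hE hte hpl hA hB hΓ q es hes
  refine ⟨ts, hts, fun t N m0 ht => ?_⟩
  obtain ⟨τ1, h1, H1⟩ := re_f_static η hη0 hη1 hE hΓ0 q t ht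
  obtain ⟨τ2, h2, H2⟩ := re_f_rar η hη0 hη1 hE hΓ0 q t N ht
  obtain ⟨τ3, h3, H3⟩ := re_f_tp η hη0 hη1 hE hΓ0 q t N ht
  obtain ⟨τ4, h4, H4⟩ := hS t ht
  obtain ⟨C, hT⟩ := re_tow η hη0 hη1 hE hΓ0 hte hpl q hq (min (min τ1 τ2) (min τ3 τ4)) (by positivity)
  obtain ⟨A1, n1, H1⟩ := H1 C
  obtain ⟨A2, n2, H2⟩ := H2 C
  obtain ⟨A3, n3, H3⟩ := H3 C
  obtain ⟨A4, n4, H4⟩ := H4 C
  obtain ⟨A, p, W, hA', hWq, hn, hW⟩ := hT (max (max A1 A2) (max A3 A4)) (max (max (max n1 n2) (max n3 n4)) (q * (m0 + 1)))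
  have a1 : A1 ≤ A := le_trans (le_trans (le_max_left _ _) (le_max_left _ _)) hA'
  have a2 : A2 ≤ A := le_trans (le_trans (le_max_right _ _) (le_max_left _ _)) hA'
  have a3 : A3 ≤ A := le_trans (le_trans (le_max_left _ _) (le_max_right _ _)) hA'
  have a4 : A4 ≤ A := le_trans (le_trans (le_max_right _ _) (le_max_right _ _)) hA'
  have hn' := le_trans (le_max_left _ _) hn
  have b1 : n1 ≤ W.E.n := le_trans (le_trans (le_max_left _ _) (le_max_left _ _)) hn'
  have b2 : n2 ≤ W.E.n := le_trans (le_trans (le_max_right _ _) (le_max_left _ _)) hn'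
  have b3 : n3 ≤ W.E.n := le_trans (le_trans (le_max_left _ _) (le_max_right _ _)) hn'
  have b4 : n4 ≤ W.E.n := le_trans (le_trans (le_max_right _ _) (le_max_right _ _)) hn'
  have hm : m0 ≤ W.m := by
    have e1 : q * (m0 + 1) ≤ W.E.n := le_trans (le_max_right _ _) hn
    have e2 := hW.n_hi
    rw [hWq] at e2
    have e3 : m0 + 1 < W.m + 1 := Nat.lt_of_mul_lt_mul_left (lt_of_le_of_lt e1 e2)
    omega
  refine ⟨W.doc, hWq, hm, re_doc_ok ?_ ?_ ?_ ?_⟩
  · exact H1 A p W a1 hWq b1 (re_tw_ok_mono W hW (le_trans (min_le_left _ _) (min_le_left _ _)))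
  · exact H2 A p W a2 hWq b2 (re_tw_ok_mono W hW (le_trans (min_le_left _ _) (min_le_right _ _)))
  · exact H3 A p W a3 hWq b3 (re_tw_ok_mono W hW (le_trans (min_le_right _ _) (min_le_left _ _)))
  · exact H4 A p W a4 hWq b4 (re_tw_ok_mono W hW (le_trans (min_le_right _ _) (min_le_right _ _)))

end Claimed.Agent.R256
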