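-- KEEP
import Claimed.Agent.R256.Re.Contract
import Claimed.Agent.R256.Rt.Contract

/-!
# Row 256, unit RE: ENTRY = the exits X3, X4, X7 of `Rt/Contract.lean` (chief helper216)      (helper223; no open statement here)
-/

set_option autoImplicit false

namespace Claimed.Agent.R256

/-- **ENTRY**: `Gen 1`, `Loc 1` with the explicit correspondence, thin exclusion -/
theorem re_entry (η : ℝ) (hη0 : 0 < η) (hη1 : η < 1) : ReEntry η where
  gen := rt_gen_wv η hη0 hη1
  loc := ⟨rtLocWv η hη0 hη1, fun p Λ T k T' k' x x' => rt_cn_wv_iff p Λ T k T' k' x x'⟩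
  te := fun P6 P7 hΓ τ h hτ hh =>
    rt_te_wv η _ (η / 2) hη0 hη1 (gn_rate_gam _ 1 (rt_gen_wv η hη0 hη1)) P6 P7 (by linarith) hΓ τ h hτ hh

end Claimed.Agent.R256
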