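-- KEEP
import Claimed.Agent.R256.Re.TowC
import Claimed.Agent.R256.Re.SecMain
import Claimed.Agent.R256.Re.PlTop
import Claimed.Agent.R256.Re.XEntry
import Claimed.Agent.R256.Rc.Contract
import Claimed.Agent.R256.HubDefs

/-!
# Row 256, unit RE: THE EXITS for `R256/Hub.lean`      (chief helper223; prefix `re_`)

`re_hub_r1w : HubR1w`,   `re_hub_rc : HubRc`.      No open statement here.   WAVE: ENTRY `Re/XEntry`, PL `Re/PlTop`, PLANE `Re/SpaMain`, `Re/SecMain`, block I `Re/TowC` (exits `Re/X*.lean`), block II `Re/Prof*`.   CLASSICAL: `Rc/Contract.lean` (`rc_main`).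
-/

set_option autoImplicit false

namespace Claimed.Agent.R256

/-- meshes `r < 2` have no queries and the affine array is a profile -/
theorem re_prof_small (r N k0 K M0 : ℕ) (A d pd e τ es : ℝ) (hr : r < 2) (hp0 : 0 ≤ pd) (hp4 : pd ≤ 4) (he : 0 < e) :
    RnProf r N k0 K M0 A d pd e τ es := by
  have hn : r ^ N ≤ 1 := by
    interval_cases r
    · rcases Nat.eq_zero_or_pos N with h | h
      · simp [h]
      · simp [Nat.pos_iff_ne_zero.1 h]
    · simp
  refine ⟨fun i j => pd * i + 4 * j, fun _ _ _ => 0, ?_, ?_⟩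
  · refine ⟨?_, ?_, ?_, ?_, ?_, ?_, ?_, ?_, ?_, ?_, ?_⟩
    · intro i j j' _ h
      have : (j : ℝ) ≤ j' := by exact_mod_cast h
      linarith
    · intro i j j' _ h
      have : (j : ℝ) ≤ j' := by exact_mod_cast h
      linarith
    · intro i i' j _ _ h
      have : (i : ℝ) ≤ i' := by exact_mod_cast h
      nlinarith
    · intro i i' j _ _ h
      have : (i : ℝ) ≤ i' := by exact_mod_cast h
      nlinarith
    · intro i j _
      linarith
    · intro i j _ _ _
      linarith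
    · intro i u _
      simpa using he.le
    · intro i u q _ _
      simpa using he.le
    · intro i u q _ _
      simp only [sub_self]
      linarith
    · intro i u u' a b _ _ _ _
      simpa using he.le
    · intro i i' u q _ _ _ _
      simpa using he.le
  · intro k _ _ i j h
    exfalso
    obtain ⟨h1, h2, h3⟩ := h
    omega

/-- the exponent is large if the rate fails -/
theorem re_gam_gt (η : ℝ) (hE : ReEntry η) (hn : ¬ (rndWav η).Rate (100 * η)) : 100 * η < (rndWav η).Gam := by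
  by_contra h
  exact hn ((rndWav η).bs_rate_mono (gn_rate_gam _ 1 hE.gen) (not_lt.1 h))

/-- **EXIT R1(wav)** -/
theorem re_prof_wave (η : ℝ) (hη0 : 0 < η) (hη1 : η < 1) (hE : ReEntry η) (P5 : (rndCl η).Rate (100 * η))
    (P6 : (cylCl η).Rate (η / 2)) (P7 : (cylHyb η).Rate (η / 2)) (hn : ¬ (rndWav η).Rate (100 * η)) :
    ∃ d Γ : ℝ, 0 < d ∧ d ≤ 1 ∧ 0 < Γ ∧ Γ ≤ d ∧ ∀ (r N k0 M0 : ℕ) (e τ es : ℝ), 2 ≤ r → 0 < e → 0 < τ → 0 < es →
      RnProf r N k0 3 M0 4 d (1 + 3 * d - 2 * Γ) e τ es := by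
  have hΓ := re_gam_gt η hE hn
  have hΓ0 : 0 < (rndWav η).Gam := lt_trans (by positivity) hΓ
  have hte : ReTE η := hE.te P6 P7 (lt_trans (by linarith) hΓ)
  have hsrc := re_src_main η hη0 hη1 hE hte (re_pk_pl η (100 * η) hη0 hη1 hE P5 hΓ) (re_sp_planeA η hη0 hη1) (re_sc_planeB η hη0 hη1) hΓ
  obtain ⟨hd0, hd1⟩ := gn_d0f_le _ 1 hE.gen hΓ0
  have hp := gn_p0f_ge _ 1 hE.gen hΓ0
  have hpe : (rndWav η).p0f = 1 + 2 * (rndWav η).d0f - 2 * (rndWav η).Gam := by
    unfold Mdl.d0f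
    ring
  refine ⟨(rndWav η).d0f, (rndWav η).Gam, hd0, hd1, hΓ0, ?_, ?_⟩
  · unfold Mdl.d0f
    linarith
  · intro r N k0 M0 e τ es hr he hτ hes
    rw [hpe] at hsrc
    exact re_prof η _ _ hη0 hη1 hd0 hd1 hΓ0 (by unfold Mdl.d0f; linarith) hsrc r N k0 M0 e τ es hr he hτ hes

/-- **R1, waves** -/
theorem re_hub_r1w : HubR1w := by
  intro P5 P6 P7 η h0 h1 hn
  obtain ⟨d, Γ, hd0, hd1, hΓ, hΓd, h⟩ :=
    re_prof_wave η h0 h1 (re_entry η h0 h1) (P5 η h0 h1) (P6 η h0 h1) (P7 η h0 h1) hn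
  refine ⟨4, d, Γ, by norm_num, hd0, hd1, hΓ, hΓd, ?_⟩
  intro r N k0 M0 e τ es he hτ hes
  by_cases hr : 2 ≤ r
  · exact h r N k0 M0 e τ es hr he hτ hes
  · exact re_prof_small r N k0 3 M0 4 d _ e τ es (not_le.1 hr) (by linarith) (by linarith) he

/-- **R, classical** -/
theorem re_hub_rc : HubRc := fun P6 η h0 h1 => rc_main η h0 h1 (P6 η h0 h1)

end Claimed.Agent.R256
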