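import Claimed.Agent.R256.Re.ProfGeo

/-!
# Row 256, unit RE, block II, file 4: STABILITY ON THE DOCUMENT, THE ARRAYS      (architect helper159)

Source: 08 l.638-672 (lem:rt-stability), l.681-756 (prop:rt-profiles).
All exponents in MESH STEPS; natural units = mesh steps times `D.u`.   Hypotheses everywhere: `h : D.Ok ..`, `sm : ReSm D t ζ τ`, `1 ≤ N`.
LEAVES
* L-256-RE-A0  laws and masses (`re_tot_pos`, `re_law_pr`, `re_law_dom`, `re_law_rar`, `re_law_flat`)      200 l.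
* L-256-RE-A1  `re_stab_G`, `re_stab_C`      (K4 `re_stab_abs` + G3 `re_acc_list` + A0; numerics: `L = 2^40 tl(t)^6 ≤ tl(7t)`, `Kt = tl t`, `ν = tl(-N)`, result `≤ 3 tl(-ζ/4)`)      350 l.
* L-256-RE-A2  `re_dn_w`, `re_dn_a`, `re_gn_diag`, `re_gn_step`      (K2 `re_typ_le` at a common law + G4-G6)      300 l.
* L-256-RE-A3  `re_dn_exc`, `re_dn_bdry`      (counting with `reg`, `lbAdm/Cnt/Cov`, G3)      400 l.
* L-256-RE-A4  `re_gn_incr`, `re_gn_mono`      (K3 + K1)      350 l.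
* L-256-RE-A5  `re_arr`      (glue + the corner `i = q`)      200 l.
-/

set_option autoImplicit false

namespace Claimed.Agent.R256

open Claimed.Agent.R255
open Claimed.Agent.R255.FLaw (pair)
open scoped BigOperators
open Classical

variable {D : ReDoc} {η p d t N : ℝ} {K : ℕ} {es ts ζ τ : ℝ}

/-! ## A0. laws and masses -/

/-- OWNER helper159 (leaf L-256-RE-A0), EST 25 lines -/
theorem re_mass_true (D : ReDoc) (b : ℕ) : D.mass b (fun _ => True) = D.tot b := by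
  unfold ReDoc.mass ReDoc.tot
  simp

/-- OWNER helper159 (leaf L-256-RE-A0), EST 25 lines -/
theorem re_tot_pos (h : D.Ok η p d t N K es ts) {i : ℕ} (hi : 0 < i) (hiq : i < D.q) : 0 < D.tot i := by
  refine lt_of_lt_of_le ?_ (h.massLo i hi hiq)
  have := h.e_pos
  unfold ReDoc.Eb
  exact mul_pos (re_tl_pos D _) (by positivity)

/-- OWNER helper159 (leaf L-256-RE-A0), EST 25 lines -/
theorem re_full_pos (h : D.Ok η p d t N K es ts) {i : ℕ} (hi : 0 < i) (hiq : i < D.q) : 0 < D.mass i (fun _ => True) := by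
  rw [re_mass_true]
  exact re_tot_pos h hi hiq

/-- OWNER helper159 (leaf L-256-RE-A0), EST 25 lines -/
theorem re_law_pr (D : ReDoc) (b : ℕ) (R : D.Row b → Prop) (h0 : ∀ ω, 0 ≤ D.ms b ω) (hp : 0 < D.mass b R) (E : D.Row b → Prop) :
    (D.law b R h0 hp).pr E = D.mass b (fun ω => R ω ∧ E ω) / D.mass b R := by
  unfold FLaw.pr ReDoc.law
  simp only
  unfold ReDoc.mass
  rw [Finset.sum_div]
  refine Finset.sum_congr rfl fun ω _ => ?_
  by_cases hE : E ω <;> by_cases hR : R ω <;> simp [hE, hR]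

/-- OWNER helper159 (leaf L-256-RE-A0), EST 25 lines -/
theorem re_law_supp (D : ReDoc) (b : ℕ) (R : D.Row b → Prop) (h0 : ∀ ω, 0 ≤ D.ms b ω) (hp : 0 < D.mass b R) (ω : D.Row b) :
    (D.law b R h0 hp).p ω ≠ 0 ↔ R ω ∧ 0 < D.ms b ω := by
  unfold ReDoc.law
  simp only
  rw [div_ne_zero_iff]
  by_cases hR : R ω
  · simp only [hR, if_true, true_and]
    exact ⟨fun h => lt_of_le_of_ne (h0 ω) (Ne.symm h.1), fun h => ⟨h.ne', hp.ne'⟩⟩
  · simp [hR]

/-- a residual law is dominated by the full law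
OWNER helper159 (leaf L-256-RE-A0), EST 25 lines -/
theorem re_law_dom (D : ReDoc) (b : ℕ) (R : D.Row b → Prop) (h0 : ∀ ω, 0 ≤ D.ms b ω) (hp : 0 < D.mass b R)
    (hp' : 0 < D.mass b (fun _ => True)) {t : ℝ} (hres : D.tl (-t) * D.tot b ≤ D.mass b R) :
    (D.law b R h0 hp).Dom (D.tl t) (D.law b (fun _ => True) h0 hp') := by
  intro ω
  unfold ReDoc.law
  simp only [if_true]
  rw [re_mass_true] at hp' ⊢
  have h1 : D.tl t * D.tl (-t) = 1 := by
    rw [← re_tl_add, add_neg_cancel, re_tl_zero]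
  have h2 : D.tot b ≤ D.tl t * D.mass b R := by
    calc D.tot b = D.tl t * (D.tl (-t) * D.tot b) := by rw [← mul_assoc, h1, one_mul]
      _ ≤ _ := mul_le_mul_of_nonneg_left hres (re_tl_pos D t).le
  have h3 : (if R ω then D.ms b ω else 0) ≤ D.ms b ω := by
    split_ifs
    exacts [le_rfl, h0 ω]
  rw [div_le_iff₀ hp]
  calc (if R ω then D.ms b ω else 0) ≤ D.ms b ω := h3
    _ = D.ms b ω / D.tot b * D.tot b := by field_simp
    _ ≤ D.ms b ω / D.tot b * (D.tl t * D.mass b R) := mul_le_mul_of_nonneg_left h2 (div_nonneg (h0 ω) hp'.le)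
    _ = _ := by ring

theorem re_aux_full_pr (D : ReDoc) (b : ℕ) (h0 : ∀ ω, 0 ≤ D.ms b ω) (hp : 0 < D.mass b (fun _ => True)) (E : D.Row b → Prop) :
    (D.law b (fun _ => True) h0 hp).pr E = D.mass b E / D.tot b := by
  rw [re_law_pr, re_mass_true]
  simp only [true_and]

/-- `rar` in the language of laws
OWNER helper159 (leaf L-256-RE-A0), EST 25 lines -/
theorem re_law_rar (h : D.Ok η p d t N K es ts) {i l : ℕ} (hi : 0 < i) (hil : i < l) (hl : l < D.q)
    (T : D.Row l → Prop) (Sg : D.Row i → Prop) (hT : ∀ ω ω', T ω' → D.Conn (D.tl t) i l ω ω' → Sg ω) :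
    (D.law l (fun _ => True) (h.ms_nn l) (re_full_pos h (hi.trans hil) hl)).pr T
      ≤ D.tl t * ((D.law i (fun _ => True) (h.ms_nn i) (re_full_pos h hi (hil.trans hl))).pr Sg) ^ (2 / 3 : ℝ) + D.tl (-N) := by
  rw [re_aux_full_pr, re_aux_full_pr]
  exact h.rar i l hi hil hl T Sg hT

/-- `Flat` in the language of laws
OWNER helper159 (leaf L-256-RE-A0), EST 25 lines -/
theorem re_law_flat (h : D.Ok η p d t N K es ts) {i : ℕ} (hi : 0 < i) (hiq : i < D.q) {α : Type} (X : D.Row i → α) {x : ℝ}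
    (hX : D.Flat i X x t) :
    (((Finset.univ.filter fun ω => (D.law i (fun _ => True) (h.ms_nn i) (re_full_pos h hi hiq)).p ω ≠ 0).image X).card : ℝ)
        ≤ Real.exp (x * D.u + t * D.u) ∧
      ∀ a, (D.law i (fun _ => True) (h.ms_nn i) (re_full_pos h hi hiq)).pr (fun ω => X ω = a) ≤ Real.exp (-(x * D.u - t * D.u)) := by
  obtain ⟨h1, h2⟩ := hX
  constructor
  · have e : (Finset.univ.filter fun ω => (D.law i (fun _ => True) (h.ms_nn i) (re_full_pos h hi hiq)).p ω ≠ 0)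
        = Finset.univ.filter fun ω => 0 < D.ms i ω := by
      refine Finset.filter_congr fun ω _ => ?_
      rw [re_law_supp]
      simp
    rw [e, ← add_mul, ← re_tl_exp]
    exact h1
  · intro a
    rw [re_aux_full_pr, div_le_iff₀ (re_tot_pos h hi hiq)]
    have e : -(x * D.u - t * D.u) = (-(x - t)) * D.u := by ring
    rw [e, ← re_tl_exp]
    exact h2 a

/-! ## A1. stability -/

theorem re_aux_tl_pow (D : ReDoc) (t : ℝ) (n : ℕ) : D.tl t ^ n = D.tl (t * n) := by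
  rw [← Real.rpow_natCast, re_tl_rpow]

/-- absolute constants and powers of the enlargement are absorbed -/
theorem re_aux_L_le (sm : ReSm D t ζ τ) : (2 : ℝ) ^ 40 * D.tl t ^ 6 ≤ D.tl (7 * t) := by
  have h1 : (2 : ℝ) ^ 40 ≤ D.tl t := le_trans (by norm_num) sm.big
  rw [re_aux_tl_pow]
  have h2 : D.tl (7 * t) = D.tl t * D.tl (t * (6 : ℕ)) := by
    rw [← re_tl_add]
    congr 1
    push_cast
    ring
  rw [h2]
  exact mul_le_mul_of_nonneg_right h1 (re_tl_pos D _).le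

/-- the numerics of the stability lemma -/
theorem re_aux_stab_num (sm : ReSm D t ζ τ) (hN : 1 ≤ N) :
    D.tl t ^ 2 * ((2 ^ 40 * D.tl t ^ 6) * Real.exp (t * D.u - ζ * D.u)) ^ (2 / 3 : ℝ) + 2 * D.tl t * D.tl (-N)
      + (2 ^ 40 * D.tl t ^ 6) * Real.exp (t * D.u - ζ * D.u) ≤ D.dl ζ := by
  have ht := sm.t_pos
  have htz := sm.tz
  have hzt := sm.zt
  have ht1 := sm.t1
  have e1 : Real.exp (t * D.u - ζ * D.u) = D.tl (t - ζ) := by
    rw [re_tl_exp, sub_mul]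
  rw [e1]
  have hA : (2 ^ 40 * D.tl t ^ 6) * D.tl (t - ζ) ≤ D.tl (8 * t - ζ) := by
    calc (2 ^ 40 * D.tl t ^ 6) * D.tl (t - ζ) ≤ D.tl (7 * t) * D.tl (t - ζ) :=
          mul_le_mul_of_nonneg_right (re_aux_L_le sm) (re_tl_pos D _).le
      _ = D.tl (8 * t - ζ) := by
          rw [← re_tl_add]
          congr 1
          ring
  have hA0 : 0 ≤ (2 ^ 40 * D.tl t ^ 6) * D.tl (t - ζ) := by
    have := re_tl_pos D t
    have := re_tl_pos D (t - ζ)
    positivity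
  have h1 : D.tl t ^ 2 * ((2 ^ 40 * D.tl t ^ 6) * D.tl (t - ζ)) ^ (2 / 3 : ℝ) ≤ D.tl (-(ζ / 4)) := by
    calc D.tl t ^ 2 * ((2 ^ 40 * D.tl t ^ 6) * D.tl (t - ζ)) ^ (2 / 3 : ℝ)
        ≤ D.tl t ^ 2 * (D.tl (8 * t - ζ)) ^ (2 / 3 : ℝ) :=
          mul_le_mul_of_nonneg_left (Real.rpow_le_rpow hA0 hA (by norm_num)) (by have := re_tl_pos D t; positivity)
      _ = D.tl (t * (2 : ℕ) + (8 * t - ζ) * (2 / 3)) := by
          rw [re_aux_tl_pow, re_tl_rpow, ← re_tl_add]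
      _ ≤ D.tl (-(ζ / 4)) := re_tl_mono D (by push_cast; linarith)
  have h2 : 2 * D.tl t * D.tl (-N) ≤ D.tl (-(ζ / 4)) := by
    have h20 : (2 : ℝ) ≤ D.tl t := le_trans (by norm_num) sm.big
    calc 2 * D.tl t * D.tl (-N) ≤ D.tl t * D.tl t * D.tl (-N) :=
          mul_le_mul_of_nonneg_right (mul_le_mul_of_nonneg_right h20 (re_tl_pos D _).le) (re_tl_pos D _).le
      _ = D.tl (t + t + -N) := by rw [re_tl_add, re_tl_add]
      _ ≤ D.tl (-(ζ / 4)) := re_tl_mono D (by linarith)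
  have h3 : (2 ^ 40 * D.tl t ^ 6) * D.tl (t - ζ) ≤ D.tl (-(ζ / 4)) := hA.trans (re_tl_mono D (by linarith))
  unfold ReDoc.dl
  linarith

/-- stability, strictly later cut -/
theorem re_aux_stab_lt (h : D.Ok η p d t N K es ts) (sm : ReSm D t ζ τ) (hN : 1 ≤ N) {i b : ℕ} (hi : 0 < i) (hib : i < b)
    (hb : b < D.q) {α : Type} (X : D.Row i → α) (X' : D.Row b → α) {x : ℝ} (hflat : D.Flat i X x t) (Lf Lb : α → Finset α)
    (hLf : ∀ a, ((Lf a).card : ℝ) ≤ 2 ^ 40 * D.tl t ^ 6) (hLb : ∀ a, ((Lb a).card : ℝ) ≤ 2 ^ 40 * D.tl t ^ 6)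
    (hlist : ∀ ω ω', D.Conn (D.tl t) i b ω ω' → X' ω' ∈ Lf (X ω) ∧ X ω ∈ Lb (X' ω'))
    (R : D.Row b → Prop) (hres : D.tl (-t) * D.tot b ≤ D.mass b R) (hp : 0 < D.mass b R) :
    reTyp (D.law b R (h.ms_nn b) hp) X' (x * D.u) (ζ * D.u) (D.dl ζ) := by
  have htl1 : 1 ≤ D.tl t := le_trans (by norm_num) sm.big
  have hfl := re_law_flat h hi (hib.trans hb) X hflat
  have hst := re_stab_abs (D.law i (fun _ => True) (h.ms_nn i) (re_full_pos h hi (hib.trans hb)))
    (D.law b (fun _ => True) (h.ms_nn b) (re_full_pos h (hi.trans hib) hb)) (D.law b R (h.ms_nn b) hp) X X'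
    (D.Conn (D.tl t) i b) Lf Lb (x := x * D.u) (t := t * D.u) (ζ := ζ * D.u) (L := 2 ^ 40 * D.tl t ^ 6) (Kt := D.tl t)
    (ν := D.tl (-N)) (one_le_mul_of_one_le_of_one_le (by norm_num) (one_le_pow₀ htl1)) htl1 (re_tl_pos D _).le
    hfl.1 hfl.2 hLf hLb (fun ω ω' hc => (hlist ω ω' hc).1) (fun ω ω' hc => (hlist ω ω' hc).2)
    (fun T Sg hT => re_law_rar h hi hib hb T Sg hT) (re_law_dom D b R (h.ms_nn b) hp _ hres)
  exact re_typ_mono hst le_rfl (re_aux_stab_num sm hN)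

/-- stability, the own cut -/
theorem re_aux_stab_eq (h : D.Ok η p d t N K es ts) (sm : ReSm D t ζ τ) (hN : 1 ≤ N) {b : ℕ} (hi : 0 < b)
    (hb : b < D.q) {α : Type} (X : D.Row b → α) {x : ℝ} (hflat : D.Flat b X x t)
    (R : D.Row b → Prop) (hres : D.tl (-t) * D.tot b ≤ D.mass b R) (hp : 0 < D.mass b R) :
    reTyp (D.law b R (h.ms_nn b) hp) X (x * D.u) (ζ * D.u) (D.dl ζ) := by
  have htl1 : 1 ≤ D.tl t := le_trans (by norm_num) sm.big
  have hL1 : (1 : ℝ) ≤ 2 ^ 40 * D.tl t ^ 6 := one_le_mul_of_one_le_of_one_le (by norm_num) (one_le_pow₀ htl1)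
  have hfl := re_law_flat h hi hb X hflat
  have hst := re_stab_abs (D.law b (fun _ => True) (h.ms_nn b) (re_full_pos h hi hb))
    (D.law b (fun _ => True) (h.ms_nn b) (re_full_pos h hi hb)) (D.law b R (h.ms_nn b) hp) X X
    (fun ω ω' => ω = ω') (fun a => {a}) (fun a => {a}) (x := x * D.u) (t := t * D.u) (ζ := ζ * D.u)
    (L := 2 ^ 40 * D.tl t ^ 6) (Kt := D.tl t)
    (ν := D.tl (-N)) hL1 htl1 (re_tl_pos D _).le
    hfl.1 hfl.2 (fun a => by simpa using hL1) (fun a => by simpa using hL1)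
    (fun ω ω' hc => by simp [hc]) (fun ω ω' hc => by simp [hc])
    (fun T Sg hT => by
      obtain ⟨P, hP⟩ : ∃ P, P = D.law b (fun _ => True) (h.ms_nn b) (re_full_pos h hi hb) := ⟨_, rfl⟩
      rw [← hP]
      have h1 : P.pr T ≤ P.pr Sg := ent_pr_mono P fun ω _ hω => hT ω ω hω rfl
      have h2 : P.pr Sg ≤ (P.pr Sg) ^ (2 / 3 : ℝ) := by
        have := Real.rpow_le_rpow_of_exponent_ge' (ent_pr_nonneg P Sg) (ent_pr_le_one P Sg) (by norm_num : (0 : ℝ) ≤ 2 / 3)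
          (by norm_num : (2 / 3 : ℝ) ≤ 1)
        rwa [Real.rpow_one] at this
      have h3 : (P.pr Sg) ^ (2 / 3 : ℝ) ≤ D.tl t * (P.pr Sg) ^ (2 / 3 : ℝ) :=
        le_mul_of_one_le_left (Real.rpow_nonneg (ent_pr_nonneg P Sg) _) htl1
      have := re_tl_pos D (-N)
      linarith)
    (re_law_dom D b R (h.ms_nn b) hp _ hres)
  exact re_typ_mono hst le_rfl (re_aux_stab_num sm hN)

/-- **lem:rt-stability**, joint names, on every residual law of a later (or the same) cut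
OWNER helper159 (leaf L-256-RE-A1), EST 175 lines -/
theorem re_stab_G (h : D.Ok η p d t N K es ts) (sm : ReSm D t ζ τ) (hN : 1 ≤ N) {i b j w : ℕ} (hi : 0 < i) (hib : i ≤ b)
    (hb : b < D.q) (hjw : j ≤ w) (hv : RnVal D.q b w) (R : D.Row b → Prop) (hres : D.tl (-t) * D.tot b ≤ D.mass b R)
    (hp : 0 < D.mass b R) :
    reTyp (D.law b R (h.ms_nn b) hp) (pair (D.nm b i j) (D.an b w)) (D.Gn i j w * D.u) (ζ * D.u) (D.dl ζ) := by
  have htl1 : 1 ≤ D.tl t := le_trans (by norm_num) sm.big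
  rcases eq_or_lt_of_le hib with rfl | hlt
  · exact re_aux_stab_eq h sm hN hi hb _ (h.flatG i j w hv hb hjw) R hres hp
  · have hvi : RnVal D.q i w := ⟨hi, by have := hv.2; omega⟩
    obtain ⟨Lf, Lb, hLf, hLb, hl⟩ := re_acc_list D h.H_pos htl1 hib hjw hv.2
    exact re_aux_stab_lt h sm hN hi hlt hb (fun ω => (D.nm i i j ω, D.an i w ω)) (pair (D.nm b i j) (D.an b w))
      (h.flatG i j w hvi (hlt.trans hb) hjw) Lf Lb hLf hLb hl R hres hp

/-- **lem:rt-stability**, root names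
OWNER helper159 (leaf L-256-RE-A1), EST 175 lines -/
theorem re_stab_C (h : D.Ok η p d t N K es ts) (sm : ReSm D t ζ τ) (hN : 1 ≤ N) {i b j : ℕ} (hi : 0 < i) (hib : i ≤ b)
    (hb : b < D.q) (hv : RnVal D.q b j) (R : D.Row b → Prop) (hres : D.tl (-t) * D.tot b ≤ D.mass b R)
    (hp : 0 < D.mass b R) :
    reTyp (D.law b R (h.ms_nn b) hp) (D.nm b i j) (D.Dn i j * D.u) (ζ * D.u) (D.dl ζ) := by
  have htl1 : 1 ≤ D.tl t := le_trans (by norm_num) sm.big
  rcases eq_or_lt_of_le hib with rfl | hlt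
  · exact re_aux_stab_eq h sm hN hi hb _ (h.flatC i j hv hb) R hres hp
  · have hvi : RnVal D.q i j := ⟨hi, by have := hv.2; omega⟩
    obtain ⟨Lf, Lb, hLf, hLb, hl⟩ := re_acc_list D h.H_pos htl1 hib (le_refl j) hv.2
    refine re_aux_stab_lt h sm hN hi hlt hb (D.nm i i j) (D.nm b i j)
      (h.flatC i j hvi (hlt.trans hb)) (fun x => (Lf (x, x.2.1)).image Prod.fst) (fun x => (Lb (x, x.2.1)).image Prod.fst)
      (fun x => le_trans (Nat.cast_le.2 Finset.card_image_le) (hLf _))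
      (fun x => le_trans (Nat.cast_le.2 Finset.card_image_le) (hLb _)) (fun ω ω' hc => ?_) R hres hp
    have h1 := hl ω ω' hc
    constructor
    · exact Finset.mem_image.2 ⟨_, h1.1, rfl⟩
    · exact Finset.mem_image.2 ⟨_, h1.2, rfl⟩

/-! ## A2. Lipschitz bounds -/

theorem re_aux_u_pos (sm : ReSm D t ζ τ) : 0 < D.u := by
  have h1 := sm.ubig
  have h2 := sm.t1
  have h3 : 0 < τ := by
    have := sm.t_pos
    have := sm.tz
    have := sm.zt
    linarith
  by_contra hcon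
  rw [not_lt] at hcon
  nlinarith

theorem re_aux_dl_pos (D : ReDoc) (ζ : ℝ) : 0 < D.dl ζ := by
  unfold ReDoc.dl
  have := re_tl_pos D (-(ζ / 4))
  positivity

theorem re_aux_dl_le (sm : ReSm D t ζ τ) (hq : 1 ≤ D.q) : D.q * D.dl ζ ≤ τ / 1000 ∧ D.dl ζ ≤ 1 / 1000 := by
  have h1 := sm.del
  have h2 := sm.t1
  have h3 := re_aux_dl_pos D ζ
  have h4 : (1 : ℝ) ≤ D.q := by exact_mod_cast hq
  constructor
  · linarith
  · nlinarith

theorem re_aux_log_dl (D : ReDoc) (ζ : ℝ) : Real.log (1 / D.dl ζ) ≤ ζ / 4 * D.u := by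
  unfold ReDoc.dl
  have h1 := re_tl_pos D (-(ζ / 4))
  rw [one_div, Real.log_inv, Real.log_mul (by norm_num) h1.ne', re_tl_exp, Real.log_exp]
  have : 0 ≤ Real.log 3 := Real.log_nonneg (by norm_num)
  linarith

theorem re_aux_log_const (sm : ReSm D t ζ τ) {c : ℝ} (hc0 : 0 < c) (hc : c ≤ 2 ^ 60) : Real.log c ≤ t * D.u := by
  have h1 := hc.trans sm.big
  rw [re_tl_exp] at h1
  exact (Real.log_le_iff_le_exp hc0).2 h1

theorem re_aux_log_pow (D : ReDoc) (a n : ℕ) : Real.log ((2 : ℝ) ^ (a * D.m * n)) = (a : ℝ) * n * D.u := by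
  rw [Real.log_pow]
  unfold ReDoc.u
  push_cast
  ring

/-- **comparison of two exponents on a common law** -/
theorem re_aux_cmp (sm : ReSm D t ζ τ) (hq : 1 ≤ D.q) {Ω α β : Type} [Fintype Ω] (P : FLaw Ω) (X : Ω → α) (Y : Ω → β)
    {x y B Nn : ℝ} (hX : reTyp P X (x * D.u) (ζ * D.u) (D.dl ζ)) (hY : reTyp P Y (y * D.u) (ζ * D.u) (D.dl ζ))
    (hN1 : 1 ≤ Nn) (hN : Real.log Nn ≤ (t + B) * D.u) (h : ReDet Y X Nn) : x ≤ y + B + 3 * ζ := by
  have hu := re_aux_u_pos sm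
  have hd := re_aux_dl_pos D ζ
  have hd1 := (re_aux_dl_le sm hq).2
  have h1 := re_typ_le P X Y hX hY hN1 h hd (by linarith)
  have h2 : Real.log (Nn / D.dl ζ) = Real.log Nn + Real.log (1 / D.dl ζ) := by
    rw [div_eq_mul_one_div, Real.log_mul (by positivity) (by positivity)]
  have h3 := re_aux_log_dl D ζ
  have h4 := sm.tz
  have h5 := sm.t_pos
  have h6 : x * D.u ≤ (y + B + 3 * ζ) * D.u := by
    have : (t + ζ / 4) * D.u ≤ ζ * D.u := mul_le_mul_of_nonneg_right (by linarith) hu.le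
    nlinarith
  exact le_of_mul_le_mul_right h6 hu

theorem re_aux_full_res (h : D.Ok η p d t N K es ts) (sm : ReSm D t ζ τ) {i : ℕ} (hi : 0 < i) (hiq : i < D.q) :
    D.tl (-t) * D.tot i ≤ D.mass i (fun _ => True) := by
  rw [re_mass_true]
  have h1 : D.tl (-t) ≤ 1 := by
    rw [← re_tl_zero D]
    exact re_tl_mono D (by have := sm.t_pos; linarith)
  exact mul_le_of_le_one_left (re_tot_pos h hi hiq).le h1

/-- OWNER helper159 (leaf L-256-RE-A2), EST 75 lines -/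
theorem re_dn_w (h : D.Ok η p d t N K es ts) (sm : ReSm D t ζ τ) (hN : 1 ≤ N) {i j j' : ℕ} (hiq : i < D.q)
    (hv : RnVal D.q i j') (hj : j ≤ j') :
    D.Dn i j ≤ D.Dn i j' + 3 * ζ ∧ D.Dn i j' ≤ D.Dn i j + 6 * ((j' : ℝ) - j) + 3 * ζ := by
  have hi := hv.1
  have hq : 1 ≤ D.q := by omega
  have hvj : RnVal D.q i j := ⟨hi, by have := hv.2; omega⟩
  have hu := re_aux_u_pos sm
  have t1 := re_stab_C h sm hN hi le_rfl hiq hvj _ (re_aux_full_res h sm hi hiq) (re_full_pos h hi hiq)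
  have t2 := re_stab_C h sm hN hi le_rfl hiq hv _ (re_aux_full_res h sm hi hiq) (re_full_pos h hi hiq)
  constructor
  · have := re_aux_cmp sm hq _ _ _ t1 t2 (B := 0) (by norm_num) (by
      rw [add_zero]
      exact re_aux_log_const sm (by norm_num) (by norm_num)) (re_det_w_dn D h.H_pos i i hj)
    linarith
  · refine re_aux_cmp sm hq _ _ _ t2 t1 (one_le_mul_of_one_le_of_one_le (by norm_num) (one_le_pow₀ (by norm_num))) ?_
      (re_det_w_up D h.H_pos i i hj)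
    rw [Real.log_mul (by norm_num) (by positivity), re_aux_log_pow, add_mul]
    have := re_aux_log_const sm (c := 2 ^ 6) (by norm_num) (by norm_num)
    rw [Nat.cast_sub hj]
    push_cast
    linarith

/-- OWNER helper159 (leaf L-256-RE-A2), EST 75 lines -/
theorem re_dn_a (h : D.Ok η p d t N K es ts) (sm : ReSm D t ζ τ) (hN : 1 ≤ N) {i i' j : ℕ} (hi : 0 < i) (hii : i ≤ i')
    (hiq : i' < D.q) (hv : RnVal D.q i' j) :
    D.Dn i j ≤ D.Dn i' j + 3 * ζ ∧ D.Dn i' j ≤ D.Dn i j + 4 * ((i' : ℝ) - i) + 3 * ζ := by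
  have hi' := hv.1
  have hq : 1 ≤ D.q := by omega
  have t1 := re_stab_C h sm hN hi hii hiq hv _ (re_aux_full_res h sm hi' hiq) (re_full_pos h hi' hiq)
  have t2 := re_stab_C h sm hN hi' le_rfl hiq hv _ (re_aux_full_res h sm hi' hiq) (re_full_pos h hi' hiq)
  constructor
  · have := re_aux_cmp sm hq _ _ _ t1 t2 (B := 0) (by norm_num) (by
      rw [add_zero]
      exact re_aux_log_const sm (by norm_num) (by norm_num)) (re_det_a_dn D h.H_pos j hii le_rfl)
    linarith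
  · refine re_aux_cmp sm hq _ _ _ t2 t1 (one_le_mul_of_one_le_of_one_le (by norm_num) (one_le_pow₀ (by norm_num))) ?_
      (re_det_a_up D h.H_pos j hii le_rfl)
    rw [Real.log_mul (by norm_num) (by positivity), re_aux_log_pow, add_mul]
    have := re_aux_log_const sm (c := 2 ^ 6) (by norm_num) (by norm_num)
    rw [Nat.cast_sub hii]
    push_cast
    linarith

/-- OWNER helper159 (leaf L-256-RE-A2), EST 75 lines -/
theorem re_gn_diag (h : D.Ok η p d t N K es ts) (sm : ReSm D t ζ τ) (hN : 1 ≤ N) {i u : ℕ} (hiq : i < D.q)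
    (hv : RnVal D.q i u) : |D.Gn i u u - D.Dn i u| ≤ 3 * ζ := by
  have hi := hv.1
  have hq : 1 ≤ D.q := by omega
  have hu := re_aux_u_pos sm
  have t1 := re_stab_C h sm hN hi le_rfl hiq hv _ (re_aux_full_res h sm hi hiq) (re_full_pos h hi hiq)
  have t2 := re_stab_G h sm hN hi le_rfl hiq le_rfl hv _ (re_aux_full_res h sm hi hiq) (re_full_pos h hi hiq)
  have hlog : Real.log 1 ≤ (t + 0) * D.u := by
    rw [Real.log_one, add_zero]
    exact (mul_pos sm.t_pos hu).le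
  have a1 := re_aux_cmp sm hq _ _ _ t1 t2 (B := 0) le_rfl hlog (re_det_of_eq Prod.fst fun ω => rfl)
  have a2 := re_aux_cmp sm hq _ _ _ t2 t1 (B := 0) le_rfl hlog
    (re_det_of_eq (fun x : ReName => (x, x.2.1)) fun ω => rfl)
  rw [abs_le]
  constructor <;> linarith

/-- OWNER helper159 (leaf L-256-RE-A2), EST 75 lines -/
theorem re_gn_step (h : D.Ok η p d t N K es ts) (sm : ReSm D t ζ τ) (hN : 1 ≤ N) {i u w w' : ℕ} (hiq : i < D.q)
    (hv : RnVal D.q i w') (hu : u ≤ w) (hw : w ≤ w') :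
    -(3 * ζ) ≤ D.Gn i u w' - D.Gn i u w ∧ D.Gn i u w' - D.Gn i u w ≤ 2 * ((w' : ℝ) - w) + 3 * ζ := by
  have hi := hv.1
  have hq : 1 ≤ D.q := by omega
  have hu' := re_aux_u_pos sm
  have hvw : RnVal D.q i w := ⟨hi, by have := hv.2; omega⟩
  have t1 := re_stab_G h sm hN hi le_rfl hiq hu hvw _ (re_aux_full_res h sm hi hiq) (re_full_pos h hi hiq)
  have t2 := re_stab_G h sm hN hi le_rfl hiq (hu.trans hw) hv _ (re_aux_full_res h sm hi hiq) (re_full_pos h hi hiq)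
  have hfst : ∀ w0, ReDet (pair (D.nm i i u) (D.an i w0)) (D.nm i i u) 1 := fun w0 => re_det_of_eq Prod.fst fun ω => rfl
  constructor
  · have d1 : ReDet (pair (D.nm i i u) (D.an i w')) (pair (D.nm i i u) (D.an i w)) (1 * 1) :=
      re_det_pair zero_le_one (hfst w') (re_det_right _ (re_det_an_dn D h.H_pos i hw))
    rw [one_mul] at d1
    have := re_aux_cmp sm hq _ _ _ t1 t2 (B := 0) le_rfl (by
      rw [Real.log_one, add_zero]
      exact (mul_pos sm.t_pos hu').le) d1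
    linarith
  · have d1 : ReDet (pair (D.nm i i u) (D.an i w)) (pair (D.nm i i u) (D.an i w')) (1 * (2 : ℝ) ^ (2 * D.m * (w' - w))) :=
      re_det_pair zero_le_one (hfst w) (re_det_right _ (re_det_an_up D h.H_pos i hw))
    rw [one_mul] at d1
    have := re_aux_cmp sm hq _ _ _ t2 t1 (B := 2 * ((w' : ℝ) - w)) (one_le_pow₀ (by norm_num)) (by
      rw [re_aux_log_pow, add_mul, Nat.cast_sub hw]
      have := (mul_pos sm.t_pos hu').le
      push_cast
      linarith) d1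
    linarith

/-! ## A3. (excess) -/

theorem re_a3_tl_le (sm : ReSm D t ζ τ) {a b : ℝ} (h : D.tl a ≤ D.tl b) : a ≤ b := by
  rw [re_tl_exp, re_tl_exp, Real.exp_le_exp] at h
  exact le_of_mul_le_mul_right h (re_aux_u_pos sm)

theorem re_a3_tl_sh (h : D.Ok η p d t N K es ts) (sm : ReSm D t ζ τ) : D.tl D.sh = D.e / (D.ka * D.R0 ^ 4) := by
  have hu := re_aux_u_pos sm
  have hm : (D.m : ℝ) ≠ 0 := by
    intro h0
    unfold ReDoc.u at hu
    rw [h0, zero_mul] at hu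
    exact lt_irrefl _ hu
  have hR := re_R0_pos D h.H_pos
  have hx : 0 < D.e / (D.ka * D.R0 ^ 4) := div_pos h.e_pos (mul_pos h.ka_pos (by positivity))
  unfold ReDoc.tl ReDoc.sh
  rw [div_mul_cancel₀ _ hm, Real.rpow_logb (by norm_num) (by norm_num) hx]

theorem re_a3_c_pos (h : D.Ok η p d t N K es ts) : 0 < D.ka * D.R0 ^ 4 := by
  have hR := re_R0_pos D h.H_pos
  exact mul_pos h.ka_pos (by positivity)

theorem re_a3_Eb (h : D.Ok η p d t N K es ts) (sm : ReSm D t ζ τ) (i : ℕ) :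
    D.Eb d i = (D.ka * D.R0 ^ 4) * D.tl (D.sh + d * i) := by
  have hc := re_a3_c_pos h
  have e1 : D.e = D.tl D.sh * (D.ka * D.R0 ^ 4) := by
    rw [re_a3_tl_sh h sm]
    exact (div_mul_cancel₀ _ hc.ne').symm
  have e2 : (2 : ℝ) ^ (d * i * D.m) = D.tl (d * i) := rfl
  unfold ReDoc.Eb
  rw [e2, re_tl_add]
  conv_lhs => rw [e1]
  ring

theorem re_a3_KR (D : ReDoc) (p : ℝ) (i j : ℕ) :
    D.Kb p i * D.Rw j ^ 4 = (D.ka * D.R0 ^ 4) * D.tl (-(p * i) - 4 * j) := by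
  have e2 : (2 : ℝ) ^ (-(p * i * D.m)) = D.tl (-(p * i)) := by
    unfold ReDoc.tl
    congr 1
    ring
  have e3 : D.tl (-(p * i) - 4 * j) = D.tl (-(p * i)) * D.tl (-(j : ℝ) * (4 : ℕ)) := by
    rw [← re_tl_add]
    congr 1
    push_cast
    ring
  unfold ReDoc.Kb ReDoc.Rw
  rw [e2, re_rdLen_tl, mul_pow, re_aux_tl_pow, e3]
  ring

theorem re_a3_div (D : ReDoc) {x a b : ℝ} (h : x * D.tl a ≤ D.tl b) : x ≤ D.tl (b - a) := by
  have e : D.tl a * D.tl (-a) = 1 := by rw [← re_tl_add, add_neg_cancel, re_tl_zero]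
  calc x = x * D.tl a * D.tl (-a) := by rw [mul_assoc, e, mul_one]
    _ ≤ D.tl b * D.tl (-a) := mul_le_mul_of_nonneg_right h (re_tl_pos D _).le
    _ = D.tl (b - a) := by rw [← re_tl_add, sub_eq_add_neg]

theorem re_a3_tot_eq (D : ReDoc) (i : ℕ) (h0 : ∀ ω, 0 ≤ D.ms i ω) {α : Type} (X : D.Row i → α) :
    D.tot i = ∑ a ∈ (Finset.univ.filter fun ω => 0 < D.ms i ω).image X, D.mass i (fun ω => X ω = a) := by
  unfold ReDoc.tot ReDoc.mass
  rw [Finset.sum_comm]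
  refine Finset.sum_congr rfl fun ω _ => ?_
  rw [Finset.sum_ite_eq]
  split_ifs with hω
  · rfl
  · have : ¬ 0 < D.ms i ω := fun hp => hω (Finset.mem_image.2 ⟨ω, Finset.mem_filter.2 ⟨Finset.mem_univ _, hp⟩, rfl⟩)
    exact le_antisymm (not_lt.1 this) (h0 ω)

theorem re_a3_tot_le (D : ReDoc) (i : ℕ) (h0 : ∀ ω, 0 ≤ D.ms i ω) {α : Type} (X : D.Row i → α) {B : ℝ}
    (hB : ∀ a, D.mass i (fun ω => X ω = a) ≤ B) : D.tot i ≤ D.nval i X * B := by
  rw [re_a3_tot_eq D i h0 X]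
  unfold ReDoc.nval
  calc ∑ a ∈ (Finset.univ.filter fun ω => 0 < D.ms i ω).image X, D.mass i (fun ω => X ω = a)
      ≤ ∑ _a ∈ (Finset.univ.filter fun ω => 0 < D.ms i ω).image X, B := Finset.sum_le_sum fun a _ => hB a
    _ = _ := by rw [Finset.sum_const, nsmul_eq_mul]

theorem re_a3_nval_le (D : ReDoc) (i : ℕ) {α : Type} (X : D.Row i → α) (T : Finset α)
    (h : ∀ ω, 0 < D.ms i ω → X ω ∈ T) : D.nval i X ≤ T.card := by
  unfold ReDoc.nval
  refine Finset.card_le_card fun x hx => ?_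
  obtain ⟨ω, hω, rfl⟩ := Finset.mem_image.1 hx
  exact h ω (Finset.mem_filter.1 hω).2

theorem re_a3_mass_union (D : ReDoc) (i : ℕ) (h0 : ∀ ω, 0 ≤ D.ms i ω) {ι : Type} [Fintype ι] (S : D.Row i → Prop)
    (T : ι → D.Row i → Prop) (h : ∀ ω, S ω → ∃ ν, T ν ω) : D.mass i S ≤ ∑ ν, D.mass i (T ν) := by
  unfold ReDoc.mass
  rw [Finset.sum_comm]
  refine Finset.sum_le_sum fun ω _ => ?_
  have hnn : ∀ ν ∈ Finset.univ, 0 ≤ (if T ν ω then D.ms i ω else 0) := fun ν _ => by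
    split_ifs
    exacts [h0 ω, le_rfl]
  by_cases hS : S ω
  · obtain ⟨ν, hν⟩ := h ω hS
    rw [if_pos hS]
    calc D.ms i ω = (if T ν ω then D.ms i ω else 0) := (if_pos hν).symm
      _ ≤ _ := Finset.single_le_sum (f := fun ν => if T ν ω then D.ms i ω else 0) hnn (Finset.mem_univ ν)
  · rw [if_neg hS]
    exact Finset.sum_nonneg hnn

/-- `tl(-t) E_a ≤ tot ≤ nval · max mass ≤ tl(Dn + t) · 4 tl(t) κ_a R_j⁴`   (`re_cell_tests`, `reg`, `re_rdD_le`)
OWNER helper159 (leaf L-256-RE-A3), EST 200 lines -/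
theorem re_dn_exc (h : D.Ok η p d t N K es ts) (sm : ReSm D t ζ τ) {i j : ℕ} (hiq : i < D.q) (hv : RnVal D.q i j) :
    (p + d) * i + 4 * j ≤ D.Dn i j - D.sh + ζ := by
  have hH := h.H_pos
  have hi := hv.1
  have hc := re_a3_c_pos h
  have hcell : ∀ x : ReName, D.mass i (fun ω => D.nm i i j ω = x) ≤ 4 * (D.tl t * (D.Kb p i * D.Rw j ^ 4)) := by
    intro x
    obtain ⟨Q, hQ, hcov⟩ := re_cell_tests D hH i j x
    calc D.mass i (fun ω => D.nm i i j ω = x)
        ≤ ∑ ν, D.mass i (fun ω => D.iv i ω = x.1 ∧ D.pt i ω ∈ (Q ν).rows (D.dp i)) :=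
          re_a3_mass_union D i (h.ms_nn i) _ _ (fun ω hω => by
            obtain ⟨h1, ν, h2⟩ := hcov ω hω
            exact ⟨ν, h1, h2⟩)
      _ ≤ ∑ _ν : Fin 4, D.tl t * (D.Kb p i * D.Rw j ^ 4) := Finset.sum_le_sum fun ν _ => by
          have h1 := h.reg i hi hiq x.1 (Q ν) (hQ ν).1 (by
            rw [(hQ ν).2.1, (hQ ν).2.2, mul_one]
            exact re_rdD_le D hH hv.2)
          have e : (Q ν).wt η = D.Rw j ^ 4 := by
            unfold RdTst.wt
            rw [(hQ ν).2.1, (hQ ν).2.2, Real.one_rpow, mul_one]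
          rw [e, mul_assoc] at h1
          exact h1
      _ = 4 * (D.tl t * (D.Kb p i * D.Rw j ^ 4)) := by
          rw [Finset.sum_const, nsmul_eq_mul]
          simp
  have h1 := re_a3_tot_le D i (h.ms_nn i) (D.nm i i j) hcell
  have h2 := (h.flatC i j hv hiq).1
  have h3 := h.massLo i hi hiq
  rw [re_a3_KR] at h1
  rw [re_a3_Eb h sm] at h3
  have h4 : (4 : ℝ) ≤ D.tl t := le_trans (by norm_num) sm.big
  have hpos : 0 ≤ D.tl t * (D.ka * D.R0 ^ 4 * D.tl (-(p * i) - 4 * j)) :=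
    mul_nonneg (re_tl_pos D _).le (mul_nonneg hc.le (re_tl_pos D _).le)
  have h5 : (D.ka * D.R0 ^ 4) * D.tl (-t + (D.sh + d * i))
      ≤ (D.ka * D.R0 ^ 4) * D.tl (D.Dn i j + t + (t + (t + (-(p * i) - 4 * j)))) := by
    calc (D.ka * D.R0 ^ 4) * D.tl (-t + (D.sh + d * i)) = D.tl (-t) * (D.ka * D.R0 ^ 4 * D.tl (D.sh + d * i)) := by
          rw [re_tl_add]
          ring
      _ ≤ D.tot i := h3
      _ ≤ D.nval i (D.nm i i j) * (4 * (D.tl t * (D.ka * D.R0 ^ 4 * D.tl (-(p * i) - 4 * j)))) := h1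
      _ ≤ D.tl (D.Dn i j + t) * (D.tl t * (D.tl t * (D.ka * D.R0 ^ 4 * D.tl (-(p * i) - 4 * j)))) :=
          mul_le_mul h2 (mul_le_mul_of_nonneg_right h4 hpos) (mul_nonneg (by norm_num) hpos) (re_tl_pos D _).le
      _ = (D.ka * D.R0 ^ 4) * D.tl (D.Dn i j + t + (t + (t + (-(p * i) - 4 * j)))) := by
          rw [re_tl_add D (D.Dn i j + t), re_tl_add D t, re_tl_add D t]
          ring
  have h6 := re_a3_tl_le sm (le_of_mul_le_mul_left h5 hc)
  have := sm.tz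
  have := sm.t_pos
  linarith

/-- every charged atom lies in a label; a label has weight `≥ tl(-t) R_j⁴` and determines the name up to `tl(7t)` values; `1 ≤ nval · tl(-(Dn - t))`
OWNER helper159 (leaf L-256-RE-A3), EST 200 lines -/
theorem re_dn_bdry (h : D.Ok η p d t N K es ts) (sm : ReSm D t ζ τ) (hη0 : 0 < η) (hη1 : η < 1) {i j : ℕ} (hi : 0 < i)
    (hiq : i < D.q) (hv : 2 * j + i = D.q) : D.Dn i j - D.sh ≤ (p + d) * i + 4 * j + ζ := by
  have hH := h.H_pos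
  have hvv : RnVal D.q i j := ⟨hi, hv.le⟩
  have htl1 : 1 ≤ D.tl t := le_trans (by norm_num) sm.big
  have hR := re_Rw_pos D hH j
  have hrd := re_rdD_eq D hH hv
  have hc := re_a3_c_pos h
  have htot := re_tot_pos h hi hiq
  -- many values
  have h1 := re_a3_tot_le D i (h.ms_nn i) (D.nm i i j) (h.flatC i j hvv hiq).2
  have h2 : D.tl 0 ≤ D.nval i (D.nm i i j) * D.tl (-(D.Dn i j - t)) := by
    rw [re_tl_zero]
    rw [← mul_assoc] at h1
    exact le_of_mul_le_mul_right (by rwa [one_mul]) htot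
  -- few values: labels
  have hl : ∀ u : D.Lb i, ∃ Lst : Finset ReName, ((Lst.card : ℝ) ≤ 2 ^ 25 * D.tl t ^ 6) ∧
      ∀ ω : D.Row i, D.iv i ω = D.lI i u → D.pt i ω ∈ ((D.lQ i u).toT (D.dp i)).set 2 → D.nm i i j ω ∈ Lst := fun u =>
    re_label_list D hH htl1 i j (D.lQ i u) (h.lbAdm i hi hiq u).1.r_pos (by
      rw [← hrd]
      exact (h.lbAdm i hi hiq u).2.2.1) (D.lI i u)
  choose Lst hcard hmem using hl
  have h3 : (D.nval i (D.nm i i j) : ℝ) ≤ (Fintype.card (D.Lb i) : ℝ) * (2 ^ 25 * D.tl t ^ 6) := by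
    have hsub : D.nval i (D.nm i i j) ≤ (Finset.univ.biUnion Lst).card := by
      refine re_a3_nval_le D i (D.nm i i j) _ fun ω hω => ?_
      obtain ⟨u, hu1, hu2⟩ := h.lbCov i hi hiq ω hω
      exact Finset.mem_biUnion.2 ⟨u, Finset.mem_univ _, hmem u ω hu1.symm hu2⟩
    calc (D.nval i (D.nm i i j) : ℝ)
        ≤ (((Finset.univ.biUnion Lst).card : ℕ) : ℝ) := by exact_mod_cast hsub
      _ ≤ ((∑ u, (Lst u).card : ℕ) : ℝ) := by exact_mod_cast Finset.card_biUnion_le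
      _ = ∑ u, ((Lst u).card : ℝ) := by push_cast; rfl
      _ ≤ ∑ _u : D.Lb i, (2 ^ 25 * D.tl t ^ 6) := Finset.sum_le_sum fun u _ => hcard u
      _ = (Fintype.card (D.Lb i) : ℝ) * (2 ^ 25 * D.tl t ^ 6) := by
          rw [Finset.sum_const, nsmul_eq_mul, Finset.card_univ]
  -- weights of the labels
  have hw : ∀ u : D.Lb i, D.tl (-t) * D.Rw j ^ 4 ≤ (D.lQ i u).wt η := by
    intro u
    obtain ⟨ha, hb, -, hd⟩ := h.lbAdm i hi hiq u
    have hr0 : 0 < (D.lQ i u).r := ha.r_pos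
    have hf0 : 0 < (D.lQ i u).f := ha.f_pos
    have hf1 : (D.lQ i u).f ≤ 1 := ha.f_le
    have hr : D.Rw j ≤ (D.lQ i u).r := by
      rw [← hrd]
      exact hb.trans (mul_le_of_le_one_right hr0.le hf1)
    have hf : D.tl (-t) ≤ (D.lQ i u).f ^ (1 - η) := by
      calc D.tl (-t) ≤ (D.lQ i u).f := hd
        _ = (D.lQ i u).f ^ (1 : ℝ) := (Real.rpow_one _).symm
        _ ≤ (D.lQ i u).f ^ (1 - η) := Real.rpow_le_rpow_of_exponent_ge hf0 hf1 (by linarith)
    unfold RdTst.wt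
    calc D.tl (-t) * D.Rw j ^ 4 = D.Rw j ^ 4 * D.tl (-t) := mul_comm _ _
      _ ≤ (D.lQ i u).r ^ 4 * (D.lQ i u).f ^ (1 - η) :=
          mul_le_mul (pow_le_pow_left₀ hR.le hr 4) hf (re_tl_pos D _).le (by positivity)
  have hK : 0 < D.Kb p i := by
    unfold ReDoc.Kb
    exact mul_pos h.ka_pos (Real.rpow_pos_of_pos (by norm_num) _)
  have h4 : (Fintype.card (D.Lb i) : ℝ) * (D.tl (-t) * D.Rw j ^ 4) ≤ D.tl t * (D.Eb d i / D.Kb p i) := by
    calc (Fintype.card (D.Lb i) : ℝ) * (D.tl (-t) * D.Rw j ^ 4) = ∑ _u : D.Lb i, D.tl (-t) * D.Rw j ^ 4 := by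
          rw [Finset.sum_const, nsmul_eq_mul, Finset.card_univ]
      _ ≤ ∑ u, (D.lQ i u).wt η := Finset.sum_le_sum fun u _ => hw u
      _ ≤ _ := h.lbCnt i hi hiq
  have h5 : (Fintype.card (D.Lb i) : ℝ) * D.tl (-t + (-(p * i) - 4 * j)) ≤ D.tl (t + (D.sh + d * i)) := by
    have a1 : (Fintype.card (D.Lb i) : ℝ) * (D.tl (-t) * (D.Kb p i * D.Rw j ^ 4)) ≤ D.tl t * D.Eb d i := by
      calc (Fintype.card (D.Lb i) : ℝ) * (D.tl (-t) * (D.Kb p i * D.Rw j ^ 4))
          = ((Fintype.card (D.Lb i) : ℝ) * (D.tl (-t) * D.Rw j ^ 4)) * D.Kb p i := by ring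
        _ ≤ (D.tl t * (D.Eb d i / D.Kb p i)) * D.Kb p i := mul_le_mul_of_nonneg_right h4 hK.le
        _ = D.tl t * D.Eb d i := by field_simp
    rw [re_a3_KR, re_a3_Eb h sm] at a1
    refine le_of_mul_le_mul_left ?_ hc
    rw [re_tl_add D (-t), re_tl_add D t]
    linarith
  have h6 := re_a3_div D h5
  have h7 : (2 : ℝ) ^ 25 ≤ D.tl t := le_trans (by norm_num) sm.big
  have h8 : D.tl 0 ≤ D.tl (t + (D.sh + d * i) - (-t + (-(p * i) - 4 * j)) + (t + t * (6 : ℕ)) + -(D.Dn i j - t)) := by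
    calc D.tl 0 ≤ D.nval i (D.nm i i j) * D.tl (-(D.Dn i j - t)) := h2
      _ ≤ ((Fintype.card (D.Lb i) : ℝ) * (2 ^ 25 * D.tl t ^ 6)) * D.tl (-(D.Dn i j - t)) :=
          mul_le_mul_of_nonneg_right h3 (re_tl_pos D _).le
      _ ≤ (D.tl (t + (D.sh + d * i) - (-t + (-(p * i) - 4 * j))) * (D.tl t * D.tl t ^ 6)) * D.tl (-(D.Dn i j - t)) := by
          refine mul_le_mul_of_nonneg_right ?_ (re_tl_pos D _).le
          refine mul_le_mul h6 (mul_le_mul_of_nonneg_right h7 (pow_nonneg (re_tl_pos D _).le _)) ?_ (re_tl_pos D _).le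
          exact mul_nonneg (by norm_num) (pow_nonneg (re_tl_pos D _).le _)
      _ = _ := by
          rw [re_aux_tl_pow, ← re_tl_add D t, ← re_tl_add, ← re_tl_add]
  have h9 := re_a3_tl_le sm h8
  push_cast at h9
  have := sm.tz
  have := sm.t_pos
  linarith

/-! ## A4. the angular array -/

theorem re_aux_tau_pos (sm : ReSm D t ζ τ) : 0 < τ ∧ 0 < ζ := by
  have := sm.t_pos
  have := sm.tz
  have := sm.zt
  constructor <;> linarith

theorem re_aux_typ_swap {Ω α β : Type} [Fintype Ω] {P : FLaw Ω} {X : Ω → α} {Y : Ω → β} {x z δ : ℝ}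
    (h : reTyp P (pair X Y) x z δ) : reTyp P (pair Y X) x z δ := by
  refine re_typ_congr h fun ω ω' => ?_
  simp only [FLaw.pair, Prod.mk.injEq]
  exact and_comm

/-- typical scores ⟹ lower bound of the conditional entropy, mesh units -/
theorem re_aux_ent_ge (sm : ReSm D t ζ τ) (hq : 1 ≤ D.q) {Ω α β : Type} [Fintype Ω] (P : FLaw Ω) (X : Ω → α) (Y : Ω → β)
    {a b z1 z2 : ℝ} (hXY : reTyp P (pair X Y) (a * D.u) (z1 * D.u) (2 * D.dl ζ))
    (hY : reTyp P Y (b * D.u) (z2 * D.u) (2 * D.dl ζ)) (hz1 : 0 ≤ z1) (hz2 : 0 ≤ z2) (hB : a - b ≤ 7 * D.q) :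
    (a - b - z1 - z2 - τ / 20) * D.u ≤ P.entC X Y := by
  have hu := re_aux_u_pos sm
  have hd := (re_aux_dl_le sm hq).1
  have h1 := re_typ_entC_ge P X Y hXY hY (mul_nonneg hz1 hu.le) (mul_nonneg hz2 hu.le) (B := 7 * D.q * D.u)
    (by nlinarith) (by positivity)
  have h2 : (2 * D.dl ζ + 2 * D.dl ζ) * (7 * D.q * D.u) ≤ τ / 20 * D.u := by
    have : (2 * D.dl ζ + 2 * D.dl ζ) * (7 * D.q * D.u) = 28 * (D.q * D.dl ζ) * D.u := by ring
    rw [this]
    exact mul_le_mul_of_nonneg_right (by linarith [(re_aux_tau_pos sm).1]) hu.le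
  nlinarith

/-- typical scores + bounded branching ⟹ upper bound of the conditional entropy, mesh units -/
theorem re_aux_ent_le (sm : ReSm D t ζ τ) (hq : 1 ≤ D.q) {Ω α β : Type} [Fintype Ω] (P : FLaw Ω) (X : Ω → α) (Y : Ω → β)
    {a b z1 z2 B Nn : ℝ} (hXY : reTyp P (pair X Y) (a * D.u) (z1 * D.u) (2 * D.dl ζ))
    (hY : reTyp P Y (b * D.u) (z2 * D.u) (2 * D.dl ζ)) (hN1 : 1 ≤ Nn) (hN : Real.log Nn ≤ (t + B) * D.u)
    (hBq : B ≤ 6 * D.q) (h : ReDet Y X Nn) :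
    P.entC X Y ≤ (a - b + z1 + z2 + τ / 20) * D.u := by
  have hu := re_aux_u_pos sm
  have hd := re_aux_dl_le sm hq
  have hd0 := re_aux_dl_pos D ζ
  have hτ := re_aux_tau_pos sm
  have hq1 : (1 : ℝ) ≤ D.q := by exact_mod_cast hq
  have e : 2 * D.dl ζ = (4 * D.dl ζ) / 2 := by ring
  rw [e] at hXY hY
  have h1 := re_typ_entC_le P X Y hXY hY hN1 h (by positivity) (by linarith [hd.2])
  have h2 : Real.log (1 / (4 * D.dl ζ)) ≤ ζ / 4 * D.u := by
    refine le_trans (Real.log_le_log (by positivity) ?_) (re_aux_log_dl D ζ)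
    exact one_div_le_one_div_of_le hd0 (by linarith)
  have ht1 : t ≤ 1 := by
    have := sm.tz
    have := sm.zt
    have := sm.t1
    linarith
  have h3 : Real.log Nn ≤ 7 * D.q * D.u := hN.trans (mul_le_mul_of_nonneg_right (by linarith) hu.le)
  have h4 : 4 * D.dl ζ * (Real.log Nn + Real.log (1 / (4 * D.dl ζ)) + 2) ≤ τ / 20 * D.u := by
    have a1 : 4 * D.dl ζ * (Real.log Nn + Real.log (1 / (4 * D.dl ζ)) + 2)
        ≤ 4 * D.dl ζ * (7 * D.q * D.u + ζ / 4 * D.u + 2) := mul_le_mul_of_nonneg_left (by linarith) (by positivity)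
    have a2 : 4 * D.dl ζ * (7 * D.q * D.u) ≤ 28 * (τ / 1000) * D.u := by
      have : 4 * D.dl ζ * (7 * D.q * D.u) = 28 * (D.q * D.dl ζ) * D.u := by ring
      rw [this]
      exact mul_le_mul_of_nonneg_right (by linarith [hd.1]) hu.le
    have a3 : 4 * D.dl ζ * (ζ / 4 * D.u) ≤ (τ / 1000) * D.u := by
      have : 4 * D.dl ζ * (ζ / 4 * D.u) = (D.dl ζ * ζ) * D.u := by ring
      rw [this]
      refine mul_le_mul_of_nonneg_right ?_ hu.le
      have := sm.zt
      nlinarith [hd.2, hτ.2]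
    have a4 : 4 * D.dl ζ * 2 ≤ (τ / 1000) * D.u := by
      have := sm.ubig
      nlinarith [hd.2]
    nlinarith
  nlinarith

theorem re_aux_typ2 {Ω α : Type} [Fintype Ω] {P : FLaw Ω} {X : Ω → α} {x z : ℝ} (D : ReDoc) (ζ : ℝ)
    (h : reTyp P X x z (D.dl ζ)) : reTyp P X x z (2 * D.dl ζ) :=
  re_typ_mono h le_rfl (by have := re_aux_dl_pos D ζ; linarith)

/-- data processing: `H(A_b | A_a, C(i,u')) ≤ H(A_b | A_a, C(i,u)) + log 16`
OWNER helper159 (leaf L-256-RE-A4), EST 175 lines -/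
theorem re_gn_incr (h : D.Ok η p d t N K es ts) (sm : ReSm D t ζ τ) (hN : 1 ≤ N) {i u u' a b : ℕ} (hiq : i < D.q)
    (hv : RnVal D.q i b) (hu : u ≤ u') (hua : u' ≤ a) (hab : a ≤ b) :
    D.Gn i u' b - D.Gn i u' a ≤ D.Gn i u b - D.Gn i u a + τ := by
  have hi := hv.1
  have hq : 1 ≤ D.q := by omega
  have hu0 := re_aux_u_pos sm
  have hτ := re_aux_tau_pos sm
  have hH := h.H_pos
  have hva : RnVal D.q i a := ⟨hi, by have := hv.2; omega⟩
  have hres := re_aux_full_res h sm hi hiq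
  have hpos := re_full_pos h hi hiq
  obtain ⟨P, hP⟩ : ∃ P, P = D.law i (fun _ => True) (h.ms_nn i) hpos := ⟨_, rfl⟩
  have tb : ∀ v, v ≤ a → reTyp P (pair (D.an i b) (pair (D.nm i i v) (D.an i a))) (D.Gn i v b * D.u) (ζ * D.u) (2 * D.dl ζ) := by
    intro v hva'
    have t1 := re_stab_G h sm hN hi le_rfl hiq (hva'.trans hab) hv _ hres hpos
    rw [← hP] at t1
    refine re_aux_typ2 D ζ (re_typ_congr t1 fun ω ω' => ?_)
    simp only [FLaw.pair, Prod.mk.injEq]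
    constructor
    · rintro ⟨h1, h2⟩
      refine ⟨h2, h1, ?_⟩
      rw [re_aux_an_div D hH i hab ω, re_aux_an_div D hH i hab ω', h2]
    · rintro ⟨h1, h2, _⟩
      exact ⟨h2, h1⟩
  have ta : ∀ v, v ≤ a → reTyp P (pair (D.nm i i v) (D.an i a)) (D.Gn i v a * D.u) (ζ * D.u) (2 * D.dl ζ) := by
    intro v hva'
    have t1 := re_stab_G h sm hN hi le_rfl hiq hva' hva _ hres hpos
    rw [← hP] at t1
    exact re_aux_typ2 D ζ t1
  have hbq : (b : ℝ) ≤ D.q := by
    have := hv.2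
    exact_mod_cast (by omega : b ≤ D.q)
  have ha0 : (0 : ℝ) ≤ a := Nat.cast_nonneg a
  have hq1 : (1 : ℝ) ≤ D.q := by exact_mod_cast hq
  have hstep := (re_gn_step h sm hN hiq hv hua hab).2
  have hζ1 : ζ ≤ 1 / 100 := by
    have := sm.zt
    have := sm.t1
    linarith
  have lo := re_aux_ent_ge sm hq P (D.an i b) (pair (D.nm i i u') (D.an i a)) (tb u' hua) (ta u' hua) hτ.2.le hτ.2.le
    (by linarith)
  have mid := re_entC_det P (D.an i b) (pair (D.nm i i u) (D.an i a)) (pair (D.nm i i u') (D.an i a)) (N := 2 ^ 4 * 1)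
    (re_det_pair (by norm_num) (re_det_left _ (re_det_w_dn D hH i i hu)) (re_det_of_eq Prod.snd fun ω => rfl))
  have hi' := re_aux_ent_le sm hq P (D.an i b) (pair (D.nm i i u) (D.an i a)) (tb u (hu.trans hua)) (ta u (hu.trans hua))
    (B := 2 * ((b : ℝ) - a)) (one_le_pow₀ (by norm_num)) (by
      rw [re_aux_log_pow, add_mul, Nat.cast_sub hab]
      have := (mul_pos sm.t_pos hu0).le
      push_cast
      linarith) (by linarith) (re_det_right _ (re_det_an_up D hH i hab))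
  have hlog := re_aux_log_const sm (c := 2 ^ 4 * 1) (by norm_num) (by norm_num)
  have hfin : (D.Gn i u' b - D.Gn i u' a) * D.u ≤ (D.Gn i u b - D.Gn i u a + τ) * D.u := by
    have e1 : (4 * ζ + t + τ / 10) * D.u ≤ τ * D.u := by
      refine mul_le_mul_of_nonneg_right ?_ hu0.le
      have := sm.zt
      have := sm.tz
      linarith
    nlinarith
  exact le_of_mul_le_mul_right hfin hu0

/-- `J` is nonincreasing in `a`: on the law of the cut `i'`, `H(A_w | C(i',u)) ≤ H(A_w | C(i,u)) + log 64`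
OWNER helper159 (leaf L-256-RE-A4), EST 175 lines -/
theorem re_gn_mono (h : D.Ok η p d t N K es ts) (sm : ReSm D t ζ τ) (hN : 1 ≤ N) {i i' u w : ℕ} (hi : 0 < i) (hii : i ≤ i')
    (hiq : i' < D.q) (hv : RnVal D.q i' w) (hu : u ≤ w) :
    D.Gn i' u w - D.Dn i' u ≤ D.Gn i u w - D.Dn i u + τ := by
  have hi' := hv.1
  have hq : 1 ≤ D.q := by omega
  have hu0 := re_aux_u_pos sm
  have hτ := re_aux_tau_pos sm
  have hH := h.H_pos
  have hvu : RnVal D.q i' u := ⟨hi', by have := hv.2; omega⟩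
  have hres := re_aux_full_res h sm hi' hiq
  have hpos := re_full_pos h hi' hiq
  obtain ⟨P, hP⟩ : ∃ P, P = D.law i' (fun _ => True) (h.ms_nn i') hpos := ⟨_, rfl⟩
  have g1 := re_aux_typ2 D ζ (re_aux_typ_swap (re_stab_G h sm hN hi' le_rfl hiq hu hv _ hres hpos))
  have c1 := re_aux_typ2 D ζ (re_stab_C h sm hN hi' le_rfl hiq hvu _ hres hpos)
  have g0 := re_aux_typ2 D ζ (re_aux_typ_swap (re_stab_G h sm hN hi hii hiq hu hv _ hres hpos))
  have c0 := re_aux_typ2 D ζ (re_stab_C h sm hN hi hii hiq hvu _ hres hpos)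
  rw [← hP] at g1 c1 g0 c0
  have hwq : (w : ℝ) ≤ D.q := by
    have := hv.2
    exact_mod_cast (by omega : w ≤ D.q)
  have hu00 : (0 : ℝ) ≤ u := Nat.cast_nonneg u
  have hq1 : (1 : ℝ) ≤ D.q := by exact_mod_cast hq
  have hstep := (re_gn_step h sm hN hiq hv le_rfl hu).2
  have hdiag := (abs_le.1 (re_gn_diag h sm hN hiq hvu)).2
  have hζ1 : ζ ≤ 1 / 100 := by
    have := sm.zt
    have := sm.t1
    linarith
  have lo := re_aux_ent_ge sm hq P (D.an i' w) (D.nm i' i' u) g1 c1 hτ.2.le hτ.2.le (by linarith)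
  have mid := re_entC_det P (D.an i' w) (D.nm i' i u) (D.nm i' i' u) (re_det_a_dn D hH u hii le_rfl)
  have hdet : ReDet (D.nm i' i u) (D.an i' w) (1 * (2 : ℝ) ^ (2 * D.m * (w - u))) :=
    re_det_trans zero_le_one (by positivity) (re_det_of_eq (fun x : ReName => x.2.1) fun ω => rfl)
      (re_det_an_up D hH i' hu)
  rw [one_mul] at hdet
  have hi2 := re_aux_ent_le sm hq P (D.an i' w) (D.nm i' i u) g0 c0
    (B := 2 * ((w : ℝ) - u)) (one_le_pow₀ (by norm_num)) (by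
      rw [re_aux_log_pow, add_mul, Nat.cast_sub hu]
      have := (mul_pos sm.t_pos hu0).le
      push_cast
      linarith) (by linarith) hdet
  have hlog := re_aux_log_const sm (c := 2 ^ 6) (by norm_num) (by norm_num)
  have hfin : (D.Gn i' u w - D.Dn i' u) * D.u ≤ (D.Gn i u w - D.Dn i u + τ) * D.u := by
    have e1 : (4 * ζ + t + τ / 10) * D.u ≤ τ * D.u := by
      refine mul_le_mul_of_nonneg_right ?_ hu0.le
      have := sm.zt
      have := sm.tz
      linarith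
    nlinarith
  exact le_of_mul_le_mul_right hfin hu0

/-! ## A5. the arrays -/

theorem re_aux_Dp_lt (D : ReDoc) {i : ℕ} (h : i < D.q) (j : ℕ) : D.Dp i j = D.Dn i j - D.sh := by
  unfold ReDoc.Dp
  rw [if_pos h]

theorem re_aux_Dp_q (D : ReDoc) (j : ℕ) : D.Dp D.q j = D.Dn (D.q - 1) j - D.sh + 4 := by
  unfold ReDoc.Dp
  rw [if_neg (lt_irrefl _)]

theorem re_aux_Jp_lt (D : ReDoc) {i : ℕ} (h : i < D.q) (j w : ℕ) : D.Jp i j w = D.Gn i j w - D.Dn i j := by
  unfold ReDoc.Jp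
  rw [if_pos h]

theorem re_aux_Jp_q (D : ReDoc) (j w : ℕ) : D.Jp D.q j w = 0 := by
  unfold ReDoc.Jp
  rw [if_neg (lt_irrefl _)]

/-- **prop:rt-profiles** on the mesh
OWNER helper159 (leaf L-256-RE-A5), EST 200 lines -/
theorem re_arr (h : D.Ok η p d t N K es ts) (sm : ReSm D t ζ τ) (hN : 1 ≤ N) (hη0 : 0 < η) (hη1 : η < 1) (hq : 2 ≤ D.q)
    (hpd : p + d ≤ 4) : RnArr D.q (p + d) τ D.Dp D.Jp := by
  have hτ := re_aux_tau_pos sm
  have hzt := sm.zt
  have h3 : 3 * ζ ≤ τ := by linarith [hτ.2]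
  have hq1 : D.q - 1 < D.q := by omega
  have hq0 : 0 < D.q - 1 := by omega
  have hvq : RnVal D.q (D.q - 1) 0 := ⟨hq0, by omega⟩
  have hcast : ((D.q - 1 : ℕ) : ℝ) = (D.q : ℝ) - 1 := by
    rw [Nat.cast_sub (by omega)]
    simp
  -- a valid point is either below `q` or the corner
  have hcase : ∀ i j, RnVal D.q i j → i < D.q ∨ (i = D.q ∧ j = 0) := by
    intro i j hv
    have := hv.2
    by_cases hi : i < D.q
    · exact Or.inl hi
    · exact Or.inr ⟨by omega, by omega⟩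
  refine ⟨?_, ?_, ?_, ?_, ?_, ?_, ?_, ?_, ?_, ?_, ?_⟩
  · intro i j j' hv hj
    rcases hcase i j' hv with hi | ⟨rfl, rfl⟩
    · rw [re_aux_Dp_lt D hi, re_aux_Dp_lt D hi]
      linarith [(re_dn_w h sm hN hi hv hj).1]
    · have : j = 0 := by omega
      subst this
      linarith [hτ.1]
  · intro i j j' hv hj
    rcases hcase i j' hv with hi | ⟨rfl, rfl⟩
    · rw [re_aux_Dp_lt D hi, re_aux_Dp_lt D hi]
      linarith [(re_dn_w h sm hN hi hv hj).2]
    · have : j = 0 := by omega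
      subst this
      simp only [sub_self, mul_zero, add_zero]
      linarith [hτ.1]
  · intro i i' j hi hv hii
    rcases hcase i' j hv with hi' | ⟨rfl, rfl⟩
    · rw [re_aux_Dp_lt D hi', re_aux_Dp_lt D (lt_of_le_of_lt hii hi')]
      linarith [(re_dn_a h sm hN hi hii hi' hv).1]
    · rcases eq_or_lt_of_le hii with rfl | hlt
      · linarith [hτ.1]
      · rw [re_aux_Dp_lt D hlt, re_aux_Dp_q]
        linarith [(re_dn_a h sm hN hi (by omega : i ≤ D.q - 1) hq1 hvq).1]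
  · intro i i' j hi hv hii
    rcases hcase i' j hv with hi' | ⟨rfl, rfl⟩
    · rw [re_aux_Dp_lt D hi', re_aux_Dp_lt D (lt_of_le_of_lt hii hi')]
      linarith [(re_dn_a h sm hN hi hii hi' hv).2]
    · rcases eq_or_lt_of_le hii with rfl | hlt
      · simp only [sub_self, mul_zero, add_zero]
        linarith [hτ.1]
      · rw [re_aux_Dp_lt D hlt, re_aux_Dp_q]
        have := (re_dn_a h sm hN hi (by omega : i ≤ D.q - 1) hq1 hvq).2
        rw [hcast] at this
        linarith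
  · intro i j hv
    rcases hcase i j hv with hi | ⟨rfl, rfl⟩
    · rw [re_aux_Dp_lt D hi]
      linarith [re_dn_exc h sm hi hv, hτ.2]
    · rw [re_aux_Dp_q]
      have := re_dn_exc h sm hq1 hvq
      rw [hcast] at this
      push_cast at this ⊢
      nlinarith [hτ.2]
  · intro i j hi hj hv
    have hi' : i < D.q := by omega
    rw [re_aux_Dp_lt D hi']
    linarith [re_dn_bdry h sm hη0 hη1 hi hi' hv, hτ.2]
  · intro i u hv
    rcases hcase i u hv with hi | ⟨rfl, rfl⟩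
    · rw [re_aux_Jp_lt D hi]
      exact (re_gn_diag h sm hN hi hv).trans h3
    · rw [re_aux_Jp_q, abs_zero]
      exact hτ.1.le
  · intro i u w hv hu
    have hi : i < D.q := by
      have := hv.2
      omega
    rw [re_aux_Jp_lt D hi, re_aux_Jp_lt D hi]
    linarith [(re_gn_step h sm hN hi hv hu (Nat.le_succ w)).1]
  · intro i u w hv hu
    have hi : i < D.q := by
      have := hv.2
      omega
    rw [re_aux_Jp_lt D hi, re_aux_Jp_lt D hi]
    have := (re_gn_step h sm hN hi hv hu (Nat.le_succ w)).2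
    push_cast at this
    linarith
  · intro i u u' a b hv hu hua hab
    rcases hcase i b hv with hi | ⟨rfl, rfl⟩
    · rw [re_aux_Jp_lt D hi, re_aux_Jp_lt D hi, re_aux_Jp_lt D hi, re_aux_Jp_lt D hi]
      linarith [re_gn_incr h sm hN hi hv hu hua hab]
    · simp only [re_aux_Jp_q]
      linarith [hτ.1]
  · intro i i' u w hi hv hii hu
    rcases hcase i' w hv with hi' | ⟨rfl, rfl⟩
    · rw [re_aux_Jp_lt D hi', re_aux_Jp_lt D (lt_of_le_of_lt hii hi')]
      exact re_gn_mono h sm hN hi hii hi' hv hu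
    · have : u = 0 := by omega
      subst this
      rcases eq_or_lt_of_le hii with rfl | hlt
      · linarith [hτ.1]
      · rw [re_aux_Jp_q, re_aux_Jp_lt D hlt]
        have hv0 : RnVal D.q i 0 := ⟨hi, by omega⟩
        have := (abs_le.1 (re_gn_diag h sm hN hlt hv0)).1
        linarith

end Claimed.Agent.R256
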