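import Claimed.Agent.R256.Re.Prof

/-!
# Row 256, unit RE, block II, file 2: THE PAPER FREE KIT      (architect helper159)

Finite laws only (`R255/Base/Law.lean`, lemmas `R255/Ent/Basic.lean`: `ent_surC_tail`, `ent_entC_le_log_nval`, `ent_count`, `ent_ev_le_of_bad`, `ent_entC_chain`, `ent_entC_anti`, `ent_dom_pr`, ...).
LEAVES
* L-256-RE-K1  `re_det_*`, `re_entC_det`, `re_entC_det_left`        (bounded lists; 150 l.)
* L-256-RE-K2  `re_typ_le`, `re_typ_pair`, `re_typ_congr`, `re_typ_surC`   (typical surprise; 200 l.)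
* L-256-RE-K3  `re_typ_entC_ge`, `re_typ_entC_le`      (typical score ⟹ entropy, tails by bounded branching; 200 l.)
* L-256-RE-K4  `re_stab_abs`        (lem:rt-stability + likelihood comparison, abstract; 300 l.)
* L-256-RE-K5  `re_greedy`          (greedy removal on a finite set; 200 l.)
* L-256-RE-K6  `re_popular`         (popular conditional cells; 120 l.)
Edit only the bodies; helper lemmas directly above your theorem.
-/

set_option autoImplicit false

namespace Claimed.Agent.R256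

open Claimed.Agent.R255
open Claimed.Agent.R255.FLaw (pair)
open scoped BigOperators
open Classical

variable {Ω α β γ δ' : Type}

/-! ## K1. bounded lists -/

/-- OWNER helper159 (leaf L-256-RE-K1), EST 13 lines -/
theorem re_det_fun (A : Ω → α) (f : α → β) : ReDet A (fun ω => f (A ω)) 1 := by
  refine ⟨fun x => {f x}, fun x => by simp, fun ω => by simp⟩

/-- OWNER helper159 (leaf L-256-RE-K1), EST 13 lines -/
theorem re_det_of_eq {A : Ω → α} {B : Ω → β} (f : α → β) (h : ∀ ω, B ω = f (A ω)) : ReDet A B 1 := by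
  refine ⟨fun x => {f x}, fun x => by simp, fun ω => by simp [h ω]⟩

/-- OWNER helper159 (leaf L-256-RE-K1), EST 13 lines -/
theorem re_det_mono {A : Ω → α} {B : Ω → β} {N N' : ℝ} (h : ReDet A B N) (hN : N ≤ N') : ReDet A B N' := by
  obtain ⟨L, h1, h2⟩ := h
  exact ⟨L, fun x => (h1 x).trans hN, h2⟩

/-- composition of lists
OWNER helper159 (leaf L-256-RE-K1), EST 13 lines -/
theorem re_det_trans {A : Ω → α} {B : Ω → β} {C : Ω → γ} {N N' : ℝ} (hN : 0 ≤ N) (hN' : 0 ≤ N') (h : ReDet A B N)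
    (h' : ReDet B C N') :
    ReDet A C (N * N') := by
  obtain ⟨L, h1, h2⟩ := h
  obtain ⟨L', h1', h2'⟩ := h'
  refine ⟨fun x => (L x).biUnion L', fun x => ?_, fun ω => ?_⟩
  · calc (((L x).biUnion L').card : ℝ) ≤ ((∑ y ∈ L x, (L' y).card : ℕ) : ℝ) := by
          exact_mod_cast Finset.card_biUnion_le
      _ = ∑ y ∈ L x, ((L' y).card : ℝ) := by push_cast; rfl
      _ ≤ ∑ _y ∈ L x, N' := Finset.sum_le_sum fun y _ => h1' y
      _ = (L x).card * N' := by rw [Finset.sum_const, nsmul_eq_mul]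
      _ ≤ N * N' := mul_le_mul_of_nonneg_right (h1 x) hN'
  · exact Finset.mem_biUnion.2 ⟨B ω, h2 ω, h2' ω⟩

/-- lists of pairs
OWNER helper159 (leaf L-256-RE-K1), EST 13 lines -/
theorem re_det_pair {A : Ω → α} {B : Ω → β} {C : Ω → γ} {N N' : ℝ} (hN : 0 ≤ N) (h : ReDet A B N) (h' : ReDet A C N') :
    ReDet A (pair B C) (N * N') := by
  obtain ⟨L, h1, h2⟩ := h
  obtain ⟨L', h1', h2'⟩ := h'
  refine ⟨fun x => (L x) ×ˢ (L' x), fun x => ?_, fun ω => ?_⟩
  · rw [Finset.card_product]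
    push_cast
    exact mul_le_mul (h1 x) (h1' x) (Nat.cast_nonneg _) hN
  · exact Finset.mem_product.2 ⟨h2 ω, h2' ω⟩

/-- more knowledge
OWNER helper159 (leaf L-256-RE-K1), EST 13 lines -/
theorem re_det_left {A : Ω → α} {B : Ω → β} (A' : Ω → γ) {N : ℝ} (h : ReDet A B N) : ReDet (pair A A') B N := by
  obtain ⟨L, h1, h2⟩ := h
  exact ⟨fun x => L x.1, fun x => h1 x.1, fun ω => h2 ω⟩

/-- OWNER helper159 (leaf L-256-RE-K1), EST 13 lines -/
theorem re_det_right {A : Ω → α} {B : Ω → β} (A' : Ω → γ) {N : ℝ} (h : ReDet A B N) : ReDet (pair A' A) B N := by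
  obtain ⟨L, h1, h2⟩ := h
  exact ⟨fun x => L x.2, fun x => h1 x.2, fun ω => h2 ω⟩

/-- chained lists: `B` from `A`, then `C` from `(A, B)`
OWNER helper159 (leaf L-256-RE-K1), EST 13 lines -/
theorem re_det_chain {A : Ω → α} {B : Ω → β} {C : Ω → γ} {N N' : ℝ} (hN : 0 ≤ N) (hN' : 0 ≤ N') (h : ReDet A B N)
    (h' : ReDet (pair A B) C N') : ReDet A C (N * N') := by
  obtain ⟨L, h1, h2⟩ := h
  obtain ⟨L', h1', h2'⟩ := h'
  refine ⟨fun x => (L x).biUnion fun y => L' (x, y), fun x => ?_, fun ω => ?_⟩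
  · calc (((L x).biUnion fun y => L' (x, y)).card : ℝ) ≤ ((∑ y ∈ L x, (L' (x, y)).card : ℕ) : ℝ) := by
          exact_mod_cast Finset.card_biUnion_le
      _ = ∑ y ∈ L x, ((L' (x, y)).card : ℝ) := by push_cast; rfl
      _ ≤ ∑ _y ∈ L x, N' := Finset.sum_le_sum fun y _ => h1' (x, y)
      _ = (L x).card * N' := by rw [Finset.sum_const, nsmul_eq_mul]
      _ ≤ N * N' := mul_le_mul_of_nonneg_right (h1 x) hN'
  · exact Finset.mem_biUnion.2 ⟨B ω, h2 ω, h2' ω⟩

/-- OWNER helper159 (leaf L-256-RE-K1), EST 13 lines -/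
theorem re_det_nval [Fintype Ω] (P : FLaw Ω) {A : Ω → α} {B : Ω → β} {N : ℝ} (h : ReDet A B N) :
    P.NVal (fun _ => True) B A N := by
  obtain ⟨L, h1, h2⟩ := h
  intro ω₀
  exact ⟨L (A ω₀), h1 _, fun ω _ _ hA => hA ▸ h2 ω⟩

/-- refinement of the conditioning up to a bounded list: `H(X|Y') ≤ H(X,Y|Y') = H(Y|Y') + H(X|Y,Y') ≤ log N + H(X|Y)`
OWNER helper159 (leaf L-256-RE-K1), EST 13 lines -/
theorem re_entC_det [Fintype Ω] (P : FLaw Ω) (X : Ω → α) (Y : Ω → β) (Y' : Ω → γ) {N : ℝ} (h : ReDet Y' Y N) :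
    P.entC X Y' ≤ P.entC X Y + Real.log N := by
  have h1 : P.entC Y Y' ≤ Real.log N := ent_entC_le_log_nval P Y Y' (re_det_nval P h)
  have h2 := ent_entC_chain P Y X Y'
  have h3 : P.entC X Y' ≤ P.entC (pair Y X) Y' :=
    ent_entC_mono P (pair Y X) X Y' fun ω ω' _ _ h4 _ => congrArg Prod.snd h4
  have h4 : P.entC X (pair Y Y') ≤ P.entC X Y := ent_entC_pair_le P X Y Y'
  linarith

/-- `X` is determined by `(X', Y)` up to a bounded list: `H(X|Y) ≤ H(X'|Y) + log N`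
OWNER helper159 (leaf L-256-RE-K1), EST 13 lines -/
theorem re_entC_det_left [Fintype Ω] (P : FLaw Ω) (X : Ω → α) (X' : Ω → γ) (Y : Ω → β) {N : ℝ}
    (h : ReDet (pair X' Y) X N) : P.entC X Y ≤ P.entC X' Y + Real.log N := by
  have h1 : P.entC X (pair X' Y) ≤ Real.log N := ent_entC_le_log_nval P X (pair X' Y) (re_det_nval P h)
  have h2 := ent_entC_chain P X' X Y
  have h3 : P.entC X Y ≤ P.entC (pair X' X) Y :=
    ent_entC_mono P (pair X' X) X Y fun ω ω' _ _ h4 _ => congrArg Prod.snd h4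
  linarith

/-! ## K2. typical surprise -/

/-- OWNER helper159 (leaf L-256-RE-K2), EST 40 lines -/
theorem re_typ_mono [Fintype Ω] {P : FLaw Ω} {X : Ω → α} {x ζ ζ' δ δ1 : ℝ} (h : reTyp P X x ζ δ) (hζ : ζ ≤ ζ') (hδ : δ ≤ δ1) :
    reTyp P X x ζ' δ1 := by
  unfold reTyp at h ⊢
  refine le_trans (le_trans ?_ h) hδ
  exact ent_pr_mono P fun ω _ h1 => lt_of_le_of_lt hζ h1

/-- observations with the same fibres
OWNER helper159 (leaf L-256-RE-K2), EST 40 lines -/
theorem re_typ_congr [Fintype Ω] {P : FLaw Ω} {X : Ω → α} {Y : Ω → β} {x ζ δ : ℝ} (h : reTyp P X x ζ δ)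
    (hXY : ∀ ω ω', X ω = X ω' ↔ Y ω = Y ω') : reTyp P Y x ζ δ := by
  unfold reTyp at h ⊢
  have h1 : ∀ ω, P.fib Y ω = P.fib X ω := fun ω => ent_pr_congr P fun ω' _ => (hXY ω' ω).symm
  simp only [h1]
  exact h

/-- a charged point outside three events of small probability -/
theorem re_aux_point [Fintype Ω] (P : FLaw Ω) (E1 E2 E3 : Ω → Prop) {δ : ℝ} (h1 : P.pr E1 ≤ δ) (h2 : P.pr E2 ≤ δ)
    (h3 : P.pr E3 ≤ δ) (hδ : 3 * δ < 1) : ∃ ω, P.p ω ≠ 0 ∧ ¬ E1 ω ∧ ¬ E2 ω ∧ ¬ E3 ω := by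
  by_contra hcon
  push Not at hcon
  have h4 : P.pr (fun ω => E1 ω ∨ (E2 ω ∨ E3 ω)) = 1 := by
    refine ent_pr_eq_one P fun ω hω => ?_
    by_cases a1 : E1 ω
    · exact Or.inl a1
    · by_cases a2 : E2 ω
      · exact Or.inr (Or.inl a2)
      · exact Or.inr (Or.inr (hcon ω hω a1 a2))
  have h5 := ent_pr_or_le P E1 (fun ω => E2 ω ∨ E3 ω)
  have h6 := ent_pr_or_le P E2 E3
  linarith

/-- **comparison of two exponents.**  If `Y` determines `X` up to `N` values then `x ≤ y + ...`.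
Three bad events: the two typical ones and `{log N + log (1/δ) < surC X Y}` (`ent_surC_tail`); a charged point outside them; there `sur X ≤ sur (X,Y) = sur Y + surC X Y`.
OWNER helper159 (leaf L-256-RE-K2), EST 40 lines -/
theorem re_typ_le [Fintype Ω] (P : FLaw Ω) (X : Ω → α) (Y : Ω → β) {x y ζ ζ' δ N : ℝ} (hX : reTyp P X x ζ δ)
    (hY : reTyp P Y y ζ' δ) (hN : 1 ≤ N) (h : ReDet Y X N) (hδ : 0 < δ) (h3 : 3 * δ < 1) :
    x ≤ y + ζ + ζ' + Real.log (N / δ) := by
  have hN0 : 0 < N := lt_of_lt_of_le one_pos hN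
  have ht := ent_surC_tail P X Y hN0 (re_det_nval P h) (Real.log (1 / δ))
  have he : Real.exp (-Real.log (1 / δ)) = δ := by
    rw [one_div, Real.log_inv, neg_neg, Real.exp_log hδ]
  rw [he] at ht
  obtain ⟨ω, hω, a1, a2, a3⟩ := re_aux_point P _ _ _ hX hY ht h3
  rw [not_lt] at a1 a2 a3
  have b1 := (abs_le.1 a1).1
  have b2 := (abs_le.1 a2).2
  have b3 := ent_surC_eq_sub P X Y hω
  have b4 : Real.log (P.fib (pair X Y) ω) ≤ Real.log (P.fib X ω) :=
    Real.log_le_log (ent_fib_pos P _ hω) (ent_fib_pair_le_left P X Y ω)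
  have b5 : Real.log (N / δ) = Real.log N + Real.log (1 / δ) := by
    rw [div_eq_mul_one_div, Real.log_mul hN0.ne' (by positivity)]
  rw [b5]
  linarith

/-- adjoining an observation which is determined up to `N` values
OWNER helper159 (leaf L-256-RE-K2), EST 40 lines -/
theorem re_typ_pair [Fintype Ω] (P : FLaw Ω) (X : Ω → α) (Y : Ω → β) {x ζ δ N : ℝ} (hX : reTyp P X x ζ δ)
    (hN : 1 ≤ N) (h : ReDet X Y N) (hδ : 0 < δ) (hζ : 0 ≤ ζ) :
    reTyp P (pair Y X) x (ζ + Real.log (N / δ)) (2 * δ) := by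
  have hN0 : 0 < N := lt_of_lt_of_le one_pos hN
  rcases le_or_gt 1 δ with h1 | h1
  · unfold reTyp
    exact le_trans (ent_pr_le_one P _) (by linarith)
  have ht := ent_surC_tail P Y X hN0 (re_det_nval P h) (Real.log (1 / δ))
  have he : Real.exp (-Real.log (1 / δ)) = δ := by
    rw [one_div, Real.log_inv, neg_neg, Real.exp_log hδ]
  rw [he] at ht
  have b5 : Real.log (N / δ) = Real.log N + Real.log (1 / δ) := by
    rw [div_eq_mul_one_div, Real.log_mul hN0.ne' (by positivity)]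
  have b6 : 0 ≤ Real.log (N / δ) := Real.log_nonneg (by rw [le_div_iff₀ hδ]; linarith)
  unfold reTyp at hX ⊢
  have h2 := ent_pr_or_le P (fun ω => ζ < |(-Real.log (P.fib X ω)) - x|)
    (fun ω => Real.log N + Real.log (1 / δ) < P.surC Y X ω)
  refine le_trans (ent_pr_mono P fun ω hω hbad => ?_) (le_trans h2 (by linarith))
  by_contra hcon
  push Not at hcon
  obtain ⟨a1, a3⟩ := hcon
  have b1 := abs_le.1 a1
  have b3 := ent_surC_eq_sub P Y X hω
  have b4 := ent_surC_nonneg P Y X hω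
  have : |(-Real.log (P.fib (pair Y X) ω)) - x| ≤ ζ + Real.log (N / δ) := by
    rw [abs_le]
    constructor <;> linarith [b1.1, b1.2]
  linarith

/-- conditional typical score
OWNER helper159 (leaf L-256-RE-K2), EST 40 lines -/
theorem re_typ_surC [Fintype Ω] (P : FLaw Ω) (X : Ω → α) (Y : Ω → β) {a b ζ ζ' δ δ1 : ℝ}
    (hXY : reTyp P (pair X Y) a ζ δ) (hY : reTyp P Y b ζ' δ1) :
    P.pr (fun ω => ζ + ζ' < |P.surC X Y ω - (a - b)|) ≤ δ + δ1 := by
  unfold reTyp at hXY hY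
  have h2 := ent_pr_or_le P (fun ω => ζ < |(-Real.log (P.fib (pair X Y) ω)) - a|)
    (fun ω => ζ' < |(-Real.log (P.fib Y ω)) - b|)
  refine le_trans (ent_pr_mono P fun ω hω hbad => ?_) (le_trans h2 (by linarith))
  by_contra hcon
  push Not at hcon
  obtain ⟨a1, a2⟩ := hcon
  have b1 := abs_le.1 a1
  have b2 := abs_le.1 a2
  have b3 := ent_surC_eq_sub P X Y hω
  have : |P.surC X Y ω - (a - b)| ≤ ζ + ζ' := by
    rw [abs_le]
    constructor <;> linarith [b1.1, b1.2, b2.1, b2.2]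
  linarith

/-! ## K3. from typical scores to entropies -/

/-- lower bound (`surC ≥ 0`, `ent_ev_ge_of_bad`)
OWNER helper159 (leaf L-256-RE-K3), EST 110 lines -/
theorem re_typ_entC_ge [Fintype Ω] (P : FLaw Ω) (X : Ω → α) (Y : Ω → β) {a b ζ ζ' δ δ1 B : ℝ}
    (hXY : reTyp P (pair X Y) a ζ δ) (hY : reTyp P Y b ζ' δ1) (hζ : 0 ≤ ζ) (hζ' : 0 ≤ ζ') (hB : a - b ≤ B) (hB0 : 0 ≤ B) :
    a - b - (ζ + ζ') - (δ + δ1) * B ≤ P.entC X Y := by
  have hbad := re_typ_surC P X Y hXY hY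
  have hbad0 := ent_pr_nonneg P (fun ω => ζ + ζ' < |P.surC X Y ω - (a - b)|)
  rcases le_or_gt 0 (a - b - (ζ + ζ')) with hc | hc
  · rw [ent_entC_eq_ev]
    have h1 := ent_ev_ge_of_bad P (f := P.surC X Y) (fun ω => ζ + ζ' < |P.surC X Y ω - (a - b)|)
      (c := a - b - (ζ + ζ')) (M := 0) (fun ω _ hω => by
        rw [not_lt] at hω
        have := (abs_le.1 hω).1
        linarith) (fun ω hω _ => ent_surC_nonneg P X Y hω)
    have h2 : (a - b - (ζ + ζ')) * P.pr (fun ω => ζ + ζ' < |P.surC X Y ω - (a - b)|) ≤ B * (δ + δ1) :=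
      mul_le_mul (by linarith) hbad hbad0 hB0
    linarith
  · have h1 := ent_entC_nonneg P X Y
    have h2 : 0 ≤ (δ + δ1) * B := mul_nonneg (le_trans hbad0 hbad) hB0
    linarith

/-- upper bound: the tail is controlled by the branching `N` (l.735-741 of the paper).
`E[sur 1_Bad] ≤ δ (log N + s) + 2 e^-s`, `s = log (1/δ)` (from `ent_surC_tail` at the levels `s, s+1, ...`; or Jensen with `E[e^sur] ≤ N`).
OWNER helper159 (leaf L-256-RE-K3), EST 110 lines -/
theorem re_typ_entC_le [Fintype Ω] (P : FLaw Ω) (X : Ω → α) (Y : Ω → β) {a b ζ ζ' δ N : ℝ}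
    (hXY : reTyp P (pair X Y) a ζ (δ / 2)) (hY : reTyp P Y b ζ' (δ / 2)) (hN : 1 ≤ N) (h : ReDet Y X N)
    (hδ : 0 < δ) (hδ1 : δ < 1) :
    P.entC X Y ≤ a - b + (ζ + ζ') + δ * (Real.log N + Real.log (1 / δ) + 2) := by
  have hN0 : 0 < N := lt_of_lt_of_le one_pos hN
  have hbad := re_typ_surC P X Y hXY hY
  rw [add_halves] at hbad
  obtain ⟨Bad, hBad⟩ : ∃ Bad : Ω → Prop, Bad = fun ω => ζ + ζ' < |P.surC X Y ω - (a - b)| := ⟨_, rfl⟩
  rw [← hBad] at hbad
  have hbad0 := ent_pr_nonneg P Bad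
  -- a good charged point
  have hc : 0 ≤ a - b + (ζ + ζ') := by
    have h1 : 0 < P.pr (fun ω => ¬ Bad ω) := by
      rw [ent_pr_not]
      linarith
    obtain ⟨ω, hω, hp⟩ := (ent_pr_pos_iff P _).1 h1
    rw [hBad, not_lt] at hω
    have := (abs_le.1 hω).2
    have := ent_surC_nonneg P X Y hp
    linarith
  have hl0 : 0 ≤ Real.log N := Real.log_nonneg hN
  have hl1 : 0 ≤ Real.log (1 / δ) := Real.log_nonneg (by rw [le_div_iff₀ hδ]; linarith)
  have hlam : Real.log (N / δ) = Real.log N + Real.log (1 / δ) := by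
    rw [div_eq_mul_one_div, Real.log_mul hN0.ne' (by positivity)]
  have hK := ent_aux_nval_ev P X Y (re_det_nval P h)
  rw [ent_entC_eq_ev]
  have hpt : ∀ ω, P.p ω ≠ 0 → P.surC X Y ω ≤ (a - b + (ζ + ζ')) + (Real.log (N / δ) * (if Bad ω then 1 else 0)
      + (δ / N) * (P.fib Y ω / P.fib (pair X Y) ω)) := by
    intro ω hω
    have hq : 0 < P.fib Y ω / P.fib (pair X Y) ω := div_pos (ent_fib_pos P _ hω) (ent_fib_pos P _ hω)
    have hq' : 0 ≤ (δ / N) * (P.fib Y ω / P.fib (pair X Y) ω) := by positivity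
    by_cases hb : Bad ω
    · simp only [hb, if_true, mul_one]
      have e1 : P.surC X Y ω = Real.log (P.fib Y ω / P.fib (pair X Y) ω) := by
        unfold FLaw.surC
        rw [← Real.log_inv, inv_div]
      have e2 : Real.log ((δ / N) * (P.fib Y ω / P.fib (pair X Y) ω)) ≤ (δ / N) * (P.fib Y ω / P.fib (pair X Y) ω) - 1 :=
        Real.log_le_sub_one_of_pos (by positivity)
      rw [Real.log_mul (by positivity) hq.ne'] at e2
      have e3 : Real.log (δ / N) = - Real.log (N / δ) := by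
        rw [← Real.log_inv, inv_div]
      rw [e3] at e2
      linarith
    · simp only [hb, if_false, mul_zero, zero_add]
      rw [hBad, not_lt] at hb
      have := (abs_le.1 hb).2
      linarith
  have h1 := ent_ev_mono P hpt
  rw [ent_ev_add, ent_ev_const, ent_ev_add, ent_ev_mul_left, ent_ev_mul_left, ← ent_pr_eq_ev] at h1
  have h2 : Real.log (N / δ) * P.pr Bad ≤ Real.log (N / δ) * δ :=
    mul_le_mul_of_nonneg_left hbad (by rw [hlam]; linarith)
  have h3 : (δ / N) * P.ev (fun ω => P.fib Y ω / P.fib (pair X Y) ω) ≤ (δ / N) * N :=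
    mul_le_mul_of_nonneg_left hK (by positivity)
  have h4 : (δ / N) * N = δ := by field_simp
  rw [hlam] at h2
  nlinarith

/-! ## K4. abstract stability -/

/-- union bound over a finite set of values, each of mass `≤ c` -/
theorem re_aux_pr_mem [Fintype Ω] (P : FLaw Ω) (X : Ω → α) (U : Finset α) {c : ℝ}
    (h : ∀ a ∈ U, P.pr (fun ω => X ω = a) ≤ c) : P.pr (fun ω => X ω ∈ U) ≤ U.card * c := by
  have h1 := ent_pr_exists_le P U (fun a ω => X ω = a)
  have h2 : P.pr (fun ω => X ω ∈ U) ≤ P.pr (fun ω => ∃ a ∈ U, X ω = a) :=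
    ent_pr_mono P fun ω _ hω => ⟨X ω, hω, rfl⟩
  calc P.pr (fun ω => X ω ∈ U) ≤ ∑ a ∈ U, P.pr (fun ω => X ω = a) := h2.trans h1
    _ ≤ ∑ _a ∈ U, c := Finset.sum_le_sum h
    _ = U.card * c := by rw [Finset.sum_const, nsmul_eq_mul]

theorem re_aux_card_biUnion (U : Finset α) (Lf : α → Finset β) {L : ℝ} (hL : ∀ a, ((Lf a).card : ℝ) ≤ L) :
    ((U.biUnion Lf).card : ℝ) ≤ U.card * L := by
  calc ((U.biUnion Lf).card : ℝ) ≤ ((∑ y ∈ U, (Lf y).card : ℕ) : ℝ) := by
        exact_mod_cast Finset.card_biUnion_le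
    _ = ∑ y ∈ U, ((Lf y).card : ℝ) := by push_cast; rfl
    _ ≤ ∑ _y ∈ U, L := Finset.sum_le_sum fun y _ => hL y
    _ = U.card * L := by rw [Finset.sum_const, nsmul_eq_mul]

/-- **lem:rt-stability + likelihood comparison, abstract form** (08 l.620-672).
`P` earlier law, `X` its name, flat at the exponent `x` (natural units) with tolerance `t`;  `P'` later law, `X'` the back-evaluated name;  `Cn` the correspondence;  lists of size `≤ L` in both directions;  rarity transfer with the factor `Kt` and the error `ν`;  `Q ≤ Kt P'` any restriction.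
(i) too heavy values of `X'` under `Q` : at most `e^(x-ζ)`, they pull back to a set of `P` mass `≤ L e^(t-ζ)`;
(ii) support: off `Q` mass `Kt ν` the value lies in `V = ⋃ Lf (X ω)`, `ω` charged, `|V| ≤ L e^(x+t)`  (test `T = {X' ∉ V}`, `Sg = {P.p = 0}`);   (iii) values of `V` of `Q` mass `< e^-(x+ζ)` carry at most `L e^(t-ζ)`.
OWNER helper159 (leaf L-256-RE-K4), EST 300 lines -/
theorem re_stab_abs {Ω' : Type} [Fintype Ω] [Fintype Ω'] (P : FLaw Ω) (P' Q : FLaw Ω') (X : Ω → α) (X' : Ω' → α)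
    (Cn : Ω → Ω' → Prop) (Lf Lb : α → Finset α) {x t ζ L Kt ν : ℝ} (hL : 1 ≤ L) (hK : 1 ≤ Kt) (hν : 0 ≤ ν)
    (hcnt : (((Finset.univ.filter fun ω => P.p ω ≠ 0).image X).card : ℝ) ≤ Real.exp (x + t))
    (hmax : ∀ a, P.pr (fun ω => X ω = a) ≤ Real.exp (-(x - t)))
    (hLf : ∀ a, ((Lf a).card : ℝ) ≤ L) (hLb : ∀ a, ((Lb a).card : ℝ) ≤ L)
    (hf : ∀ ω ω', Cn ω ω' → X' ω' ∈ Lf (X ω)) (hb : ∀ ω ω', Cn ω ω' → X ω ∈ Lb (X' ω'))
    (hrar : ∀ (T : Ω' → Prop) (Sg : Ω → Prop), (∀ ω ω', T ω' → Cn ω ω' → Sg ω) →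
      P'.pr T ≤ Kt * (P.pr Sg) ^ (2 / 3 : ℝ) + ν)
    (hQ : Q.Dom Kt P') :
    reTyp Q X' x ζ (Kt ^ 2 * (L * Real.exp (t - ζ)) ^ (2 / 3 : ℝ) + 2 * Kt * ν + L * Real.exp (t - ζ)) := by
  have hL0 : 0 ≤ L := le_trans zero_le_one hL
  have hK0 : 0 ≤ Kt := le_trans zero_le_one hK
  -- heavy values
  obtain ⟨B, hB⟩ : ∃ B : Finset α, B = (Finset.univ.image X').filter
      (fun a => Real.exp (-(x - ζ)) < Q.pr (fun ω => X' ω = a)) := ⟨_, rfl⟩
  have hBcard : (B.card : ℝ) ≤ Real.exp (x - ζ) := by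
    have h1 : (B.card : ℝ) * Real.exp (-(x - ζ)) ≤ 1 := by
      calc (B.card : ℝ) * Real.exp (-(x - ζ)) = ∑ _a ∈ B, Real.exp (-(x - ζ)) := by
            rw [Finset.sum_const, nsmul_eq_mul]
        _ ≤ ∑ a ∈ B, Q.pr (fun ω => X' ω = a) := Finset.sum_le_sum fun a ha => by
            rw [hB, Finset.mem_filter] at ha
            exact ha.2.le
        _ ≤ 1 := ent_aux_sum_pr_le Q X' B
    rw [Real.exp_neg, ← div_eq_mul_inv, div_le_one (Real.exp_pos _)] at h1
    exact h1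
  have hheavy : Q.pr (fun ω' => X' ω' ∈ B) ≤ Kt ^ 2 * (L * Real.exp (t - ζ)) ^ (2 / 3 : ℝ) + Kt * ν := by
    have h1 := hrar (fun ω' => X' ω' ∈ B) (fun ω => X ω ∈ B.biUnion Lb)
      (fun ω ω' hT hC => Finset.mem_biUnion.2 ⟨X' ω', hT, hb ω ω' hC⟩)
    have h2 : P.pr (fun ω => X ω ∈ B.biUnion Lb) ≤ L * Real.exp (t - ζ) := by
      calc P.pr (fun ω => X ω ∈ B.biUnion Lb) ≤ (B.biUnion Lb).card * Real.exp (-(x - t)) :=
            re_aux_pr_mem P X _ fun a _ => hmax a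
        _ ≤ (B.card * L) * Real.exp (-(x - t)) :=
            mul_le_mul_of_nonneg_right (re_aux_card_biUnion B Lb hLb) (Real.exp_pos _).le
        _ ≤ (Real.exp (x - ζ) * L) * Real.exp (-(x - t)) :=
            mul_le_mul_of_nonneg_right (mul_le_mul_of_nonneg_right hBcard hL0) (Real.exp_pos _).le
        _ = L * (Real.exp (x - ζ) * Real.exp (-(x - t))) := by ring
        _ = L * Real.exp (t - ζ) := by
            rw [← Real.exp_add]
            congr 2
            ring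
    have h3 : (P.pr (fun ω => X ω ∈ B.biUnion Lb)) ^ (2 / 3 : ℝ) ≤ (L * Real.exp (t - ζ)) ^ (2 / 3 : ℝ) :=
      Real.rpow_le_rpow (ent_pr_nonneg P _) h2 (by norm_num)
    have h4 := ent_dom_pr hQ (fun ω' => X' ω' ∈ B)
    calc Q.pr (fun ω' => X' ω' ∈ B) ≤ Kt * P'.pr (fun ω' => X' ω' ∈ B) := h4
      _ ≤ Kt * (Kt * (L * Real.exp (t - ζ)) ^ (2 / 3 : ℝ) + ν) :=
          mul_le_mul_of_nonneg_left (h1.trans (by linarith [mul_le_mul_of_nonneg_left h3 hK0])) hK0
      _ = _ := by ring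
  -- support
  obtain ⟨V, hV⟩ : ∃ V : Finset α, V = ((Finset.univ.filter fun ω => P.p ω ≠ 0).image X).biUnion Lf := ⟨_, rfl⟩
  have hVcard : (V.card : ℝ) ≤ Real.exp (x + t) * L := by
    rw [hV]
    exact (re_aux_card_biUnion _ Lf hLf).trans (mul_le_mul_of_nonneg_right hcnt hL0)
  have hout : Q.pr (fun ω' => X' ω' ∉ V) ≤ Kt * ν := by
    have h1 := hrar (fun ω' => X' ω' ∉ V) (fun ω => P.p ω = 0) (fun ω ω' hT hC => by
      by_contra hp
      refine hT ?_
      rw [hV]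
      exact Finset.mem_biUnion.2 ⟨X ω, Finset.mem_image_of_mem _ (by simp [hp]), hf ω ω' hC⟩)
    have h2 : P.pr (fun ω => P.p ω = 0) = 0 := ent_pr_eq_zero P fun ω hω => hω
    rw [h2, Real.zero_rpow (by norm_num), mul_zero, zero_add] at h1
    exact (ent_dom_pr hQ _).trans (mul_le_mul_of_nonneg_left h1 hK0)
  -- light values inside the support
  have hlight : Q.pr (fun ω' => X' ω' ∈ V.filter (fun a => Q.pr (fun ω => X' ω = a) < Real.exp (-(x + ζ))))
      ≤ L * Real.exp (t - ζ) := by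
    calc Q.pr (fun ω' => X' ω' ∈ V.filter (fun a => Q.pr (fun ω => X' ω = a) < Real.exp (-(x + ζ))))
        ≤ (V.filter (fun a => Q.pr (fun ω => X' ω = a) < Real.exp (-(x + ζ)))).card * Real.exp (-(x + ζ)) :=
          re_aux_pr_mem Q X' _ fun a ha => (Finset.mem_filter.1 ha).2.le
      _ ≤ V.card * Real.exp (-(x + ζ)) := by
          refine mul_le_mul_of_nonneg_right ?_ (Real.exp_pos _).le
          exact_mod_cast Finset.card_filter_le _ _
      _ ≤ (Real.exp (x + t) * L) * Real.exp (-(x + ζ)) := mul_le_mul_of_nonneg_right hVcard (Real.exp_pos _).le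
      _ = L * (Real.exp (x + t) * Real.exp (-(x + ζ))) := by ring
      _ = L * Real.exp (t - ζ) := by
          rw [← Real.exp_add]
          congr 2
          ring
  -- assembly
  unfold reTyp
  have h1 := ent_pr_or_le Q (fun ω' => X' ω' ∈ B) (fun ω' => X' ω' ∉ V ∨
    X' ω' ∈ V.filter (fun a => Q.pr (fun ω => X' ω = a) < Real.exp (-(x + ζ))))
  have h2 := ent_pr_or_le Q (fun ω' => X' ω' ∉ V)
    (fun ω' => X' ω' ∈ V.filter (fun a => Q.pr (fun ω => X' ω = a) < Real.exp (-(x + ζ))))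
  refine le_trans (ent_pr_mono Q fun ω' hω' hbad => ?_) (le_trans h1 (by linarith))
  have hpos := ent_fib_pos Q X' hω'
  rcases lt_abs.1 hbad with h3 | h3
  · -- light
    right
    by_cases hv : X' ω' ∈ V
    · right
      refine Finset.mem_filter.2 ⟨hv, ?_⟩
      show Q.fib X' ω' < _
      rw [← Real.log_lt_iff_lt_exp hpos]
      linarith
    · exact Or.inl hv
  · -- heavy
    left
    rw [hB]
    refine Finset.mem_filter.2 ⟨Finset.mem_image_of_mem _ (Finset.mem_univ _), ?_⟩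
    show _ < Q.fib X' ω'
    rw [← Real.lt_log_iff_exp_lt hpos]
    linarith

/-! ## K5. greedy removal -/

/-- the induction of the greedy removal: after `n` rounds either no heavy portion is left or the removed mass is `≥ n θ μ(Ω)` -/
theorem re_aux_greedy {ι : Type} [Fintype Ω] [Nonempty ι] (μ : Ω → ℝ) (hμ : ∀ ω, 0 ≤ μ ω) (Sl : ι → Ω → Prop) (θ : ℝ)
    (Np : ℕ) (hNp1 : 1 ≤ Np) (n : ℕ) (hn : n ≤ Np) :
    ∃ (Rm : Ω → Prop) (lab : Ω → Fin Np) (ix : Fin Np → ι), (∀ ω, Rm ω → Sl (ix (lab ω)) ω) ∧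
      (∀ ω, Rm ω → (lab ω : ℕ) < n) ∧
      ((∀ s : ι, ∑ ω, (if ¬ Rm ω ∧ Sl s ω then μ ω else 0) ≤ θ * ∑ ω, μ ω) ∨
        (n : ℝ) * (θ * ∑ ω, μ ω) ≤ ∑ ω, (if Rm ω then μ ω else 0)) := by
  induction n with
  | zero =>
    refine ⟨fun _ => False, fun _ => ⟨0, by omega⟩, fun _ => Classical.arbitrary ι, fun ω h => h.elim,
      fun ω h => h.elim, Or.inr ?_⟩
    simp
  | succ n ih =>
    obtain ⟨Rm, lab, ix, h1, h2, h3⟩ := ih (by omega)
    by_cases hfin : ∀ s : ι, ∑ ω, (if ¬ Rm ω ∧ Sl s ω then μ ω else 0) ≤ θ * ∑ ω, μ ω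
    · exact ⟨Rm, lab, ix, h1, fun ω h => (h2 ω h).trans (Nat.lt_succ_self n), Or.inl hfin⟩
    · have h3' := h3.resolve_left hfin
      push Not at hfin
      obtain ⟨s, hs⟩ := hfin
      have hnn : n < Np := by omega
      refine ⟨fun ω => Rm ω ∨ Sl s ω, fun ω => if Rm ω then lab ω else ⟨n, hnn⟩, Function.update ix ⟨n, hnn⟩ s,
        ?_, ?_, Or.inr ?_⟩
      · intro ω hω
        by_cases hR : Rm ω
        · simp only [hR, if_true]
          have hne : lab ω ≠ ⟨n, hnn⟩ := by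
            intro he
            have := h2 ω hR
            rw [he] at this
            exact lt_irrefl _ this
          rw [Function.update_of_ne hne]
          exact h1 ω hR
        · simp only [hR, if_false, Function.update_self]
          exact hω.resolve_left hR
      · intro ω _
        by_cases hR : Rm ω
        · simp only [hR, if_true]
          exact (h2 ω hR).trans (Nat.lt_succ_self n)
        · simp only [hR, if_false]
          exact Nat.lt_succ_self n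
      · refine le_trans ?_ (le_of_eq (?_ : ∑ ω, (if Rm ω then μ ω else 0)
            + ∑ ω, (if ¬ Rm ω ∧ Sl s ω then μ ω else 0) = _))
        · push_cast
          linarith
        · rw [← Finset.sum_add_distrib]
          refine Finset.sum_congr rfl fun ω _ => ?_
          by_cases hR : Rm ω <;> by_cases hS : Sl s ω <;> simp [hR, hS]

/-- **greedy removal** (08 l.902-906).  `μ` a finite mass, `Sl s` a family of sets, `θ` a threshold.  Remove disjoint portions, each inside one `Sl s` and of mass `> θ μ(Ω)`, until none is left; there are `< 1/θ` portions.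
Induction on the cardinality of the residual set (or on `Np`).
OWNER helper159 (leaf L-256-RE-K5), EST 170 lines -/
theorem re_greedy {ι : Type} [Fintype Ω] [Nonempty ι] (μ : Ω → ℝ) (hμ : ∀ ω, 0 ≤ μ ω) (Sl : ι → Ω → Prop) {θ : ℝ} (hθ : 0 < θ)
    (Np : ℕ) (hNp : 1 / θ < Np + 1) (hNp1 : 1 ≤ Np) :
    ∃ (Rm : Ω → Prop) (lab : Ω → Fin Np) (ix : Fin Np → ι), (∀ ω, Rm ω → Sl (ix (lab ω)) ω) ∧
      ∀ s : ι, ∑ ω, (if ¬ Rm ω ∧ Sl s ω then μ ω else 0) ≤ θ * ∑ ω, μ ω := by
  obtain ⟨Rm, lab, ix, h1, _, h3⟩ := re_aux_greedy μ hμ Sl θ Np hNp1 Np le_rfl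
  refine ⟨Rm, lab, ix, h1, ?_⟩
  rcases h3 with h3 | h3
  · exact h3
  · intro s
    have hM : 0 ≤ ∑ ω, μ ω := Finset.sum_nonneg fun ω _ => hμ ω
    have h4 : ∑ ω, (if ¬ Rm ω ∧ Sl s ω then μ ω else 0) + ∑ ω, (if Rm ω then μ ω else 0) ≤ ∑ ω, μ ω := by
      rw [← Finset.sum_add_distrib]
      refine Finset.sum_le_sum fun ω _ => ?_
      have := hμ ω
      by_cases hR : Rm ω <;> by_cases hS : Sl s ω <;> simp [hR, hS, this]
    have h5 : 1 < (Np + 1) * θ := by
      rw [div_lt_iff₀ hθ] at hNp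
      exact hNp
    have h6 : (1 : ℝ) * ∑ ω, μ ω ≤ ((Np + 1) * θ) * ∑ ω, μ ω := mul_le_mul_of_nonneg_right h5.le hM
    nlinarith

/-! ## K6. popular cells -/

/-- the event `{surC X Y < log G}` is a list event: over every value of `Y` at most `G` values of `X` occur on its charged points (`ent_count`)
OWNER helper159 (leaf L-256-RE-K5), EST 80 lines -/
theorem re_popular [Fintype Ω] (P : FLaw Ω) (X : Ω → α) (Y : Ω → β) {G : ℝ} (hG : 0 < G) :
    ∃ L : β → Finset α, (∀ y, ((L y).card : ℝ) ≤ G) ∧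
      ∀ ω, P.p ω ≠ 0 → P.surC X Y ω < Real.log G → X ω ∈ L (Y ω) := by
  refine ⟨fun y => (Finset.univ.image X).filter
    (fun x => 1 / G * P.pr (fun ω => Y ω = y) < P.pr (fun ω => X ω = x ∧ Y ω = y)), fun y => ?_, fun ω hω hs => ?_⟩
  · by_cases hy : 0 < P.pr (fun ω => Y ω = y)
    · have h := ent_count P Y X y ((Finset.univ.image X).filter
        (fun x => 1 / G * P.pr (fun ω => Y ω = y) < P.pr (fun ω => X ω = x ∧ Y ω = y))) (c := 1 / G) (by positivity) hy
        (fun x hx => (Finset.mem_filter.1 hx).2.le)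
      rwa [one_div_one_div] at h
    · have hy0 : P.pr (fun ω => Y ω = y) = 0 := le_antisymm (not_lt.1 hy) (ent_pr_nonneg P _)
      have he : (Finset.univ.image X).filter
          (fun x => 1 / G * P.pr (fun ω => Y ω = y) < P.pr (fun ω => X ω = x ∧ Y ω = y)) = ∅ := by
        refine Finset.filter_eq_empty_iff.2 fun x _ => ?_
        rw [hy0, mul_zero, not_lt, ← hy0]
        exact ent_pr_mono P fun ω _ h => h.2
      show (((Finset.univ.image X).filter
          (fun x => 1 / G * P.pr (fun ω => Y ω = y) < P.pr (fun ω => X ω = x ∧ Y ω = y))).card : ℝ) ≤ G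
      rw [he]
      simpa using hG.le
  · refine Finset.mem_filter.2 ⟨Finset.mem_image_of_mem _ (Finset.mem_univ _), ?_⟩
    have h1 := ent_fib_pos P Y hω
    have h2 := ent_fib_pos P (pair X Y) hω
    have h3 : P.fib (pair X Y) ω = P.pr (fun ω' => X ω' = X ω ∧ Y ω' = Y ω) := ent_fib_pair P X Y ω
    rw [← h3]
    show 1 / G * P.fib Y ω < _
    unfold FLaw.surC at hs
    have h4 : Real.log (1 / G) < Real.log (P.fib (pair X Y) ω / P.fib Y ω) := by
      rw [one_div, Real.log_inv]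
      linarith
    have h5 := (Real.log_lt_log_iff (by positivity) (by positivity)).1 h4
    rwa [lt_div_iff₀ h1] at h5

end Claimed.Agent.R256
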