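import Claimed.Agent.R256.Re.ProfArr

/-!
# Row 256, unit RE, block II, file 5: THE FIELDS OF `RnQ.Ok` ON THE RESIDUAL LAW      (architect helper159)

Source: 08 l.788-847 ((query), lem:rt-time), l.849-971 (lem:rt-slab-removal, greedy half + last paragraph), l.1078-1127.
Context `c : ReCtx D η p d t N K es ts ζ τ r σ i j S R` (`Re/Prof.lean`): query `(i, j, S)`, `S = r σ`, cut `b = i + K S`, residual set `R` of mass `≥ tl(-t) tot`, law `c.P`, query `c.Q`.   Base `M = 2 ^ (D.m * σ)`, `log M = σ D.u`.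
`c.Q.Zc M k = D.Zc b j M k` etc. BY `rfl`.
LEAVES
* L-256-RE-Q1  `re_q_ang`, `re_q_angU`      (A1 + G4 `re_Z_iff`, `re_ZZ_iff` + K2, K3)      350 l.
* L-256-RE-Q2  `re_q_stat`      (A1 at the cuts `i` and `b` + K1, K3 + G6)      300 l.
* L-256-RE-Q3  `re_q_pt`, `re_q_wid`      (A1, A2 + G5 `re_det_Y`, G6, G7 `re_det_O` + K1-K3)      400 l.
* L-256-RE-T1  `re_time_mass`      (`tp` + `rar` + `massLo/Hi`)      200 l.
* L-256-RE-T2  `re_q_time`      (K6 `re_popular` + G8 `re_time_list` + G4 `re_tc_eq` + T1 + numerics)      400 l.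
* L-256-RE-S1  `re_slab_res`      (K5 `re_greedy` fibrewise + `Ok.slab`)      300 l.
* L-256-RE-S2  `re_q_slab`      (surviving fractions)      300 l.
* L-256-RE-Q0  `re_q_ok`      (glue, PROVED here from the fields)
-/

set_option autoImplicit false

namespace Claimed.Agent.R256

open Claimed.Agent.R255
open Claimed.Agent.R255.FLaw (pair)
open scoped BigOperators
open Classical

/-- the residual property of lem:rt-slab-removal: every slab of width `w` carries at most `θ` of the ORIGINAL mass of its name pair -/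
def ReDoc.Res (D : ReDoc) (i j b : ℕ) (w θ : ℝ) (R : D.Row b → Prop) : Prop :=
  ∀ (x : ReName × ReName) (n : ℝ × ℝ × ℝ) (c : ℝ), n.1 ^ 2 + n.2.1 ^ 2 + n.2.2 ^ 2 = 1 →
    D.mass b (fun ω => R ω ∧ (D.nm b i j ω, D.nm b b j ω) = x ∧ D.InSlab b j n c w ω)
      ≤ θ * D.mass b (fun ω => (D.nm b i j ω, D.nm b b j ω) = x)

theorem re_res_eqns_cite : True := by
  have := @ReDoc.Res.eq_1
  trivial

variable {D : ReDoc} {η p d t N : ℝ} {K : ℕ} {es ts ζ τ : ℝ} {r σ i j S : ℕ} {R : D.Row (i + K * S) → Prop}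

/-- OWNER helper159 (leaf L-256-RE-Q1), EST 116 lines -/
theorem re_log_M (D : ReDoc) (σ : ℕ) : Real.log ((2 ^ (D.m * σ) : ℕ) : ℝ) = σ * D.u := by
  push_cast
  rw [Real.log_pow]
  unfold ReDoc.u
  push_cast
  ring

/-! ## Q1. the angular scores -/

/-! ### elementary facts of a query context -/

theorem ReCtx.S_pos (c : ReCtx D η p d t N K es ts ζ τ r σ i j S R) : 1 ≤ S := by
  rw [c.hS]
  exact Nat.mul_pos c.r1 c.s1

theorem ReCtx.S_le (c : ReCtx D η p d t N K es ts ζ τ r σ i j S R) : S ≤ K * S :=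
  Nat.le_mul_of_pos_left _ (by have := c.K2; omega)

theorem ReCtx.b_pos (c : ReCtx D η p d t N K es ts ζ τ r σ i j S R) : 0 < i + K * S :=
  lt_of_lt_of_le c.dom.1 (Nat.le_add_right _ _)

theorem ReCtx.b_lt (c : ReCtx D η p d t N K es ts ζ τ r σ i j S R) : i + K * S < D.q := by
  have := c.dom.2.2
  omega

theorem ReCtx.q_pos (c : ReCtx D η p d t N K es ts ζ τ r σ i j S R) : 1 ≤ D.q := by
  have := c.b_lt
  omega

theorem ReCtx.val (c : ReCtx D η p d t N K es ts ζ τ r σ i j S R) {w : ℕ} (hw : w ≤ j + K * S) :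
    RnVal D.q (i + K * S) w := by
  refine ⟨c.b_pos, ?_⟩
  have := c.dom.2.2
  omega

theorem ReCtx.sub_le (c : ReCtx D η p d t N K es ts ζ τ r σ i j S R) {k : ℕ} (hk : k ≤ r) : k * σ ≤ S := by
  rw [c.hS]
  exact Nat.mul_le_mul_right _ hk

theorem ReCtx.typG (c : ReCtx D η p d t N K es ts ζ τ r σ i j S R) {i' j' w : ℕ} (hi : 0 < i') (hib : i' ≤ i + K * S)
    (hjw : j' ≤ w) (hw : w ≤ j + K * S) :
    reTyp c.P (pair (D.nm (i + K * S) i' j') (D.an (i + K * S) w)) (D.Gn i' j' w * D.u) (ζ * D.u) (D.dl ζ) :=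
  re_stab_G c.ok c.sm c.N1 hi hib c.b_lt hjw (c.val hw) R c.res c.pos

theorem ReCtx.typC (c : ReCtx D η p d t N K es ts ζ τ r σ i j S R) {i' j' : ℕ} (hi : 0 < i') (hib : i' ≤ i + K * S)
    (hw : j' ≤ j + K * S) :
    reTyp c.P (D.nm (i + K * S) i' j') (D.Dn i' j' * D.u) (ζ * D.u) (D.dl ζ) :=
  re_stab_C c.ok c.sm c.N1 hi hib c.b_lt (c.val hw) R c.res c.pos

theorem ReCtx.i_lt (c : ReCtx D η p d t N K es ts ζ τ r σ i j S R) : i < D.q :=
  lt_of_le_of_lt (Nat.le_add_right _ _) c.b_lt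

theorem ReCtx.sig_ge (c : ReCtx D η p d t N K es ts ζ τ r σ i j S R) : (1 : ℝ) ≤ σ := by
  exact_mod_cast c.s1

/-- `(Z_k, C)` has the score of `(C, A_{j + k σ})` -/
theorem ReCtx.typZ (c : ReCtx D η p d t N K es ts ζ τ r σ i j S R) {k : ℕ} (hk : k * σ ≤ K * S) :
    reTyp c.P (pair (D.Zc (i + K * S) j (2 ^ (D.m * σ)) k) (D.nm (i + K * S) i j)) (D.Gn i j (j + k * σ) * D.u) (ζ * D.u)
      (D.dl ζ) :=
  re_typ_congr (c.typG c.dom.1 (Nat.le_add_right _ _) (Nat.le_add_right _ _) (Nat.add_le_add_left hk _))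
    fun ω ω' => (re_Z_iff D c.ok.H_pos _ i j σ k ω ω').symm

/-- branching of `Z_k` over any root name of width `j` -/
theorem re_aux_det_Z (D : ReDoc) (hH : 0 < D.H) (b i j σ k : ℕ) :
    ReDet (D.nm b i j) (D.Zc b j (2 ^ (D.m * σ)) k) ((2 : ℝ) ^ (2 * D.m * (k * σ))) := by
  have h1 : ReDet (D.nm b i j) (D.an b (j + k * σ)) (1 * (2 : ℝ) ^ (2 * D.m * (j + k * σ - j))) :=
    re_det_trans zero_le_one (by positivity) (re_det_of_eq (fun x : ReName => x.2.1) fun ω => rfl)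
      (re_det_an_up D hH b (Nat.le_add_right _ _))
  rw [one_mul, Nat.add_sub_cancel_left] at h1
  have h2 : ReDet (pair (D.nm b i j) (D.an b (j + k * σ))) (D.Zc b j (2 ^ (D.m * σ)) k) 1 :=
    re_det_of_eq (fun x : ReName × (ℤ × ℤ) => (x.2.1 - 2 ^ (D.m * σ * k) * x.1.2.1.1, x.2.2 - 2 ^ (D.m * σ * k) * x.1.2.1.2))
      fun ω => re_Zc_eq D hH b j σ k ω
  have h3 := re_det_chain (by positivity) zero_le_one h1 h2
  rwa [mul_one] at h3

/-- (rt-angular-score), hereditary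
OWNER helper159 (leaf L-256-RE-Q1), EST 116 lines -/
theorem re_q_ang (c : ReCtx D η p d t N K es ts ζ τ r σ i j S R) (k k' : ℕ) (hk : k ≤ k') (hk' : k' ≤ r) :
    c.Q.P.pr (fun ω => c.Q.P.surC (c.Q.Zc (2 ^ (D.m * σ)) k') (pair (c.Q.Zc (2 ^ (D.m * σ)) k) c.Q.C) ω
      < (D.Jp i j (j + k' * σ) / (σ : ℝ) - D.Jp i j (j + k * σ) / (σ : ℝ) - τ) * Real.log ((2 ^ (D.m * σ) : ℕ) : ℝ)) ≤ τ := by
  have hu := re_aux_u_pos c.sm
  have hτ := re_aux_tau_pos c.sm
  have hσ := c.sig_ge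
  have hσ0 : (0 : ℝ) < σ := by linarith
  have hkS : k' * σ ≤ K * S := (c.sub_le hk').trans c.S_le
  have hkS' : k * σ ≤ K * S := (c.sub_le (hk.trans hk')).trans c.S_le
  have t1 : reTyp c.P (pair (D.Zc (i + K * S) j (2 ^ (D.m * σ)) k')
      (pair (D.Zc (i + K * S) j (2 ^ (D.m * σ)) k) (D.nm (i + K * S) i j))) (D.Gn i j (j + k' * σ) * D.u) (ζ * D.u) (D.dl ζ) :=
    re_typ_congr (c.typG c.dom.1 (Nat.le_add_right _ _) (Nat.le_add_right _ _) (Nat.add_le_add_left hkS _))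
      fun ω ω' => (re_ZZ_iff D c.ok.H_pos _ i j σ hk ω ω').symm
  have t2 := c.typZ hkS'
  have h1 := re_typ_surC c.P _ _ t1 t2
  rw [re_log_M, re_aux_Jp_lt D c.i_lt, re_aux_Jp_lt D c.i_lt]
  have hd := (re_aux_dl_le c.sm c.q_pos).1
  have hq1 : (1 : ℝ) ≤ D.q := by exact_mod_cast c.q_pos
  have hd0 := re_aux_dl_pos D ζ
  have hd2 : D.dl ζ + D.dl ζ ≤ τ := by nlinarith
  refine le_trans (ent_pr_mono c.P fun ω _ hω => ?_) (h1.trans hd2)
  have e1 : ((D.Gn i j (j + k' * σ) - D.Dn i j) / (σ : ℝ) - (D.Gn i j (j + k * σ) - D.Dn i j) / (σ : ℝ) - τ) * (σ * D.u)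
      = (D.Gn i j (j + k' * σ) - D.Gn i j (j + k * σ)) * D.u - τ * σ * D.u := by
    field_simp
    ring
  have hω' : c.P.surC (D.Zc (i + K * S) j (2 ^ (D.m * σ)) k')
      (pair (D.Zc (i + K * S) j (2 ^ (D.m * σ)) k) (D.nm (i + K * S) i j)) ω
      < (D.Gn i j (j + k' * σ) - D.Gn i j (j + k * σ)) * D.u - τ * σ * D.u := by
    rw [← e1]
    exact hω
  have e2 : τ * D.u ≤ τ * σ * D.u := mul_le_mul_of_nonneg_right (le_mul_of_one_le_right hτ.1.le hσ) hu.le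
  have e3 : (2 * ζ) * D.u < τ * D.u := mul_lt_mul_of_pos_right (by linarith [c.sm.zt, hτ.2]) hu
  refine lt_of_lt_of_le ?_ (neg_le_abs _)
  linarith

/-- OWNER helper159 (leaf L-256-RE-Q1), EST 116 lines -/
theorem re_q_angU (c : ReCtx D η p d t N K es ts ζ τ r σ i j S R) :
    c.Q.P.entC (c.Q.Zc (2 ^ (D.m * σ)) r) c.Q.C
      ≤ (D.Jp i j (j + r * σ) / (σ : ℝ) + τ) * Real.log ((2 ^ (D.m * σ) : ℕ) : ℝ) := by
  have hu := re_aux_u_pos c.sm
  have hτ := re_aux_tau_pos c.sm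
  have hσ := c.sig_ge
  have hσ0 : (0 : ℝ) < σ := by linarith
  have hrS : r * σ ≤ K * S := (c.sub_le le_rfl).trans c.S_le
  have hSq : ((r * σ : ℕ) : ℝ) ≤ D.q := by
    have := c.b_lt
    exact_mod_cast (by omega : r * σ ≤ D.q)
  have h1 := re_aux_ent_le c.sm c.q_pos c.P (D.Zc (i + K * S) j (2 ^ (D.m * σ)) r) (D.nm (i + K * S) i j)
    (re_aux_typ2 D ζ (c.typZ hrS)) (re_aux_typ2 D ζ (c.typC c.dom.1 (Nat.le_add_right _ _) (Nat.le_add_right _ _)))
    (B := 2 * ((r * σ : ℕ) : ℝ)) (one_le_pow₀ (by norm_num)) (by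
      rw [re_aux_log_pow, add_mul]
      have := (mul_pos c.sm.t_pos hu).le
      push_cast
      linarith) (by linarith) (re_aux_det_Z D c.ok.H_pos _ i j σ r)
  rw [re_log_M, re_aux_Jp_lt D c.i_lt]
  refine le_trans h1 ?_
  have e1 : ((D.Gn i j (j + r * σ) - D.Dn i j) / (σ : ℝ) + τ) * (σ * D.u)
      = (D.Gn i j (j + r * σ) - D.Dn i j) * D.u + τ * σ * D.u := by
    field_simp
  rw [e1]
  have e2 : τ * D.u ≤ τ * σ * D.u := mul_le_mul_of_nonneg_right (le_mul_of_one_le_right hτ.1.le hσ) hu.le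
  have e3 : (ζ + ζ + τ / 20) * D.u ≤ τ * D.u := mul_le_mul_of_nonneg_right (by linarith [c.sm.zt, hτ.2]) hu.le
  nlinarith

/-! ## Q2. stationarity -/

theorem ReCtx.KS_eq (c : ReCtx D η p d t N K es ts ζ τ r σ i j S R) : K * r * σ = K * S := by
  rw [c.hS, mul_assoc]

/-- (rt-stationary-information): `I(Z;C'|C) = H(Z|C) - H(Z|C',C)`, `H(Z|C',C) ≥ H(Z|C') - log 64`
OWNER helper159 (leaf L-256-RE-Q2), EST 300 lines -/
theorem re_q_stat (c : ReCtx D η p d t N K es ts ζ τ r σ i j S R) :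
    c.Q.P.miC (c.Q.Zc (2 ^ (D.m * σ)) (K * r)) c.Q.C' c.Q.C
      ≤ ((D.Jp i j (j + K * S) - D.Jp (i + K * S) j (j + K * S)) / (σ : ℝ) + τ) * Real.log ((2 ^ (D.m * σ) : ℕ) : ℝ) := by
  have hu := re_aux_u_pos c.sm
  have hτ := re_aux_tau_pos c.sm
  have hσ := c.sig_ge
  have hσ0 : (0 : ℝ) < σ := by linarith
  have hH := c.ok.H_pos
  have hKS := c.KS_eq
  have hq1 : (1 : ℝ) ≤ D.q := by exact_mod_cast c.q_pos
  have hKSq : ((K * S : ℕ) : ℝ) ≤ D.q := by
    have := c.b_lt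
    exact_mod_cast (by omega : K * S ≤ D.q)
  obtain ⟨Z, hZ⟩ : ∃ Z, Z = D.Zc (i + K * S) j (2 ^ (D.m * σ)) (K * r) := ⟨_, rfl⟩
  show c.P.miC (D.Zc (i + K * S) j (2 ^ (D.m * σ)) (K * r)) (D.nm (i + K * S) (i + K * S) j) (D.nm (i + K * S) i j) ≤ _
  rw [← hZ, ent_miC_eq]
  -- upper bound of `H(Z | C)`
  have tZ := c.typZ (k := K * r) (le_of_eq hKS)
  rw [hKS, ← hZ] at tZ
  have hdet := re_aux_det_Z D hH (i + K * S) i j σ (K * r)
  rw [hKS, ← hZ] at hdet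
  have up := re_aux_ent_le c.sm c.q_pos c.P Z (D.nm (i + K * S) i j)
    (re_aux_typ2 D ζ tZ) (re_aux_typ2 D ζ (c.typC c.dom.1 (Nat.le_add_right _ _) (Nat.le_add_right _ _)))
    (B := 2 * ((K * S : ℕ) : ℝ)) (one_le_pow₀ (by norm_num)) (by
      rw [re_aux_log_pow, add_mul]
      have := (mul_pos c.sm.t_pos hu).le
      push_cast
      linarith) (by linarith) hdet
  -- lower bound of `H(Z | C')`
  have tZ' : reTyp c.P (pair Z (D.nm (i + K * S) (i + K * S) j)) (D.Gn (i + K * S) j (j + K * S) * D.u) (ζ * D.u) (D.dl ζ) := by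
    have h1 := c.typG (i' := i + K * S) (j' := j) (w := j + K * S) c.b_pos le_rfl (Nat.le_add_right _ _) le_rfl
    refine re_typ_congr h1 fun ω ω' => ?_
    have h2 := (re_Z_iff D hH (i + K * S) (i + K * S) j σ (K * r) ω ω').symm
    rw [hKS, ← hZ] at h2
    exact h2
  have hstep := (re_gn_step c.ok c.sm c.N1 c.b_lt (c.val (le_refl (j + K * S))) le_rfl (Nat.le_add_right j (K * S))).2
  have hdiag := (abs_le.1 (re_gn_diag c.ok c.sm c.N1 c.b_lt (c.val (Nat.le_add_right j (K * S))))).2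
  have hζ1 : ζ ≤ 1 / 100 := by
    have := c.sm.zt
    have := c.sm.t1
    linarith
  have lo := re_aux_ent_ge c.sm c.q_pos c.P Z (D.nm (i + K * S) (i + K * S) j) (re_aux_typ2 D ζ tZ')
    (re_aux_typ2 D ζ (c.typC c.b_pos le_rfl (Nat.le_add_right _ _))) hτ.2.le hτ.2.le (by
      push_cast at hstep hKSq ⊢
      linarith)
  have mid := re_entC_det c.P Z (pair (D.nm (i + K * S) (i + K * S) j) (D.nm (i + K * S) i j)) (D.nm (i + K * S) (i + K * S) j)
    (N := 1 * 2 ^ 6) (re_det_pair zero_le_one (re_det_of_eq id fun ω => rfl)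
      (re_det_a_dn D hH j (Nat.le_add_right i (K * S)) le_rfl))
  have hlog := re_aux_log_const c.sm (c := 1 * 2 ^ 6) (by norm_num) (by norm_num)
  rw [re_log_M, re_aux_Jp_lt D c.i_lt, re_aux_Jp_lt D c.b_lt]
  have e1 : ((D.Gn i j (j + K * S) - D.Dn i j - (D.Gn (i + K * S) j (j + K * S) - D.Dn (i + K * S) j)) / (σ : ℝ) + τ) * (σ * D.u)
      = (D.Gn i j (j + K * S) - D.Dn i j - (D.Gn (i + K * S) j (j + K * S) - D.Dn (i + K * S) j)) * D.u + τ * σ * D.u := by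
    field_simp
  rw [e1]
  have e2 : τ * D.u ≤ τ * σ * D.u := mul_le_mul_of_nonneg_right (le_mul_of_one_le_right hτ.1.le hσ) hu.le
  have e3 : (4 * ζ + t + τ / 10) * D.u ≤ τ * D.u :=
    mul_le_mul_of_nonneg_right (by linarith [c.sm.zt, c.sm.tz, hτ.2]) hu.le
  nlinarith

/-! ## Q3. the point score and the width increment -/

/-- adjoining a coarser name which is determined up to a constant -/
theorem re_aux_typ_adj (sm : ReSm D t ζ τ) {Ω α β : Type} [Fintype Ω] (P : FLaw Ω) (X : Ω → α) (Y : Ω → β) {x c : ℝ}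
    (hX : reTyp P X (x * D.u) (ζ * D.u) (D.dl ζ)) (hc1 : 1 ≤ c) (hc : c ≤ 2 ^ 60) (h : ReDet X Y c) :
    reTyp P (pair X Y) (x * D.u) ((2 * ζ) * D.u) (2 * D.dl ζ) := by
  have hu := re_aux_u_pos sm
  have hτ := re_aux_tau_pos sm
  have hd0 := re_aux_dl_pos D ζ
  have h1 := re_aux_typ_swap (re_typ_pair P X Y hX hc1 h hd0 (mul_nonneg hτ.2.le hu.le))
  refine re_typ_mono h1 ?_ le_rfl
  have h2 : Real.log (c / D.dl ζ) = Real.log c + Real.log (1 / D.dl ζ) := by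
    rw [div_eq_mul_one_div, Real.log_mul (by positivity) (by positivity)]
  have h3 := re_aux_log_dl D ζ
  have h4 := re_aux_log_const sm (by linarith : 0 < c) hc
  have h5 : (t + ζ / 4) * D.u ≤ ζ * D.u := mul_le_mul_of_nonneg_right (by linarith [sm.tz, sm.t_pos]) hu.le
  rw [h2]
  nlinarith

/-- (rt-point-score), upper half
OWNER helper159 (leaf L-256-RE-Q3), EST 200 lines -/
theorem re_q_pt (c : ReCtx D η p d t N K es ts ζ τ r σ i j S R) :
    c.Q.P.entC (c.Q.Oc (2 ^ (D.m * σ)) r) c.Q.C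
      ≤ ((D.Dp (i + S) j - D.Dp i j) / (σ : ℝ) + τ) * Real.log ((2 ^ (D.m * σ) : ℕ) : ℝ) := by
  have hu := re_aux_u_pos c.sm
  have hτ := re_aux_tau_pos c.sm
  have hσ := c.sig_ge
  have hσ0 : (0 : ℝ) < σ := by linarith
  have hH := c.ok.H_pos
  have hSK := c.S_le
  have hiS : i + S ≤ i + K * S := Nat.add_le_add_left hSK _
  have hiSq : i + S < D.q := lt_of_le_of_lt hiS c.b_lt
  have hSq : (S : ℝ) ≤ D.q := by
    have := c.b_lt
    exact_mod_cast (by omega : S ≤ D.q)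
  show c.P.entC (D.Oc (i + K * S) i j (2 ^ (D.m * σ)) r) (D.nm (i + K * S) i j) ≤ _
  have hO := re_det_O D hH i j r σ (K * S) (by rw [← c.hS]; exact hSK)
  rw [← c.hS] at hO
  have s1 := re_entC_det_left c.P _ _ _ hO
  have tC1 := c.typC (i' := i + S) (j' := j) (by have := c.dom.1; omega) hiS (Nat.le_add_right _ _)
  have tC := c.typC (i' := i) (j' := j) c.dom.1 (Nat.le_add_right _ _) (Nat.le_add_right _ _)
  have tp := re_aux_typ_adj c.sm c.P _ _ tC1 (by norm_num) (by norm_num)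
    (re_det_a_dn D hH j (Nat.le_add_right i S) hiS)
  have s2 := re_aux_ent_le c.sm c.q_pos c.P (D.nm (i + K * S) (i + S) j) (D.nm (i + K * S) i j) tp (re_aux_typ2 D ζ tC)
    (B := 4 * (S : ℝ)) (one_le_mul_of_one_le_of_one_le (by norm_num) (one_le_pow₀ (by norm_num))) (by
      rw [Real.log_mul (by norm_num) (by positivity), re_aux_log_pow, add_mul, Nat.add_sub_cancel_left]
      have := re_aux_log_const c.sm (c := 2 ^ 6) (by norm_num) (by norm_num)
      push_cast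
      linarith) (by linarith) (re_det_a_up D hH j (Nat.le_add_right i S) hiS)
  have hlog := re_aux_log_const c.sm (c := 2 ^ 8) (by norm_num) (by norm_num)
  rw [re_log_M, re_aux_Dp_lt D c.i_lt, re_aux_Dp_lt D hiSq]
  have e1 : ((D.Dn (i + S) j - D.sh - (D.Dn i j - D.sh)) / (σ : ℝ) + τ) * (σ * D.u)
      = (D.Dn (i + S) j - D.Dn i j) * D.u + τ * σ * D.u := by
    field_simp
    ring
  rw [e1]
  have e2 : τ * D.u ≤ τ * σ * D.u := mul_le_mul_of_nonneg_right (le_mul_of_one_le_right hτ.1.le hσ) hu.le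
  have e3 : (3 * ζ + t + τ / 20) * D.u ≤ τ * D.u :=
    mul_le_mul_of_nonneg_right (by linarith [c.sm.zt, c.sm.tz, hτ.2]) hu.le
  nlinarith

/-- OWNER helper159 (leaf L-256-RE-Q3), EST 200 lines -/
theorem re_q_wid (c : ReCtx D η p d t N K es ts ζ τ r σ i j S R) :
    ((D.Dp i (j + S) - D.Dp i j) / (σ : ℝ) - τ) * Real.log ((2 ^ (D.m * σ) : ℕ) : ℝ)
      ≤ c.Q.P.entC (c.Q.Yc (2 ^ (D.m * σ)) r) c.Q.C + r * Real.log ((2 ^ (D.m * σ) : ℕ) : ℝ) := by
  have hu := re_aux_u_pos c.sm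
  have hτ := re_aux_tau_pos c.sm
  have hσ := c.sig_ge
  have hσ0 : (0 : ℝ) < σ := by linarith
  have hH := c.ok.H_pos
  have hSK := c.S_le
  have hjS : j + S ≤ j + K * S := Nat.add_le_add_left hSK _
  have h6S : 6 * (S : ℝ) ≤ D.q := by
    have h1 := c.dom.2.2
    have h2 : 2 * S ≤ K * S := Nat.mul_le_mul_right _ c.K2
    exact_mod_cast (by omega : 6 * S ≤ D.q)
  have hq1 : (1 : ℝ) ≤ D.q := by exact_mod_cast c.q_pos
  show _ ≤ c.P.entC (pair (D.Zc (i + K * S) j (2 ^ (D.m * σ)) r) (D.Wc (i + K * S) i j (2 ^ (D.m * σ)) r))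
    (D.nm (i + K * S) i j) + _
  have hY := re_det_Y D hH (i + K * S) i j r σ
  rw [← c.hS] at hY
  have s1 := re_entC_det_left c.P _ _ _ hY
  have tC2 := c.typC (i' := i) (j' := j + S) c.dom.1 (Nat.le_add_right _ _) hjS
  have tC := c.typC (i' := i) (j' := j) c.dom.1 (Nat.le_add_right _ _) (Nat.le_add_right _ _)
  have tp := re_aux_typ_adj c.sm c.P _ _ tC2 (by norm_num) (by norm_num)
    (re_det_w_dn D hH (i + K * S) i (Nat.le_add_right j S))
  have hvi : RnVal D.q i (j + S) := ⟨c.dom.1, by have := (c.val hjS).2; omega⟩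
  have hdn := (re_dn_w c.ok c.sm c.N1 c.i_lt hvi (Nat.le_add_right j S)).2
  have hζ1 : ζ ≤ 1 / 100 := by
    have := c.sm.zt
    have := c.sm.t1
    linarith
  have s2 := re_aux_ent_ge c.sm c.q_pos c.P (D.nm (i + K * S) i (j + S)) (D.nm (i + K * S) i j) tp (re_aux_typ2 D ζ tC)
    (by linarith) hτ.2.le (by
      push_cast at hdn
      linarith)
  have hlog : Real.log (2 ^ 4 * (2 : ℝ) ^ (D.m * S)) ≤ t * D.u + S * D.u := by
    rw [Real.log_mul (by norm_num) (by positivity)]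
    have h1 := re_aux_log_const c.sm (c := 2 ^ 4) (by norm_num) (by norm_num)
    have h2 := re_aux_log_pow D 1 S
    rw [one_mul] at h2
    rw [h2]
    push_cast
    linarith
  rw [re_log_M, re_aux_Dp_lt D c.i_lt, re_aux_Dp_lt D c.i_lt]
  have e1 : ((D.Dn i (j + S) - D.sh - (D.Dn i j - D.sh)) / (σ : ℝ) - τ) * (σ * D.u)
      = (D.Dn i (j + S) - D.Dn i j) * D.u - τ * σ * D.u := by
    field_simp
    ring
  have e4 : (r : ℝ) * (σ * D.u) = S * D.u := by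
    rw [c.hS]
    push_cast
    ring
  rw [e1, e4]
  have e2 : τ * D.u ≤ τ * σ * D.u := mul_le_mul_of_nonneg_right (le_mul_of_one_le_right hτ.1.le hσ) hu.le
  have e3 : (3 * ζ + t + τ / 20) * D.u ≤ τ * D.u :=
    mul_le_mul_of_nonneg_right (by linarith [c.sm.zt, c.sm.tz, hτ.2]) hu.le
  nlinarith

/-! ## T. time spread -/

/-- counting with arbitrary decidability instances -/
theorem re_aux_sum_ite_le {α : Type} (s : Finset α) (P Q : α → Prop) {dP : ∀ x, Decidable (P x)} {dQ : DecidablePred Q} (c : ℝ) (hc : 0 ≤ c)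
    (h : ∀ x, P x → Q x) : ∑ x ∈ s, (if P x then c else 0) ≤ ((s.filter Q).card : ℝ) * c := by
  rw [← nsmul_eq_mul, ← Finset.sum_const, Finset.sum_filter]
  refine Finset.sum_le_sum fun x _ => ?_
  by_cases hp : P x
  · rw [if_pos hp, if_pos (h x hp)]
  · rw [if_neg hp]
    split_ifs
    · exact hc
    · exact le_rfl

/-- **contraction on every interval + rarity transfer** (08 l.832-840).  If every row of the cut `a` feeds the marked set of `T` at `≤ G` intervals of the cut `l`, then `T` is rare.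
`Sg = {ω1 : ∃ ω2, T ω2 ∧ Conn l b ω1 ω2}`;  `rar` from `l` to `b`;  `tp` from `a` to `l` applied to `Sg`;  `∑_J mass_a {..J..} = ∑_ω ms ω · #{J} ≤ G tot_a`.
OWNER helper159 (leaf L-256-RE-T1), EST 200 lines -/
theorem re_time_mass (h : D.Ok η p d t N K es ts) {a l b : ℕ} (ha : 0 < a) (hal : a < l) (hlb : l < b) (hb : b < D.q)
    (T : D.Row b → Prop) {G : ℝ}
    (hG : ∀ ω0 : D.Row a, (((Finset.univ.image (D.iv l)).filter fun J => ∃ (ω1 : D.Row l) (ω2 : D.Row b), T ω2 ∧ D.iv l ω1 = J ∧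
      D.Conn (D.tl t) a l ω0 ω1 ∧ D.Conn (D.tl t) l b ω1 ω2).card : ℝ) ≤ G) :
    D.mass b T / D.tot b ≤ D.tl t * (D.tl t * G * D.tot a / D.tot l + D.tl (-N)) ^ (2 / 3 : ℝ) + D.tl (-N) := by
  have hl0 : 0 < l := ha.trans hal
  have hlq : l < D.q := hlb.trans hb
  have htl : 0 < D.tot l := re_tot_pos h hl0 hlq
  have ht0 := re_tl_pos D t
  have h1 := h.rar l b hl0 hlb hb T (fun ω1 => ∃ ω2, T ω2 ∧ D.Conn (D.tl t) l b ω1 ω2) (fun ω ω' hT hc => ⟨ω', hT, hc⟩)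
  have h2 := h.tp a l ha hal hlq (fun ω1 => ∃ ω2, T ω2 ∧ D.Conn (D.tl t) l b ω1 ω2)
  have h3 : ∑ J ∈ (Finset.univ.image (D.iv l)),
      D.mass a (fun ω => ∃ ω', (∃ ω2, T ω2 ∧ D.Conn (D.tl t) l b ω' ω2) ∧ D.iv l ω' = J ∧ D.Conn (D.tl t) a l ω ω') ≤ G * D.tot a := by
    unfold ReDoc.mass ReDoc.tot
    rw [Finset.sum_comm, Finset.mul_sum]
    refine Finset.sum_le_sum fun ω0 _ => ?_
    refine le_trans ?_ (mul_le_mul_of_nonneg_right (hG ω0) (h.ms_nn a ω0))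
    refine re_aux_sum_ite_le _ _ _ _ (h.ms_nn a ω0) fun J hJ => ?_
    obtain ⟨ω1, ⟨ω2, hT, hc2⟩, hiv, hc1⟩ := hJ
    exact ⟨ω1, ω2, hT, hiv, hc1, hc2⟩
  have h4 : D.mass l (fun ω1 => ∃ ω2, T ω2 ∧ D.Conn (D.tl t) l b ω1 ω2) / D.tot l ≤ D.tl t * G * D.tot a / D.tot l + D.tl (-N) := by
    rw [div_add' _ _ _ htl.ne', div_le_div_iff_of_pos_right htl]
    refine h2.trans ?_
    have := mul_le_mul_of_nonneg_left h3 ht0.le
    linarith
  have h5 : 0 ≤ D.mass l (fun ω1 => ∃ ω2, T ω2 ∧ D.Conn (D.tl t) l b ω1 ω2) / D.tot l := by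
    refine div_nonneg (Finset.sum_nonneg fun ω _ => ?_) htl.le
    split_ifs
    · exact h.ms_nn l ω
    · exact le_rfl
  have h6 := Real.rpow_le_rpow h5 h4 (by norm_num : (0 : ℝ) ≤ 2 / 3)
  have h7 := mul_le_mul_of_nonneg_left h6 ht0.le
  linarith

/-- the numerics of lem:rt-time -/
theorem re_aux_time_num (sm : ReSm D t ζ τ) (hq : 1 ≤ D.q) (hN : 1 ≤ N) :
    D.tl t * (D.tl t * (D.tl (10 * t - τ) + D.tl (-N)) ^ (2 / 3 : ℝ) + D.tl (-N)) ≤ τ := by
  have ht := sm.t_pos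
  have htz := sm.tz
  have hzt := sm.zt
  have ht1 := sm.t1
  have h2 : (2 : ℝ) ≤ D.tl t := le_trans (by norm_num) sm.big
  have a1 : D.tl (10 * t - τ) + D.tl (-N) ≤ D.tl (11 * t - τ) := by
    have b1 : D.tl (-N) ≤ D.tl (10 * t - τ) := re_tl_mono D (by linarith)
    calc D.tl (10 * t - τ) + D.tl (-N) ≤ 2 * D.tl (10 * t - τ) := by linarith
      _ ≤ D.tl t * D.tl (10 * t - τ) := mul_le_mul_of_nonneg_right h2 (re_tl_pos D _).le
      _ = D.tl (11 * t - τ) := by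
          rw [← re_tl_add]
          congr 1
          ring
  have a2 : (D.tl (10 * t - τ) + D.tl (-N)) ^ (2 / 3 : ℝ) ≤ D.tl ((11 * t - τ) * (2 / 3)) := by
    rw [← re_tl_rpow]
    exact Real.rpow_le_rpow (add_pos (re_tl_pos D _) (re_tl_pos D _)).le a1 (by norm_num)
  have a3 : D.tl t * (D.tl (10 * t - τ) + D.tl (-N)) ^ (2 / 3 : ℝ) + D.tl (-N) ≤ D.tl (2 * t + (11 * t - τ) * (2 / 3)) := by
    have b1 : D.tl t * (D.tl (10 * t - τ) + D.tl (-N)) ^ (2 / 3 : ℝ) ≤ D.tl (t + (11 * t - τ) * (2 / 3)) := by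
      rw [re_tl_add]
      exact mul_le_mul_of_nonneg_left a2 (re_tl_pos D _).le
    have b2 : D.tl (-N) ≤ D.tl (t + (11 * t - τ) * (2 / 3)) := re_tl_mono D (by linarith)
    calc D.tl t * (D.tl (10 * t - τ) + D.tl (-N)) ^ (2 / 3 : ℝ) + D.tl (-N)
        ≤ 2 * D.tl (t + (11 * t - τ) * (2 / 3)) := by linarith
      _ ≤ D.tl t * D.tl (t + (11 * t - τ) * (2 / 3)) := mul_le_mul_of_nonneg_right h2 (re_tl_pos D _).le
      _ = _ := by
          rw [← re_tl_add]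
          congr 1
          ring
  have a4 : D.tl t * (D.tl t * (D.tl (10 * t - τ) + D.tl (-N)) ^ (2 / 3 : ℝ) + D.tl (-N)) ≤ D.tl (-(ζ / 4)) := by
    calc D.tl t * (D.tl t * (D.tl (10 * t - τ) + D.tl (-N)) ^ (2 / 3 : ℝ) + D.tl (-N))
        ≤ D.tl t * D.tl (2 * t + (11 * t - τ) * (2 / 3)) := mul_le_mul_of_nonneg_left a3 (re_tl_pos D _).le
      _ = D.tl (t + (2 * t + (11 * t - τ) * (2 / 3))) := by rw [← re_tl_add]
      _ ≤ D.tl (-(ζ / 4)) := re_tl_mono D (by linarith)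
  have a5 := (re_aux_dl_le sm hq).1
  have hq1 : (1 : ℝ) ≤ D.q := by exact_mod_cast hq
  have a6 : D.dl ζ = 3 * D.tl (-(ζ / 4)) := rfl
  have a7 := re_tl_pos D (-(ζ / 4))
  have a8 : 0 < τ := (re_aux_tau_pos sm).1
  nlinarith

/-- ratio of the masses of two cuts -/
theorem re_aux_tot_ratio (h : D.Ok η p d t N K es ts) {a l : ℕ} (ha : 0 < a) (hal : a ≤ l) (hl : l < D.q) :
    D.tot a / D.tot l ≤ D.tl (2 * t - d * ((l : ℝ) - a)) := by
  have h1 := h.massHi a ha (lt_of_le_of_lt hal hl)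
  have h2 := h.massLo l (lt_of_lt_of_le ha hal) hl
  have hl0 := re_tot_pos h (lt_of_lt_of_le ha hal) hl
  have he := h.e_pos
  rw [div_le_iff₀ hl0]
  have e1 : ∀ n : ℕ, D.Eb d n = D.e * D.tl (d * n) := fun n => rfl
  rw [e1] at h1 h2
  calc D.tot a ≤ D.tl t * (D.e * D.tl (d * a)) := h1
    _ = D.tl (2 * t - d * ((l : ℝ) - a)) * (D.tl (-t) * (D.e * D.tl (d * l))) := by
        have : D.tl t * D.tl (d * a) = D.tl (2 * t - d * ((l : ℝ) - a)) * (D.tl (-t) * D.tl (d * l)) := by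
          rw [← re_tl_add, ← re_tl_add, ← re_tl_add]
          congr 1
          ring
        calc D.tl t * (D.e * D.tl (d * a)) = D.e * (D.tl t * D.tl (d * a)) := by ring
          _ = D.e * (D.tl (2 * t - d * ((l : ℝ) - a)) * (D.tl (-t) * D.tl (d * l))) := by rw [this]
          _ = _ := by ring
    _ ≤ D.tl (2 * t - d * ((l : ℝ) - a)) * D.tot l := mul_le_mul_of_nonneg_left h2 (re_tl_pos D _).le

/-- the counting step, abstract form -/
theorem re_aux_time_count0 (D : ReDoc) {Λ G0 C0 : ℝ} (hG0 : 0 ≤ G0) {a l b e : ℕ} {β : Type}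
    (T : D.Row b → Prop) (Xf : D.Row b → ℤ) (Yf : D.Row b → β) (g : β → ℕ)
    (hX : ∀ ω, Xf ω = (D.anc b l ω : ℤ) - 2 ^ e * (g (Yf ω) : ℤ))
    (L : β → Finset ℤ) (hL : ∀ y, ((L y).card : ℝ) ≤ G0) (hT : ∀ ω, T ω → Xf ω ∈ L (Yf ω))
    (ω0 : D.Row a) (Lst : Finset β) (hLst : (Lst.card : ℝ) ≤ C0)
    (hmem : ∀ (ω1 : D.Row l) (ω2 : D.Row b), D.Conn Λ a l ω0 ω1 → D.Conn Λ l b ω1 ω2 → Yf ω2 ∈ Lst) :
    (((Finset.univ.image (D.iv l)).filter fun J => ∃ (ω1 : D.Row l) (ω2 : D.Row b), T ω2 ∧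
      D.iv l ω1 = J ∧ D.Conn Λ a l ω0 ω1 ∧ D.Conn Λ l b ω1 ω2).card : ℝ) ≤ C0 * G0 := by
  obtain ⟨U, hU⟩ : ∃ U : Finset ℕ, U = Lst.biUnion (fun y => (L y).image (fun x => (x + 2 ^ e * (g y : ℤ)).toNat)) := ⟨_, rfl⟩
  have hUc : (U.card : ℝ) ≤ Lst.card * G0 := by
    rw [hU]
    calc ((Lst.biUnion (fun y => (L y).image (fun x => (x + 2 ^ e * (g y : ℤ)).toNat))).card : ℝ)
        ≤ ((∑ y ∈ Lst, ((L y).image (fun x => (x + 2 ^ e * (g y : ℤ)).toNat)).card : ℕ) : ℝ) :=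
          Nat.cast_le.2 Finset.card_biUnion_le
      _ = ∑ y ∈ Lst, (((L y).image (fun x => (x + 2 ^ e * (g y : ℤ)).toNat)).card : ℝ) := by push_cast; rfl
      _ ≤ ∑ _y ∈ Lst, G0 := Finset.sum_le_sum fun y _ => le_trans (Nat.cast_le.2 Finset.card_image_le) (hL y)
      _ = Lst.card * G0 := by rw [Finset.sum_const, nsmul_eq_mul]
  refine le_trans (Nat.cast_le.2 (Finset.card_le_card (t := U) ?_)) (hUc.trans (mul_le_mul_of_nonneg_right hLst hG0))
  intro J hJ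
  obtain ⟨_, ω1, ω2, hT2, hJ1, hc1, hc2⟩ := Finset.mem_filter.1 hJ
  rw [hU]
  refine Finset.mem_biUnion.2 ⟨Yf ω2, hmem ω1 ω2 hc1 hc2, Finset.mem_image.2 ⟨Xf ω2, hT ω2 hT2, ?_⟩⟩
  rw [hX ω2, sub_add_cancel, Int.toNat_natCast, ← hJ1]
  exact hc2.1

/-- **lem:rt-time**, at all roots `a + k h / r`, given the fine line, on the residual law.
`k = k'` : the event is empty (`surC ≥ 0`).   `k < k'` : `a' = i + k σ`, `l = i + k' σ < b` (`K ≥ 2`), `G₀ = M^(d (k'-k) - τ)`;  `T` = the event, charged points only;  `re_popular` : over each value of the conditioning at most `G₀` values of `θ_{k'}`;  `re_time_list` : a row of the cut `a'` reaches `≤ 2^50 tl(t)^6` values of the conditioning;  `re_tc_eq` : `(C, θ_{k'})` determines `T_l`.   So `G = 2^50 tl(6t) G₀`, `tot a' / tot l ≤ tl(2t) M^(-d (k'-k))`.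
OWNER helper159 (leaf L-256-RE-T2), EST 450 lines -/
theorem re_q_time (c : ReCtx D η p d t N K es ts ζ τ r σ i j S R) (k k' : ℕ) (hk : k ≤ k') (hk' : k' ≤ r) :
    c.Q.P.pr (fun ω => c.Q.P.surC (c.Q.tc (2 ^ (D.m * σ)) k')
        (pair (c.Q.tc (2 ^ (D.m * σ)) k) (pair c.Q.C (c.Q.Yc (2 ^ (D.m * σ)) (K * r)))) ω
      < (d * ((k' : ℝ) - k) - τ) * Real.log ((2 ^ (D.m * σ) : ℕ) : ℝ)) ≤ τ := by
  have hu := re_aux_u_pos c.sm
  have hτ := re_aux_tau_pos c.sm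
  have hσ := c.sig_ge
  have hσ0 : (0 : ℝ) < σ := by linarith
  have hH := c.ok.H_pos
  have htl1 : 1 ≤ D.tl t := le_trans (by norm_num) c.sm.big
  obtain ⟨X, hX⟩ : ∃ X, X = D.tc (i + K * S) i (2 ^ (D.m * σ)) k' := ⟨_, rfl⟩
  obtain ⟨Y, hY⟩ : ∃ Y, Y = pair (D.tc (i + K * S) i (2 ^ (D.m * σ)) k) (pair (D.nm (i + K * S) i j)
    (pair (D.Zc (i + K * S) j (2 ^ (D.m * σ)) (K * r)) (D.Wc (i + K * S) i j (2 ^ (D.m * σ)) (K * r)))) := ⟨_, rfl⟩
  show c.P.pr (fun ω => c.P.surC (D.tc (i + K * S) i (2 ^ (D.m * σ)) k') (pair (D.tc (i + K * S) i (2 ^ (D.m * σ)) k)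
    (pair (D.nm (i + K * S) i j) (pair (D.Zc (i + K * S) j (2 ^ (D.m * σ)) (K * r))
      (D.Wc (i + K * S) i j (2 ^ (D.m * σ)) (K * r))))) ω < _) ≤ τ
  rw [← hX, ← hY, re_log_M]
  rcases eq_or_lt_of_le hk with rfl | hlt
  · -- the event is empty
    rw [sub_self, mul_zero, zero_sub]
    have h0 : c.P.pr (fun ω => c.P.surC X Y ω < -τ * (σ * D.u)) = 0 := by
      refine ent_pr_eq_zero c.P fun ω hω => ?_
      have h1 := ent_surC_nonneg c.P X Y hω
      have h2 : 0 < τ * (σ * D.u) := mul_pos hτ.1 (mul_pos hσ0 hu)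
      rw [not_lt]
      linarith
    rw [h0]
    exact hτ.1.le
  · obtain ⟨G0, hG0⟩ : ∃ G0, G0 = D.tl ((d * ((k' : ℝ) - k) - τ) * σ) := ⟨_, rfl⟩
    have hG0p : 0 < G0 := hG0 ▸ re_tl_pos D _
    have hlogG : Real.log G0 = (d * ((k' : ℝ) - k) - τ) * (σ * D.u) := by
      rw [hG0, re_tl_exp, Real.log_exp]
      ring
    obtain ⟨L, hL, hLm⟩ := re_popular c.P X Y hG0p
    obtain ⟨T, hT⟩ : ∃ T : D.Row (i + K * S) → Prop,
        T = fun ω => c.P.p ω ≠ 0 ∧ c.P.surC X Y ω < (d * ((k' : ℝ) - k) - τ) * (σ * D.u) := ⟨_, rfl⟩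
    have hpr : c.P.pr (fun ω => c.P.surC X Y ω < (d * ((k' : ℝ) - k) - τ) * (σ * D.u)) ≤ c.P.pr T := by
      rw [hT]
      exact ent_pr_mono c.P fun ω hω h1 => ⟨hω, h1⟩
    -- the cuts
    have hkS : k' * σ ≤ S := c.sub_le hk'
    have hS1 := c.S_pos
    have h2S : 2 * S ≤ K * S := Nat.mul_le_mul_right _ c.K2
    have ha0 : 0 < i + k * σ := lt_of_lt_of_le c.dom.1 (Nat.le_add_right _ _)
    have hal : i + k * σ < i + k' * σ := Nat.add_lt_add_left (Nat.mul_lt_mul_of_pos_right hlt c.s1) _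
    have hlb : i + k' * σ < i + K * S := by omega
    have hv : 2 * (j + K * r * σ) + (i + K * S) ≤ D.q := by
      rw [c.KS_eq]
      exact c.dom.2.2.le
    have hcount : ∀ ω0 : D.Row (i + k * σ), (((Finset.univ.image (D.iv (i + k' * σ))).filter fun J =>
        ∃ (ω1 : D.Row (i + k' * σ)) (ω2 : D.Row (i + K * S)), T ω2 ∧ D.iv (i + k' * σ) ω1 = J ∧
          D.Conn (D.tl t) (i + k * σ) (i + k' * σ) ω0 ω1 ∧ D.Conn (D.tl t) (i + k' * σ) (i + K * S) ω1 ω2).card : ℝ)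
        ≤ 2 ^ 50 * D.tl t ^ 6 * G0 := by
      intro ω0
      obtain ⟨Lst, hLst, hmem⟩ := re_time_list D hH htl1 (i := i) (j := j) (l := i + k' * σ) (b := i + K * S) (σ := σ)
        (k := k) (n := K * r) hal.le hlb.le hv ω0
      rw [← hY] at hmem
      refine re_aux_time_count0 D hG0p.le (e := D.m * σ * k') T X Y (fun y => y.2.1.1) (fun ω => ?_) L hL (fun ω hω => ?_)
        ω0 Lst hLst hmem
      · rw [hX, hY]
        exact re_tc_eq D hlb.le ω
      · rw [hT] at hω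
        exact hLm ω hω.1 (by rw [hlogG]; exact hω.2)
    have hmass := re_time_mass c.ok ha0 hal hlb c.b_lt T hcount
    -- from the residual law to the masses
    have hdom := ent_dom_pr (re_law_dom D (i + K * S) R (c.ok.ms_nn _) c.pos (re_full_pos c.ok c.b_pos c.b_lt) c.res) T
    rw [re_aux_full_pr] at hdom
    -- numerics
    have hratio := re_aux_tot_ratio c.ok ha0 hal.le (hlb.trans c.b_lt)
    have hcast : (((i + k' * σ : ℕ) : ℝ) - ((i + k * σ : ℕ) : ℝ)) = ((k' : ℝ) - k) * σ := by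
      push_cast
      ring
    rw [hcast] at hratio
    have hin : D.tl t * (2 ^ 50 * D.tl t ^ 6 * G0) * D.tot (i + k * σ) / D.tot (i + k' * σ) ≤ D.tl (10 * t - τ) := by
      have b1 : (2 : ℝ) ^ 50 ≤ D.tl t := le_trans (by norm_num) c.sm.big
      have b2 : D.tl t * (2 ^ 50 * D.tl t ^ 6 * G0) ≤ D.tl (8 * t + (d * ((k' : ℝ) - k) - τ) * σ) := by
        rw [re_aux_tl_pow, hG0]
        calc D.tl t * (2 ^ 50 * D.tl (t * (6 : ℕ)) * D.tl ((d * ((k' : ℝ) - k) - τ) * σ))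
            ≤ D.tl t * (D.tl t * D.tl (t * (6 : ℕ)) * D.tl ((d * ((k' : ℝ) - k) - τ) * σ)) := by
              refine mul_le_mul_of_nonneg_left ?_ (re_tl_pos D _).le
              exact mul_le_mul_of_nonneg_right (mul_le_mul_of_nonneg_right b1 (re_tl_pos D _).le) (re_tl_pos D _).le
          _ = _ := by
              rw [← re_tl_add, ← re_tl_add, ← re_tl_add]
              congr 1
              push_cast
              ring
      rw [mul_div_assoc]
      calc D.tl t * (2 ^ 50 * D.tl t ^ 6 * G0) * (D.tot (i + k * σ) / D.tot (i + k' * σ))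
          ≤ D.tl (8 * t + (d * ((k' : ℝ) - k) - τ) * σ) * D.tl (2 * t - d * (((k' : ℝ) - k) * σ)) :=
            mul_le_mul b2 hratio (div_nonneg (re_tot_pos c.ok ha0 (hal.trans (hlb.trans c.b_lt))).le
              (re_tot_pos c.ok (ha0.trans hal) (hlb.trans c.b_lt)).le) (re_tl_pos D _).le
        _ = D.tl (10 * t - τ * σ) := by
            rw [← re_tl_add]
            congr 1
            ring
        _ ≤ D.tl (10 * t - τ) := re_tl_mono D (by nlinarith [hτ.1])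
    have hin0 : 0 ≤ D.tl t * (2 ^ 50 * D.tl t ^ 6 * G0) * D.tot (i + k * σ) / D.tot (i + k' * σ) := by
      have := re_tl_pos D t
      have := re_tot_pos c.ok ha0 (hal.trans (hlb.trans c.b_lt))
      have := re_tot_pos c.ok (ha0.trans hal) (hlb.trans c.b_lt)
      positivity
    have hpow : (D.tl t * (2 ^ 50 * D.tl t ^ 6 * G0) * D.tot (i + k * σ) / D.tot (i + k' * σ) + D.tl (-N)) ^ (2 / 3 : ℝ)
        ≤ (D.tl (10 * t - τ) + D.tl (-N)) ^ (2 / 3 : ℝ) :=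
      Real.rpow_le_rpow (add_nonneg hin0 (re_tl_pos D _).le) (by linarith) (by norm_num)
    have hfin := re_aux_time_num c.sm c.q_pos c.N1
    calc c.P.pr (fun ω => c.P.surC X Y ω < (d * ((k' : ℝ) - k) - τ) * (σ * D.u)) ≤ c.P.pr T := hpr
      _ ≤ D.tl t * (D.mass (i + K * S) T / D.tot (i + K * S)) := hdom
      _ ≤ D.tl t * (D.tl t * (D.tl (10 * t - τ) + D.tl (-N)) ^ (2 / 3 : ℝ) + D.tl (-N)) := by
          refine mul_le_mul_of_nonneg_left (hmass.trans ?_) (re_tl_pos D _).le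
          have := mul_le_mul_of_nonneg_left hpow (re_tl_pos D t).le
          linarith
      _ ≤ τ := hfin

/-! ## S. removal of plane concentration -/

/-- **greedy removal + the model half** : a residual set of subpower mass without heavy slabs.
For each pair `x` apply `re_greedy` to `μ = ms · 1_{names = x}`, index set `{n // |n| = 1} × ℝ`, `θ = tl(-(ts S))`, `Np = ⌊tl(ts S)⌋₊`;  glue `Rm, lab, pn, pc` over `x`;  `Ok.slab`;  `R = ¬ Rm`.
OWNER helper159 (leaf L-256-RE-S1), EST 300 lines -/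
theorem re_slab_res (h : D.Ok η p d t N K es ts) (hts : 0 ≤ ts) {i j S : ℕ} (hS : 0 < S) (hdom : RnDom D.q K i j S) :
    ∃ R : D.Row (i + K * S) → Prop, D.tl (-t) * D.tot (i + K * S) ≤ D.mass (i + K * S) R ∧
      D.Res i j (i + K * S) (D.tl (-(es * S))) (D.tl (-(ts * S))) R := by
  obtain ⟨b, hb⟩ : ∃ b : ℕ, b = i + K * S := ⟨_, rfl⟩
  have hslab := h.slab i j S hS hdom
  rw [← hb] at hslab ⊢
  obtain ⟨X, hX⟩ : ∃ X : D.Row b → ReName × ReName, ∀ ω, X ω = (D.nm b i j ω, D.nm b b j ω) := ⟨_, fun _ => rfl⟩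
  obtain ⟨w, hw⟩ : ∃ w : ℝ, w = D.tl (-(es * S)) := ⟨_, rfl⟩
  have hθ : 0 < D.tl (-(ts * S)) := re_tl_pos D _
  have hinv : 1 / D.tl (-(ts * S)) = D.tl (ts * S) := by
    have h1 : D.tl (ts * S) * D.tl (-(ts * S)) = 1 := by
      rw [← re_tl_add, add_neg_cancel, re_tl_zero]
    field_simp
    linarith
  have hge1 : 1 ≤ D.tl (ts * S) := by
    rw [← re_tl_zero D]
    exact re_tl_mono D (by positivity)
  obtain ⟨Np, hNp⟩ : ∃ Np : ℕ, Np = ⌊D.tl (ts * S)⌋₊ := ⟨_, rfl⟩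
  have hNp1 : 1 ≤ Np := by
    rw [hNp]
    exact Nat.le_floor (by exact_mod_cast hge1)
  have hNp2 : (Np : ℝ) ≤ D.tl (ts * S) := by
    rw [hNp]
    exact Nat.floor_le (by linarith)
  have hNp3 : 1 / D.tl (-(ts * S)) < Np + 1 := by
    rw [hinv, hNp]
    exact Nat.lt_floor_add_one _
  have : Nonempty ({n : ℝ × ℝ × ℝ // n.1 ^ 2 + n.2.1 ^ 2 + n.2.2 ^ 2 = 1} × ℝ) := ⟨⟨⟨(1, 0, 0), by norm_num⟩, 0⟩⟩
  have key := fun x : ReName × ReName => re_greedy (Ω := D.Row b)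
    (ι := {n : ℝ × ℝ × ℝ // n.1 ^ 2 + n.2.1 ^ 2 + n.2.2 ^ 2 = 1} × ℝ)
    (fun ω => if X ω = x then D.ms b ω else 0)
    (fun ω => by
      split_ifs
      exacts [h.ms_nn b ω, le_rfl])
    (fun s ω => D.InSlab b j s.1.1 s.2 w ω) hθ Np hNp3 hNp1
  choose Rm lab ix k1 k2 using key
  refine ⟨fun ω => ¬ Rm (X ω) ω, ?_, ?_⟩
  · refine hslab Np hNp2 (fun ω => Rm (X ω) ω) (fun ω => lab (X ω) ω) (fun x ν => (ix x ν).1.1) (fun x ν => (ix x ν).2)
      (fun x ν => (ix x ν).1.2) (fun ω hω => ?_)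
    have := k1 (X ω) ω hω
    rw [hw] at this
    rw [← hX ω]
    exact this
  · intro x n c hn
    have := k2 x ⟨⟨n, hn⟩, c⟩
    rw [← hw]
    unfold ReDoc.mass
    refine le_trans (le_of_eq ?_) (this.trans (le_of_eq ?_))
    · refine Finset.sum_congr rfl fun ω _ => ?_
      beta_reduce
      rw [← hX ω]
      by_cases hx : X ω = x
      · subst hx
        simp
      · simp [hx]
    · congr 1
      refine Finset.sum_congr rfl fun ω _ => ?_
      beta_reduce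
      rw [hX ω]
      congr

/-- the fibre masses of an observation add up to the total mass -/
theorem re_aux_mass_fib (D : ReDoc) (b : ℕ) {α : Type} (X : D.Row b → α) :
    ∑ x ∈ Finset.univ.image X, D.mass b (fun ω => X ω = x) = D.tot b := by
  unfold ReDoc.mass ReDoc.tot
  rw [Finset.sum_comm]
  refine Finset.sum_congr rfl fun ω _ => ?_
  rw [Finset.sum_ite_eq]
  simp

theorem re_aux_mass_nonneg (D : ReDoc) (b : ℕ) (h0 : ∀ ω, 0 ≤ D.ms b ω) (E : D.Row b → Prop) : 0 ≤ D.mass b E := by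
  unfold ReDoc.mass
  refine Finset.sum_nonneg fun ω _ => ?_
  split_ifs
  exacts [h0 ω, le_rfl]

/-- a residual law charges the values of small surviving fraction with small probability -/
theorem re_aux_surv (D : ReDoc) (b : ℕ) (R : D.Row b → Prop) (h0 : ∀ ω, 0 ≤ D.ms b ω) (hp : 0 < D.mass b R) {α : Type}
    (X : D.Row b → α) {lam : ℝ} (hl : 0 ≤ lam) :
    (D.law b R h0 hp).pr (fun ω => D.mass b (fun ω' => R ω' ∧ X ω' = X ω) ≤ lam * D.mass b (fun ω' => X ω' = X ω))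
      ≤ lam * D.tot b / D.mass b R := by
  rw [ent_pr_sum_values (D.law b R h0 hp) _ X (Finset.univ.image X) (fun ω _ _ => Finset.mem_image_of_mem _ (Finset.mem_univ _)),
    ← re_aux_mass_fib D b X, Finset.mul_sum, Finset.sum_div]
  refine Finset.sum_le_sum fun x _ => ?_
  by_cases hx : D.mass b (fun ω' => R ω' ∧ X ω' = x) ≤ lam * D.mass b (fun ω' => X ω' = x)
  · refine le_trans (ent_pr_mono _ fun ω _ hω => hω.2) ?_
    rw [re_law_pr]
    exact div_le_div_of_nonneg_right hx hp.le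
  · rw [ent_pr_eq_zero]
    · exact div_nonneg (mul_nonneg hl (re_aux_mass_nonneg D b h0 _)) hp.le
    · rintro ω _ ⟨h1, h2⟩
      rw [h2] at h1
      exact hx h1

/-- last paragraph of lem:rt-slab-removal: pairs of surviving fraction `< tl(-(ts S / 2))` carry `≤ tl(t - ts S / 2)` of the residual law; on the others every slab has conditional mass `≤ tl(-(ts S / 2))`
OWNER helper159 (leaf L-256-RE-S2), EST 300 lines -/
theorem re_q_slab (c : ReCtx D η p d t N K es ts ζ τ r σ i j S R)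
    (hR : D.Res i j (i + K * S) (D.tl (-(es * S))) (D.tl (-(ts * S))) R) (hts : 4 * t ≤ ts) (hts' : D.tl (-(ts / 4)) ≤ τ) :
    c.Q.P.pr (fun ω => ∃ (n : ℝ × ℝ × ℝ) (c' : ℝ), n.1 ^ 2 + n.2.1 ^ 2 + n.2.2 ^ 2 = 1 ∧
      τ * c.Q.P.fib (pair c.Q.C c.Q.C') ω < c.Q.slabMass n c' ((((2 ^ (D.m * σ) : ℕ) : ℝ)) ^ (-(es * r))) ω) ≤ τ := by
  have hτ := re_aux_tau_pos c.sm
  have hτ0 : 0 < τ := hτ.1
  have ht0 := c.sm.t_pos
  have hS1 : (1 : ℝ) ≤ S := by exact_mod_cast c.S_pos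
  have hw : (((2 ^ (D.m * σ) : ℕ) : ℝ)) ^ (-(es * r)) = D.tl (-(es * S)) := by
    unfold ReDoc.tl
    push_cast
    rw [← Real.rpow_natCast, ← Real.rpow_mul (by norm_num), c.hS]
    congr 1
    push_cast
    ring
  rw [hw]
  have h0 := c.ok.ms_nn (i + K * S)
  obtain ⟨X, hX⟩ : ∃ X : D.Row (i + K * S) → ReName × ReName,
      X = fun ω => (D.nm (i + K * S) i j ω, D.nm (i + K * S) (i + K * S) j ω) := ⟨_, rfl⟩
  obtain ⟨lam, hlam⟩ : ∃ lam : ℝ, lam = D.tl (-(ts * S)) / τ := ⟨_, rfl⟩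
  have hl0 : 0 ≤ lam := by
    rw [hlam]
    exact (div_pos (re_tl_pos D _) hτ0).le
  have surv := re_aux_surv D (i + K * S) R h0 c.pos X hl0
  have e1 : D.tl t * D.tl (-t) = 1 := by
    rw [← re_tl_add, add_neg_cancel, re_tl_zero]
  have htot : D.tot (i + K * S) ≤ D.tl t * D.mass (i + K * S) R := by
    calc D.tot (i + K * S) = D.tl t * (D.tl (-t) * D.tot (i + K * S)) := by rw [← mul_assoc, e1, one_mul]
      _ ≤ _ := mul_le_mul_of_nonneg_left c.res (re_tl_pos D t).le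
  have hfin : lam * D.tot (i + K * S) / D.mass (i + K * S) R ≤ τ := by
    rw [div_le_iff₀ c.pos]
    have a1 : lam * D.tot (i + K * S) ≤ lam * (D.tl t * D.mass (i + K * S) R) := mul_le_mul_of_nonneg_left htot hl0
    have a2 : lam * D.tl t ≤ τ := by
      rw [hlam, div_mul_eq_mul_div, div_le_iff₀ hτ0, ← re_tl_add]
      have a3 : D.tl (-(ts * S) + t) ≤ D.tl (-(ts / 4) + -(ts / 4)) := by
        refine re_tl_mono D ?_
        have : ts * 1 ≤ ts * S := mul_le_mul_of_nonneg_left hS1 (by linarith)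
        linarith
      rw [re_tl_add D (-(ts / 4))] at a3
      have a4 : D.tl (-(ts / 4)) * D.tl (-(ts / 4)) ≤ τ * τ :=
        mul_le_mul hts' hts' (re_tl_pos D _).le hτ0.le
      linarith
    have a5 : lam * D.tl t * D.mass (i + K * S) R ≤ τ * D.mass (i + K * S) R := mul_le_mul_of_nonneg_right a2 c.pos.le
    linarith
  refine le_trans (ent_pr_mono _ fun ω _ hω => ?_) (surv.trans hfin)
  obtain ⟨n, c', hn, hlt⟩ := hω
  have f1 : c.Q.P.fib (pair c.Q.C c.Q.C') ω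
      = D.mass (i + K * S) (fun ω' => R ω' ∧ X ω' = X ω) / D.mass (i + K * S) R := by
    show (D.law (i + K * S) R h0 c.pos).pr (fun ω' => pair (D.nm (i + K * S) i j) (D.nm (i + K * S) (i + K * S) j) ω'
      = pair (D.nm (i + K * S) i j) (D.nm (i + K * S) (i + K * S) j) ω) = _
    rw [re_law_pr, hX]
    rfl
  have f2 : c.Q.slabMass n c' (D.tl (-(es * S))) ω
      = D.mass (i + K * S) (fun ω' => R ω' ∧ X ω' = X ω ∧ D.InSlab (i + K * S) j n c' (D.tl (-(es * S))) ω')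
        / D.mass (i + K * S) R := by
    show (D.law (i + K * S) R h0 c.pos).pr (fun ω' => D.nm (i + K * S) i j ω' = D.nm (i + K * S) i j ω ∧
      D.nm (i + K * S) (i + K * S) j ω' = D.nm (i + K * S) (i + K * S) j ω ∧
      |n.1 * (D.Zv (i + K * S) j ω').1 + n.2.1 * (D.Zv (i + K * S) j ω').2
        + n.2.2 * ((D.Zv (i + K * S) j ω').1 ^ 2 + (D.Zv (i + K * S) j ω').2 ^ 2) - c'| ≤ D.tl (-(es * S))) = _
    rw [re_law_pr, hX]
    congr 1
    unfold ReDoc.mass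
    refine Finset.sum_congr rfl fun ω' _ => ?_
    congr 1
    simp only [Prod.mk.injEq, ReDoc.InSlab, rtSq, and_assoc]
  have f3 := hR (X ω) n c' hn
  rw [f1, f2, ← mul_div_assoc, div_lt_div_iff_of_pos_right c.pos] at hlt
  have f3' : D.mass (i + K * S) (fun ω' => R ω' ∧ X ω' = X ω ∧ D.InSlab (i + K * S) j n c' (D.tl (-(es * S))) ω')
      ≤ D.tl (-(ts * S)) * D.mass (i + K * S) (fun ω' => X ω' = X ω) := by
    rw [hX]
    rw [hX] at f3
    exact f3
  rw [hlam, div_mul_eq_mul_div, le_div_iff₀ hτ0]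
  linarith

/-! ## Q0. glue -/

/-- **all fields** -/
theorem re_q_ok (c : ReCtx D η p d t N K es ts ζ τ r σ i j S R)
    (hR : D.Res i j (i + K * S) (D.tl (-(es * S))) (D.tl (-(ts * S))) R) (hts : 4 * t ≤ ts) (hts' : D.tl (-(ts / 4)) ≤ τ)
    {A : ℝ} (hA : 1 ≤ A) :
    c.Q.Ok (2 ^ (D.m * σ)) r K A d τ es ((D.Dp (i + S) j - D.Dp i j) / (σ : ℝ)) ((D.Dp i (j + S) - D.Dp i j) / (σ : ℝ))
      ((D.Jp i j (j + K * S) - D.Jp (i + K * S) j (j + K * S)) / (σ : ℝ)) (fun l => D.Jp i j (j + l * σ) / (σ : ℝ)) := by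
  have hH := c.ok.H_pos
  have hib : i ≤ i + K * S := Nat.le_add_right _ _
  refine ⟨?_, ?_, ?_, ?_, ?_, ?_, ?_, ?_, ?_, ?_, ?_, ?_⟩
  · intro ω
    have h := (re_q_bd D hH j hib ω).1
    exact ⟨h.1.trans hA, h.2.trans hA⟩
  · intro ω
    have h := (re_q_bd D hH j hib ω).2.1
    exact ⟨h.1.trans hA, h.2.1.trans hA, h.2.2.trans hA⟩
  · intro ω
    exact (re_q_bd D hH j hib ω).2.2.trans hA
  · intro ω a
    have h := re_q_inc D hH i j (K * S) ω a
    refine h.trans ?_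
    have h1 : rdLen (K * S * D.m) = 1 / (((2 ^ (D.m * σ) : ℕ) : ℝ)) ^ (K * r) := by
      unfold rdLen
      rw [c.hS]
      push_cast
      rw [← pow_mul, inv_pow, one_div]
      congr 2
      ring
    rw [h1]
    have hpos : (0 : ℝ) < (((2 ^ (D.m * σ) : ℕ) : ℝ)) ^ (K * r) := by positivity
    exact div_le_div_of_nonneg_right hA hpos.le
  · intro ω ω' h1 h2
    show D.Ov _ i j ω = D.Ov _ i j ω'
    unfold ReDoc.Ov
    have h1' : D.nm (i + K * S) i j ω = D.nm (i + K * S) i j ω' := h1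
    have h2' : D.nm (i + K * S) (i + K * S) j ω = D.nm (i + K * S) (i + K * S) j ω' := h2
    rw [h1', h2']
  · exact fun k k' hk hk' => re_q_time c k k' hk hk'
  · exact fun k k' hk hk' => re_q_ang c k k' hk hk'
  · exact re_q_angU c
  · exact re_q_stat c
  · exact re_q_pt c
  · exact re_q_wid c
  · exact re_q_slab c hR hts hts'

end Claimed.Agent.R256
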