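import Claimed.Agent.R256.Re.SpaKer
import Claimed.Agent.R256.Rt.Wv1

/-!
# Row 256, unit RE, block PLANE-A, file 3: ROWS FROM THE FIELD, THE FIELD FROM THE ROWS            (architect helper213)            CONTRACT
Only Fubini + `re_sp_K_inv`.   Every `sorry` is a leaf `L-256-RESP-*`.   Statements FROZEN; auxiliary lemmas directly above your theorem, prefix `re_sp_`; edit only your block.
ENTRY from Rt (block RT-W1, architect helper282): `re_sp_an_spec`, `re_sp_an_norm` (the operator `RdWvPar.an` IS the formula `RdWvPar.row`, and it is a contraction).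
-/

set_option autoImplicit false

namespace Claimed.Agent.R256

open MeasureTheory
open scoped ENNReal

/-- **ENTRY** = `rt_w1_an_spec` (block RT-W1, architect helper282, `Rt/Wv1.lean`). -/
theorem re_sp_an_spec (p : RdWvPar) (T : ℝ) (k β : ℕ) (G : Lp ℂ 2 (volume : Measure RdWvPar.Mo)) :
    (p.an T k β G : RdWvPar.Ph → ℂ) =ᵐ[p.rw k] p.row T k β G :=
  rt_w1_an_spec p T k β G

/-- **ENTRY** = `rt_w1_contr` (block RT-W1). -/
theorem re_sp_an_norm (p : RdWvPar) (T : ℝ) (k β : ℕ) (G : Lp ℂ 2 (volume : Measure RdWvPar.Mo)) : ‖p.an T k β G‖ ≤ ‖G‖ :=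
  rt_w1_contr p T k β G

/-- **LEAF L-256-RESP-PK.**  Unfold `RdWvPar.pk`, `reSym`, `rePair`, `reOm`, `reC3`;  `Complex.exp_add`, `push_cast`, `ring_nf`. -/
theorem re_sp_pk (p : RdWvPar) (T : ℝ) (k β : ℕ) (A : ℝ × ℝ) (z : ReSp) (q : RdWvPar.Mo) :
    p.pk T k β (A, z) q = (reC3 : ℂ) * Complex.exp (Complex.I * (rePair q z : ℂ)) * reSym p.H k β A T q := by
  unfold RdWvPar.pk reSym rePair reOm reC3
  have e : Complex.exp (Complex.I * ((rtIp q.1 z.1 - q.2 * z.2 - T * rtSq q.1 / (4 * q.2) : ℝ) : ℂ))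
      = Complex.exp (Complex.I * ((rtIp q.1 z.1 - q.2 * z.2 : ℝ) : ℂ)) * Complex.exp (-(Complex.I * ((T * (rtSq q.1 / (4 * q.2)) : ℝ) : ℂ))) := by
    rw [← Complex.exp_add]
    congr 1
    push_cast
    ring
  simp only
  rw [e]
  push_cast
  ring

/-- **LEAF L-256-RESP-L1: a state with bounded spectrum is integrable.**
PLAN.  `S = {q | H q.2 ∈ rdPlat β ∧ rtSq ((2 q.2)⁻¹ • q.1 - As) ≤ M²}` is bounded (`|q.2| ≤ 2^(β+4)/H`, `|ξ_i| ≤ 2 q.2 (|As i| + M)`), so it lies in a closed ball `B` of finite measure;  `G = 0` a.e. off `B`;  `MemLp G 2` (`Lp.memLp`) restricted to `B` is `MemLp 1` (`MemLp.mono_exponent` on the finite measure `volume.restrict B`);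
`integrable_of_..`: `IntegrableOn G B` + `G =ᵐ B.indicator G` (`integrable_indicator_iff`, `Integrable.congr`). -/
theorem re_sp_L1 (p : RdWvPar) (β : ℕ) (As : ℝ × ℝ) (M : ℝ) (G : Lp ℂ 2 (volume : Measure RdWvPar.Mo)) (h1 : p.Spec β G)
    (h2 : ∀ᵐ z ∂(volume : Measure RdWvPar.Mo), (G : RdWvPar.Mo → ℂ) z ≠ 0 → rtSq ((2 * z.2)⁻¹ • z.1 - As) ≤ M ^ 2) :
    Integrable (G : RdWvPar.Mo → ℂ) := by
  have hH := p.H_pos
  set ρm : ℝ := 2 ^ (β + 4) / p.H with hρm
  have hρm0 : 0 < ρm := by positivity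
  set R : ℝ := 2 * ρm * (‖As‖ + |M|) + ρm with hR
  have hae : ∀ᵐ z ∂(volume : Measure RdWvPar.Mo), z ∉ Metric.closedBall (0 : RdWvPar.Mo) R → (G : RdWvPar.Mo → ℂ) z = 0 := by
    filter_upwards [h1, h2] with z a1 a2 hz
    by_contra hne
    apply hz
    obtain ⟨c1, c2⟩ := a1 hne
    have c3 := a2 hne
    have hq0 : 0 < z.2 := by
      by_contra hn
      have : p.H * z.2 ≤ 0 := mul_nonpos_of_nonneg_of_nonpos hH.le (not_lt.1 hn)
      have : (0 : ℝ) < (2 : ℝ)⁻¹ ^ (β + 4) := by positivity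
      linarith
    have hq1 : z.2 ≤ ρm := by rw [hρm, le_div_iff₀ hH]; linarith
    unfold rtSq at c3
    simp only [Prod.smul_fst, Prod.smul_snd, Prod.fst_sub, Prod.snd_sub, smul_eq_mul] at c3
    have hA1 : |As.1| ≤ ‖As‖ := by rw [Prod.norm_def]; exact le_max_left _ _
    have hA2 : |As.2| ≤ ‖As‖ := by rw [Prod.norm_def]; exact le_max_right _ _
    have key : ∀ a u : ℝ, |a| ≤ ‖As‖ → ((2 * z.2)⁻¹ * u - a) ^ 2 ≤ M ^ 2 → |u| ≤ 2 * ρm * (‖As‖ + |M|) := by
      intro a u ha hu
      have h4 : |(2 * z.2)⁻¹ * u - a| ≤ |M| := sq_le_sq.1 hu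
      have h5 : |(2 * z.2)⁻¹ * u| ≤ ‖As‖ + |M| := by
        have := abs_sub_abs_le_abs_sub ((2 * z.2)⁻¹ * u) a
        linarith
      have h6 : |u| = 2 * z.2 * |(2 * z.2)⁻¹ * u| := by
        rw [abs_mul, abs_inv, abs_of_pos (by positivity : (0 : ℝ) < 2 * z.2)]
        field_simp
      rw [h6]
      have h7 : 0 ≤ ‖As‖ + |M| := by positivity
      calc 2 * z.2 * |(2 * z.2)⁻¹ * u| ≤ 2 * z.2 * (‖As‖ + |M|) := by gcongr
        _ ≤ 2 * ρm * (‖As‖ + |M|) := by gcongr
    have k1 := key As.1 z.1.1 hA1 (by nlinarith [sq_nonneg ((2 * z.2)⁻¹ * z.1.2 - As.2)])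
    have k2 := key As.2 z.1.2 hA2 (by nlinarith [sq_nonneg ((2 * z.2)⁻¹ * z.1.1 - As.1)])
    rw [mem_closedBall_zero_iff, Prod.norm_def, Prod.norm_def]
    have h8 : 0 ≤ 2 * ρm * (‖As‖ + |M|) := by positivity
    refine max_le (max_le ?_ ?_) ?_
    · rw [Real.norm_eq_abs]; linarith
    · rw [Real.norm_eq_abs]; linarith
    · rw [Real.norm_eq_abs, abs_of_pos hq0]; linarith
  have : IsFiniteMeasure ((volume : Measure RdWvPar.Mo).restrict (Metric.closedBall 0 R)) :=
    ⟨by rw [Measure.restrict_apply_univ]; exact (isCompact_closedBall _ _).measure_lt_top⟩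
  have hI : IntegrableOn (G : RdWvPar.Mo → ℂ) (Metric.closedBall 0 R) volume := ((Lp.memLp G).restrict _).integrable (by norm_num)
  exact hI.integrable_of_ae_notMem_eq_zero hae

/-- **LEAF L-256-RESP-MULT: the convolution identity (Fubini).**
PLAN.  RHS `= ∫ z', K (z - z') ∫ q, e^{i⟨q,z'⟩} g q`.   Substitute `w = z - z'` (`integral_sub_left_eq_self`), `rePair q (z - w) = rePair q z - rePair q w` (bilinear), swap (`integral_integral_swap`; `(w, q) ↦ K w · g q` is integrable on the product: `Integrable.mul_prod`, times a unimodular continuous factor: `Integrable.bdd_mul`),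
inner integral `∫ w, e^{-i⟨q,w⟩} K w = a q` by `hKa`. -/
theorem re_sp_mult (K : ReSp → ℂ) (a g : RdWvPar.Mo → ℂ) (hK : Integrable K) (hg : Integrable g)
    (hKa : ∀ q : RdWvPar.Mo, ∫ w : ReSp, Complex.exp (-(Complex.I * (rePair q w : ℂ))) * K w = a q) (z : ReSp) :
    ∫ q, Complex.exp (Complex.I * (rePair q z : ℂ)) * (a q * g q) = ∫ z' : ReSp, K (z - z') * ∫ q, Complex.exp (Complex.I * (rePair q z' : ℂ)) * g q := by
  have := re_sp_haar
  have hpm : Measurable fun x : ReSp × RdWvPar.Mo => rePair x.2 (z - x.1) := by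
    unfold rePair rtIp
    fun_prop
  have hpair : ∀ (q : RdWvPar.Mo) (w : ReSp), rePair q (z - w) = rePair q z - rePair q w := by
    intro q w
    unfold rePair rtIp
    simp only [Prod.fst_sub, Prod.snd_sub]
    ring
  have hint : Integrable (Function.uncurry fun (w : ReSp) (q : RdWvPar.Mo) => Complex.exp (Complex.I * (rePair q (z - w) : ℂ)) * (K w * g q))
      ((volume : Measure ReSp).prod (volume : Measure RdWvPar.Mo)) := by
    refine (hK.mul_prod hg).bdd_mul (c := 1) ?_ (Filter.Eventually.of_forall fun x => ?_)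
    · exact (Complex.measurable_exp.comp ((Complex.measurable_ofReal.comp hpm).const_mul Complex.I)).aestronglyMeasurable
    · rw [rt_w1c_norm_exp]
  calc ∫ q, Complex.exp (Complex.I * (rePair q z : ℂ)) * (a q * g q)
      = ∫ q, ∫ w : ReSp, Complex.exp (Complex.I * (rePair q (z - w) : ℂ)) * (K w * g q) := by
        refine integral_congr_ae (Filter.Eventually.of_forall fun q => ?_)
        simp only
        rw [← hKa q, ← integral_mul_const, ← integral_const_mul]
        refine integral_congr_ae (Filter.Eventually.of_forall fun w => ?_)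
        simp only
        rw [hpair]
        have e : Complex.exp (Complex.I * ((rePair q z - rePair q w : ℝ) : ℂ))
            = Complex.exp (Complex.I * (rePair q z : ℂ)) * Complex.exp (-(Complex.I * (rePair q w : ℂ))) := by
          rw [← Complex.exp_add]
          congr 1
          push_cast
          ring
        rw [e]
        ring
    _ = ∫ w : ReSp, ∫ q, Complex.exp (Complex.I * (rePair q (z - w) : ℂ)) * (K w * g q) := (integral_integral_swap hint).symm
    _ = ∫ w : ReSp, K w * ∫ q, Complex.exp (Complex.I * (rePair q (z - w) : ℂ)) * g q := by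
        refine integral_congr_ae (Filter.Eventually.of_forall fun w => ?_)
        simp only
        rw [← integral_const_mul]
        refine integral_congr_ae (Filter.Eventually.of_forall fun q => ?_)
        simp only
        ring
    _ = ∫ z' : ReSp, K (z - z') * ∫ q, Complex.exp (Complex.I * (rePair q z' : ℂ)) * g q := by
        rw [← integral_sub_left_eq_self (fun w : ReSp => K w * ∫ q, Complex.exp (Complex.I * (rePair q (z - w) : ℂ)) * g q) volume z]
        simp only [sub_sub_cancel]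

/-- **LEAF L-256-RESP-F1: the rows are a convolution of the field at ANY time `t`.**
PLAN.  `re_sp_pk`;  `reSym H k β A T q = reSym H k β A (T - t) q * exp (-(I t reOm q))`;  `re_sp_mult` with `K = reK H k β A (T-t)`, `a = reSym H k β A (T-t)` (`re_sp_K_inv`), `g q = reC3 * exp (-(I t reOm q)) * G q` (integrable: `Integrable.bdd_mul`);
`∫ q, e^{i⟨q,z'⟩} g q = reFld t G z'` (`Complex.exp_add`). -/
theorem re_sp_F1 (p : RdWvPar) (T t : ℝ) (k β : ℕ) (G : RdWvPar.Mo → ℂ) (hG : Integrable G) (A : ℝ × ℝ) (z : ReSp) :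
    ∫ q, p.pk T k β (A, z) q * G q = ∫ z' : ReSp, reK p.H k β A (T - t) (z - z') * reFld t G z' := by
  obtain ⟨hKi, hKa⟩ := re_sp_K_inv p.H p.H_pos k β A (T - t)
  have hom : Measurable fun q : RdWvPar.Mo => reOm q := by
    unfold reOm rtSq
    fun_prop
  have hg : Integrable fun q : RdWvPar.Mo => (reC3 : ℂ) * Complex.exp (-(Complex.I * ((t * reOm q : ℝ) : ℂ))) * G q := by
    refine hG.bdd_mul (c := |reC3|) ?_ (Filter.Eventually.of_forall fun q => ?_)
    · exact ((Complex.measurable_exp.comp ((Complex.measurable_ofReal.comp (hom.const_mul t)).const_mul Complex.I).neg).const_mul _).aestronglyMeasurable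
    · rw [norm_mul, Complex.norm_real, Real.norm_eq_abs, ← mul_neg, ← Complex.ofReal_neg, rt_w1c_norm_exp, mul_one]
  have h := re_sp_mult (reK p.H k β A (T - t)) (reSym p.H k β A (T - t)) _ hKi hg hKa z
  calc ∫ q, p.pk T k β (A, z) q * G q
      = ∫ q, Complex.exp (Complex.I * (rePair q z : ℂ)) * (reSym p.H k β A (T - t) q * ((reC3 : ℂ) * Complex.exp (-(Complex.I * ((t * reOm q : ℝ) : ℂ))) * G q)) := by
        refine integral_congr_ae (Filter.Eventually.of_forall fun q => ?_)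
        simp only
        rw [re_sp_pk]
        have e : reSym p.H k β A T q = reSym p.H k β A (T - t) q * Complex.exp (-(Complex.I * ((t * reOm q : ℝ) : ℂ))) := by
          unfold reSym
          rw [mul_assoc, ← Complex.exp_add]
          congr 2
          push_cast
          ring
        rw [e]
        ring
    _ = _ := h
    _ = _ := by
        refine integral_congr_ae (Filter.Eventually.of_forall fun z' => ?_)
        simp only
        congr 1
        unfold reFld
        refine integral_congr_ae (Filter.Eventually.of_forall fun q => ?_)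
        simp only
        have e : Complex.exp (Complex.I * ((rePair q z' - t * reOm q : ℝ) : ℂ))
            = Complex.exp (Complex.I * (rePair q z' : ℂ)) * Complex.exp (-(Complex.I * ((t * reOm q : ℝ) : ℂ))) := by
          rw [← Complex.exp_add]
          congr 1
          push_cast
          ring
        rw [e]
        ring

/-- **LEAF L-256-RESP-PSI1: resolution of the identity in the velocity.**  `rd_psi_norm`;  substitution `A' = v - d a` (`integral_sub_left_eq_self`, `Measure.integral_comp_smul` on `ℝ × ℝ`, `finrank = 2`). -/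
theorem re_sp_psi_one (d : ℝ) (hd : 0 < d) (v : ℝ × ℝ) : ∫ A' : ℝ × ℝ, rdPsi (d⁻¹ • (v - A')) ^ 2 = d ^ 2 := by
  have hc : Continuous fun A' : ℝ × ℝ => rdPsi (d⁻¹ • (v - A')) ^ 2 :=
    (rd_psi_contDiff.continuous.comp ((continuous_const.sub continuous_id).const_smul d⁻¹)).pow 2
  rw [integral_eq_lintegral_of_nonneg_ae (Filter.Eventually.of_forall fun A' => sq_nonneg _) hc.aestronglyMeasurable, rt_w1c_win hd v,
    ENNReal.toReal_ofReal (sq_nonneg d)]

theorem re_sp_sym_meas (H : ℝ) (k β : ℕ) (s : ℝ) : Measurable fun x : (ℝ × ℝ) × RdWvPar.Mo => reSym H k β x.1 s x.2 := by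
  unfold reSym reOm rtSq
  have h1 : Measurable fun x : (ℝ × ℝ) × RdWvPar.Mo => rdChi β (H * x.2.2) := (rd_chi_contDiff β).continuous.measurable.comp (by fun_prop)
  have h2 : Measurable fun x : (ℝ × ℝ) × RdWvPar.Mo => rdPsi ((rdD H k)⁻¹ • ((2 * x.2.2)⁻¹ • x.2.1 - x.1)) :=
    rd_psi_contDiff.continuous.measurable.comp (by fun_prop)
  have h3 : Measurable fun x : (ℝ × ℝ) × RdWvPar.Mo => s * ((x.2.1.1 ^ 2 + x.2.1.2 ^ 2) / (4 * x.2.2)) := by fun_prop
  exact (Complex.measurable_ofReal.comp (h1.mul h2)).mul (Complex.measurable_exp.comp ((Complex.measurable_ofReal.comp h3).const_mul Complex.I).neg)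

/-- **LEAF L-256-RESP-F2: the field at ANY time `t` is a superposition of convolutions of the rows.**
PLAN.  For a.e. `q` with `G q ≠ 0`: `rdChi β (H q.2) = 1` (`hS`, `rd_chi_one`), so `G q = d⁻² ∫ A', (χ ψ_{A'})² G q` (`re_sp_psi_one`).   Hence
`reFld t G z = d⁻² ∫ q ∫ A', c₃ e^{i⟨q,z⟩} reSym H k β A' (t-T) q · (reSym H k β A' T q · G q)`      (`reSym .. (t-T) q * reSym .. T q = (χψ)² e^{-it reOm q}`).
Swap (`integral_integral_swap`: dominated by `B² ψ(..)/.. |G q|`: the function `(q, A') ↦ ψ(d⁻¹(v(q) - A'))² |G q|` is integrable on the product by Tonelli, `re_sp_psi_one`).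
For fixed `A'`: `re_sp_mult` with `K = reK H k β A' (t-T)`, `g q = c₃ reSym H k β A' T q G q`;  `∫ q, e^{i⟨q,z'⟩} g q = ∫ q, pk T k β (A', z') q * G q` (`re_sp_pk`). -/
theorem re_sp_F2 (p : RdWvPar) (T t : ℝ) (k β : ℕ) (G : RdWvPar.Mo → ℂ) (hG : Integrable G)
    (hS : ∀ᵐ q ∂(volume : Measure RdWvPar.Mo), G q ≠ 0 → p.H * q.2 ∈ rdPlat β) (z : ReSp) :
    reFld t G z = (((rdD p.H k ^ 2)⁻¹ : ℝ) : ℂ) * ∫ A' : ℝ × ℝ, ∫ z' : ReSp, reK p.H k β A' (t - T) (z - z') * ∫ q, p.pk T k β (A', z') q * G q := by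
  obtain ⟨hd, -⟩ := rt_w1c_d_pos p k
  set d := rdD p.H k with hdd
  obtain ⟨B, hB0, hB⟩ := re_sp_sym_norm_le
  have hWint : ∀ q : RdWvPar.Mo, ∫ A' : ℝ × ℝ, rdPsi (d⁻¹ • ((2 * q.2)⁻¹ • q.1 - A')) ^ 2 = d ^ 2 := fun q => re_sp_psi_one d hd _
  have hWI : ∀ q : RdWvPar.Mo, Integrable fun A' : ℝ × ℝ => rdPsi (d⁻¹ • ((2 * q.2)⁻¹ • q.1 - A')) ^ 2 := fun q =>
    Integrable.of_integral_ne_zero (by rw [hWint]; positivity)
  have hχm : Measurable fun q : RdWvPar.Mo => rdChi β (p.H * q.2) ^ 2 :=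
    ((rd_chi_contDiff β).continuous.measurable.comp (measurable_snd.const_mul p.H)).pow_const 2
  have hEm : Measurable fun q : RdWvPar.Mo => (reC3 : ℂ) * Complex.exp (Complex.I * ((rePair q z - t * reOm q : ℝ) : ℂ)) := by
    have h : Measurable fun q : RdWvPar.Mo => rePair q z - t * reOm q := by
      unfold rePair rtIp reOm rtSq
      fun_prop
    exact (Complex.measurable_exp.comp ((Complex.measurable_ofReal.comp h).const_mul Complex.I)).const_mul _
  have hEn : ∀ q : RdWvPar.Mo, ‖(reC3 : ℂ) * Complex.exp (Complex.I * ((rePair q z - t * reOm q : ℝ) : ℂ))‖ = |reC3| := fun q => by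
    rw [norm_mul, Complex.norm_real, Real.norm_eq_abs, rt_w1c_norm_exp, mul_one]
  -- the double integrand
  set Φ : RdWvPar.Mo → ℝ × ℝ → ℂ := fun q A' => ((rdChi β (p.H * q.2) ^ 2 * rdPsi (d⁻¹ • ((2 * q.2)⁻¹ • q.1 - A')) ^ 2 : ℝ) : ℂ)
    * ((reC3 : ℂ) * Complex.exp (Complex.I * ((rePair q z - t * reOm q : ℝ) : ℂ)) * G q) with hΦ
  have hΦ1 : ∀ q, ∫ A', Φ q A' = ((rdChi β (p.H * q.2) ^ 2 * d ^ 2 : ℝ) : ℂ)
      * ((reC3 : ℂ) * Complex.exp (Complex.I * ((rePair q z - t * reOm q : ℝ) : ℂ)) * G q) := fun q => by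
    simp only [hΦ]
    rw [integral_mul_const, integral_complex_ofReal, integral_const_mul, hWint]
  have hΦn : ∀ q A', ‖Φ q A'‖ = rdChi β (p.H * q.2) ^ 2 * rdPsi (d⁻¹ • ((2 * q.2)⁻¹ • q.1 - A')) ^ 2 * (|reC3| * ‖G q‖) := fun q A' => by
    simp only [hΦ]
    rw [norm_mul, norm_mul, hEn, Complex.norm_real, Real.norm_of_nonneg (by positivity)]
  have hint : Integrable (Function.uncurry Φ) ((volume : Measure RdWvPar.Mo).prod (volume : Measure (ℝ × ℝ))) := by
    have hm : AEStronglyMeasurable (Function.uncurry Φ) ((volume : Measure RdWvPar.Mo).prod (volume : Measure (ℝ × ℝ))) := by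
      have h1 : Measurable fun x : RdWvPar.Mo × (ℝ × ℝ) => rdPsi (d⁻¹ • ((2 * x.1.2)⁻¹ • x.1.1 - x.2)) ^ 2 :=
        (rd_psi_contDiff.continuous.measurable.comp (by fun_prop)).pow_const 2
      have h2 : Measurable fun x : RdWvPar.Mo × (ℝ × ℝ) => ((rdChi β (p.H * x.1.2) ^ 2 * rdPsi (d⁻¹ • ((2 * x.1.2)⁻¹ • x.1.1 - x.2)) ^ 2 : ℝ) : ℂ) :=
        Complex.measurable_ofReal.comp ((hχm.comp measurable_fst).mul h1)
      exact h2.aestronglyMeasurable.mul ((hEm.comp measurable_fst).aestronglyMeasurable.mul hG.aestronglyMeasurable.comp_fst)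
    rw [integrable_prod_iff hm]
    refine ⟨Filter.Eventually.of_forall fun q => ?_, ?_⟩
    · simp only [Function.uncurry_apply_pair, hΦ]
      exact (((hWI q).const_mul _).ofReal).mul_const _
    · have e : (fun q : RdWvPar.Mo => ∫ A', ‖Function.uncurry Φ (q, A')‖) = fun q => (rdChi β (p.H * q.2) ^ 2 * (d ^ 2 * |reC3|)) * ‖G q‖ := by
        funext q
        simp only [Function.uncurry_apply_pair, hΦn]
        rw [integral_mul_const, integral_const_mul, hWint]
        ring
      rw [e]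
      refine hG.norm.bdd_mul (c := d ^ 2 * |reC3|) (hχm.mul_const _).aestronglyMeasurable (Filter.Eventually.of_forall fun q => ?_)
      rw [Real.norm_of_nonneg (by positivity)]
      have h1 : rdChi β (p.H * q.2) ^ 2 ≤ 1 := pow_le_one₀ (rd_chi_nonneg _ _) (rd_chi_le_one _ _)
      exact mul_le_of_le_one_left (by positivity) h1
  -- step 1
  have s1 : reFld t G z = (((d ^ 2)⁻¹ : ℝ) : ℂ) * ∫ q, ∫ A', Φ q A' := by
    unfold reFld
    rw [← integral_const_mul]
    refine integral_congr_ae ?_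
    filter_upwards [hS] with q hq
    rw [hΦ1]
    by_cases h0 : G q = 0
    · rw [h0]; simp
    · rw [rd_chi_one (hq h0)]
      push_cast
      have : (d : ℂ) ≠ 0 := by exact_mod_cast hd.ne'
      field_simp
  rw [s1, integral_integral_swap hint]
  congr 1
  refine integral_congr_ae (Filter.Eventually.of_forall fun A' => ?_)
  simp only
  obtain ⟨hKi, hKa⟩ := re_sp_K_inv p.H p.H_pos k β A' (t - T)
  have hsm : Measurable fun q : RdWvPar.Mo => reSym p.H k β A' T q := by
    have h : Measurable (Function.uncurry fun (A : ℝ × ℝ) (q : RdWvPar.Mo) => reSym p.H k β A T q) := re_sp_sym_meas p.H k β T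
    exact h.of_uncurry_left
  have hg : Integrable fun q : RdWvPar.Mo => (reC3 : ℂ) * reSym p.H k β A' T q * G q := by
    refine hG.bdd_mul (c := |reC3| * B) (hsm.const_mul _).aestronglyMeasurable (Filter.Eventually.of_forall fun q => ?_)
    rw [norm_mul, Complex.norm_real, Real.norm_eq_abs]
    exact mul_le_mul_of_nonneg_left (hB _ _ _ _ _ _) (abs_nonneg _)
  have h := re_sp_mult (reK p.H k β A' (t - T)) (reSym p.H k β A' (t - T)) _ hKi hg hKa z
  calc ∫ q, Φ q A'
      = ∫ q, Complex.exp (Complex.I * (rePair q z : ℂ)) * (reSym p.H k β A' (t - T) q * ((reC3 : ℂ) * reSym p.H k β A' T q * G q)) := by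
        refine integral_congr_ae (Filter.Eventually.of_forall fun q => ?_)
        simp only [hΦ]
        unfold reSym
        have e : Complex.exp (Complex.I * ((rePair q z - t * reOm q : ℝ) : ℂ))
            = Complex.exp (Complex.I * (rePair q z : ℂ)) * (Complex.exp (-(Complex.I * (((t - T) * reOm q : ℝ) : ℂ))) * Complex.exp (-(Complex.I * ((T * reOm q : ℝ) : ℂ)))) := by
          rw [← Complex.exp_add, ← Complex.exp_add]
          congr 1
          push_cast
          ring
        rw [e]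
        push_cast
        ring
    _ = _ := h
    _ = _ := by
        refine integral_congr_ae (Filter.Eventually.of_forall fun z' => ?_)
        simp only
        congr 1
        refine integral_congr_ae (Filter.Eventually.of_forall fun q => ?_)
        simp only
        rw [re_sp_pk]
        ring

/-- **LEAF L-256-RESP-CONT (1).**  `continuous_of_dominated` (bound `reC3 ‖G q‖`). -/
theorem re_sp_fld_cont (G : RdWvPar.Mo → ℂ) (hG : Integrable G) : Continuous (fun x : ℝ × ReSp => reFld x.1 G x.2) := by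
  unfold reFld
  have hpm : ∀ x : ℝ × ReSp, Measurable fun q : RdWvPar.Mo => rePair q x.2 - x.1 * reOm q := by
    intro x
    unfold rePair rtIp reOm rtSq
    fun_prop
  refine continuous_of_dominated (bound := fun q => |reC3| * ‖G q‖) (fun x => ?_) (fun x => Filter.Eventually.of_forall fun q => ?_)
    (hG.norm.const_mul _) (Filter.Eventually.of_forall fun q => ?_)
  · exact (((Complex.measurable_exp.comp ((Complex.measurable_ofReal.comp (hpm x)).const_mul Complex.I)).const_mul _).aestronglyMeasurable).mul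
      hG.aestronglyMeasurable
  · rw [norm_mul, norm_mul, Complex.norm_real, Real.norm_eq_abs, rt_w1c_norm_exp, mul_one]
  · have hc : Continuous fun x : ℝ × ReSp => rePair q x.2 - x.1 * reOm q := by
      unfold rePair rtIp
      fun_prop
    exact (continuous_const.mul (Complex.continuous_exp.comp (continuous_const.mul (Complex.continuous_ofReal.comp hc)))).mul continuous_const

/-- **LEAF L-256-RESP-CONT (2).**  `continuous_of_dominated` (bound `reC3 B ‖G q‖`, `re_sp_pk`, `re_sp_sym_norm_le`; continuity in `x` of `pk T k β x q`: `rd_psi_contDiff.continuous`). -/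
theorem re_sp_row_cont (p : RdWvPar) (T : ℝ) (k β : ℕ) (G : RdWvPar.Mo → ℂ) (hG : Integrable G) : Continuous (fun x : RdWvPar.Ph => ∫ q, p.pk T k β x q * G q) := by
  have hm : ∀ x : RdWvPar.Ph, Measurable (p.pk T k β x) := fun x => by
    have h : Measurable (Function.uncurry (p.pk T k β)) := rt_w1c_pk_meas p T k β
    exact h.of_uncurry_left
  refine continuous_of_dominated (bound := fun q => ((2 * Real.pi) ^ (-(3 / 2) : ℝ) * (1 / Real.sqrt (∫ x : ℝ × ℝ, rdPsi0 x ^ 2))) * ‖G q‖)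
    (fun x => (hm x).aestronglyMeasurable.mul hG.aestronglyMeasurable) (fun x => Filter.Eventually.of_forall fun q => ?_)
    (hG.norm.const_mul _) (Filter.Eventually.of_forall fun q => ?_)
  · rw [norm_mul, rt_w1c_pk, norm_mul, norm_mul, rt_w1c_norm_exp, rt_w1c_norm_exp, Complex.norm_real,
      Real.norm_of_nonneg (rt_w1c_A_nonneg p k β x.1 q), one_mul, mul_one]
    exact mul_le_mul_of_nonneg_right (rt_w1c_A_le p k β x.1 q) (norm_nonneg _)
  · unfold RdWvPar.pk
    have h1 : Continuous fun x : RdWvPar.Ph => rdPsi ((rdD p.H k)⁻¹ • ((2 * q.2)⁻¹ • q.1 - x.1)) :=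
      rd_psi_contDiff.continuous.comp (by fun_prop)
    have h2 : Continuous fun x : RdWvPar.Ph => rtIp q.1 x.2.1 - q.2 * x.2.2 - T * rtSq q.1 / (4 * q.2) := by
      unfold rtIp
      fun_prop
    exact ((Complex.continuous_ofReal.comp (continuous_const.mul h1)).mul
      (Complex.continuous_exp.comp (continuous_const.mul (Complex.continuous_ofReal.comp h2)))).mul continuous_const

/-- **LEAF L-256-RESP-VAN: rows far from the angular spectrum vanish.**  For a.e. `q`: `G q = 0` or `pk = 0` (`rd_psi_supp`: `rtSq ((2q.2)⁻¹ξ - A) < 2d²`;  triangle inequality for `√(rtSq ·)`: if `rtSq (v - As) ≤ M²` and `rtSq (v - A) < 2d²` then `rtSq (A - As) ≤ (M + 2d)²`);  `integral_eq_zero_of_ae`. -/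
theorem re_sp_row_van (p : RdWvPar) (T : ℝ) (k β : ℕ) (G : RdWvPar.Mo → ℂ) (As : ℝ × ℝ) (M : ℝ) (hM : 0 ≤ M)
    (h2 : ∀ᵐ q ∂(volume : Measure RdWvPar.Mo), G q ≠ 0 → rtSq ((2 * q.2)⁻¹ • q.1 - As) ≤ M ^ 2) (A : ℝ × ℝ) (z : ReSp)
    (hA : (M + 2 * rdD p.H k) ^ 2 < rtSq (A - As)) : ∫ q, p.pk T k β (A, z) q * G q = 0 := by
  have hd : 0 < rdD p.H k := (rt_w1c_d_pos p k).1
  refine integral_eq_zero_of_ae ?_
  filter_upwards [h2] with q a2
  show p.pk T k β (A, z) q * G q = 0
  by_contra hne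
  obtain ⟨n1, n2⟩ := mul_ne_zero_iff.1 hne
  have c1 := a2 n2
  have n3 : rdPsi ((rdD p.H k)⁻¹ • ((2 * q.2)⁻¹ • q.1 - A)) ≠ 0 := by
    intro h0
    apply n1
    unfold RdWvPar.pk
    simp only
    rw [h0]
    simp
  have c2 := rd_psi_supp n3
  unfold rtSq at c1 c2 hA
  simp only [Prod.smul_fst, Prod.smul_snd, Prod.fst_sub, Prod.snd_sub, smul_eq_mul] at c1 c2 hA
  set v1 := (2 * q.2)⁻¹ * q.1.1
  set v2 := (2 * q.2)⁻¹ * q.1.2
  set d := rdD p.H k
  have c3 : (v1 - A.1) ^ 2 + (v2 - A.2) ^ 2 < 2 * d ^ 2 := by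
    have e : (d⁻¹ * (v1 - A.1)) ^ 2 + (d⁻¹ * (v2 - A.2)) ^ 2 = ((v1 - A.1) ^ 2 + (v2 - A.2) ^ 2) / d ^ 2 := by
      field_simp
    rw [e, div_lt_iff₀ (by positivity)] at c2
    exact c2
  have cs : ((v1 - As.1) * (v1 - A.1) + (v2 - As.2) * (v2 - A.2)) ^ 2 ≤ (M * (2 * d)) ^ 2 := by
    have t1 : ((v1 - As.1) * (v1 - A.1) + (v2 - As.2) * (v2 - A.2)) ^ 2
        ≤ ((v1 - As.1) ^ 2 + (v2 - As.2) ^ 2) * ((v1 - A.1) ^ 2 + (v2 - A.2) ^ 2) := by
      nlinarith [sq_nonneg ((v1 - As.1) * (v2 - A.2) - (v2 - As.2) * (v1 - A.1))]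
    have t2 : ((v1 - As.1) ^ 2 + (v2 - As.2) ^ 2) * ((v1 - A.1) ^ 2 + (v2 - A.2) ^ 2) ≤ M ^ 2 * (2 * d ^ 2) :=
      mul_le_mul c1 c3.le (by positivity) (by positivity)
    nlinarith [sq_nonneg (M * d)]
  have cs2 := abs_le_of_sq_le_sq cs (by positivity)
  have cs3 := (abs_le.1 cs2).1
  have e2 : (A.1 - As.1) ^ 2 + (A.2 - As.2) ^ 2 = ((v1 - As.1) ^ 2 + (v2 - As.2) ^ 2) + ((v1 - A.1) ^ 2 + (v2 - A.2) ^ 2)
      - 2 * ((v1 - As.1) * (v1 - A.1) + (v2 - As.2) * (v2 - A.2)) := by ring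
  nlinarith [sq_nonneg d]

end Claimed.Agent.R256
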