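-- KEEP
import Claimed.Agent.R256.Re.SpaRep
import Claimed.Agent.R256.Tri.Contract
import Claimed.Agent.R256.Rt.Geo
import Claimed.Agent.R256.Rt.Conf

/-!
# Row 256, unit RE, block PLANE-B = (sec) for waves (08-round-entropy.tex l.345-530), file 1: DEFINITIONS            (architect helper290; prefix `re_sc_`, defs `Sec..`/`sec..`)
EXIT of the block (file `SecMain.lean`):   `re_sc_planeB : RePlaneB η`.      EXACT INEQUALITIES, no limits, no negligible errors, no position charts, no clipping.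
`re_planeB` = `re_sp_readout` (helper213, (space-3)) + CORE:   `∫_{T0}^{T0+ℓ} ∫ |u_t|³ ≤ C (K P)^{C0} (1+1/h)^{η/4+ν} √κ ℓ^{-1/2} ‖G‖²`,   `u_t = reFld t G`, `ℓ = rdLen k`, `h = H/(ℓ r²)`.
THE PROOF OF CORE.
 (0) `h` large (`h Λ⁴ 2^{4bm+40} > 1`): sup bound of PLANE-A.      From now on `h` small.
 (1) PIECES.  For a set `S` of ROOT ANGLES: `secG S G = m_S(ξ/2ρ) G`, `m_S = d⁻² ∫_S ψ((· - A)/d)² dA ∈ [0,1]` = synthesis of the root rows with `A ∈ S` (`re_sc_F2S`).   Additive in `S`, no kernel estimate needed for cutting.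
 (2) PATCHES.  Finitely many (`(K P)^C`) squares of angles; in each an EXACT direction `Ao` of the section, unit gradient `e`, `bt = β/√D₀`: patch data `c : SecPt`.
     normalised angle `ã = c.ang A = Rot_e (A - Ao)/r`;   the section is `c.F ã = ã₂ + bt |ã|² = 0`;   `c.D ã = 1 + 2 bt ã₂ + bt² |ã|² ∈ [1/2, 2]`;   new angle `(ã₁/D, F/D)`, `c.X A = ã₁/D`.
 (3) THE LINEAR CHART (L): `c.Lm (t, z) = ((t', b₁', y'), b₂') ∈ TV × ℝ`;   `conj u_t(z) = secV g Θ θ (Lm (t,z))` = superposition of plane waves of frequencies `(c.Th q, c.th q)` (`re_sc_fld`).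
 (4) CAPS `c.cap S δ x = {A ∈ S, x ≤ X A < x + δ}`, `x ∈ secGrid δ`.   `c.Th q` lies in the plank of `x` (`re_sc_plank`), `|c.th q| ≤ Bf`.
 (5) SLAB theorem (`re_sc_slab`, paper free): at fixed `b₂' = s0`, cut off by `teta ℓE c`: `tri_env_dil` on a wide band (`re_sc_env_wide`) + Bernstein in `b₂'`.   AVERAGE over `(c, s0)` (`re_sc_avg`).
 (6) TILE bound (`re_sc_tile`): `∫∫ wt · ∑_{|x-x0| ≤ R} |u^x|² ≤ C Λ^C ℓE ℓ κ (R r)⁴ (W/R)^{1-η}`:   `re_sc_wen` (F2S, Cauchy-Schwarz, kernel majorant with polynomial growth in time `re_sc_kb`),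
     `re_sc_shell` (the pulled back weight is `≤ C ℓE ℓ ∑_j 2^{-N'j} 1_{shell 2^j}`), `re_sc_geo` (shell `⊆` ONE enlarged hyperquadric test `c.test`), `re_sc_mass` (`rt_G1` + regularity).
All definitions are FROZEN.
-/

set_option autoImplicit false

namespace Claimed.Agent.R256

open MeasureTheory
open scoped ENNReal FourierTransform InnerProductSpace BigOperators

/-- data of one patch: Planck parameter, root cut, root time, frame width, exact direction of the section, unit gradient, normalised curvature -/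
structure SecPt where
  H : ℝ
  k : ℕ
  T0 : ℝ
  r : ℝ
  Ao : ℝ × ℝ
  e : ℝ × ℝ
  bt : ℝ

namespace SecPt

variable (c : SecPt)

/-- the root length -/
noncomputable def l : ℝ := rdLen c.k

/-- the Planck parameter in the frame -/
noncomputable def h : ℝ := c.H / (c.l * c.r ^ 2)

/-- the normalised angle -/
noncomputable def ang (A : ℝ × ℝ) : ℝ × ℝ := rtRot c.e (c.r⁻¹ • (A - c.Ao))

/-- `D = 1 + 2 bt a₂ + bt² |a|²` -/
def D (a : ℝ × ℝ) : ℝ := 1 + 2 * c.bt * a.2 + c.bt ^ 2 * rtSq a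

/-- the section `a₂ + bt |a|²` -/
def F (a : ℝ × ℝ) : ℝ := a.2 + c.bt * rtSq a

/-- the angular parameter of the base cone -/
noncomputable def X (A : ℝ × ℝ) : ℝ := (c.ang A).1 / c.D (c.ang A)

/-- ranges -/
structure Ok : Prop where
  H_pos : 0 < c.H
  r_pos : 0 < c.r
  e_unit : rtSq c.e = 1

/-- normalised time -/
noncomputable def uo (t : ℝ) : ℝ := (t - c.T0) / c.l

/-- normalised boosted rotated horizontal position -/
noncomputable def bo (t : ℝ) (z : ReSp) : ℝ × ℝ := rtRot c.e ((c.l * c.r)⁻¹ • (z.1 - (t - c.T0) • c.Ao))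

/-- normalised boosted vertical position -/
noncomputable def yo (t : ℝ) (z : ReSp) : ℝ := (z.2 - 2 * rtIp c.Ao z.1 + (t - c.T0) * rtSq c.Ao) / (c.l * c.r ^ 2)

/-- **the chart (L)**: `((t', b₁', y'), b₂')` -/
noncomputable def Lm (x : ℝ × ReSp) : TV × ℝ :=
  (tvec (c.uo x.1 + 2 * c.bt * (c.bo x.1 x.2).2 + c.bt ^ 2 * c.yo x.1 x.2) (c.bo x.1 x.2).1 (c.yo x.1 x.2),
    (c.bo x.1 x.2).2 + c.bt * c.yo x.1 x.2)

/-- the normalised old time as a function of the new coordinates -/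
def tm (P : TV × ℝ) : ℝ := P.1 0 - 2 * c.bt * P.2 + c.bt ^ 2 * P.1 2

/-- normalised radial frequency -/
noncomputable def sg (q : RdWvPar.Mo) : ℝ := q.2 * (c.l * c.r ^ 2)

/-- normalised angle of a frequency -/
noncomputable def aq (q : RdWvPar.Mo) : ℝ × ℝ := c.ang ((2 * q.2)⁻¹ • q.1)

/-- the frequency in `(t', b₁', y')` (of the CONJUGATE wave, `2π` normalisation) -/
noncomputable def Th (q : RdWvPar.Mo) : TV := (c.sg q / (2 * Real.pi)) • tvec (rtSq (c.aq q)) (-2 * (c.aq q).1) (c.D (c.aq q))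

/-- the frequency in `b₂'` -/
noncomputable def th (q : RdWvPar.Mo) : ℝ := -(c.sg q / Real.pi) * c.F (c.aq q)

/-- a fine cap of root angles -/
def cap (S : Set (ℝ × ℝ)) (δ x : ℝ) : Set (ℝ × ℝ) := {A | A ∈ S ∧ x ≤ c.X A ∧ c.X A < x + δ}

/-- a patch of root angles -/
structure Pat (Λ : ℝ) (S : Set (ℝ × ℝ)) : Prop where
  meas : MeasurableSet S
  small : ∀ A ∈ S, rtSq (c.ang A) * (1 + |c.bt|) ^ 2 ≤ 1 / 64
  sec : ∀ A ∈ S, |c.F (c.ang A)| ≤ Λ * √c.h

end SecPt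

/-- the multiplier of a set of root angles -/
noncomputable def secM (H : ℝ) (k : ℕ) (S : Set (ℝ × ℝ)) (a : ℝ × ℝ) : ℝ :=
  (rdD H k ^ 2)⁻¹ * ∫ A in S, rdPsi ((rdD H k)⁻¹ • (a - A)) ^ 2

/-- the piece of a state carried by the root rows with angle in `S` -/
noncomputable def secG (H : ℝ) (k : ℕ) (S : Set (ℝ × ℝ)) (G : RdWvPar.Mo → ℂ) (q : RdWvPar.Mo) : ℂ :=
  ((secM H k S ((2 * q.2)⁻¹ • q.1) : ℝ) : ℂ) * G q

/-- the grid of angular parameters -/
noncomputable def secGrid (δ : ℝ) : Finset ℝ := (Finset.Icc (-⌊1 / δ⌋) ⌊1 / δ⌋).image fun j : ℤ => (j : ℝ) * δ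

/-- superposition of plane waves on `TV × ℝ` -/
noncomputable def secV (g : RdWvPar.Mo → ℂ) (Θ : RdWvPar.Mo → TV) (θ : RdWvPar.Mo → ℝ) (p : TV) (s : ℝ) : ℂ :=
  ∫ q, 𝐞 (⟪Θ q, p⟫_ℝ + θ q * s) • g q

/-- the amplitude of the conjugate wave -/
noncomputable def secg (T0 : ℝ) (G : RdWvPar.Mo → ℂ) (q : RdWvPar.Mo) : ℂ :=
  (reC3 : ℂ) * Complex.exp (Complex.I * ((T0 * reOm q : ℝ) : ℂ)) * (starRingEnd ℂ) (G q)

/-- the root rows -/
noncomputable def secRow (p : RdWvPar) (T : ℝ) (k β : ℕ) (G : RdWvPar.Mo → ℂ) (x : RdWvPar.Ph) : ℂ := ∫ q, p.pk T k β x q * G q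

/-- `κ`-regularity of the root rows -/
def SecReg (η : ℝ) (p : RdWvPar) (T : ℝ) (k β : ℕ) (G : RdWvPar.Mo → ℂ) (κ : ℝ) : Prop :=
  ∀ τ : RtTest, τ.Adm 1 → τ.l = rdLen k → rdD p.H k ≤ τ.unc →
    ∫⁻ x in {x : RdWvPar.Ph | RdWvPar.co T x ∈ τ.set 1}, ‖secRow p T k β G x‖ₑ ^ 2 ∂(p.rw k) ≤ ENNReal.ofReal (κ * τ.w η)

/-- the displacement with normalised coordinates `Z` along the ray of velocity `A`, time lag `s` (inverse of `reZ`) -/
noncomputable def secW (H : ℝ) (k : ℕ) (A : ℝ × ℝ) (s : ℝ) (Z : ReSp) : ReSp :=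
  (s • A + rdQ H k • Z.1, s * rtSq A + 2 * rdQ H k * rtIp A Z.1 + H * Z.2)

/-- a weight on space-time pulled back to the root rows (kernel majorant of order `N1`) -/
noncomputable def secFl (H : ℝ) (k : ℕ) (T : ℝ) (N1 : ℕ) (Ω : ℝ × ReSp → ℝ≥0∞) (y : RdWvPar.Ph) : ℝ≥0∞ :=
  ∫⁻ s : ℝ, ∫⁻ Z : ReSp, ENNReal.ofReal ((1 + |s| / rdLen k) ^ (N1 + 4) * (1 + ‖Z‖) ^ (-(N1 : ℝ))) * Ω (T + s, y.2 + secW H k y.1 s Z)

namespace SecPt

variable (c : SecPt)

/-- the weight of a tile (in the chart), with decay in the old time -/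
noncomputable def wt (N Mt : ℕ) (ℓE Bf R x0 : ℝ) (c' : TV) (s0 : ℝ) (x : ℝ × ReSp) : ℝ≥0∞ :=
  ENNReal.ofReal ((1 + |c.uo x.1|) ^ (-(Mt : ℝ))) * tW N x0 ℓE R c' (c.Lm x).1 * ENNReal.ofReal ((1 + Bf * |(c.Lm x).2 - s0|) ^ (-(N : ℝ)))

/-- the root rows which, displaced by at most `M` packet units, meet the `M`-enlarged tile within the time `M ℓ` -/
def shell (ℓE Bf R x0 : ℝ) (c' : TV) (s0 M : ℝ) : Set RdWvPar.Ph :=
  {y | ∃ (s : ℝ) (Z : ReSp), |s| ≤ M * c.l ∧ ‖Z‖ ≤ M ∧ ‖tcoord x0 ℓE R ((c.Lm (c.T0 + s, y.2 + secW c.H c.k y.1 s Z)).1 - c')‖ ≤ M ∧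
    Bf * |(c.Lm (c.T0 + s, y.2 + secW c.H c.k y.1 s Z)).2 - s0| ≤ M}

/-- inverse rotation -/
def unrot (v : ℝ × ℝ) : ℝ × ℝ := rtRot (-c.e.1, c.e.2) v

/-- normalised direction of the central ray of a tile: new angle `(x0, 0)` -/
noncomputable def as (x0 : ℝ) : ℝ × ℝ := (x0 / (1 + c.bt ^ 2 * x0 ^ 2), -(c.bt * x0 ^ 2) / (1 + c.bt ^ 2 * x0 ^ 2))

/-- normalised position at the root time of the central ray of a tile -/
noncomputable def bs (x0 : ℝ) (c' : TV) (s0 : ℝ) : ℝ × ℝ := (c' 1, s0 - c.bt * c' 2) - (c' 0 - 2 * c.bt * s0 + c.bt ^ 2 * c' 2) • c.as x0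

/-- normalised height at the root time of the central ray of a tile -/
noncomputable def ys (x0 : ℝ) (c' : TV) (s0 : ℝ) : ℝ := c' 2 - (c' 0 - 2 * c.bt * s0 + c.bt ^ 2 * c' 2) * rtSq (c.as x0)

/-- **the hyperquadric test of a tile**: width `R r`, thickness `f`, centre = central ray, polynomial `(b₂' - s0)/R` -/
noncomputable def test (R x0 : ℝ) (c' : TV) (s0 f : ℝ) : RtTest where
  l := c.l
  r := R * c.r
  f := f
  As := c.Ao + c.r • c.unrot (c.as x0)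
  bs := (c.l * c.r) • c.unrot (c.bs x0 c' s0)
  ys := c.l * c.r ^ 2 * c.ys x0 c' s0 + 2 * rtIp c.Ao ((c.l * c.r) • c.unrot (c.bs x0 c' s0))
  n := ⟨0, 0, c.unrot ((0, 1) + (2 * c.bt) • c.as x0), c.bt * R, 0⟩

end SecPt

theorem re_sc_defs_eqns_cite : True := by
  have := @SecPt.l.eq_1
  have := @SecPt.h.eq_1
  have := @SecPt.ang.eq_1
  have := @SecPt.D.eq_1
  have := @SecPt.F.eq_1
  have := @SecPt.X.eq_1
  have := @SecPt.uo.eq_1
  have := @SecPt.bo.eq_1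
  have := @SecPt.yo.eq_1
  have := @SecPt.Lm.eq_1
  have := @SecPt.tm.eq_1
  have := @SecPt.sg.eq_1
  have := @SecPt.aq.eq_1
  have := @SecPt.Th.eq_1
  have := @SecPt.th.eq_1
  have := @SecPt.cap.eq_1
  have := @secM.eq_1
  have := @secG.eq_1
  have := @secGrid.eq_1
  have := @secV.eq_1
  have := @secg.eq_1
  have := @secRow.eq_1
  have := @SecReg.eq_1
  have := @secW.eq_1
  have := @secFl.eq_1
  have := @SecPt.wt.eq_1
  have := @SecPt.shell.eq_1
  have := @SecPt.unrot.eq_1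
  have := @SecPt.as.eq_1
  have := @SecPt.bs.eq_1
  have := @SecPt.ys.eq_1
  have := @SecPt.test.eq_1
  trivial

end Claimed.Agent.R256
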