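import Claimed.Agent.R256.Re.SecDefs

/-!
# Row 256, unit RE, block PLANE-B, file 3: THE LINEAR CHART, PLANKS, CAPS, THE TEST OF A TILE            (architect helper290)            CONTRACT
PAPER-FREE: exact rational identities and elementary inequalities (+ one Jacobian).   Every `sorry` is a leaf `L-256-SEC-*` (name in the docstring).   Statements FROZEN; auxiliary lemmas directly above your theorem, prefix `re_sc_`; edit only your block.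
NOTATION.  `ã = c.ang A`, `D = c.D ã`, `F = c.F ã`, new angle `a' = (ã₁/D, F/D)`.   `rtRot e` is the rotation matrix `((e₂, -e₁), (e₁, e₂))` (`rt_rot_sq`, `rt_rot_ip` in `Rt/Conf.lean`), `c.unrot` its inverse.   `tvec a b c i`: `simp [tvec]`.
-/

set_option autoImplicit false

namespace Claimed.Agent.R256

open MeasureTheory
open scoped ENNReal FourierTransform InnerProductSpace BigOperators

/-! ## 1. The chart -/

/-- **LEAF L-256-SEC-LIN (1).**  unfold, `simp [tvec]`, `ring`. -/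
theorem re_sc_tm_Lm (c : SecPt) (x : ℝ × ReSp) : c.tm (c.Lm x) = c.uo x.1 := by
  unfold SecPt.tm SecPt.Lm
  simp only [(tri_tvec_apply _ _ _).1, (tri_tvec_apply _ _ _).2.2]
  ring

theorem re_sc_inner_tvec (a b d a' b' d' : ℝ) : ⟪tvec a b d, tvec a' b' d'⟫_ℝ = a * a' + b * b' + d * d' := by
  simp [tvec, PiLp.inner_apply, Fin.sum_univ_three]
  ring

theorem re_sc_phase_aux (c : SecPt) (hc : c.Ok) (q : RdWvPar.Mo) (hq : q.2 ≠ 0) (t : ℝ) (z : ReSp) :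
    c.sg q * (rtSq (c.aq q) * c.uo t - 2 * rtIp (c.aq q) (c.bo t z) + c.yo t z) = -(rePair q z - (t - c.T0) * reOm q) := by
  have hl : c.l ≠ 0 := (rdLen_pos c.k).ne'
  have hr : c.r ≠ 0 := hc.r_pos.ne'
  unfold SecPt.aq SecPt.ang SecPt.bo
  rw [rt_rot_sq, rt_rot_ip, hc.e_unit, one_mul, one_mul]
  obtain ⟨⟨x1, x2⟩, ρ⟩ := q
  obtain ⟨⟨b1, b2⟩, y⟩ := z
  simp only at hq
  simp only [SecPt.sg, SecPt.uo, SecPt.yo, rtSq, rtIp, rePair, reOm, Prod.smul_mk, Prod.fst_sub, Prod.snd_sub,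
    Prod.smul_fst, Prod.smul_snd, smul_eq_mul]
  field_simp
  ring

/-- **LEAF L-256-SEC-LIN (2): the phase in the chart.**   With `ξ = 2ρ a`: `rePair q z - (t-T0) reOm q = σ (2 ã·b° - y° - u |ã|²)`, `σ = c.sg q`, `(u, b°, y°) = (c.uo, c.bo, c.yo)` (rotation invariance `rt_rot_ip`, `e_unit`), and `u = t' - 2 bt b₂' + bt² y'`, `b°₂ = b₂' - bt y'`.
`⟪tvec a b c, tvec a' b' c'⟫ = a a' + b b' + c c'` (`PiLp.inner_apply`, `Fin.sum_univ_three`);  `field_simp`, `ring` after unfolding `rtRot, rtIp, rtSq, rePair, reOm`. -/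
theorem re_sc_phase (c : SecPt) (hc : c.Ok) (q : RdWvPar.Mo) (hq : q.2 ≠ 0) (t : ℝ) (z : ReSp) :
    2 * Real.pi * (⟪c.Th q, (c.Lm (t, z)).1⟫_ℝ + c.th q * (c.Lm (t, z)).2) = -(rePair q z - (t - c.T0) * reOm q) := by
  rw [← re_sc_phase_aux c hc q hq t z]
  unfold SecPt.Th SecPt.th SecPt.Lm
  rw [inner_smul_left, re_sc_inner_tvec]
  simp only [conj_trivial, SecPt.D, SecPt.F, rtIp]
  have hpi := Real.pi_ne_zero
  field_simp
  ring

theorem re_sc_ae_ne : ∀ᵐ q : RdWvPar.Mo, q.2 ≠ 0 := by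
  have h : (volume : Measure RdWvPar.Mo) {q | q.2 = 0} = 0 := by
    have e : {q : RdWvPar.Mo | q.2 = 0} = Set.univ ×ˢ {0} := by
      ext q; simp
    rw [e, Measure.volume_eq_prod, Measure.prod_prod, Real.volume_singleton, mul_zero]
  rw [ae_iff]
  simpa using h

/-- **LEAF L-256-SEC-LIN (3): the conjugate field is a superposition of plane waves in the chart.**   `integral_conj`, `re_sc_phase` for a.e. `q` (`q.2 ≠ 0`: the hyperplane is null, `Measure.addHaar_affineSubspace`-free: `volume {q | q.2 = 0} = 0` by `Measure.prod_apply`/`measure_prod_null`), `Real.fourierChar_apply`/`Circle.smul_def`: `𝐞 x = exp (2π x I)`. -/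
theorem re_sc_fld (c : SecPt) (hc : c.Ok) (G : RdWvPar.Mo → ℂ) (t : ℝ) (z : ReSp) :
    (starRingEnd ℂ) (reFld t G z) = secV (secg c.T0 G) c.Th c.th (c.Lm (t, z)).1 (c.Lm (t, z)).2 := by
  unfold reFld secV
  rw [← integral_conj]
  refine integral_congr_ae ?_
  filter_upwards [re_sc_ae_ne] with q hq
  have hp := re_sc_phase c hc q hq t z
  rw [Circle.smul_def, Real.fourierChar_apply, smul_eq_mul]
  unfold secg
  rw [map_mul, map_mul, Complex.conj_ofReal, ← Complex.exp_conj, map_mul, Complex.conj_I, Complex.conj_ofReal]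
  have e1 : ((2 * Real.pi * (⟪c.Th q, (c.Lm (t, z)).1⟫_ℝ + c.th q * (c.Lm (t, z)).2) : ℝ) : ℂ) * Complex.I
      + Complex.I * ((c.T0 * reOm q : ℝ) : ℂ) = -Complex.I * ((rePair q z - t * reOm q : ℝ) : ℂ) := by
    rw [hp]
    push_cast
    ring
  rw [← e1, Complex.exp_add]
  ring

theorem re_sc_tvec_meas {α : Type*} [MeasurableSpace α] (f g h : α → ℝ) (hf : Measurable f) (hg : Measurable g) (hh : Measurable h) :
    Measurable fun x => tvec (f x) (g x) (h x) := by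
  unfold tvec
  refine (WithLp.measurable_toLp 2 (Fin 3 → ℝ)).comp (f := fun x => ![f x, g x, h x]) ?_
  rw [measurable_pi_iff]
  intro i
  fin_cases i
  · exact hf
  · exact hg
  · exact hh

theorem re_sc_aq_meas (c : SecPt) : Measurable c.aq := by
  unfold SecPt.aq SecPt.ang rtRot
  fun_prop

/-- **LEAF L-256-SEC-LIN (4).**  all ingredients are measurable (`⁻¹`, products, `rtRot`, `tvec` = `WithLp.toLp` of a measurable vector: `measurable_pi_iff`, `(EuclideanSpace.measurableEquiv _).symm`). -/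
theorem re_sc_Th_meas (c : SecPt) : Measurable c.Th ∧ Measurable c.th := by
  have ha := re_sc_aq_meas c
  have hs : Measurable c.sg := by
    unfold SecPt.sg
    fun_prop
  constructor
  · unfold SecPt.Th
    refine Measurable.smul (hs.div_const _) (re_sc_tvec_meas _ _ _ ?_ ?_ ?_)
    · unfold rtSq; fun_prop
    · fun_prop
    · unfold SecPt.D rtSq; fun_prop
  · unfold SecPt.th SecPt.F rtSq
    fun_prop

/-- an affine map of the line -/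
theorem re_sc_jac_aff (a b : ℝ) (ha : 0 < a) :
    Measure.map (fun y : ℝ => (y + b) / a) volume = ENNReal.ofReal a • (volume : Measure ℝ) := by
  have h1 : (fun y : ℝ => (y + b) / a) = (fun y => a⁻¹ * y) ∘ (fun y => y + b) := by
    funext y
    simp [div_eq_inv_mul]
  rw [h1, ← Measure.map_map (by fun_prop) (by fun_prop), map_add_right_eq_self,
    Real.map_volume_mul_left (inv_ne_zero ha.ne'), inv_inv, abs_of_pos ha]

/-- translation, dilation and rotation of the plane -/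
theorem re_sc_jac_rot (e w : ℝ × ℝ) (he : rtSq e = 1) (ρ : ℝ) (hρ : 0 < ρ) :
    Measure.map (fun b : ℝ × ℝ => rtRot e (ρ⁻¹ • (b - w))) volume = ENNReal.ofReal (ρ ^ 2) • (volume : Measure (ℝ × ℝ)) := by
  have h1 : (fun b : ℝ × ℝ => rtRot e (ρ⁻¹ • (b - w)))
      = (Matrix.toLin (Module.Basis.finTwoProd ℝ) (Module.Basis.finTwoProd ℝ)
          !![e.2 * ρ⁻¹, -e.1 * ρ⁻¹; e.1 * ρ⁻¹, e.2 * ρ⁻¹]) ∘ (fun b => b + (-w)) := by
    funext b
    rw [Function.comp_apply, Matrix.toLin_finTwoProd_apply]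
    unfold rtRot
    ext
    · simp only [Prod.smul_fst, Prod.smul_snd, Prod.fst_sub, Prod.snd_sub, Prod.fst_add, Prod.snd_add, Prod.fst_neg,
        Prod.snd_neg, smul_eq_mul]
      ring
    · simp only [Prod.smul_fst, Prod.smul_snd, Prod.fst_sub, Prod.snd_sub, Prod.fst_add, Prod.snd_add, Prod.fst_neg,
        Prod.snd_neg, smul_eq_mul]
      ring
  have hdet : LinearMap.det (Matrix.toLin (Module.Basis.finTwoProd ℝ) (Module.Basis.finTwoProd ℝ)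
      !![e.2 * ρ⁻¹, -e.1 * ρ⁻¹; e.1 * ρ⁻¹, e.2 * ρ⁻¹]) = (ρ ^ 2)⁻¹ := by
    rw [LinearMap.det_toLin, Matrix.det_fin_two_of]
    unfold rtSq at he
    have : e.2 * ρ⁻¹ * (e.2 * ρ⁻¹) - -e.1 * ρ⁻¹ * (e.1 * ρ⁻¹) = (e.1 ^ 2 + e.2 ^ 2) * (ρ ^ 2)⁻¹ := by
      rw [← inv_pow]
      ring
    rw [this, he, one_mul]
  have hne : LinearMap.det (Matrix.toLin (Module.Basis.finTwoProd ℝ) (Module.Basis.finTwoProd ℝ)
      !![e.2 * ρ⁻¹, -e.1 * ρ⁻¹; e.1 * ρ⁻¹, e.2 * ρ⁻¹]) ≠ 0 := by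
    rw [hdet]
    positivity
  rw [h1, ← Measure.map_map (LinearMap.continuous_of_finiteDimensional _).measurable (by fun_prop), map_add_right_eq_self,
    Measure.map_linearMap_addHaar_eq_smul_addHaar _ hne, hdet, inv_inv, abs_of_pos (by positivity)]

/-- a shear: the first variable is translated by a function of the second -/
theorem re_sc_jac_sh {G β : Type*} [MeasurableSpace G] [Add G] [MeasurableAdd₂ G] [MeasurableSpace β] (μ : Measure G)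
    [SFinite μ] [μ.IsAddRightInvariant] (ν : Measure β) [SFinite ν] (φ : β → G) (hφ : Measurable φ) :
    MeasurePreserving (fun p : G × β => (p.1 + φ p.2, p.2)) (μ.prod ν) (μ.prod ν) := by
  have h := MeasurePreserving.skew_product (μa := ν) (μc := μ) (μd := μ) (MeasurePreserving.id ν) (g := fun b x => x + φ b)
    (by
      show Measurable fun p : β × G => p.2 + φ p.1
      fun_prop) (Filter.Eventually.of_forall fun b => map_add_right_eq_self μ (φ b))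
  exact (Measure.measurePreserving_swap (μ := ν) (ν := μ)).comp (h.comp (Measure.measurePreserving_swap (μ := μ) (ν := ν)))

/-- the permutation `(u, ((a, b), c)) ↦ (((u, a), c), b)` -/
theorem re_sc_jac_perm : MeasurePreserving (fun p : ℝ × ((ℝ × ℝ) × ℝ) => (((p.1, p.2.1.1), p.2.2), p.2.1.2))
    (volume : Measure (ℝ × ((ℝ × ℝ) × ℝ))) (volume : Measure (((ℝ × ℝ) × ℝ) × ℝ)) := by
  have v := (volume : Measure ℝ)
  have a1 := measurePreserving_prodAssoc (volume : Measure ℝ) (volume : Measure ℝ) (volume : Measure ℝ)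
  have a2 : MeasurePreserving (Prod.map (id : ℝ → ℝ) (Prod.swap : ℝ × ℝ → ℝ × ℝ)) (volume : Measure (ℝ × (ℝ × ℝ))) volume :=
    (MeasurePreserving.id (volume : Measure ℝ)).prod Measure.measurePreserving_swap
  have σ := a1.symm.comp (a2.comp a1)
  have b1 : MeasurePreserving (Prod.map (id : ℝ → ℝ) _) (volume : Measure (ℝ × ((ℝ × ℝ) × ℝ))) volume :=
    (MeasurePreserving.id (volume : Measure ℝ)).prod σ
  have b2 := (measurePreserving_prodAssoc (volume : Measure ℝ) (volume : Measure (ℝ × ℝ)) (volume : Measure ℝ)).symm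
  have b3 : MeasurePreserving (Prod.map _ (id : ℝ → ℝ)) (volume : Measure ((ℝ × (ℝ × ℝ)) × ℝ)) volume :=
    a1.symm.prod (MeasurePreserving.id (volume : Measure ℝ))
  exact b3.comp (b2.comp b1)

/-- the identification with `TV` -/
theorem re_sc_jac_tv : MeasurePreserving (fun z : ReSp => tvec z.1.1 z.1.2 z.2) volume volume := by
  obtain ⟨e, he, hmp⟩ := re_sp_iso
  have hs : (fun z : ReSp => tvec z.1.1 z.1.2 z.2) = e.symm := by
    funext z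
    symm
    rw [e.symm_apply_eq, he]
    simp [tvec]
  rw [hs]
  refine ⟨e.symm.continuous.measurable, ?_⟩
  conv_lhs => rw [← hmp.map_eq]
  rw [Measure.map_map e.symm.continuous.measurable e.continuous.measurable]
  have : (e.symm : ReSp → TV) ∘ e = id := by
    funext p
    simp
  rw [this, Measure.map_id]

/-- **LEAF L-256-SEC-JAC: the Jacobian of the chart.**
PLAN.  `c.Lm` = composition of: translation in `t`; the shear `(t, b, y) ↦ (t, b - tAo, y - 2Ao·b + t|Ao|²)`; the dilation `(t/ℓ, b/(ℓr), y/(ℓr²))` (factor `ℓ⁴r⁴`); the rotation of `b`; the shear `(u, b, y) ↦ (u + 2 bt b₂ + bt² y, b₁, b₂ + bt y, y)`; the measure preserving identification `ℝ × ((ℝ × ℝ) × ℝ) ≃ TV × ℝ`, `(u, (b₁, b₂), y) ↦ (tvec u b₁ y, b₂)` (`re_sp_iso`).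
Either step by step (Tonelli + translation invariance in one variable at a time: `lintegral_add_right_eq_self`, `lintegral_comp_mul_left`-type), or `Measure.map_linearMap_addHaar_eq_smul_addHaar` on `ℝ × ((ℝ × ℝ) × ℝ)` with the determinant `(ℓ⁴r⁴)⁻¹` (`rtSq e = 1`). -/
theorem re_sc_jac (c : SecPt) (hc : c.Ok) (f : TV × ℝ → ℝ≥0∞) (hf : Measurable f) :
    ∫⁻ x : ℝ × ReSp, f (c.Lm x) = ENNReal.ofReal (c.l ^ 4 * c.r ^ 4) * ∫⁻ P : TV × ℝ, f P := by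
  have hl : 0 < c.l := by
    unfold SecPt.l rdLen
    positivity
  have hr := hc.r_pos
  -- the normalisation
  have hin : ∀ t : ℝ, Measure.map (fun z : ReSp => (c.bo t z, c.yo t z)) volume
      = (ENNReal.ofReal ((c.l * c.r) ^ 2) • (volume : Measure (ℝ × ℝ))).prod
          (ENNReal.ofReal (c.l * c.r ^ 2) • (volume : Measure ℝ)) := by
    intro t
    have h1 : MeasurePreserving (fun b : ℝ × ℝ => rtRot c.e ((c.l * c.r)⁻¹ • (b - (t - c.T0) • c.Ao))) volume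
        (ENNReal.ofReal ((c.l * c.r) ^ 2) • volume) :=
      ⟨by unfold rtRot; fun_prop, re_sc_jac_rot c.e _ hc.e_unit _ (by positivity)⟩
    have h2 := MeasurePreserving.skew_product (μc := (volume : Measure ℝ))
      (μd := ENNReal.ofReal (c.l * c.r ^ 2) • (volume : Measure ℝ)) h1
      (g := fun b y => (y + (-(2 * rtIp c.Ao b) + (t - c.T0) * rtSq c.Ao)) / (c.l * c.r ^ 2))
      (by
        show Measurable fun p : (ℝ × ℝ) × ℝ => (p.2 + (-(2 * rtIp c.Ao p.1) + (t - c.T0) * rtSq c.Ao)) / (c.l * c.r ^ 2)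
        unfold rtIp
        fun_prop)
      (Filter.Eventually.of_forall fun b => re_sc_jac_aff _ _ (by positivity))
    have h3 : (fun z : ReSp => (c.bo t z, c.yo t z)) = fun p : (ℝ × ℝ) × ℝ =>
        (rtRot c.e ((c.l * c.r)⁻¹ • (p.1 - (t - c.T0) • c.Ao)),
          (p.2 + (-(2 * rtIp c.Ao p.1) + (t - c.T0) * rtSq c.Ao)) / (c.l * c.r ^ 2)) := by
      funext z
      unfold SecPt.bo SecPt.yo
      congr 2
      ring
    rw [h3]
    exact h2.map_eq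
  have hu : MeasurePreserving c.uo volume (ENNReal.ofReal c.l • (volume : Measure ℝ)) := by
    have e : c.uo = fun y : ℝ => (y + (-c.T0)) / c.l := by
      funext y
      unfold SecPt.uo
      rw [sub_eq_add_neg]
    rw [e]
    exact ⟨by fun_prop, re_sc_jac_aff _ _ hl⟩
  have hΨ := MeasurePreserving.skew_product (μc := (volume : Measure ReSp)) hu (g := fun t z => (c.bo t z, c.yo t z))
    (by
      show Measurable fun p : ℝ × ReSp => (c.bo p.1 p.2, c.yo p.1 p.2)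
      unfold SecPt.bo SecPt.yo rtRot rtIp
      fun_prop)
    (Filter.Eventually.of_forall hin)
  have hC : (ENNReal.ofReal c.l • (volume : Measure ℝ)).prod
      ((ENNReal.ofReal ((c.l * c.r) ^ 2) • (volume : Measure (ℝ × ℝ))).prod (ENNReal.ofReal (c.l * c.r ^ 2) • (volume : Measure ℝ)))
      = ENNReal.ofReal (c.l ^ 4 * c.r ^ 4) • (volume : Measure (ℝ × ReSp)) := by
    rw [Measure.prod_smul_left, Measure.prod_smul_left, Measure.prod_smul_right, Measure.prod_smul_right, Measure.prod_smul_right,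
      smul_smul, smul_smul, ← ENNReal.ofReal_mul hl.le, ← ENNReal.ofReal_mul (by positivity)]
    congr 2
    ring
  rw [hC] at hΨ
  -- the second shear and the identification
  have S1 := re_sc_jac_sh (volume : Measure ℝ) (volume : Measure ReSp) (fun z => 2 * c.bt * z.1.2 + c.bt ^ 2 * z.2)
    (by fun_prop)
  have S2' := re_sc_jac_sh (volume : Measure (ℝ × ℝ)) (volume : Measure ℝ) (fun υ => ((0 : ℝ), c.bt * υ)) (by fun_prop)
  have S2 := (MeasurePreserving.id (volume : Measure ℝ)).prod S2'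
  have J := re_sc_jac_tv.prod (MeasurePreserving.id (volume : Measure ℝ))
  have Ξ := J.comp (re_sc_jac_perm.comp (S2.comp S1))
  have hall := (Ξ.smul_measure (ENNReal.ofReal (c.l ^ 4 * c.r ^ 4))).comp hΨ
  have key : ∀ g : ℝ × ReSp → TV × ℝ, MeasurePreserving g (volume : Measure (ℝ × ReSp))
      (ENNReal.ofReal (c.l ^ 4 * c.r ^ 4) • (volume : Measure (TV × ℝ))) → (∀ x, c.Lm x = g x) →
      MeasurePreserving c.Lm (volume : Measure (ℝ × ReSp)) (ENNReal.ofReal (c.l ^ 4 * c.r ^ 4) • (volume : Measure (TV × ℝ))) := by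
    intro g hg h
    have : c.Lm = g := funext h
    rw [this]
    exact hg
  have hLm := key _ hall fun x => by
    show c.Lm x = (tvec (c.uo x.1 + (2 * c.bt * (c.bo x.1 x.2).2 + c.bt ^ 2 * c.yo x.1 x.2)) ((c.bo x.1 x.2).1 + 0) (c.yo x.1 x.2),
      (c.bo x.1 x.2).2 + c.bt * c.yo x.1 x.2)
    rw [add_zero, ← add_assoc]
    rfl
  rw [hLm.lintegral_comp hf, lintegral_smul_measure]
  rfl

theorem re_sc_tvec_contL {α : Type*} [TopologicalSpace α] (f g h : α → ℝ) (hf : Continuous f) (hg : Continuous g) (hh : Continuous h) :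
    Continuous fun x => tvec (f x) (g x) (h x) := by
  unfold tvec
  refine (PiLp.continuous_toLp 2 _).comp (f := fun x => ![f x, g x, h x]) ?_
  refine continuous_pi fun i => ?_
  fin_cases i
  · exact hf
  · exact hg
  · exact hh

/-- **LEAF L-256-SEC-LIN (5).**  continuity of all ingredients. -/
theorem re_sc_Lm_cont (c : SecPt) : Continuous c.Lm := by
  have hu : Continuous fun x : ℝ × ReSp => c.uo x.1 := by
    unfold SecPt.uo; fun_prop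
  have hb : Continuous fun x : ℝ × ReSp => c.bo x.1 x.2 := by
    unfold SecPt.bo rtRot; fun_prop
  have hy : Continuous fun x : ℝ × ReSp => c.yo x.1 x.2 := by
    unfold SecPt.yo rtIp; fun_prop
  unfold SecPt.Lm
  refine Continuous.prodMk (re_sc_tvec_contL _ _ _ ?_ ?_ hy) ?_
  · fun_prop
  · fun_prop
  · fun_prop

/-- **LEAF L-256-SEC-RAY: the new time along a displaced ray is affine with slope `D/ℓ`.**   unfold `Lm, uo, bo, yo, secW, ang, D, rtRot, rtSq, rtIp`, `simp [tvec]`, `field_simp`, `ring` (uses `e_unit`: `linear_combination`). -/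
theorem re_sc_ray (c : SecPt) (hc : c.Ok) (A : ℝ × ℝ) (z Z : ReSp) (s : ℝ) :
    (c.Lm (c.T0 + s, z + secW c.H c.k A s Z)).1 0 = (c.Lm (c.T0, z + secW c.H c.k A 0 Z)).1 0 + s / c.l * c.D (c.ang A) := by
  have hl : c.l ≠ 0 := (rdLen_pos c.k).ne'
  have hr : c.r ≠ 0 := hc.r_pos.ne'
  have hD : c.D (c.ang A) = 1 + 2 * c.bt * (c.ang A).2 + c.bt ^ 2 * rtSq (c.r⁻¹ • (A - c.Ao)) := by
    unfold SecPt.D
    congr 2
    unfold SecPt.ang
    rw [rt_rot_sq, hc.e_unit, one_mul]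
  rw [hD]
  unfold SecPt.Lm
  simp only [(tri_tvec_apply _ _ _).1]
  obtain ⟨⟨b1, b2⟩, y⟩ := z
  obtain ⟨⟨Z1, Z2⟩, Z3⟩ := Z
  obtain ⟨A1, A2⟩ := A
  simp only [SecPt.uo, SecPt.bo, SecPt.yo, SecPt.ang, secW, rtRot, rtSq, rtIp, Prod.smul_mk, Prod.fst_sub, Prod.snd_sub,
    Prod.smul_fst, Prod.smul_snd, smul_eq_mul, Prod.mk_add_mk]
  field_simp
  ring

/-- **LEAF L-256-SEC-WINV.**  `secW` inverts `reZ` (`rdQ H k > 0`: `re_sp_dq`). -/
theorem re_sc_W_Z (H : ℝ) (hH : 0 < H) (k : ℕ) (A : ℝ × ℝ) (s : ℝ) (w Z : ReSp) :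
    secW H k A s (reZ H k A s w) = w ∧ reZ H k A s (secW H k A s Z) = Z := by
  have hQ : rdQ H k ≠ 0 := (re_sp_dq H hH k).2.1.ne'
  have hH' : H ≠ 0 := hH.ne'
  obtain ⟨⟨b1, b2⟩, y⟩ := w
  obtain ⟨⟨Z1, Z2⟩, Z3⟩ := Z
  obtain ⟨A1, A2⟩ := A
  constructor
  · simp only [secW, reZ, rtSq, rtIp, Prod.smul_mk, smul_eq_mul, Prod.mk_add_mk, Prod.mk_sub_mk, Prod.mk.injEq]
    refine ⟨⟨?_, ?_⟩, ?_⟩ <;> field_simp <;> ring
  · simp only [secW, reZ, rtSq, rtIp, Prod.smul_mk, smul_eq_mul, Prod.mk_add_mk, Prod.mk_sub_mk, Prod.mk.injEq]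
    refine ⟨⟨?_, ?_⟩, ?_⟩ <;> field_simp <;> ring

/-! ## 2. The angular chart -/

/-- **LEAF L-256-SEC-ANG (1).**  `D = (1 + bt a₂)² + bt² a₁²`, `|bt a_i| ≤ 1/4`. -/
theorem re_sc_D_bd (c : SecPt) (a : ℝ × ℝ) (h : rtSq a * (1 + |c.bt|) ^ 2 ≤ 1 / 16) : 1 / 2 ≤ c.D a ∧ c.D a ≤ 2 := by
  have hs : 0 ≤ rtSq a := by unfold rtSq; positivity
  have hb : c.bt ^ 2 ≤ (1 + |c.bt|) ^ 2 := by
    rw [← sq_abs c.bt]
    have := abs_nonneg c.bt
    nlinarith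
  have h1 : c.bt ^ 2 * rtSq a ≤ 1 / 16 := by
    have := mul_le_mul_of_nonneg_left hb hs
    linarith
  have h0 : 0 ≤ c.bt ^ 2 * rtSq a := by positivity
  have h2 : (c.bt * a.2) ^ 2 ≤ (1 / 4) ^ 2 := by
    have : (c.bt * a.2) ^ 2 ≤ c.bt ^ 2 * rtSq a := by
      unfold rtSq
      have := mul_nonneg (sq_nonneg c.bt) (sq_nonneg a.1)
      nlinarith
    linarith
  have h3 := abs_le_of_sq_le_sq' h2 (by norm_num)
  unfold SecPt.D
  constructor <;> linarith [h3.1, h3.2]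

/-- **LEAF L-256-SEC-ANG (2): the two-point identity** and `a₁² + F² = D |a|²`.   `field_simp`, `ring`. -/
theorem re_sc_two (c : SecPt) (a a' : ℝ × ℝ) (h : c.D a ≠ 0) (h' : c.D a' ≠ 0) :
    rtSq (a - a') = c.D a * c.D a' * ((a.1 / c.D a - a'.1 / c.D a') ^ 2 + (c.F a / c.D a - c.F a' / c.D a') ^ 2) ∧ a.1 ^ 2 + c.F a ^ 2 = c.D a * rtSq a := by
  constructor
  · have e : c.D a * c.D a' * ((a.1 / c.D a - a'.1 / c.D a') ^ 2 + (c.F a / c.D a - c.F a' / c.D a') ^ 2)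
        = ((a.1 * c.D a' - a'.1 * c.D a) ^ 2 + (c.F a * c.D a' - c.F a' * c.D a) ^ 2) / (c.D a * c.D a') := by
      field_simp
    rw [e, eq_div_iff (mul_ne_zero h h')]
    obtain ⟨a1, a2⟩ := a
    obtain ⟨b1, b2⟩ := a'
    simp only [SecPt.D, SecPt.F, rtSq, Prod.mk_sub_mk]
    ring
  · simp only [SecPt.D, SecPt.F, rtSq]
    ring

/-- **LEAF L-256-SEC-ANG (3).**  `rt_rot_sq`, `e_unit`. -/
theorem re_sc_ang_sub (c : SecPt) (hc : c.Ok) (A A' : ℝ × ℝ) : rtSq (c.ang A - c.ang A') = rtSq (A - A') / c.r ^ 2 := by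
  have hr : c.r ≠ 0 := hc.r_pos.ne'
  have e : c.ang A - c.ang A' = rtRot c.e (c.r⁻¹ • (A - A')) := by
    unfold SecPt.ang rtRot
    ext <;> simp <;> ring
  rw [e, rt_rot_sq, hc.e_unit, one_mul]
  simp only [rtSq, Prod.smul_fst, Prod.smul_snd, smul_eq_mul]
  field_simp

/-- **LEAF L-256-SEC-CAPVOL: a cap lies in a small square.**
PLAN.  Empty cap: trivial.   Fix `A₁` in the cap.   For `A` in the cap: `re_sc_two`, `re_sc_D_bd` (`D ≤ 2`), `|X A - X A₁| ≤ δ`, `|F/D| ≤ 2Λ√h`:   `rtSq (ã - ã₁) ≤ 4 (δ² + 16 Λ² h)`, `re_sc_ang_sub`:  `|A i - A₁ i| ≤ ϱ := 2 r √(δ² + 16Λ²h)`.   So the cap lies in `Icc (A₁ - (ϱ,ϱ)) (A₁ + (ϱ,ϱ))`, of volume `(2ϱ)²` (`Real.volume_Icc_prod`/`Measure.volume_eq_prod`, `Measure.prod_prod`). -/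
theorem re_sc_cap_vol (c : SecPt) (hc : c.Ok) (Λ δ x : ℝ) (S : Set (ℝ × ℝ)) (hS : c.Pat Λ S) (hΛ : 0 ≤ Λ) (hδ : 0 < δ) (hh : 0 < c.h) :
    volume (c.cap S δ x) ≤ ENNReal.ofReal (16 * c.r ^ 2 * (δ ^ 2 + 16 * Λ ^ 2 * c.h)) := by
  rcases (c.cap S δ x).eq_empty_or_nonempty with he | ⟨A₁, hA₁⟩
  · rw [he, measure_empty]
    exact zero_le
  have hr := hc.r_pos
  set E : ℝ := δ ^ 2 + 16 * Λ ^ 2 * c.h with hE
  have hE0 : 0 ≤ E := by positivity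
  set ϱ : ℝ := 2 * c.r * √E with hϱ
  have hϱ0 : 0 ≤ ϱ := by positivity
  have hϱ2 : ϱ ^ 2 = 4 * c.r ^ 2 * E := by
    rw [hϱ, mul_pow, mul_pow, Real.sq_sqrt hE0]
    ring
  have key : ∀ A ∈ c.cap S δ x, rtSq (A - A₁) ≤ ϱ ^ 2 := by
    rintro A ⟨hAS, hx1, hx2⟩
    obtain ⟨hAS₁, hy1, hy2⟩ := hA₁
    obtain ⟨d1, d2⟩ := re_sc_D_bd c (c.ang A) (by linarith [hS.small A hAS])
    obtain ⟨d1', d2'⟩ := re_sc_D_bd c (c.ang A₁) (by linarith [hS.small A₁ hAS₁])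
    have h2 := (re_sc_two c (c.ang A) (c.ang A₁) (by linarith) (by linarith)).1
    have hs : 0 ≤ √c.h := Real.sqrt_nonneg _
    have hss : √c.h ^ 2 = c.h := Real.sq_sqrt hh.le
    have f1 : |c.F (c.ang A) / c.D (c.ang A)| ≤ 2 * Λ * √c.h := by
      rw [abs_div, abs_of_pos (by linarith : 0 < c.D (c.ang A)), div_le_iff₀ (by linarith)]
      have := hS.sec A hAS
      have h0 : 0 ≤ Λ * √c.h := by positivity
      nlinarith
    have f2 : |c.F (c.ang A₁) / c.D (c.ang A₁)| ≤ 2 * Λ * √c.h := by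
      rw [abs_div, abs_of_pos (by linarith : 0 < c.D (c.ang A₁)), div_le_iff₀ (by linarith)]
      have := hS.sec A₁ hAS₁
      have h0 : 0 ≤ Λ * √c.h := by positivity
      nlinarith
    have g1 : ((c.ang A).1 / c.D (c.ang A) - (c.ang A₁).1 / c.D (c.ang A₁)) ^ 2 ≤ δ ^ 2 := by
      have e1 : (c.ang A).1 / c.D (c.ang A) = c.X A := rfl
      have e2 : (c.ang A₁).1 / c.D (c.ang A₁) = c.X A₁ := rfl
      rw [e1, e2]
      exact sq_le_sq' (by linarith) (by linarith)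
    have g2 : (c.F (c.ang A) / c.D (c.ang A) - c.F (c.ang A₁) / c.D (c.ang A₁)) ^ 2 ≤ 16 * Λ ^ 2 * c.h := by
      have e : 16 * Λ ^ 2 * c.h = (4 * Λ * √c.h) ^ 2 := by
        rw [mul_pow, mul_pow, hss]
        norm_num
      rw [e]
      obtain ⟨a1, a2⟩ := abs_le.1 f1
      obtain ⟨b1, b2⟩ := abs_le.1 f2
      exact sq_le_sq' (by linarith) (by linarith)
    have h3 : rtSq (c.ang A - c.ang A₁) ≤ 4 * E := by
      rw [h2]
      have hsum : ((c.ang A).1 / c.D (c.ang A) - (c.ang A₁).1 / c.D (c.ang A₁)) ^ 2 + (c.F (c.ang A) / c.D (c.ang A) - c.F (c.ang A₁) / c.D (c.ang A₁)) ^ 2 ≤ E := by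
        linarith
      have hsum0 : 0 ≤ ((c.ang A).1 / c.D (c.ang A) - (c.ang A₁).1 / c.D (c.ang A₁)) ^ 2 + (c.F (c.ang A) / c.D (c.ang A) - c.F (c.ang A₁) / c.D (c.ang A₁)) ^ 2 := by positivity
      have hDD : c.D (c.ang A) * c.D (c.ang A₁) ≤ 4 := by nlinarith
      have hDD0 : 0 ≤ c.D (c.ang A) * c.D (c.ang A₁) := by nlinarith
      calc _ ≤ 4 * (((c.ang A).1 / c.D (c.ang A) - (c.ang A₁).1 / c.D (c.ang A₁)) ^ 2 + (c.F (c.ang A) / c.D (c.ang A) - c.F (c.ang A₁) / c.D (c.ang A₁)) ^ 2) :=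
            mul_le_mul_of_nonneg_right hDD hsum0
        _ ≤ 4 * E := by linarith
    rw [re_sc_ang_sub c hc, div_le_iff₀ (by positivity)] at h3
    rw [hϱ2]
    linarith
  have hsub : c.cap S δ x ⊆ Set.Icc (A₁.1 - ϱ) (A₁.1 + ϱ) ×ˢ Set.Icc (A₁.2 - ϱ) (A₁.2 + ϱ) := by
    intro A hA
    have h := key A hA
    have h1 : (A.1 - A₁.1) ^ 2 ≤ ϱ ^ 2 := by
      have : (A.1 - A₁.1) ^ 2 ≤ rtSq (A - A₁) := by
        simp only [rtSq, Prod.fst_sub, Prod.snd_sub]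
        nlinarith [sq_nonneg (A.2 - A₁.2)]
      linarith
    have h2 : (A.2 - A₁.2) ^ 2 ≤ ϱ ^ 2 := by
      have : (A.2 - A₁.2) ^ 2 ≤ rtSq (A - A₁) := by
        simp only [rtSq, Prod.fst_sub, Prod.snd_sub]
        nlinarith [sq_nonneg (A.1 - A₁.1)]
      linarith
    obtain ⟨a1, a2⟩ := abs_le.1 (abs_le_of_sq_le_sq h1 hϱ0)
    obtain ⟨b1, b2⟩ := abs_le.1 (abs_le_of_sq_le_sq h2 hϱ0)
    exact ⟨⟨by linarith, by linarith⟩, ⟨by linarith, by linarith⟩⟩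
  refine (measure_mono hsub).trans (le_of_eq ?_)
  rw [Measure.volume_eq_prod, Measure.prod_prod, Real.volume_Icc, Real.volume_Icc, ← ENNReal.ofReal_mul (by linarith)]
  congr 1
  have : 16 * c.r ^ 2 * E = 4 * ϱ ^ 2 := by rw [hϱ2]; ring
  rw [this]
  ring

/-- **LEAF L-256-SEC-CAPS: the caps are measurable, disjoint and cover the patch.**   `c.X` is measurable;  `|X A| ≤ 2 |ã₁| ≤ 1/4`;  `x = ⌊X A/δ⌋ δ`, `|⌊X A/δ⌋| ≤ ⌊1/δ⌋` (as `|X A|/δ + 1 ≤ 1/δ`: `δ ≤ 1/2`);  `|j δ| ≤ 1` for `|j| ≤ ⌊1/δ⌋`. -/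
theorem re_sc_caps (c : SecPt) (Λ δ : ℝ) (S : Set (ℝ × ℝ)) (hS : c.Pat Λ S) (hδ : 0 < δ) (hδ2 : δ ≤ 1 / 2) :
    (∀ x, MeasurableSet (c.cap S δ x)) ∧ (∀ x ∈ secGrid δ, |x| ≤ 1) ∧ (∀ x ∈ secGrid δ, ∀ x' ∈ secGrid δ, x ≠ x' → Disjoint (c.cap S δ x) (c.cap S δ x')) ∧
    (∀ A ∈ S, ∃ x ∈ secGrid δ, A ∈ c.cap S δ x) := by
  have hX : Measurable c.X := by
    unfold SecPt.X SecPt.D SecPt.ang rtRot rtSq
    fun_prop
  refine ⟨?_, ?_, ?_, ?_⟩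
  · intro x
    have e : c.cap S δ x = S ∩ (c.X ⁻¹' Set.Ico x (x + δ)) := by
      ext A
      simp only [SecPt.cap, Set.mem_ofPred_eq, Set.mem_inter_iff, Set.mem_preimage, Set.mem_Ico]
    rw [e]
    exact hS.meas.inter (hX measurableSet_Ico)
  · intro x hx
    obtain ⟨j, hj, rfl⟩ := Finset.mem_image.1 hx
    obtain ⟨h1, h2⟩ := Finset.mem_Icc.1 hj
    have hf : ((⌊1 / δ⌋ : ℤ) : ℝ) ≤ 1 / δ := Int.floor_le _
    have h1' : -((⌊1 / δ⌋ : ℤ) : ℝ) ≤ (j : ℝ) := by exact_mod_cast h1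
    have h2' : (j : ℝ) ≤ ((⌊1 / δ⌋ : ℤ) : ℝ) := by exact_mod_cast h2
    have e1 : 1 / δ * δ = 1 := by field_simp
    rw [abs_le]
    constructor
    · nlinarith
    · nlinarith
  · intro x hx x' hx' hne
    obtain ⟨j, -, rfl⟩ := Finset.mem_image.1 hx
    obtain ⟨j', -, rfl⟩ := Finset.mem_image.1 hx'
    have hjj : j ≠ j' := fun h => hne (by rw [h])
    rw [Set.disjoint_left]
    rintro A ⟨-, a1, a2⟩ ⟨-, b1, b2⟩
    rcases lt_or_gt_of_ne hjj with h | h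
    · have h' : (j : ℝ) + 1 ≤ (j' : ℝ) := by exact_mod_cast h
      nlinarith
    · have h' : (j' : ℝ) + 1 ≤ (j : ℝ) := by exact_mod_cast h
      nlinarith
  · intro A hA
    have hs := hS.small A hA
    have hb : (1 : ℝ) ≤ (1 + |c.bt|) ^ 2 := one_le_pow₀ (by linarith [abs_nonneg c.bt])
    have hsq0 : 0 ≤ rtSq (c.ang A) := by unfold rtSq; positivity
    have hsq : rtSq (c.ang A) ≤ 1 / 64 := by nlinarith
    have ha1 : |(c.ang A).1| ≤ 1 / 8 := by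
      have : (c.ang A).1 ^ 2 ≤ (1 / 8 : ℝ) ^ 2 := by
        have : (c.ang A).1 ^ 2 ≤ rtSq (c.ang A) := by unfold rtSq; nlinarith [sq_nonneg (c.ang A).2]
        linarith
      exact abs_le_of_sq_le_sq this (by norm_num)
    obtain ⟨hD1, -⟩ := re_sc_D_bd c (c.ang A) (by linarith)
    have hXb : |c.X A| ≤ 1 / 4 := by
      unfold SecPt.X
      rw [abs_div, abs_of_pos (by linarith : 0 < c.D (c.ang A)), div_le_iff₀ (by linarith)]
      nlinarith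
    obtain ⟨hX1, hX2⟩ := abs_le.1 hXb
    have hfl1 : ((⌊c.X A / δ⌋ : ℤ) : ℝ) ≤ c.X A / δ := Int.floor_le _
    have hfl2 : c.X A / δ < ((⌊c.X A / δ⌋ : ℤ) : ℝ) + 1 := Int.lt_floor_add_one _
    have hdi : 2 ≤ 1 / δ := by
      rw [le_div_iff₀ hδ]
      linarith
    have hXd1 : c.X A / δ ≤ 1 / 4 * (1 / δ) := by
      rw [div_eq_mul_one_div]
      exact mul_le_mul_of_nonneg_right hX2 (by positivity)
    have hXd2 : -(1 / 4 * (1 / δ)) ≤ c.X A / δ := by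
      have h0 : (0 : ℝ) ≤ 1 / δ := by positivity
      rw [div_eq_mul_one_div (c.X A)]
      nlinarith
    refine ⟨(⌊c.X A / δ⌋ : ℤ) * δ, Finset.mem_image.2 ⟨⌊c.X A / δ⌋, Finset.mem_Icc.2 ⟨?_, ?_⟩, rfl⟩, hA, ?_, ?_⟩
    · rw [neg_le, Int.le_floor]
      push_cast
      linarith
    · rw [Int.le_floor]
      linarith
    · rwa [← le_div_iff₀ hδ]
    · have := (div_lt_iff₀ hδ).1 hfl2
      linarith

/-- **LEAF L-256-SEC-GRID: multiplicity of the grid.**   the `j` with `|j δ - y| ≤ w` lie in an interval of length `2w/δ`: at most `2w/δ + 1` integers (`Int.card_Icc`, `Finset.card_image_le`, `Finset.card_le_card`). -/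
theorem re_sc_grid (δ w y : ℝ) (hδ : 0 < δ) (hw : 0 ≤ w) (m : ℕ) (hm : 2 * w / δ + 1 ≤ m) : ((secGrid δ).filter fun x => |x - y| ≤ w).card ≤ m := by
  classical
  have hsub : ((secGrid δ).filter fun x => |x - y| ≤ w) ⊆ (Finset.Icc ⌈(y - w) / δ⌉ ⌊(y + w) / δ⌋).image fun j : ℤ => (j : ℝ) * δ := by
    intro x hx
    obtain ⟨hx1, hx2⟩ := Finset.mem_filter.1 hx
    obtain ⟨j, -, rfl⟩ := Finset.mem_image.1 hx1
    refine Finset.mem_image.2 ⟨j, Finset.mem_Icc.2 ⟨?_, ?_⟩, rfl⟩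
    · rw [Int.ceil_le, div_le_iff₀ hδ]
      linarith [(abs_le.1 hx2).1]
    · rw [Int.le_floor, le_div_iff₀ hδ]
      linarith [(abs_le.1 hx2).2]
  refine (Finset.card_le_card hsub).trans (Finset.card_image_le.trans ?_)
  rw [Int.card_Icc]
  have h1 : ((⌊(y + w) / δ⌋ : ℤ) : ℝ) ≤ (y + w) / δ := Int.floor_le _
  have h2 : (y - w) / δ ≤ ((⌈(y - w) / δ⌉ : ℤ) : ℝ) := Int.le_ceil _
  have h3 : (y + w) / δ - (y - w) / δ = 2 * w / δ := by ring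
  have h4 : ((⌊(y + w) / δ⌋ + 1 - ⌈(y - w) / δ⌉ : ℤ) : ℝ) ≤ ((m : ℤ) : ℝ) := by
    push_cast
    linarith
  have h5 : ⌊(y + w) / δ⌋ + 1 - ⌈(y - w) / δ⌉ ≤ (m : ℤ) := by exact_mod_cast h4
  omega

/-! ## 3. Planks -/

theorem re_sc_plank_sq (u v : ℝ × ℝ) : rtSq u ≤ 2 * rtSq v + 2 * rtSq (u - v) := by
  unfold rtSq
  simp only [Prod.fst_sub, Prod.snd_sub]
  nlinarith [sq_nonneg (u.1 - 2 * v.1), sq_nonneg (u.2 - 2 * v.2)]

theorem re_sc_plank_abs {y s : ℝ} (hs : 0 ≤ s) (h : y ^ 2 ≤ 9 * s ^ 2) : |y| ≤ 3 * s := by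
  have : y ^ 2 ≤ (3 * s) ^ 2 := by nlinarith
  exact abs_le_of_sq_le_sq this (by positivity)

/-- **LEAF L-256-SEC-PLANK: the frequencies of a cap lie in its plank.**      `q` in the plateau, its angle within `√2 d` of a root angle `A` of the cap of `x`.
PLAN.  `ã = c.aq q`, `Ã = c.ang A`.   `rdD H k ² = H/ℓ = h r²` (`re_sp_dq`), `re_sc_ang_sub`: `rtSq (ã - Ã) < 2h`.   `√(rtSq ã) ≤ √(rtSq Ã) + √(2h) ≤ 1/(4(1+|bt|))` (`hsm`): `re_sc_D_bd` for `ã` and `Ã`.   `re_sc_two`: `(ã₁/D - X A)² + (F ã/D - F Ã/D̃)² ≤ 4 · 2h`, so both differences are `≤ 3√h`.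
Hence `|ã₁/D - x| ≤ δ + 3√h`, `|F ã/D| ≤ 2Λ√h + 3√h ≤ 5Λ√h`.   `σ = c.sg q = H q.2 / h ∈ [2^-(bm+4)/h, 2^(bm+4)/h]`, `σ D ∈ [2^-(bm+5)/h, 2^(bm+5)/h]`.
`tl0 x (Th q) = (σ/2π)(|ã|² - 2xã₁ + x²D) = (σD/2π)((ã₁/D - x)² + (F/D)²)`,   `tl1 x (Th q) = (σD/π)(x - ã₁/D)`,   `(Th q) 2 = σD/2π`,   `th q = -(σD/π)(F/D)`. -/
theorem re_sc_plank (c : SecPt) (hc : c.Ok) (bm B : ℕ) (Λ δ ℓE rE Bf x : ℝ) (A : ℝ × ℝ) (q : RdWvPar.Mo) (hΛ : 1 ≤ Λ) (hδ : 0 < δ) (hh : 0 < c.h)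
    (hA1 : rtSq (c.ang A) * (1 + |c.bt|) ^ 2 ≤ 1 / 64) (hA2 : |c.F (c.ang A)| ≤ Λ * √c.h) (hx : x ≤ c.X A ∧ c.X A < x + δ)
    (hq1 : c.H * q.2 ∈ rdPlat bm) (hq2 : rtSq ((2 * q.2)⁻¹ • q.1 - A) < 2 * rdD c.H c.k ^ 2) (hsm : 128 * c.h * (1 + |c.bt|) ^ 2 ≤ 1)
    (h1 : 2 ^ (bm + 5) / (2 * Real.pi * c.h) * ((δ + 3 * √c.h) ^ 2 + 25 * Λ ^ 2 * c.h) ≤ 1 / ℓE)
    (h2 : 2 ^ (bm + 5) / (Real.pi * c.h) * (δ + 3 * √c.h) ≤ √rE / ℓE)
    (h3 : 2 * (rE / ℓE) ≤ (2 : ℝ)⁻¹ ^ (bm + 5) / (2 * Real.pi * c.h))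
    (h4 : 2 ^ (bm + 5) / (2 * Real.pi * c.h) ≤ 2 ^ (B - 1) * (rE / ℓE))
    (h5 : 2 ^ (bm + 5) / (Real.pi * c.h) * (5 * Λ * √c.h) ≤ Bf) :
    c.Th q ∈ tPl x (1 / ℓE) (√rE / ℓE) (2 * (rE / ℓE)) (2 ^ (B - 1) * (rE / ℓE)) ∧ |c.th q| ≤ Bf := by
  have hl : 0 < c.l := rdLen_pos _
  have hr := hc.r_pos
  have hH := hc.H_pos
  have hπ := Real.pi_pos
  obtain ⟨s, hsdef⟩ : ∃ s : ℝ, s = √c.h := ⟨_, rfl⟩
  have hs0 : 0 < s := by rw [hsdef]; exact Real.sqrt_pos.2 hh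
  have hs2 : s ^ 2 = c.h := by rw [hsdef]; exact Real.sq_sqrt hh.le
  rw [← hsdef] at hA2 h1 h2 h5
  obtain ⟨a, hadef⟩ : ∃ a : ℝ × ℝ, a = c.aq q := ⟨_, rfl⟩
  obtain ⟨At, hAt⟩ : ∃ At : ℝ × ℝ, At = c.ang A := ⟨_, rfl⟩
  rw [← hAt] at hA1 hA2
  have hXA : c.X A = At.1 / c.D At := by rw [hAt]; rfl
  -- step 1
  have e1 : rtSq (a - At) < 2 * c.h := by
    have e := re_sc_ang_sub c hc ((2 * q.2)⁻¹ • q.1) A
    have e' : rtSq (a - At) = rtSq ((2 * q.2)⁻¹ • q.1 - A) / c.r ^ 2 := by rw [hadef, hAt]; exact e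
    have e2 : rdD c.H c.k ^ 2 = c.H / c.l := (re_sp_dq c.H hH c.k).2.2.2.2.1
    rw [e', div_lt_iff₀ (by positivity)]
    have e3 : 2 * c.h * c.r ^ 2 = 2 * (c.H / c.l) := by
      unfold SecPt.h
      field_simp
    rw [e3, ← e2]
    exact hq2
  have hb0 : 0 ≤ (1 + |c.bt|) ^ 2 := by positivity
  -- step 2
  have e2 : rtSq a * (1 + |c.bt|) ^ 2 ≤ 1 / 16 := by
    have := re_sc_plank_sq a At
    calc rtSq a * (1 + |c.bt|) ^ 2 ≤ (2 * rtSq At + 2 * rtSq (a - At)) * (1 + |c.bt|) ^ 2 := mul_le_mul_of_nonneg_right this hb0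
      _ = 2 * (rtSq At * (1 + |c.bt|) ^ 2) + 2 * (rtSq (a - At) * (1 + |c.bt|) ^ 2) := by ring
      _ ≤ 2 * (1 / 64) + 2 * (2 * c.h * (1 + |c.bt|) ^ 2) := by
          have := mul_le_mul_of_nonneg_right e1.le hb0
          linarith
      _ ≤ 1 / 16 := by linarith
  obtain ⟨d1, d2⟩ := re_sc_D_bd c a e2
  obtain ⟨d3, d4⟩ := re_sc_D_bd c At (hA1.trans (by norm_num))
  obtain ⟨t1, t2⟩ := re_sc_two c a At (by linarith) (by linarith)
  obtain ⟨D, hD⟩ : ∃ D : ℝ, D = c.D a := ⟨_, rfl⟩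
  obtain ⟨D', hD'⟩ : ∃ D' : ℝ, D' = c.D At := ⟨_, rfl⟩
  obtain ⟨Fa, hFa⟩ : ∃ Fa : ℝ, Fa = c.F a := ⟨_, rfl⟩
  obtain ⟨Fb, hFb⟩ : ∃ Fb : ℝ, Fb = c.F At := ⟨_, rfl⟩
  rw [← hD] at d1 d2 t1 t2
  rw [← hD'] at d3 d4 t1 hXA
  rw [← hFa] at t1 t2
  rw [← hFb] at t1 hA2
  have hDp : 0 < D := by linarith
  have hDp' : 0 < D' := by linarith
  have hsum : (a.1 / D - At.1 / D') ^ 2 + (Fa / D - Fb / D') ^ 2 ≤ 8 * s ^ 2 := by
    have hDD : 1 / 4 ≤ D * D' := by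
      calc (1 / 4 : ℝ) = 1 / 2 * (1 / 2) := by norm_num
        _ ≤ D * D' := mul_le_mul d1 d3 (by norm_num) hDp.le
    have hnn : 0 ≤ (a.1 / D - At.1 / D') ^ 2 + (Fa / D - Fb / D') ^ 2 := by positivity
    have : 1 / 4 * ((a.1 / D - At.1 / D') ^ 2 + (Fa / D - Fb / D') ^ 2) ≤ 2 * c.h := by
      calc 1 / 4 * ((a.1 / D - At.1 / D') ^ 2 + (Fa / D - Fb / D') ^ 2) ≤ D * D' * ((a.1 / D - At.1 / D') ^ 2 + (Fa / D - Fb / D') ^ 2) :=
            mul_le_mul_of_nonneg_right hDD hnn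
        _ = rtSq (a - At) := t1.symm
        _ ≤ 2 * c.h := e1.le
    rw [hs2]
    linarith
  have hs2n : 0 ≤ s ^ 2 := sq_nonneg s
  have g1 : |a.1 / D - At.1 / D'| ≤ 3 * s := re_sc_plank_abs hs0.le (by linarith [sq_nonneg (Fa / D - Fb / D')])
  have g2 : |Fa / D - Fb / D'| ≤ 3 * s := re_sc_plank_abs hs0.le (by linarith [sq_nonneg (a.1 / D - At.1 / D')])
  -- step 5
  have g3 : |a.1 / D - x| ≤ δ + 3 * s := by
    have h6 : |At.1 / D' - x| ≤ δ := by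
      rw [← hXA, abs_le]
      constructor <;> linarith [hx.1, hx.2]
    calc |a.1 / D - x| = |(a.1 / D - At.1 / D') + (At.1 / D' - x)| := by ring_nf
      _ ≤ |a.1 / D - At.1 / D'| + |At.1 / D' - x| := abs_add_le _ _
      _ ≤ δ + 3 * s := by linarith
  have g4 : |Fa / D| ≤ 5 * Λ * s := by
    have h6 : |Fb / D'| ≤ 2 * Λ * s := by
      rw [abs_div, abs_of_pos hDp', div_le_iff₀ hDp']
      have h7 : 0 ≤ Λ * s := by positivity
      have : Λ * s ≤ 2 * Λ * s * D' := by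
        calc Λ * s = 2 * (Λ * s) * (1 / 2) := by ring
          _ ≤ 2 * (Λ * s) * D' := mul_le_mul_of_nonneg_left d3 (by positivity)
          _ = 2 * Λ * s * D' := by ring
      linarith
    calc |Fa / D| = |(Fa / D - Fb / D') + Fb / D'| := by ring_nf
      _ ≤ |Fa / D - Fb / D'| + |Fb / D'| := abs_add_le _ _
      _ ≤ 3 * s + 2 * Λ * s := by linarith
      _ ≤ 5 * Λ * s := by
          have : 3 * s ≤ 3 * Λ * s := by
            calc 3 * s = 3 * 1 * s := by ring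
              _ ≤ 3 * Λ * s := by gcongr
          linarith
  -- step 7
  obtain ⟨σ, hσ⟩ : ∃ σ : ℝ, σ = c.sg q := ⟨_, rfl⟩
  have hσh : σ * c.h = c.H * q.2 := by
    rw [hσ]
    unfold SecPt.sg SecPt.h
    field_simp
  obtain ⟨p1, p2⟩ := hq1
  rw [← hσh] at p1 p2
  obtain ⟨P, hP⟩ : ∃ P : ℝ, P = 2 ^ (bm + 5) := ⟨_, rfl⟩
  obtain ⟨Pi, hPi⟩ : ∃ Pi : ℝ, Pi = (2 : ℝ)⁻¹ ^ (bm + 5) := ⟨_, rfl⟩
  have hP4 : (2 : ℝ) ^ (bm + 4) = P / 2 := by rw [hP, pow_succ (2 : ℝ) (bm + 4)]; ring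
  have hPi4 : (2 : ℝ)⁻¹ ^ (bm + 4) = Pi * 2 := by rw [hPi, pow_succ (2 : ℝ)⁻¹ (bm + 4)]; ring
  have hP0 : 0 < P := by rw [hP]; positivity
  have hPi0 : 0 < Pi := by rw [hPi]; positivity
  rw [hP4] at p2
  rw [hPi4] at p1
  rw [← hP] at h1 h2 h4 h5
  rw [← hPi] at h3
  have hσ0 : 0 < σ := by
    by_contra hcon
    push Not at hcon
    have : σ * c.h ≤ 0 := mul_nonpos_of_nonpos_of_nonneg hcon hh.le
    linarith
  have q1 : Pi / c.h ≤ σ * D := by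
    rw [div_le_iff₀ hh]
    calc Pi = Pi * 2 * (1 / 2) := by ring
      _ ≤ σ * c.h * D := mul_le_mul p1 d1 (by norm_num) (by positivity)
      _ = σ * D * c.h := by ring
  have q2 : σ * D ≤ P / c.h := by
    rw [le_div_iff₀ hh]
    calc σ * D * c.h = σ * c.h * D := by ring
      _ ≤ P / 2 * 2 := mul_le_mul p2 d2 hDp.le (by positivity)
      _ = P := by ring
  have hσD0 : 0 < σ * D := by positivity
  -- the coordinates
  have c0 : (c.Th q) 0 = σ / (2 * Real.pi) * rtSq a := by rw [hσ, hadef]; simp [SecPt.Th, tvec]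
  have c1 : (c.Th q) 1 = σ / (2 * Real.pi) * (-2 * a.1) := by rw [hσ, hadef]; simp [SecPt.Th, tvec]
  have c2 : (c.Th q) 2 = σ / (2 * Real.pi) * D := by rw [hσ, hD, hadef]; simp [SecPt.Th, tvec]
  have k0 : tl0 x (c.Th q) = σ * D / (2 * Real.pi) * ((a.1 / D - x) ^ 2 + (Fa / D) ^ 2) := by
    unfold tl0
    rw [c0, c1, c2]
    have : rtSq a = (a.1 ^ 2 + Fa ^ 2) / D := by rw [t2]; field_simp
    rw [this]
    field_simp
    ring
  have k1 : tl1 x (c.Th q) = σ * D / Real.pi * (x - a.1 / D) := by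
    unfold tl1
    rw [c1, c2]
    field_simp
    ring
  have k2 : c.th q = -(σ * D / Real.pi * (Fa / D)) := by
    unfold SecPt.th
    rw [← hσ, ← hadef, ← hFa]
    field_simp
  refine ⟨⟨?_, ?_, ?_, ?_⟩, ?_⟩
  · rw [k0, abs_of_nonneg (by positivity)]
    refine le_trans ?_ h1
    have m1 : σ * D / (2 * Real.pi) ≤ P / (2 * Real.pi * c.h) := by
      calc σ * D / (2 * Real.pi) ≤ P / c.h / (2 * Real.pi) := div_le_div_of_nonneg_right q2 (by positivity)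
        _ = P / (2 * Real.pi * c.h) := by field_simp
    have m2 : (a.1 / D - x) ^ 2 + (Fa / D) ^ 2 ≤ (δ + 3 * s) ^ 2 + 25 * Λ ^ 2 * c.h := by
      have n1 : (a.1 / D - x) ^ 2 ≤ (δ + 3 * s) ^ 2 := sq_le_sq' (by linarith [(abs_le.1 g3).1]) (abs_le.1 g3).2
      have n2 : (Fa / D) ^ 2 ≤ (5 * Λ * s) ^ 2 := sq_le_sq' (by linarith [(abs_le.1 g4).1]) (abs_le.1 g4).2
      have n3 : (5 * Λ * s) ^ 2 = 25 * Λ ^ 2 * c.h := by rw [← hs2]; ring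
      linarith
    exact mul_le_mul m1 m2 (by positivity) (by positivity)
  · rw [k1, abs_mul, abs_of_pos (by positivity : 0 < σ * D / Real.pi), abs_sub_comm]
    refine le_trans ?_ h2
    have m1 : σ * D / Real.pi ≤ P / (Real.pi * c.h) := by
      calc σ * D / Real.pi ≤ P / c.h / Real.pi := div_le_div_of_nonneg_right q2 hπ.le
        _ = P / (Real.pi * c.h) := by field_simp
    exact mul_le_mul m1 g3 (abs_nonneg _) (by positivity)
  · refine h3.trans ?_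
    rw [c2, div_le_iff₀ (by positivity)]
    have := (div_le_iff₀ hh).1 q1
    calc Pi ≤ σ * D * c.h := this
      _ = σ / (2 * Real.pi) * D * (2 * Real.pi * c.h) := by field_simp
  · refine le_trans ?_ h4
    rw [c2, le_div_iff₀ (by positivity)]
    have := (le_div_iff₀ hh).1 q2
    calc σ / (2 * Real.pi) * D * (2 * Real.pi * c.h) = σ * D * c.h := by field_simp
      _ ≤ P := this
  · rw [k2, abs_neg, abs_mul, abs_of_pos (by positivity : 0 < σ * D / Real.pi)]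
    refine le_trans ?_ h5
    have m1 : σ * D / Real.pi ≤ P / (Real.pi * c.h) := by
      calc σ * D / Real.pi ≤ P / c.h / Real.pi := div_le_div_of_nonneg_right q2 hπ.le
        _ = P / (Real.pi * c.h) := by field_simp
    exact mul_le_mul m1 g4 (abs_nonneg _) (by positivity)

/-! ## 4. Weights -/

/-- **LEAF L-256-SEC-WT: the cutoff and the Bernstein kernel give decay in the old time.**
PLAN.  `tm (p, s) = tm (c₀, s0) + (p - c₀) 0 + bt² (p - c₀) 2 - 2 bt (s - s0)`, so `1 + |tm (p,s)| ≤ 3 + (1 + bt²) ‖p - c₀‖ + 2|bt| |s - s0| ≤ 3 (1 + ‖p - c₀‖/ℓ)(1 + Bf |s - s0|)`.   Raise to the power `-Mt`;  `tWt Mt ℓ c₀ p = ofReal ((1 + ‖p - c₀‖/ℓ)^{-Mt})`;  `(1+y)^{-(N+Mt)} = (1+y)^{-N} (1+y)^{-Mt}`. -/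
theorem re_sc_wt (c : SecPt) (N Mt : ℕ) (ℓ Bf : ℝ) (hℓ : 0 < ℓ) (hℓ1 : (1 + c.bt ^ 2) * ℓ ≤ 1) (hB : 2 * |c.bt| ≤ Bf) (c₀ : TV) (s0 : ℝ) (h0 : -1 ≤ c.tm (c₀, s0)) (h1 : c.tm (c₀, s0) ≤ 2) (p : TV) (s : ℝ) :
    tWt Mt ℓ c₀ p * ENNReal.ofReal ((1 + Bf * |s - s0|) ^ (-((N + Mt : ℕ) : ℝ)))
      ≤ ENNReal.ofReal (3 ^ Mt) * (ENNReal.ofReal ((1 + |c.tm (p, s)|) ^ (-(Mt : ℝ))) * ENNReal.ofReal ((1 + Bf * |s - s0|) ^ (-(N : ℝ)))) := by
  have hBf : 0 ≤ Bf := le_trans (by positivity) hB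
  set a : ℝ := 1 + ‖p - c₀‖ / ℓ with ha
  set b : ℝ := 1 + Bf * |s - s0| with hb
  set T : ℝ := 1 + |c.tm (p, s)| with hT
  have ha1 : 1 ≤ a := by
    have : 0 ≤ ‖p - c₀‖ / ℓ := by positivity
    linarith
  have hb1 : 1 ≤ b := by
    have : 0 ≤ Bf * |s - s0| := by positivity
    linarith
  have hT1 : 1 ≤ T := by
    have := abs_nonneg (c.tm (p, s))
    linarith
  have n0 : |(p - c₀) 0| ≤ ‖p - c₀‖ := by
    have := PiLp.norm_apply_le (p - c₀) 0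
    simpa using this
  have n2 : |(p - c₀) 2| ≤ ‖p - c₀‖ := by
    have := PiLp.norm_apply_le (p - c₀) 2
    simpa using this
  have hTab : T ≤ 3 * (a * b) := by
    have e : c.tm (p, s) = c.tm (c₀, s0) + (p - c₀) 0 + c.bt ^ 2 * (p - c₀) 2 - 2 * c.bt * (s - s0) := by
      simp only [SecPt.tm, PiLp.sub_apply]
      ring
    have t1 : |c.tm (p, s)| ≤ 2 + ‖p - c₀‖ + c.bt ^ 2 * ‖p - c₀‖ + 2 * |c.bt| * |s - s0| := by
      rw [e]
      have u1 : |c.tm (c₀, s0)| ≤ 2 := abs_le.2 ⟨by linarith, h1⟩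
      have u2 : |c.bt ^ 2 * (p - c₀) 2| ≤ c.bt ^ 2 * ‖p - c₀‖ := by
        rw [abs_mul, abs_of_nonneg (sq_nonneg _)]
        exact mul_le_mul_of_nonneg_left n2 (sq_nonneg _)
      have u3 : |2 * c.bt * (s - s0)| = 2 * |c.bt| * |s - s0| := by
        rw [abs_mul, abs_mul]
        norm_num
      calc _ ≤ |c.tm (c₀, s0) + (p - c₀) 0 + c.bt ^ 2 * (p - c₀) 2| + |2 * c.bt * (s - s0)| := abs_sub _ _
        _ ≤ |c.tm (c₀, s0) + (p - c₀) 0| + |c.bt ^ 2 * (p - c₀) 2| + |2 * c.bt * (s - s0)| := by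
            gcongr
            exact abs_add_le _ _
        _ ≤ |c.tm (c₀, s0)| + |(p - c₀) 0| + |c.bt ^ 2 * (p - c₀) 2| + |2 * c.bt * (s - s0)| := by
            gcongr
            exact abs_add_le _ _
        _ ≤ _ := by rw [u3]; linarith
    have t2 : (1 + c.bt ^ 2) * ‖p - c₀‖ ≤ ‖p - c₀‖ / ℓ := by
      rw [le_div_iff₀ hℓ]
      have := norm_nonneg (p - c₀)
      nlinarith
    have t3 : 2 * |c.bt| * |s - s0| ≤ Bf * |s - s0| := mul_le_mul_of_nonneg_right hB (abs_nonneg _)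
    have t4 : 0 ≤ (a - 1) * (b - 1) := mul_nonneg (by linarith) (by linarith)
    have : T ≤ 3 + (a - 1) + (b - 1) := by
      rw [hT, ha, hb]
      linarith
    nlinarith
  have hreal : a ^ (-(Mt : ℝ)) * b ^ (-((N + Mt : ℕ) : ℝ)) ≤ 3 ^ Mt * (T ^ (-(Mt : ℝ)) * b ^ (-(N : ℝ))) := by
    have a0 : 0 < a := by linarith
    have b0 : 0 < b := by linarith
    have T0 : 0 < T := by linarith
    rw [Real.rpow_neg a0.le, Real.rpow_neg b0.le, Real.rpow_neg T0.le, Real.rpow_neg b0.le, Real.rpow_natCast, Real.rpow_natCast, Real.rpow_natCast, Real.rpow_natCast, pow_add]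
    have hp : T ^ Mt ≤ 3 ^ Mt * (a ^ Mt * b ^ Mt) := by
      rw [← mul_pow, ← mul_pow]
      exact pow_le_pow_left₀ T0.le hTab _
    have pa : 0 < a ^ Mt := by positivity
    have pb : 0 < b ^ Mt := by positivity
    have pN : 0 < b ^ N := by positivity
    have pT : 0 < T ^ Mt := by positivity
    rw [← mul_inv, ← mul_inv, ← div_eq_mul_inv, inv_eq_one_div, div_le_div_iff₀ (by positivity) (by positivity)]
    nlinarith
  unfold tWt
  rw [← ENNReal.ofReal_mul (by positivity), ← ENNReal.ofReal_mul (by positivity), ← ENNReal.ofReal_mul (by positivity)]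
  exact ENNReal.ofReal_le_ofReal hreal

/-! ## 5. The test of a tile -/

/-- `rot ∘ unrot = id` -/
theorem re_sc_geo1_rot_unrot (c : SecPt) (hc : c.Ok) (w : ℝ × ℝ) : rtRot c.e (c.unrot w) = w := by
  have he := hc.e_unit
  unfold rtSq at he
  ext
  · simp only [rtRot, SecPt.unrot]
    linear_combination w.1 * he
  · simp only [rtRot, SecPt.unrot]
    linear_combination w.2 * he

/-- the central direction of a tile lies on the section -/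
theorem re_sc_geo1_as (c : SecPt) (x0 : ℝ) :
    c.D (c.as x0) = 1 / (1 + c.bt ^ 2 * x0 ^ 2) ∧ (c.as x0).1 / c.D (c.as x0) = x0 ∧ c.F (c.as x0) = 0 := by
  have hD : 0 < 1 + c.bt ^ 2 * x0 ^ 2 := by positivity
  have h1 : c.D (c.as x0) = 1 / (1 + c.bt ^ 2 * x0 ^ 2) := by
    simp only [SecPt.D, SecPt.as, rtSq]
    field_simp
    ring
  refine ⟨h1, ?_, ?_⟩
  · rw [h1]
    simp only [SecPt.as]
    field_simp
  · simp only [SecPt.F, SecPt.as, rtSq]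
    field_simp
    ring

/-- the gradient of the polynomial of a tile is a unit vector -/
theorem re_sc_geo1_al (c : SecPt) (hc : c.Ok) (x0 : ℝ) : rtSq (c.unrot ((0, 1) + (2 * c.bt) • c.as x0)) = 1 := by
  have he := hc.e_unit
  have hF := (re_sc_geo1_as c x0).2.2
  unfold SecPt.unrot
  rw [rt_rot_sq]
  have e1 : rtSq (-c.e.1, c.e.2) = 1 := by
    unfold rtSq at he ⊢
    simp only
    linarith
  rw [e1, one_mul]
  have e2 : rtSq ((0, 1) + (2 * c.bt) • c.as x0) = 1 + 4 * c.bt * c.F (c.as x0) := by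
    simp only [rtSq, SecPt.F, Prod.fst_add, Prod.snd_add, Prod.smul_fst, Prod.smul_snd, smul_eq_mul]
    ring
  rw [e2, hF]
  ring

/-- **LEAF L-256-SEC-GEO1: the test is admissible.**   `disc = |(0,1) + 2 bt a_*|² = 1 + 4 bt F(a_*) = 1` since `F (c.as x0) = 0` (`field_simp`, `ring`; `rt_rot_sq` with `rtSq (-e₁, e₂) = 1`);  coefficients: `0, 0, 1, |bt| R ≤ Λ, 0`. -/
theorem re_sc_test_adm (c : SecPt) (hc : c.Ok) (Λ R x0 s0 f M : ℝ) (c' : TV) (hΛ : 1 ≤ Λ) (hbt : |c.bt| ≤ Λ) (hR0 : 0 < R) (hR1 : R ≤ 1) (hf0 : 0 < f) (hf1 : f ≤ 1) (hM : Λ ≤ M) :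
    (c.test R x0 c' s0 f).Adm M := by
  have hal := re_sc_geo1_al c hc x0
  have hM1 : 1 ≤ M := hΛ.trans hM
  refine ⟨?_, ?_, hf0, hf1, ?_, ?_, ?_, ?_, ?_, ?_⟩
  · show 0 < c.l
    unfold SecPt.l
    exact rdLen_pos _
  · show 0 < R * c.r
    exact mul_pos hR0 hc.r_pos
  · show rtSq (c.unrot ((0, 1) + (2 * c.bt) • c.as x0)) - 4 * (c.bt * R) * 0 + 4 * 0 * 0 = 1
    rw [hal]
    ring
  · show |(0 : ℝ)| ≤ 100 * M
    rw [abs_zero]
    positivity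
  · show |(0 : ℝ)| ≤ 100 * M
    rw [abs_zero]
    positivity
  · show rtSq (c.unrot ((0, 1) + (2 * c.bt) • c.as x0)) ≤ (100 * M) ^ 2
    rw [hal]
    nlinarith
  · show |c.bt * R| ≤ 100 * M
    rw [abs_mul, abs_of_pos hR0]
    have : |c.bt| * R ≤ Λ * 1 := mul_le_mul hbt hR1 hR0.le (by linarith)
    linarith
  · show |(0 : ℝ)| ≤ 100 * M
    rw [abs_zero]
    positivity

/-- the coordinates of an event of the chart, centred on the central ray of a tile and normalised in `R`-units:   `u' = t' - c'₀`, `x₁' = ((b₁' - c'₁) - x0 u')/R`, `x₂' = (b₂' - s0)/R`, `z' = ((y' - c'₂) - 2 x0 (b₁' - c'₁) + x0² u')/R²` -/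
noncomputable def secTc (R x0 : ℝ) (c' : TV) (s0 : ℝ) (P : TV × ℝ) : ℝ × (ℝ × ℝ) × ℝ :=
  (P.1 0 - c' 0, (((P.1 1 - c' 1) - x0 * (P.1 0 - c' 0)) / R, (P.2 - s0) / R), ((P.1 2 - c' 2) - 2 * x0 * (P.1 1 - c' 1) + x0 ^ 2 * (P.1 0 - c' 0)) / R ^ 2)

theorem re_sc_tc_eqns_cite : True := by
  have := @secTc.eq_1
  trivial

theorem re_sc_ip_unrot (c : SecPt) (a v : ℝ × ℝ) : rtIp (c.unrot a) v = rtIp a (rtRot c.e v) := by
  unfold SecPt.unrot rtRot rtIp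
  simp only
  ring

/-- the reduced forms of `Xe`, `Ze` (generic centre) -/
theorem re_sc_geo_red (c : SecPt) (hc : c.Ok) (R s : ℝ) (hR : 0 < R) (a b : ℝ × ℝ) (ys : ℝ) (w : ReSp) :
    rtRot c.e ((c.l * (R * c.r))⁻¹ • (w.1 - (c.l * c.r) • c.unrot b - s • (c.Ao + c.r • c.unrot a)))
      = R⁻¹ • (c.bo (c.T0 + s) w - b - (s / c.l) • a) ∧
    (w.2 - (c.l * c.r ^ 2 * ys + 2 * rtIp c.Ao ((c.l * c.r) • c.unrot b)) - 2 * rtIp (c.Ao + c.r • c.unrot a) (w.1 - (c.l * c.r) • c.unrot b)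
        + s * rtSq (c.Ao + c.r • c.unrot a)) / (c.l * (R * c.r) ^ 2)
      = (c.yo (c.T0 + s) w - ys - 2 * rtIp a (c.bo (c.T0 + s) w - b) + s / c.l * rtSq a) / R ^ 2 := by
  have hl : c.l ≠ 0 := (rdLen_pos c.k).ne'
  have hr : c.r ≠ 0 := hc.r_pos.ne'
  have hR' : R ≠ 0 := hR.ne'
  have h := hc.e_unit
  obtain ⟨⟨w1, w2⟩, w3⟩ := w
  obtain ⟨a1, a2⟩ := a
  obtain ⟨b1, b2⟩ := b
  have hy : c.l * c.r ^ 2 * c.yo (c.T0 + s) ((w1, w2), w3) = w3 - 2 * (c.Ao.1 * w1 + c.Ao.2 * w2) + s * (c.Ao.1 ^ 2 + c.Ao.2 ^ 2) := by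
    simp only [SecPt.yo, rtIp, rtSq]
    field_simp
    ring
  have hb1 : c.l * c.r * (c.bo (c.T0 + s) ((w1, w2), w3)).1 = c.e.2 * (w1 - s * c.Ao.1) - c.e.1 * (w2 - s * c.Ao.2) := by
    simp only [SecPt.bo, rtRot, Prod.smul_fst, Prod.smul_snd, Prod.fst_sub, Prod.snd_sub, smul_eq_mul]
    field_simp
    ring
  have hb2 : c.l * c.r * (c.bo (c.T0 + s) ((w1, w2), w3)).2 = c.e.1 * (w1 - s * c.Ao.1) + c.e.2 * (w2 - s * c.Ao.2) := by
    simp only [SecPt.bo, rtRot, Prod.smul_fst, Prod.smul_snd, Prod.fst_sub, Prod.snd_sub, smul_eq_mul]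
    field_simp
    ring
  have hu : c.l * (s / c.l) = s := by field_simp
  generalize c.yo (c.T0 + s) ((w1, w2), w3) = Y at *
  generalize c.bo (c.T0 + s) ((w1, w2), w3) = B at *
  generalize s / c.l = u at *
  obtain ⟨B1, B2⟩ := B
  simp only at hb1 hb2
  generalize c.l = l at *
  obtain ⟨H, k, T0, r, ⟨A1, A2⟩, ⟨e1, e2⟩, bt⟩ := c
  simp only [rtSq] at h hy hb1 hb2 hr
  constructor
  · simp only [SecPt.unrot, rtRot, Prod.smul_mk, smul_eq_mul, Prod.mk_sub_mk, Prod.mk_add_mk, Prod.mk.injEq]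
    constructor
    · have e : e2 * (w1 - l * r * (e2 * b1 - -e1 * b2) - s * (A1 + r * (e2 * a1 - -e1 * a2)))
          - e1 * (w2 - l * r * (-e1 * b1 + e2 * b2) - s * (A2 + r * (-e1 * a1 + e2 * a2))) = l * r * (B1 - b1 - u * a1) := by
        linear_combination (-1) * hb1 - (l * r * b1 + s * r * a1) * h + r * a1 * hu
      have e' : e2 * ((l * (R * r))⁻¹ * (w1 - l * r * (e2 * b1 - -e1 * b2) - s * (A1 + r * (e2 * a1 - -e1 * a2))))
          - e1 * ((l * (R * r))⁻¹ * (w2 - l * r * (-e1 * b1 + e2 * b2) - s * (A2 + r * (-e1 * a1 + e2 * a2))))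
          = (l * (R * r))⁻¹ * (l * r * (B1 - b1 - u * a1)) := by
        rw [← e]; ring
      rw [e']
      field_simp
    · have e : e1 * (w1 - l * r * (e2 * b1 - -e1 * b2) - s * (A1 + r * (e2 * a1 - -e1 * a2)))
          + e2 * (w2 - l * r * (-e1 * b1 + e2 * b2) - s * (A2 + r * (-e1 * a1 + e2 * a2))) = l * r * (B2 - b2 - u * a2) := by
        linear_combination (-1) * hb2 - (l * r * b2 + s * r * a2) * h + r * a2 * hu
      have e' : e1 * ((l * (R * r))⁻¹ * (w1 - l * r * (e2 * b1 - -e1 * b2) - s * (A1 + r * (e2 * a1 - -e1 * a2))))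
          + e2 * ((l * (R * r))⁻¹ * (w2 - l * r * (-e1 * b1 + e2 * b2) - s * (A2 + r * (-e1 * a1 + e2 * a2))))
          = (l * (R * r))⁻¹ * (l * r * (B2 - b2 - u * a2)) := by
        rw [← e]; ring
      rw [e']
      field_simp
  · simp only [SecPt.unrot, rtRot, rtIp, rtSq, Prod.smul_mk, smul_eq_mul, Prod.mk_sub_mk, Prod.mk_add_mk]
    have e : w3 - (l * r ^ 2 * ys + 2 * (A1 * (l * r * (e2 * b1 - -e1 * b2)) + A2 * (l * r * (-e1 * b1 + e2 * b2))))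
        - 2 * ((A1 + r * (e2 * a1 - -e1 * a2)) * (w1 - l * r * (e2 * b1 - -e1 * b2)) + (A2 + r * (-e1 * a1 + e2 * a2)) * (w2 - l * r * (-e1 * b1 + e2 * b2)))
        + s * ((A1 + r * (e2 * a1 - -e1 * a2)) ^ 2 + (A2 + r * (-e1 * a1 + e2 * a2)) ^ 2)
        = l * r ^ 2 * (Y - ys - 2 * (a1 * (B1 - b1) + a2 * (B2 - b2)) + u * (a1 ^ 2 + a2 ^ 2)) := by
      linear_combination (-1) * hy + 2 * r * a1 * hb1 + 2 * r * a2 * hb2
        + (2 * l * r ^ 2 * (a1 * b1 + a2 * b2) + s * r ^ 2 * (a1 ^ 2 + a2 ^ 2)) * h - r ^ 2 * (a1 ^ 2 + a2 ^ 2) * hu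
    rw [e]
    field_simp

/-- **LEAF L-256-SEC-GEO2: the four identities** between the test coordinates `(u, X, Z)` of an event (`τ = c.test ..`; `X = τ.x row + u V`-type: here written for the EVENT `(T0 + s, w)`, i.e. for the row `⟨As, w.1 - s As, w.2 - s |As|²⟩ + ..`) and its tile coordinates.
For an event `(c.T0 + s, w)` put `u = s/ℓ`, `Xe = (ℓ R r)⁻¹ (w.1 - τ.bs - s τ.As)`, `Ze = (w.2 - τ.ys - 2 τ.As·(w.1 - τ.bs) + s |τ.As|²)/(ℓ (R r)²)`, `(u', x', z') = secTc R x0 c' s0 (c.Lm (c.T0 + s, w))`, `D' = 1 + bt² x0²`, `uC = c' 0 - 2 bt s0 + bt² c' 2`.   Then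
 (a) `z' = D' Ze`;   (b) `x'₂ = τ.n.al · Xe + bt R Ze`;   (c) `u - uC = D' u' - 2 bt R x'₂ + bt² (R² z' + 2 x0 R x'₁)`;   (d) `|Xe|² = (u - uC) Ze - u' z' + |x'|²`.
All four: unfold everything, `field_simp`, `ring`/`linear_combination (..) * hc.e_unit`. -/
theorem re_sc_geo_id (c : SecPt) (hc : c.Ok) (R x0 s0 f s : ℝ) (c' : TV) (w : ReSp) (hR : 0 < R) :
    let τ := c.test R x0 c' s0 f
    let Xe : ℝ × ℝ := (c.l * (R * c.r))⁻¹ • (w.1 - τ.bs - s • τ.As)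
    let Ze : ℝ := (w.2 - τ.ys - 2 * rtIp τ.As (w.1 - τ.bs) + s * rtSq τ.As) / (c.l * (R * c.r) ^ 2)
    let T := secTc R x0 c' s0 (c.Lm (c.T0 + s, w))
    let D' := 1 + c.bt ^ 2 * x0 ^ 2
    let uC := c' 0 - 2 * c.bt * s0 + c.bt ^ 2 * c' 2
    T.2.2 = D' * Ze ∧ T.2.1.2 = rtIp τ.n.al Xe + c.bt * R * Ze ∧
    s / c.l - uC = D' * T.1 - 2 * c.bt * R * T.2.1.2 + c.bt ^ 2 * (R ^ 2 * T.2.2 + 2 * x0 * R * T.2.1.1) ∧
    rtSq Xe = (s / c.l - uC) * Ze - T.1 * T.2.2 + rtSq T.2.1 := by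
  intro τ Xe Ze T D' uC
  obtain ⟨hA, hB⟩ := re_sc_geo_red c hc R s hR (c.as x0) (c.bs x0 c' s0) (c.ys x0 c' s0) w
  have hX : rtRot c.e Xe = R⁻¹ • (c.bo (c.T0 + s) w - c.bs x0 c' s0 - (s / c.l) • c.as x0) := hA
  have hZ : Ze = (c.yo (c.T0 + s) w - c.ys x0 c' s0 - 2 * rtIp (c.as x0) (c.bo (c.T0 + s) w - c.bs x0 c' s0) + s / c.l * rtSq (c.as x0)) / R ^ 2 := hB
  have hsq : rtSq Xe = rtSq (rtRot c.e Xe) := by rw [rt_rot_sq, hc.e_unit, one_mul]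
  have hip : rtIp τ.n.al Xe = rtIp ((0, 1) + (2 * c.bt) • c.as x0) (rtRot c.e Xe) := re_sc_ip_unrot c _ _
  have hu : c.uo (c.T0 + s) = s / c.l := by
    unfold SecPt.uo
    congr 1
    ring
  have hT1 : T.1 = s / c.l + 2 * c.bt * (c.bo (c.T0 + s) w).2 + c.bt ^ 2 * c.yo (c.T0 + s) w - c' 0 := by
    simp only [T, secTc, SecPt.Lm, (tri_tvec_apply _ _ _).1, hu]
  have hT2 : T.2.1.1 = (((c.bo (c.T0 + s) w).1 - c' 1) - x0 * T.1) / R := by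
    simp only [T, secTc, SecPt.Lm, (tri_tvec_apply _ _ _).1, (tri_tvec_apply _ _ _).2.1, hu]
  have hT3 : T.2.1.2 = ((c.bo (c.T0 + s) w).2 + c.bt * c.yo (c.T0 + s) w - s0) / R := by
    simp only [T, secTc, SecPt.Lm]
  have hT4 : T.2.2 = ((c.yo (c.T0 + s) w - c' 2) - 2 * x0 * ((c.bo (c.T0 + s) w).1 - c' 1) + x0 ^ 2 * T.1) / R ^ 2 := by
    simp only [T, secTc, SecPt.Lm, (tri_tvec_apply _ _ _).1, (tri_tvec_apply _ _ _).2.1, (tri_tvec_apply _ _ _).2.2, hu]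
  have hT5 : rtSq T.2.1 = T.2.1.1 ^ 2 + T.2.1.2 ^ 2 := rfl
  rw [hsq, hip, hX, hZ, hT5, hT4, hT2, hT3, hT1]
  have hR' : R ≠ 0 := hR.ne'
  have hD : 1 + c.bt ^ 2 * x0 ^ 2 ≠ 0 := by positivity
  generalize c.yo (c.T0 + s) w = Y
  generalize c.bo (c.T0 + s) w = B
  generalize s / c.l = u
  obtain ⟨B1, B2⟩ := B
  simp only [D', uC, SecPt.as, SecPt.bs, SecPt.ys, rtIp, rtSq, Prod.smul_mk, smul_eq_mul, Prod.mk_sub_mk, Prod.mk_add_mk]
  generalize c' 0 = c0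
  generalize c' 1 = c1
  generalize c' 2 = c2
  generalize c.bt = bt at *
  refine ⟨?_, ?_, ?_, ?_⟩
  · field_simp
    ring
  · field_simp
    ring
  · field_simp
    ring
  · field_simp
    ring

/-- the normalised velocity of a row in the test of a tile, rotated -/
theorem re_sc_geo1_V (c : SecPt) (hc : c.Ok) (R x0 s0 f : ℝ) (c' : TV) (p : RtRow) :
    rtRot c.e ((c.test R x0 c' s0 f).V p) = R⁻¹ • (c.ang p.A - c.as x0) := by
  have hr := hc.r_pos.ne'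
  have e1 : (c.test R x0 c' s0 f).V p = R⁻¹ • (c.r⁻¹ • (p.A - c.Ao) - c.unrot (c.as x0)) := by
    show (R * c.r)⁻¹ • (p.A - (c.Ao + c.r • c.unrot (c.as x0))) = _
    rw [mul_inv, mul_smul, ← sub_sub, smul_sub c.r⁻¹, smul_smul c.r⁻¹, inv_mul_cancel₀ hr, one_smul]
  have lin : ∀ (t : ℝ) (u v : ℝ × ℝ), rtRot c.e (t • (u - v)) = t • (rtRot c.e u - rtRot c.e v) := by
    intro t u v
    ext <;> simp only [rtRot, Prod.smul_fst, Prod.smul_snd, Prod.fst_sub, Prod.snd_sub, smul_eq_mul] <;> ring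
  rw [e1, lin, re_sc_geo1_rot_unrot c hc]
  rfl

/-- **LEAF L-256-SEC-GEO3: angles.**   `V = τ.V row = unrot (ã - a_*)/R`;  `re_sc_two` with `a' = c.as x0` (`D (as) = 1/D' ∈ (0, 1]`, `as₁/D(as) = x0`, `F (as) = 0`), `D ã ≤ 2`:   `|V|² ≤ 2 ((2R)² + (2Λ√h)²)/R² ≤ 10`.
`τ.Gv row = al·V + bt R |V|² = F ã / R` (identity: `field_simp`, `ring`, `e_unit`; the row only enters through `A`). -/
theorem re_sc_geo_ang (c : SecPt) (hc : c.Ok) (Λ R x0 s0 f : ℝ) (c' : TV) (y : RdWvPar.Ph) (hR0 : 2 * Λ * √c.h ≤ R) (hRp : 0 < R) (hR1 : R ≤ 1) (hΛ : 1 ≤ Λ) (hh : 0 < c.h)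
    (h1 : rtSq (c.ang y.1) * (1 + |c.bt|) ^ 2 ≤ 1 / 64) (h2 : |c.F (c.ang y.1)| ≤ Λ * √c.h) (h3 : |c.X y.1 - x0| ≤ 2 * R) :
    rtSq ((c.test R x0 c' s0 f).V ⟨y.1, y.2.1, y.2.2⟩) ≤ 10 ∧ (c.test R x0 c' s0 f).Gv ⟨y.1, y.2.1, y.2.2⟩ = c.F (c.ang y.1) / R ∧ |x0| ≤ 9 / 4 := by
  obtain ⟨hDs, hXs, hFs⟩ := re_sc_geo1_as c x0
  obtain ⟨d1, d2⟩ := re_sc_D_bd c (c.ang y.1) (by linarith)
  have hD' : 0 < 1 + c.bt ^ 2 * x0 ^ 2 := by positivity
  have hDs0 : 0 < c.D (c.as x0) := by rw [hDs]; positivity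
  have hDs1 : c.D (c.as x0) ≤ 1 := by
    rw [hDs, div_le_one hD']
    nlinarith [sq_nonneg (c.bt * x0)]
  have hV := re_sc_geo1_V c hc R x0 s0 f c' ⟨y.1, y.2.1, y.2.2⟩
  have hVa : rtRot c.e ((c.test R x0 c' s0 f).V ⟨y.1, y.2.1, y.2.2⟩) = R⁻¹ • (c.ang y.1 - c.as x0) := hV
  obtain ⟨a, ha⟩ : ∃ a, a = c.ang y.1 := ⟨_, rfl⟩
  obtain ⟨s, hs⟩ : ∃ s, s = c.as x0 := ⟨_, rfl⟩
  obtain ⟨V, hVd⟩ : ∃ V, V = (c.test R x0 c' s0 f).V ⟨y.1, y.2.1, y.2.2⟩ := ⟨_, rfl⟩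
  have hXa : c.X y.1 = a.1 / c.D a := by rw [ha]; rfl
  rw [← ha] at h1 h2 d1 d2 hVa ⊢
  rw [← hs] at hDs0 hDs1 hXs hFs hVa
  rw [← hVd] at hVa ⊢
  rw [hXa] at h3
  have hsq : rtSq V = (R ^ 2)⁻¹ * rtSq (a - s) := by
    have e := rt_rot_sq c.e V
    rw [hc.e_unit, one_mul, hVa] at e
    rw [← e]
    simp only [rtSq, Prod.smul_fst, Prod.smul_snd, smul_eq_mul]
    rw [← inv_pow]
    ring
  have htwo := (re_sc_two c a s (by linarith) hDs0.ne').1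
  rw [hXs, hFs, zero_div, sub_zero] at htwo
  have hsh : 0 ≤ √c.h := Real.sqrt_nonneg _
  have hFD : |c.F a / c.D a| ≤ R := by
    rw [abs_div, abs_of_pos (by linarith : 0 < c.D a), div_le_iff₀ (by linarith)]
    have h0 : 0 ≤ Λ * √c.h := by positivity
    nlinarith
  refine ⟨?_, ?_, ?_⟩
  · rw [hsq, inv_mul_le_iff₀ (by positivity), htwo]
    have q1 : (a.1 / c.D a - x0) ^ 2 ≤ (2 * R) ^ 2 := by
      rw [← sq_abs]
      exact pow_le_pow_left₀ (abs_nonneg _) h3 2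
    have q2 : (c.F a / c.D a) ^ 2 ≤ R ^ 2 := by
      rw [← sq_abs]
      exact pow_le_pow_left₀ (abs_nonneg _) hFD 2
    have q3 : c.D a * c.D s ≤ 2 * 1 := mul_le_mul d2 hDs1 hDs0.le (by norm_num)
    have q4 : 0 ≤ (a.1 / c.D a - x0) ^ 2 + (c.F a / c.D a) ^ 2 := by positivity
    calc c.D a * c.D s * ((a.1 / c.D a - x0) ^ 2 + (c.F a / c.D a) ^ 2) ≤ 2 * 1 * ((a.1 / c.D a - x0) ^ 2 + (c.F a / c.D a) ^ 2) :=
          mul_le_mul_of_nonneg_right q3 q4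
      _ ≤ R ^ 2 * 10 := by nlinarith
  · have hG : (c.test R x0 c' s0 f).Gv ⟨y.1, y.2.1, y.2.2⟩ = rtIp V (c.unrot ((0, 1) + (2 * c.bt) • c.as x0)) + rtSq V * (c.bt * R) := by
      rw [hVd]
      simp only [RtTest.Gv, RtPoly.G, SecPt.test]
      simp
    have hip : rtIp V (c.unrot ((0, 1) + (2 * c.bt) • c.as x0)) = R⁻¹ * rtIp (a - s) ((0, 1) + (2 * c.bt) • s) := by
      have e := rt_rot_ip c.e V (c.unrot ((0, 1) + (2 * c.bt) • c.as x0))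
      rw [hc.e_unit, one_mul, hVa, re_sc_geo1_rot_unrot c hc, ← hs] at e
      rw [← hs, ← e]
      simp only [rtIp, Prod.smul_fst, Prod.smul_snd, smul_eq_mul]
      ring
    rw [hG, hip, hsq]
    have hFs' : s.2 + c.bt * (s.1 ^ 2 + s.2 ^ 2) = 0 := hFs
    simp only [rtIp, rtSq, SecPt.F, Prod.fst_add, Prod.snd_add, Prod.fst_sub, Prod.snd_sub, Prod.smul_fst, Prod.smul_snd, smul_eq_mul]
    field_simp
    linear_combination (-1 : ℝ) * hFs'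
  · have hb : (1 : ℝ) ≤ (1 + |c.bt|) ^ 2 := one_le_pow₀ (by linarith [abs_nonneg c.bt])
    have hsq0 : 0 ≤ rtSq a := by unfold rtSq; positivity
    have hsq1 : rtSq a ≤ 1 / 64 := by nlinarith
    have ha1 : |a.1| ≤ 1 / 8 := by
      have : a.1 ^ 2 ≤ (1 / 8 : ℝ) ^ 2 := by
        have : a.1 ^ 2 ≤ rtSq a := by unfold rtSq; nlinarith [sq_nonneg a.2]
        linarith
      exact abs_le_of_sq_le_sq this (by norm_num)
    have hXb : |a.1 / c.D a| ≤ 1 / 4 := by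
      rw [abs_div, abs_of_pos (by linarith : 0 < c.D a), div_le_iff₀ (by linarith)]
      nlinarith
    rw [abs_le] at hXb h3 ⊢
    constructor <;> linarith [hXb.1, hXb.2, h3.1, h3.2]

/-- the event reached from a row, in the coordinates of a test -/
theorem re_sc_geo_ev (τ : RtTest) (hl : τ.l ≠ 0) (hr : τ.r ≠ 0) (ρ : RtRow) (s Q Hh : ℝ) (Z : ReSp) :
    (τ.l * τ.r)⁻¹ • ((ρ.b + (s • ρ.A + Q • Z.1)) - τ.bs - s • τ.As) = τ.x ρ + (s / τ.l) • τ.V ρ + (Q / (τ.l * τ.r)) • Z.1 ∧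
    ((ρ.y + (s * rtSq ρ.A + 2 * Q * rtIp ρ.A Z.1 + Hh * Z.2)) - τ.ys - 2 * rtIp τ.As ((ρ.b + (s • ρ.A + Q • Z.1)) - τ.bs) + s * rtSq τ.As) / (τ.l * τ.r ^ 2)
      = τ.z ρ + s / τ.l * rtSq (τ.V ρ) + 2 * (Q / (τ.l * τ.r)) * rtIp (τ.V ρ) Z.1 + Hh / (τ.l * τ.r ^ 2) * Z.2 := by
  constructor
  · unfold RtTest.x RtTest.V
    ext
    · simp only [Prod.smul_fst, Prod.fst_sub, Prod.fst_add, smul_eq_mul]
      field_simp
      ring
    · simp only [Prod.smul_snd, Prod.snd_sub, Prod.snd_add, smul_eq_mul]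
      field_simp
      ring
  · unfold RtTest.z RtTest.V rtSq rtIp
    simp only [Prod.smul_fst, Prod.fst_sub, Prod.fst_add, Prod.smul_snd, Prod.snd_sub, Prod.snd_add, smul_eq_mul]
    field_simp
    ring

theorem re_sc_geo_cs (u v : ℝ × ℝ) : rtIp u v ^ 2 ≤ rtSq u * rtSq v := by
  unfold rtIp rtSq
  nlinarith [sq_nonneg (u.1 * v.2 - u.2 * v.1)]

theorem re_sc_geo_sq3 (u v w : ℝ × ℝ) : rtSq (u - v - w) ≤ 3 * (rtSq u + rtSq v + rtSq w) := by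
  unfold rtSq
  simp only [Prod.fst_sub, Prod.snd_sub]
  nlinarith [sq_nonneg (u.1 + v.1), sq_nonneg (u.1 + w.1), sq_nonneg (v.1 - w.1), sq_nonneg (u.2 + v.2), sq_nonneg (u.2 + w.2), sq_nonneg (v.2 - w.2)]

theorem re_sc_geo_sqs (t : ℝ) (u : ℝ × ℝ) : rtSq (t • u) = t ^ 2 * rtSq u := by
  unfold rtSq
  simp only [Prod.smul_fst, Prod.smul_snd, smul_eq_mul]
  ring

theorem re_sc_geo_ipabs {u v : ℝ × ℝ} {a b : ℝ} (ha : rtSq u ≤ a ^ 2) (hb : rtSq v ≤ b ^ 2) (ha0 : 0 ≤ a) (hb0 : 0 ≤ b) : |rtIp u v| ≤ a * b := by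
  have h1 := re_sc_geo_cs u v
  have h2 : rtSq u * rtSq v ≤ a ^ 2 * b ^ 2 := mul_le_mul ha hb (by unfold rtSq; positivity) (by positivity)
  exact abs_le_of_sq_le_sq (by nlinarith) (by positivity)

/-- tile bounds give the bounds of the event in the coordinates of the test -/
theorem re_sc_geo_coreA {M ℓE Bf R x0 bt u uC u' x1 x2 z' Ze D' sqXe : ℝ} (hM : 1 ≤ M) (hℓ0 : 0 < ℓE) (hℓ : ℓE * (1 + 16 * bt ^ 2) ≤ 1) (hB1 : 2 * |bt| ≤ Bf)
    (hBR : 1 ≤ Bf * R) (hR0 : 0 < R) (hR1 : R ≤ 1) (hx0 : |x0| ≤ 9 / 4) (hD' : D' = 1 + bt ^ 2 * x0 ^ 2) (tu : |u'| ≤ M * ℓE) (t1 : |x1| ≤ M * ℓE) (tz : |z'| ≤ M * ℓE)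
    (t2 : Bf * R * |x2| ≤ M) (ia : z' = D' * Ze) (ic : u - uC = D' * u' - 2 * bt * R * x2 + bt ^ 2 * (R ^ 2 * z' + 2 * x0 * R * x1))
    (id : sqXe = (u - uC) * Ze - u' * z' + (x1 ^ 2 + x2 ^ 2)) : |Ze| ≤ M ∧ sqXe ≤ 5 * M ^ 2 := by
  have hM0 : 0 < M := by linarith
  have hb2 : 0 ≤ bt ^ 2 := sq_nonneg bt
  have hℓ1 : ℓE ≤ 1 := by
    have : ℓE * 1 ≤ ℓE * (1 + 16 * bt ^ 2) := mul_le_mul_of_nonneg_left (by linarith) hℓ0.le
    linarith
  have hMℓ : M * ℓE ≤ M := by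
    calc M * ℓE ≤ M * 1 := mul_le_mul_of_nonneg_left hℓ1 hM0.le
      _ = M := mul_one M
  have hD1 : 1 ≤ D' := by rw [hD']; nlinarith [sq_nonneg x0, mul_nonneg hb2 (sq_nonneg x0)]
  have hZe' : |Ze| ≤ |z'| := by
    rw [ia, abs_mul, abs_of_pos (by linarith : 0 < D')]
    calc |Ze| = 1 * |Ze| := (one_mul _).symm
      _ ≤ D' * |Ze| := mul_le_mul_of_nonneg_right hD1 (abs_nonneg _)
  have hZe : |Ze| ≤ M := hZe'.trans (tz.trans hMℓ)
  have hx2 : |x2| ≤ M := by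
    calc |x2| = 1 * |x2| := (one_mul _).symm
      _ ≤ Bf * R * |x2| := mul_le_mul_of_nonneg_right hBR (abs_nonneg _)
      _ ≤ M := t2
  have T1 : |D' * u'| ≤ D' * (M * ℓE) := by
    rw [abs_mul, abs_of_pos (by linarith : 0 < D')]
    exact mul_le_mul_of_nonneg_left tu (by linarith)
  have T2 : |2 * bt * R * x2| ≤ M := by
    have e : |2 * bt * R * x2| = 2 * |bt| * (R * |x2|) := by
      rw [abs_mul, abs_mul, abs_mul, abs_of_pos hR0, abs_of_pos (by norm_num : (0 : ℝ) < 2)]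
      ring
    rw [e]
    calc 2 * |bt| * (R * |x2|) ≤ Bf * (R * |x2|) := mul_le_mul_of_nonneg_right hB1 (by positivity)
      _ = Bf * R * |x2| := by ring
      _ ≤ M := t2
  have T3 : |bt ^ 2 * (R ^ 2 * z' + 2 * x0 * R * x1)| ≤ bt ^ 2 * ((R ^ 2 + 2 * |x0| * R) * (M * ℓE)) := by
    rw [abs_mul, abs_of_nonneg hb2]
    refine mul_le_mul_of_nonneg_left ?_ hb2
    calc |R ^ 2 * z' + 2 * x0 * R * x1| ≤ |R ^ 2 * z'| + |2 * x0 * R * x1| := abs_add_le _ _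
      _ = R ^ 2 * |z'| + 2 * |x0| * R * |x1| := by
          rw [abs_mul, abs_mul, abs_mul, abs_mul, abs_of_pos hR0, abs_of_pos (by norm_num : (0 : ℝ) < 2), abs_of_nonneg (sq_nonneg R)]
      _ ≤ R ^ 2 * (M * ℓE) + 2 * |x0| * R * (M * ℓE) := add_le_add (mul_le_mul_of_nonneg_left tz (sq_nonneg R)) (mul_le_mul_of_nonneg_left t1 (by positivity))
      _ = (R ^ 2 + 2 * |x0| * R) * (M * ℓE) := by ring
  have hcoef : D' + bt ^ 2 * (R ^ 2 + 2 * |x0| * R) ≤ 1 + 16 * bt ^ 2 := by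
    have e : D' + bt ^ 2 * (R ^ 2 + 2 * |x0| * R) = 1 + bt ^ 2 * (|x0| + R) ^ 2 := by
      rw [hD', ← sq_abs x0]
      ring
    rw [e]
    have h1 : (|x0| + R) ^ 2 ≤ 16 := by
      have h2 : |x0| + R ≤ 4 := by linarith
      have h3 : 0 ≤ |x0| + R := by positivity
      nlinarith
    nlinarith
  have huc : |u - uC| ≤ 2 * M := by
    rw [ic]
    calc |D' * u' - 2 * bt * R * x2 + bt ^ 2 * (R ^ 2 * z' + 2 * x0 * R * x1)| ≤ |D' * u' - 2 * bt * R * x2| + |bt ^ 2 * (R ^ 2 * z' + 2 * x0 * R * x1)| := abs_add_le _ _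
      _ ≤ |D' * u'| + |2 * bt * R * x2| + |bt ^ 2 * (R ^ 2 * z' + 2 * x0 * R * x1)| := by
          have := abs_sub (D' * u') (2 * bt * R * x2)
          linarith
      _ ≤ D' * (M * ℓE) + M + bt ^ 2 * ((R ^ 2 + 2 * |x0| * R) * (M * ℓE)) := by linarith
      _ = M * (ℓE * (D' + bt ^ 2 * (R ^ 2 + 2 * |x0| * R))) + M := by ring
      _ ≤ M * (ℓE * (1 + 16 * bt ^ 2)) + M := by
          have := mul_le_mul_of_nonneg_left (mul_le_mul_of_nonneg_left hcoef hℓ0.le) hM0.le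
          linarith
      _ ≤ M * 1 + M := by
          have := mul_le_mul_of_nonneg_left hℓ hM0.le
          linarith
      _ = 2 * M := by ring
  refine ⟨hZe, ?_⟩
  rw [id]
  have a1 : (u - uC) * Ze ≤ 2 * M * M := by
    calc (u - uC) * Ze ≤ |(u - uC) * Ze| := le_abs_self _
      _ = |u - uC| * |Ze| := abs_mul _ _
      _ ≤ 2 * M * M := mul_le_mul huc hZe (abs_nonneg _) (by positivity)
  have a2 : -(u' * z') ≤ M * M := by
    calc -(u' * z') ≤ |u' * z'| := neg_le_abs _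
      _ = |u'| * |z'| := abs_mul _ _
      _ ≤ M * M := mul_le_mul (tu.trans hMℓ) (tz.trans hMℓ) (abs_nonneg _) hM0.le
  have a3 : x1 ^ 2 ≤ M * M := by
    rw [← sq_abs x1, sq]
    exact mul_le_mul (t1.trans hMℓ) (t1.trans hMℓ) (abs_nonneg _) hM0.le
  have a4 : x2 ^ 2 ≤ M * M := by
    rw [← sq_abs x2, sq]
    exact mul_le_mul hx2 hx2 (abs_nonneg _) hM0.le
  nlinarith

/-- from the event back to the row -/
theorem re_sc_geo_coreB {M Λ ε R bt u Ze x2 Gv Fv zr Z2 f : ℝ} {Xe V Z1 xr al : ℝ × ℝ} (hM : 1 ≤ M) (hΛ : 1 ≤ Λ) (hbt : |bt| ≤ Λ) (hε0 : 0 ≤ ε) (hf : f = 2 * Λ * ε) (hf1 : f ≤ 1)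
    (hR0 : 0 < R) (hR1 : R ≤ 1) (hu : |u| ≤ M) (hV : rtSq V ≤ 10) (hZ1 : rtSq Z1 ≤ 2 * M ^ 2) (hZ2 : |Z2| ≤ M) (hal : rtSq al = 1) (hZe : |Ze| ≤ M) (hXe : rtSq Xe ≤ 5 * M ^ 2)
    (eX : Xe = xr + u • V + ε • Z1) (eZ : Ze = zr + u * rtSq V + 2 * ε * rtIp V Z1 + ε ^ 2 * Z2) (eF : Fv = rtIp al xr + bt * R * zr) (eG : Gv = rtIp al V + bt * R * rtSq V)
    (ib : x2 = rtIp al Xe + bt * R * Ze) (hx2 : |x2| ≤ M * f) (hGv : |Gv| ≤ f / 2) :
    rtSq xr ≤ (22 * Λ * M) ^ 2 ∧ |zr| ≤ 22 * Λ * M ∧ |Fv| ≤ 22 * Λ * M * f := by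
  have hM0 : 0 < M := by linarith
  have hΛ0 : 0 < Λ := by linarith
  have hε2 : 2 * ε ≤ f := by
    rw [hf]
    calc 2 * ε = 2 * 1 * ε := by ring
      _ ≤ 2 * Λ * ε := by gcongr
  have hε1 : ε ≤ 1 / 2 := by linarith
  have hf0 : 0 ≤ f := by linarith
  have hεsq : ε ^ 2 ≤ 1 / 4 := by nlinarith
  have hV0 : 0 ≤ rtSq V := by unfold rtSq; positivity
  have hZ0 : 0 ≤ rtSq Z1 := by unfold rtSq; positivity
  have hΛM : M ≤ Λ * M := by
    calc M = 1 * M := (one_mul M).symm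
      _ ≤ Λ * M := mul_le_mul_of_nonneg_right hΛ hM0.le
  have husq : u ^ 2 ≤ M ^ 2 := by
    rw [← sq_abs u]
    exact pow_le_pow_left₀ (abs_nonneg _) hu 2
  have hVZ : |rtIp V Z1| ≤ 6 * M := by
    have := re_sc_geo_ipabs (u := V) (v := Z1) (a := 4) (b := 3 / 2 * M) (by linarith) (by nlinarith) (by norm_num) (by positivity)
    linarith
  have haZ : |rtIp al Z1| ≤ 3 / 2 * M := by
    have := re_sc_geo_ipabs (u := al) (v := Z1) (a := 1) (b := 3 / 2 * M) (by linarith) (by nlinarith) (by norm_num) (by positivity)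
    linarith
  refine ⟨?_, ?_, ?_⟩
  · have e : xr = Xe - u • V - ε • Z1 := by rw [eX]; abel
    have h1 := re_sc_geo_sq3 Xe (u • V) (ε • Z1)
    rw [← e, re_sc_geo_sqs, re_sc_geo_sqs] at h1
    have h2 : u ^ 2 * rtSq V ≤ M ^ 2 * 10 := mul_le_mul husq hV hV0 (by positivity)
    have h3 : ε ^ 2 * rtSq Z1 ≤ 1 / 4 * (2 * M ^ 2) := mul_le_mul hεsq hZ1 hZ0 (by norm_num)
    have h4 : M ^ 2 ≤ (Λ * M) ^ 2 := pow_le_pow_left₀ hM0.le hΛM 2
    have h5 : (22 * Λ * M) ^ 2 = 484 * (Λ * M) ^ 2 := by ring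
    rw [h5]
    nlinarith
  · have e : zr = Ze - u * rtSq V - 2 * ε * rtIp V Z1 - ε ^ 2 * Z2 := by rw [eZ]; ring
    have b1 : |u * rtSq V| ≤ M * 10 := by
      rw [abs_mul, abs_of_nonneg hV0]
      exact mul_le_mul hu hV hV0 hM0.le
    have b2 : |2 * ε * rtIp V Z1| ≤ 1 * (6 * M) := by
      rw [abs_mul, abs_of_nonneg (by positivity : 0 ≤ 2 * ε)]
      exact mul_le_mul (by linarith) hVZ (abs_nonneg _) (by norm_num)
    have b3 : |ε ^ 2 * Z2| ≤ 1 / 4 * M := by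
      rw [abs_mul, abs_of_nonneg (sq_nonneg ε)]
      exact mul_le_mul hεsq hZ2 (abs_nonneg _) (by norm_num)
    have b4 : |zr| ≤ |Ze| + |u * rtSq V| + |2 * ε * rtIp V Z1| + |ε ^ 2 * Z2| := by
      rw [e]
      have c1 := abs_sub (Ze - u * rtSq V - 2 * ε * rtIp V Z1) (ε ^ 2 * Z2)
      have c2 := abs_sub (Ze - u * rtSq V) (2 * ε * rtIp V Z1)
      have c3 := abs_sub Ze (u * rtSq V)
      linarith
    linarith
  · have e : Fv = x2 - u * Gv - ε * rtIp al Z1 - bt * (R * (2 * ε * rtIp V Z1)) - bt * (R * (ε ^ 2 * Z2)) := by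
      rw [eF, ib, eG, eX, eZ]
      unfold rtIp
      simp only [Prod.fst_add, Prod.snd_add, Prod.smul_fst, Prod.smul_snd, smul_eq_mul]
      ring
    have hMf : 0 ≤ M * f := by positivity
    have b1 : |u * Gv| ≤ M * (f / 2) := by
      rw [abs_mul]
      exact mul_le_mul hu hGv (abs_nonneg _) hM0.le
    have b2 : |ε * rtIp al Z1| ≤ f / 2 * (3 / 2 * M) := by
      rw [abs_mul, abs_of_nonneg hε0]
      exact mul_le_mul (by linarith) haZ (abs_nonneg _) (by linarith)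
    have b3 : |bt * (R * (2 * ε * rtIp V Z1))| ≤ f * (6 * M) := by
      have e3 : |bt * (R * (2 * ε * rtIp V Z1))| = (|bt| * (2 * ε)) * (R * |rtIp V Z1|) := by
        rw [abs_mul, abs_mul, abs_mul, abs_of_pos hR0, abs_of_nonneg (by positivity : 0 ≤ 2 * ε)]
        ring
      rw [e3]
      have c1 : |bt| * (2 * ε) ≤ f := by
        rw [hf]
        calc |bt| * (2 * ε) ≤ Λ * (2 * ε) := mul_le_mul_of_nonneg_right hbt (by positivity)
          _ = 2 * Λ * ε := by ring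
      have c2 : R * |rtIp V Z1| ≤ 1 * (6 * M) := mul_le_mul hR1 hVZ (abs_nonneg _) (by norm_num)
      calc |bt| * (2 * ε) * (R * |rtIp V Z1|) ≤ f * (1 * (6 * M)) := mul_le_mul c1 c2 (by positivity) hf0
        _ = f * (6 * M) := by ring
    have b4 : |bt * (R * (ε ^ 2 * Z2))| ≤ f / 2 * (1 / 2 * M) := by
      have e4 : |bt * (R * (ε ^ 2 * Z2))| = (|bt| * ε) * (R * ε * |Z2|) := by
        rw [abs_mul, abs_mul, abs_mul, abs_of_pos hR0, abs_of_nonneg (sq_nonneg ε)]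
        ring
      rw [e4]
      have c1 : |bt| * ε ≤ f / 2 := by
        rw [hf]
        calc |bt| * ε ≤ Λ * ε := mul_le_mul_of_nonneg_right hbt hε0
          _ = 2 * Λ * ε / 2 := by ring
      have c2 : R * ε * |Z2| ≤ 1 / 2 * M := by
        have : R * ε ≤ 1 * (1 / 2) := mul_le_mul hR1 hε1 hε0 (by norm_num)
        calc R * ε * |Z2| ≤ 1 * (1 / 2) * M := mul_le_mul this hZ2 (abs_nonneg _) (by norm_num)
          _ = 1 / 2 * M := by ring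
      exact mul_le_mul c1 c2 (by positivity) (by linarith)
    have b5 : |Fv| ≤ |x2| + |u * Gv| + |ε * rtIp al Z1| + |bt * (R * (2 * ε * rtIp V Z1))| + |bt * (R * (ε ^ 2 * Z2))| := by
      rw [e]
      have c1 := abs_sub (x2 - u * Gv - ε * rtIp al Z1 - bt * (R * (2 * ε * rtIp V Z1))) (bt * (R * (ε ^ 2 * Z2)))
      have c2 := abs_sub (x2 - u * Gv - ε * rtIp al Z1) (bt * (R * (2 * ε * rtIp V Z1)))
      have c3 := abs_sub (x2 - u * Gv) (ε * rtIp al Z1)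
      have c4 := abs_sub x2 (u * Gv)
      linarith
    have b6 : M * f ≤ Λ * M * f := mul_le_mul_of_nonneg_right hΛM hf0
    have b7 : |Fv| ≤ 9 * (M * f) := by
      have : M * f + M * (f / 2) + f / 2 * (3 / 2 * M) + f * (6 * M) + f / 2 * (1 / 2 * M) = 8.5 * (M * f) := by ring
      linarith
    calc |Fv| ≤ 9 * (M * f) := b7
      _ ≤ 22 * (Λ * M * f) := by linarith
      _ = 22 * Λ * M * f := by ring

theorem re_sc_geo_tile (R x0 s0 ℓE Bf M : ℝ) (c' : TV) (P : TV × ℝ) (hℓ0 : 0 < ℓE) (hRp : 0 < R) (hT : ‖tcoord x0 ℓE R (P.1 - c')‖ ≤ M) (hB : Bf * |P.2 - s0| ≤ M) :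
    |(secTc R x0 c' s0 P).1| ≤ M * ℓE ∧ |(secTc R x0 c' s0 P).2.1.1| ≤ M * ℓE ∧ |(secTc R x0 c' s0 P).2.2| ≤ M * ℓE ∧ Bf * R * |(secTc R x0 c' s0 P).2.1.2| ≤ M := by
  have q0 : (tcoord x0 ℓE R (P.1 - c')) 0 = (secTc R x0 c' s0 P).1 / ℓE := by
    simp [tcoord, tvec, secTc]
  have q1 : (tcoord x0 ℓE R (P.1 - c')) 1 = (secTc R x0 c' s0 P).2.1.1 / ℓE := by
    simp [tcoord, tvec, secTc]
    field_simp
  have q2 : (tcoord x0 ℓE R (P.1 - c')) 2 = (secTc R x0 c' s0 P).2.2 / ℓE := by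
    simp [tcoord, tvec, secTc]
    field_simp
  have q3 : R * (secTc R x0 c' s0 P).2.1.2 = P.2 - s0 := by
    simp only [secTc]
    field_simp
  have n0 := (PiLp.norm_apply_le (tcoord x0 ℓE R (P.1 - c')) 0).trans hT
  have n1 := (PiLp.norm_apply_le (tcoord x0 ℓE R (P.1 - c')) 1).trans hT
  have n2 := (PiLp.norm_apply_le (tcoord x0 ℓE R (P.1 - c')) 2).trans hT
  rw [q0, Real.norm_eq_abs, abs_div, abs_of_pos hℓ0, div_le_iff₀ hℓ0] at n0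
  rw [q1, Real.norm_eq_abs, abs_div, abs_of_pos hℓ0, div_le_iff₀ hℓ0] at n1
  rw [q2, Real.norm_eq_abs, abs_div, abs_of_pos hℓ0, div_le_iff₀ hℓ0] at n2
  rw [← q3, abs_mul, abs_of_pos hRp, ← mul_assoc] at hB
  exact ⟨n0, n1, n2, hB⟩

theorem re_sc_geo_Q (c : SecPt) (hc : c.Ok) (hh : 0 < c.h) (R : ℝ) (hRp : 0 < R) :
    rdQ c.H c.k / (c.l * (R * c.r)) = √c.h / R ∧ c.H / (c.l * (R * c.r) ^ 2) = (√c.h / R) ^ 2 := by
  have hl : 0 < c.l := rdLen_pos _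
  have hr := hc.r_pos
  have hH := hc.H_pos
  have hD2 : rdD c.H c.k = c.r * √c.h := by
    have e1 : rdD c.H c.k ^ 2 = (c.r * √c.h) ^ 2 := by
      rw [(re_sp_dq c.H hH c.k).2.2.2.2.1, mul_pow, Real.sq_sqrt hh.le]
      unfold SecPt.h SecPt.l
      have := rdLen_pos c.k
      field_simp
    exact (pow_left_inj₀ (re_sp_dq c.H hH c.k).1.le (by positivity) two_ne_zero).1 e1
  constructor
  · have : rdQ c.H c.k = c.l * rdD c.H c.k := (re_sp_dq c.H hH c.k).2.2.2.2.2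
    rw [this, hD2]
    field_simp
  · rw [div_pow, Real.sq_sqrt hh.le]
    unfold SecPt.h
    field_simp

theorem re_sc_geo_FG (c : SecPt) (R x0 s0 f : ℝ) (c' : TV) (ρ : RtRow) :
    (c.test R x0 c' s0 f).Fv ρ = rtIp (c.test R x0 c' s0 f).n.al ((c.test R x0 c' s0 f).x ρ) + c.bt * R * (c.test R x0 c' s0 f).z ρ ∧
    (c.test R x0 c' s0 f).Gv ρ = rtIp (c.test R x0 c' s0 f).n.al ((c.test R x0 c' s0 f).V ρ) + c.bt * R * rtSq ((c.test R x0 c' s0 f).V ρ) ∧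
    (c.test R x0 c' s0 f).n.disc = rtSq (c.test R x0 c' s0 f).n.al := by
  have e0 : (c.test R x0 c' s0 f).n.c = 0 := rfl
  have e1 : (c.test R x0 c' s0 f).n.d = 0 := rfl
  have e2 : (c.test R x0 c' s0 f).n.k = 0 := rfl
  have e3 : (c.test R x0 c' s0 f).n.be = c.bt * R := rfl
  refine ⟨?_, ?_, ?_⟩
  · unfold RtTest.Fv RtPoly.F
    rw [e0, e1, e2, e3]
    ring
  · unfold RtTest.Gv RtPoly.G
    rw [e1, e2, e3]
    unfold rtIp
    simp only [mul_zero, zero_smul, sub_zero, zero_mul, add_zero, zero_add]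
    ring
  · unfold RtPoly.disc
    rw [e1, e2]
    ring

theorem re_sc_geo_Z (Z : ReSp) (M : ℝ) (hZ : ‖Z‖ ≤ M) : rtSq Z.1 ≤ 2 * M ^ 2 ∧ |Z.2| ≤ M := by
  have b1 : |Z.1.1| ≤ M := ((norm_fst_le Z.1).trans (norm_fst_le Z)).trans hZ
  have b2 : |Z.1.2| ≤ M := ((norm_snd_le Z.1).trans (norm_fst_le Z)).trans hZ
  refine ⟨?_, (norm_snd_le Z).trans hZ⟩
  unfold rtSq
  have c1 : Z.1.1 ^ 2 ≤ M ^ 2 := by rw [← sq_abs Z.1.1]; exact pow_le_pow_left₀ (abs_nonneg _) b1 2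
  have c2 : Z.1.2 ^ 2 ≤ M ^ 2 := by rw [← sq_abs Z.1.2]; exact pow_le_pow_left₀ (abs_nonneg _) b2 2
  linarith

/-- **LEAF L-256-SEC-GEO4 (glue): a shell lies in the enlarged test.**      (checked numerically: the true enlargement is `≤ 5 M`)
PLAN.  `τ = c.test ..`, `f = 2Λ√h/R`, row `ρ = ⟨A, b, y⟩`, witnesses `s, Z`;  `u = s/ℓ`, `|u| ≤ M`;  event `w = (b, y) + secW H k A s Z`.   In test coordinates `Xe = τ.x ρ + δx + u V`, `Ze = τ.z ρ + δz + u |V|²` with `δx = (√h/R) Z.1` (up to the rotation free identification: NO rotation here, `rdQ H k = ℓ r √h`), `δz = 2 (√h/R) V·Z.1 + (h/R²) Z.2`.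
Tile: `|u'| ≤ MℓE`, `|x'₁| ≤ MℓE`, `|z'| ≤ MℓE`, `|x'₂| ≤ M/(Bf R)` (coordinates of `tcoord` are `≤` its norm).   `re_sc_geo_id`: (c) `|u - uC| ≤ M (ℓE (1 + bt² (|x0| + R)²) + 2|bt|/Bf) ≤ 2M` (`|x0| ≤ 9/4`, `hℓ`, `hB1`);  (a) `|Ze| ≤ MℓE ≤ M`;  (d) `|Xe|² ≤ 2M² + M² + 2M² ..≤ 9M²` (`Bf R ≥ Bf W ≥ 1`).
`re_sc_geo_ang`: `|V|² ≤ 10`.   `√h/R ≤ 1/2`, `|Z.1|₂ ≤ √2 M`.   So `|τ.x ρ| ≤ 3M + M + 4M`, `|τ.z ρ| ≤ M + 10M + M + 10M = 22M`.
`τ.Fv ρ = al·x + bt R z = x'₂ - (al·δx + bt R δz) - u Gv`, `|x'₂| ≤ M/(Bf R) ≤ M f`, `|al·δx| ≤ √2 M √h/R ≤ M f`, `|bt R δz| ≤ Λ (10 √h M + (h/R) M) ≤ 6 M f`, `|u Gv| ≤ M f/2`.   Finally `M' = 22ΛM ≥ 22M`. -/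
theorem re_sc_geo (c : SecPt) (hc : c.Ok) (Λ ℓE Bf R x0 s0 M : ℝ) (c' : TV) (hΛ : 1 ≤ Λ) (hbt : |c.bt| ≤ Λ) (hh : 0 < c.h) (hℓ0 : 0 < ℓE) (hℓ : ℓE * (1 + 16 * c.bt ^ 2) ≤ 1)
    (hB1 : 2 * |c.bt| ≤ Bf) (hB2 : 1 ≤ Bf * (2 * Λ * √c.h)) (hR0 : 2 * Λ * √c.h ≤ R) (hR1 : R ≤ 1) (hM : 1 ≤ M) (y : RdWvPar.Ph) (hy : y ∈ c.shell ℓE Bf R x0 c' s0 M)
    (h1 : rtSq (c.ang y.1) * (1 + |c.bt|) ^ 2 ≤ 1 / 64) (h2 : |c.F (c.ang y.1)| ≤ Λ * √c.h) (h3 : |c.X y.1 - x0| ≤ 2 * R) :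
    (⟨y.1, y.2.1, y.2.2⟩ : RtRow) ∈ (c.test R x0 c' s0 (2 * Λ * √c.h / R)).set (22 * Λ * M) := by
  obtain ⟨s, Z, hs, hZ, hT, hB⟩ := hy
  have hl : 0 < c.l := rdLen_pos _
  have hr := hc.r_pos
  have hH := hc.H_pos
  have hsh : 0 < √c.h := Real.sqrt_pos.2 hh
  have hΛ0 : 0 < Λ := by linarith
  have hM0 : 0 < M := by linarith
  have hRp : 0 < R := lt_of_lt_of_le (by positivity) hR0
  obtain ⟨f, hf⟩ : ∃ f : ℝ, f = 2 * Λ * √c.h / R := ⟨_, rfl⟩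
  rw [← hf]
  have hf0 : 0 < f := by rw [hf]; positivity
  have hf1 : f ≤ 1 := by rw [hf, div_le_one hRp]; exact hR0
  have hfR : f * R = 2 * Λ * √c.h := by rw [hf]; field_simp
  have hBf : 0 < Bf := by
    by_contra hcon
    push Not at hcon
    have : Bf * (2 * Λ * √c.h) ≤ 0 := mul_nonpos_of_nonpos_of_nonneg hcon (by positivity)
    linarith
  obtain ⟨g1, g2, g3⟩ := re_sc_geo_ang c hc Λ R x0 s0 f c' y hR0 hRp hR1 hΛ hh h1 h2 h3
  have hadm := re_sc_test_adm c hc Λ R x0 s0 f Λ c' hΛ hbt hRp hR1 hf0 hf1 le_rfl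
  obtain ⟨ia, ib, ic, id⟩ := re_sc_geo_id c hc R x0 s0 f s c' (y.2 + secW c.H c.k y.1 s Z) hRp
  obtain ⟨Xe, hXe⟩ : ∃ Xe : ℝ × ℝ, Xe = (c.l * (R * c.r))⁻¹ • ((y.2 + secW c.H c.k y.1 s Z).1 - (c.test R x0 c' s0 f).bs - s • (c.test R x0 c' s0 f).As) := ⟨_, rfl⟩
  obtain ⟨Ze, hZe⟩ : ∃ Ze : ℝ, Ze = ((y.2 + secW c.H c.k y.1 s Z).2 - (c.test R x0 c' s0 f).ys - 2 * rtIp (c.test R x0 c' s0 f).As ((y.2 + secW c.H c.k y.1 s Z).1 - (c.test R x0 c' s0 f).bs) +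
      s * rtSq (c.test R x0 c' s0 f).As) / (c.l * (R * c.r) ^ 2) := ⟨_, rfl⟩
  rw [← hXe] at ib id
  rw [← hZe] at ia ib id
  have ev := re_sc_geo_ev (c.test R x0 c' s0 f) hl.ne' (mul_pos hRp hr).ne' ⟨y.1, y.2.1, y.2.2⟩ s (rdQ c.H c.k) c.H Z
  obtain ⟨hQ, hHh⟩ := re_sc_geo_Q c hc hh R hRp
  have eX : Xe = (c.test R x0 c' s0 f).x ⟨y.1, y.2.1, y.2.2⟩ + (s / c.l) • (c.test R x0 c' s0 f).V ⟨y.1, y.2.1, y.2.2⟩ + (√c.h / R) • Z.1 := by
    rw [← hQ]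
    exact hXe.trans ev.1
  have eZ : Ze = (c.test R x0 c' s0 f).z ⟨y.1, y.2.1, y.2.2⟩ + s / c.l * rtSq ((c.test R x0 c' s0 f).V ⟨y.1, y.2.1, y.2.2⟩)
      + 2 * (√c.h / R) * rtIp ((c.test R x0 c' s0 f).V ⟨y.1, y.2.1, y.2.2⟩) Z.1 + (√c.h / R) ^ 2 * Z.2 := by
    rw [← hHh, ← hQ]
    exact hZe.trans ev.2
  clear ev hXe hZe hQ hHh
  obtain ⟨n0, n1, n2, n3⟩ := re_sc_geo_tile R x0 s0 ℓE Bf M c' _ hℓ0 hRp hT hB
  obtain ⟨T, hTd⟩ : ∃ T : ℝ × (ℝ × ℝ) × ℝ, T = secTc R x0 c' s0 (c.Lm (c.T0 + s, y.2 + secW c.H c.k y.1 s Z)) := ⟨_, rfl⟩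
  rw [← hTd] at ia ib ic id n0 n1 n2 n3
  clear hTd hT hB
  have hBR : 1 ≤ Bf * R := hB2.trans (mul_le_mul_of_nonneg_left hR0 hBf.le)
  obtain ⟨a1, a2⟩ := re_sc_geo_coreA hM hℓ0 hℓ hB1 hBR hRp hR1 g3 rfl n0 n1 n2 n3 ia ic id
  have hu : |s / c.l| ≤ M := by rw [abs_div, abs_of_pos hl, div_le_iff₀ hl]; exact hs
  obtain ⟨hZ1, hZ2⟩ := re_sc_geo_Z Z M hZ
  obtain ⟨eF, eG, eD⟩ := re_sc_geo_FG c R x0 s0 f c' ⟨y.1, y.2.1, y.2.2⟩
  have hal : rtSq (c.test R x0 c' s0 f).n.al = 1 := eD.symm.trans hadm.disc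
  have hx2 : |T.2.1.2| ≤ M * f := by
    have e : 1 ≤ Bf * R * f := by
      calc 1 ≤ Bf * (2 * Λ * √c.h) := hB2
        _ = Bf * R * f := by rw [← hfR]; ring
    calc |T.2.1.2| = 1 * |T.2.1.2| := (one_mul _).symm
      _ ≤ Bf * R * f * |T.2.1.2| := mul_le_mul_of_nonneg_right e (abs_nonneg _)
      _ = Bf * R * |T.2.1.2| * f := by ring
      _ ≤ M * f := mul_le_mul_of_nonneg_right n3 hf0.le
  have hGv : |(c.test R x0 c' s0 f).Gv ⟨y.1, y.2.1, y.2.2⟩| ≤ f / 2 := by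
    rw [g2, abs_div, abs_of_pos hRp, div_le_iff₀ hRp]
    calc |c.F (c.ang y.1)| ≤ Λ * √c.h := h2
      _ = f / 2 * R := by linarith
  obtain ⟨r1, r2, r3⟩ := re_sc_geo_coreB hM hΛ hbt (by positivity : 0 ≤ √c.h / R) (by rw [hf]; ring) hf1 hRp hR1 hu g1 hZ1 hZ2 hal a1 a2 eX eZ eF eG ib hx2 hGv
  have hΛM : 1 ≤ Λ * M := by
    calc (1 : ℝ) = 1 * 1 := (one_mul 1).symm
      _ ≤ Λ * M := mul_le_mul hΛ hM (by norm_num) hΛ0.le
  have hbig : (22 : ℝ) ≤ 22 * Λ * M := by linarith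
  refine ⟨⟨r1, r2, g1.trans ?_⟩, r3, hGv.trans ?_⟩
  · calc (10 : ℝ) ≤ 22 ^ 2 := by norm_num
      _ ≤ (22 * Λ * M) ^ 2 := pow_le_pow_left₀ (by norm_num) hbig 2
  · show f / 2 ≤ 22 * Λ * M * f
    calc f / 2 ≤ 22 * f := by linarith
      _ ≤ 22 * Λ * M * f := mul_le_mul_of_nonneg_right hbig hf0.le

end Claimed.Agent.R256
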