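-- KEEP
import Claimed.Agent.R256.Base.RndCut
import Claimed.Agent.R256.Tri.Kit

/-!
# Row 256, unit RE, block PLANE-A (08-round-entropy.tex l.215-340), file 1: DEFINITIONS            (architect helper213; prefix `re_sp_`, defs `re..`)
EXITS of the block (file `SpaMain.lean`):   `re_sp_planeA : RePlaneA η` ((tiny-cap), waves)   and   `re_sp_readout` ((space-3), for PLANE-B).      EXACT INEQUALITIES, no limits, no negligible errors.
THE PROOF (all constants depend only on the bound `bm` of the generations; powers of `Kp` are explicit).      `ℓ = rdLen k`, `d = rdD H k = √(H/ℓ)`, `q = rdQ H k = √(Hℓ)`, `d q = H`, `q² = Hℓ`, `d² = H/ℓ`.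
 (0) field `u_t = reFld t G`, `G` integrable;   `row T k β G (A, z) = c₃ ∫ e^{i⟨q,z⟩} reSym H k β A T q · G q dq`,   `⟨q, z⟩ = rePair q z = ξ·b - ρy`,   `c₃ = (2π)^{-3/2}`.
 (1) ONE kernel family `reK H k β A s = (2π)^{-3} ∫ e^{i⟨q,·⟩} reSym H k β A s`, symbol `χ_β(Hρ) ψ((ξ/2ρ - A)/d) e^{-is|ξ|²/4ρ}`.      EXACT SCALING `re_sp_scale`: `reK H k β A s w = (q²H)⁻¹ reK 1 0 β 0 (s/ℓ) (reZ H k A s w)`.
     `re_sp_ker`: `‖reK 1 0 β 0 τ Z‖ ≤ C_N (1+‖Z‖)^{-N}` uniformly in `|τ| ≤ 2` (smooth compactly supported amplitude depending smoothly on `τ`).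
 (2) `re_sp_F1` (analysis from the field):   `row T k β G (A, z) = ∫ reK H k β A (T-t) (z-z') u_t z' dz'`.
     `re_sp_F2` (synthesis from the rows; `G` in the plateau of `β`):   `u_t z = ∫∫ reK H k β A' (t-T) (z-z') row T k β G (A', z') d⁻² dA' dz'`.
 (3) `re_sp_sup`:   spectrum within `Λ d` of `A_*` + `κ`-regularity at `(T, k, β)`   ⟹   `‖u_t z‖² ≤ C Λ⁴ κ / ℓ³` for `|t - T| ≤ 2ℓ`      (F2, Cauchy-Schwarz, covering of the rows by the ROUND TESTS of radius `d`, which are unit cubes in the coordinates `reZ`).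
 (4) readout:   `m_l^{3/2} ≤ ρ(cell_l)^{1/2} ∫ θ_l |W|³`,   `∫ |W|³ dρ ≤ C Kp³ ∫ |u_t|³`  (F1, Young)      ⟹ (space-3);      `sup |W| ≤ C sup |u_T|` + (3) + `∑ m_l ≤ 2^n e`   ⟹ (tiny-cap).
All definitions are FROZEN.
-/

set_option autoImplicit false

namespace Claimed.Agent.R256

open MeasureTheory
open scoped ENNReal

/-- space points `z = (b, y)` -/
abbrev ReSp : Type := (ℝ × ℝ) × ℝ

/-- the pairing `ξ·b - ρ y` -/
def rePair (q : RdWvPar.Mo) (z : ReSp) : ℝ := rtIp q.1 z.1 - q.2 * z.2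

/-- the dispersion relation `|ξ|²/(4ρ)` -/
noncomputable def reOm (q : RdWvPar.Mo) : ℝ := rtSq q.1 / (4 * q.2)

/-- `(2π)^{-3/2}` -/
noncomputable def reC3 : ℝ := (2 * Real.pi) ^ (-(3 / 2) : ℝ)

/-- the free field at time `t` of the state `G` (momentum representation) -/
noncomputable def reFld (t : ℝ) (G : RdWvPar.Mo → ℂ) (z : ReSp) : ℂ :=
  ∫ q, (reC3 : ℂ) * Complex.exp (Complex.I * ((rePair q z - t * reOm q : ℝ) : ℂ)) * G q

/-- the symbol `χ_β(Hρ) ψ((ξ/2ρ - A)/d_ℓ) e^{-is|ξ|²/4ρ}` -/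
noncomputable def reSym (H : ℝ) (k β : ℕ) (A : ℝ × ℝ) (s : ℝ) (q : RdWvPar.Mo) : ℂ :=
  ((rdChi β (H * q.2) * rdPsi ((rdD H k)⁻¹ • ((2 * q.2)⁻¹ • q.1 - A)) : ℝ) : ℂ) * Complex.exp (-(Complex.I * ((s * reOm q : ℝ) : ℂ)))

/-- its kernel `(2π)^{-3} ∫ e^{i⟨q,w⟩} reSym q dq` -/
noncomputable def reK (H : ℝ) (k β : ℕ) (A : ℝ × ℝ) (s : ℝ) (w : ReSp) : ℂ :=
  (((2 * Real.pi) ^ 3)⁻¹ : ℝ) * ∫ q, Complex.exp (Complex.I * (rePair q w : ℂ)) * reSym H k β A s q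

/-- normalised displacement along the ray of velocity `A`, time lag `s`:   `((b - sA)/q_ℓ, (y - 2A·b + s|A|²)/H)` -/
noncomputable def reZ (H : ℝ) (k : ℕ) (A : ℝ × ℝ) (s : ℝ) (w : ReSp) : ReSp :=
  ((rdQ H k)⁻¹ • (w.1 - s • A), (w.2 - 2 * rtIp A w.1 + s * rtSq A) / H)

theorem re_sp_defs_eqns_cite : True := by
  have := @rePair.eq_1
  have := @reOm.eq_1
  have := @reC3.eq_1
  have := @reFld.eq_1
  have := @reSym.eq_1
  have := @reK.eq_1
  have := @reZ.eq_1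
  trivial

end Claimed.Agent.R256
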