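import Claimed.Agent.R256.Re.SpaDefs

/-!
# Row 256, unit RE, block PLANE-A, file 2: THE KERNEL FAMILY            (architect helper213)            CONTRACT
PAPER-FREE (Mathlib + `Base/RndCut.lean`: `rd_chi_*`, `rd_psi_*`).   Every `sorry` is a leaf `L-256-RESP-*` (name in the docstring).   Statements FROZEN; auxiliary lemmas directly above your theorem, prefix `re_sp_`; edit only your block.
`Mo = ReSp = (ℝ × ℝ) × ℝ` (sup norm, Lebesgue measure `volume`).
-/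

set_option autoImplicit false

namespace Claimed.Agent.R256

open MeasureTheory
open scoped ENNReal ContDiff

/-- **LEAF L-256-RESP-DQ.**  `Real.sqrt` algebra (`Real.mul_self_sqrt`, `Real.sqrt_mul_sqrt..`, `rdLen_pos`). -/
theorem re_sp_dq (H : ℝ) (hH : 0 < H) (k : ℕ) :
    0 < rdD H k ∧ 0 < rdQ H k ∧ rdD H k * rdQ H k = H ∧ rdQ H k ^ 2 = H * rdLen k ∧ rdD H k ^ 2 = H / rdLen k ∧ rdQ H k = rdLen k * rdD H k := by
  have hl := rdLen_pos k
  have h1 : 0 < H / rdLen k := div_pos hH hl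
  have h2 : 0 < H * rdLen k := mul_pos hH hl
  have hD : 0 < rdD H k := Real.sqrt_pos.2 h1
  have hQ : 0 < rdQ H k := Real.sqrt_pos.2 h2
  have hD2 : rdD H k ^ 2 = H / rdLen k := Real.sq_sqrt h1.le
  have hQ2 : rdQ H k ^ 2 = H * rdLen k := Real.sq_sqrt h2.le
  have hQD : rdQ H k = rdLen k * rdD H k := by
    have h3 : rdQ H k ^ 2 = (rdLen k * rdD H k) ^ 2 := by
      rw [mul_pow, hD2, hQ2]
      field_simp
    exact (pow_left_inj₀ hQ.le (mul_pos hl hD).le two_ne_zero).1 h3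
  refine ⟨hD, hQ, ?_, hQ2, hD2, hQD⟩
  rw [hQD]
  have : rdD H k * (rdLen k * rdD H k) = rdLen k * rdD H k ^ 2 := by ring
  rw [this, hD2]
  field_simp

/-- **LEAF L-256-RESP-SUPP (1): support of the symbol.**  `rd_chi_supp`, `rd_psi_supp`, `rtSq (c • v) = c² rtSq v`. -/
theorem re_sp_sym_supp (H : ℝ) (hH : 0 < H) (k β : ℕ) (A : ℝ × ℝ) (s : ℝ) (q : RdWvPar.Mo) (h : reSym H k β A s q ≠ 0) :
    (2 : ℝ)⁻¹ ^ (β + 5) < H * q.2 ∧ H * q.2 < 2 ^ (β + 5) ∧ rtSq ((2 * q.2)⁻¹ • q.1 - A) < 2 * rdD H k ^ 2 := by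
  have hD := (re_sp_dq H hH k).1
  unfold reSym at h
  have h1 : rdChi β (H * q.2) ≠ 0 := by
    intro h0
    apply h
    rw [h0]
    simp
  have h2 : rdPsi ((rdD H k)⁻¹ • ((2 * q.2)⁻¹ • q.1 - A)) ≠ 0 := by
    intro h0
    apply h
    rw [h0]
    simp
  refine ⟨(rd_chi_supp h1).1, (rd_chi_supp h1).2, ?_⟩
  have h3 := rd_psi_supp h2
  have h4 : ∀ (c : ℝ) (v : ℝ × ℝ), rtSq (c • v) = c ^ 2 * rtSq v := by
    intro c v
    simp only [rtSq, Prod.smul_fst, Prod.smul_snd, smul_eq_mul]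
    ring
  rw [h4, inv_pow] at h3
  have h5 : 0 < rdD H k ^ 2 := by positivity
  rw [inv_mul_lt_iff₀ h5] at h3
  linarith

/-- **LEAF L-256-RESP-SUPP (2): the support is bounded, uniformly in `s`.**  `|q.2| < 2^(β+5)/H`;  `|ξ_i| ≤ 2ρ (|A_i| + √2 d)`. -/
theorem re_sp_sym_bdd_supp (H : ℝ) (hH : 0 < H) (k β : ℕ) (A : ℝ × ℝ) : ∃ R : ℝ, 0 ≤ R ∧ ∀ (s : ℝ) (q : RdWvPar.Mo), R < ‖q‖ → reSym H k β A s q = 0 := by
  have hD := (re_sp_dq H hH k).1
  set M : ℝ := 2 ^ (β + 5) / H with hM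
  have hM0 : 0 < M := by positivity
  set W : ℝ := ‖A‖ + 2 * rdD H k with hW
  have hW0 : 0 < W := by positivity
  refine ⟨M + 2 * M * W, by positivity, fun s q hq => ?_⟩
  by_contra hne
  obtain ⟨h1, h2, h3⟩ := re_sp_sym_supp H hH k β A s q hne
  have hq2 : 0 < q.2 := by
    have : 0 < H * q.2 := lt_trans (by positivity) h1
    exact (pos_iff_pos_of_mul_pos this).1 hH
  have hq2M : q.2 < M := by
    rw [hM, lt_div_iff₀ hH]
    linarith
  set u : ℝ × ℝ := (2 * q.2)⁻¹ • q.1 - A with hu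
  have hu1 : |u.1| ≤ 2 * rdD H k := by
    apply abs_le_of_sq_le_sq' _ (by positivity) |> fun h => abs_le.2 h
    have : u.1 ^ 2 ≤ rtSq u := by
      unfold rtSq
      nlinarith [sq_nonneg u.2]
    nlinarith
  have hu2 : |u.2| ≤ 2 * rdD H k := by
    apply abs_le_of_sq_le_sq' _ (by positivity) |> fun h => abs_le.2 h
    have : u.2 ^ 2 ≤ rtSq u := by
      unfold rtSq
      nlinarith [sq_nonneg u.1]
    nlinarith
  have hun : ‖u‖ ≤ 2 * rdD H k := by
    rw [Prod.norm_def]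
    exact max_le hu1 hu2
  have hq1 : q.1 = (2 * q.2) • (u + A) := by
    rw [hu, sub_add_cancel, smul_smul, mul_inv_cancel₀ (by positivity), one_smul]
  have hq1n : ‖q.1‖ ≤ 2 * M * W := by
    rw [hq1, norm_smul, Real.norm_eq_abs, abs_of_pos (by positivity)]
    have : ‖u + A‖ ≤ W := by
      calc ‖u + A‖ ≤ ‖u‖ + ‖A‖ := norm_add_le _ _
        _ ≤ W := by rw [hW]; linarith
    have h0 : 0 ≤ ‖u + A‖ := norm_nonneg _
    nlinarith
  have hqn : ‖q‖ ≤ M + 2 * M * W := by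
    rw [Prod.norm_def]
    refine max_le ?_ ?_
    · linarith
    · rw [Real.norm_eq_abs, abs_of_pos hq2]
      have : 0 < 2 * M * W := by positivity
      linarith
  linarith

/-- **LEAF L-256-RESP-SUPP (3).**  `rd_chi_le_one`, `rd_chi_nonneg`, `rd_psi_le`, `rd_psi_nonneg`, `Complex.norm_exp_ofReal_mul_I`-type (`‖exp (-(I * r))‖ = 1`). -/
theorem re_sp_sym_norm_le : ∃ B : ℝ, 0 ≤ B ∧ ∀ (H : ℝ) (k β : ℕ) (A : ℝ × ℝ) (s : ℝ) (q : RdWvPar.Mo), ‖reSym H k β A s q‖ ≤ B := by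
  refine ⟨1 / Real.sqrt (∫ x : ℝ × ℝ, rdPsi0 x ^ 2), by positivity, fun H k β A s q => ?_⟩
  unfold reSym
  have h1 : ‖Complex.exp (-(Complex.I * ((s * reOm q : ℝ) : ℂ)))‖ = 1 := by
    have : -(Complex.I * ((s * reOm q : ℝ) : ℂ)) = ((-(s * reOm q) : ℝ) : ℂ) * Complex.I := by
      push_cast
      ring
    rw [this, Complex.norm_exp_ofReal_mul_I]
  rw [norm_mul, h1, mul_one, Complex.norm_real, Real.norm_eq_abs,
    abs_of_nonneg (mul_nonneg (rd_chi_nonneg _ _) (rd_psi_nonneg _))]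
  calc rdChi β (H * q.2) * rdPsi ((rdD H k)⁻¹ • ((2 * q.2)⁻¹ • q.1 - A))
      ≤ 1 * rdPsi ((rdD H k)⁻¹ • ((2 * q.2)⁻¹ • q.1 - A)) :=
        mul_le_mul_of_nonneg_right (rd_chi_le_one _ _) (rd_psi_nonneg _)
    _ ≤ _ := by rw [one_mul]; exact rd_psi_le _

/-- **LEAF L-256-RESP-SMOOTH: the symbol is smooth, jointly in `(s, q)`.**
PLAN.  `contDiff_iff_contDiffAt`.   At a point with `0 < q.2`: `q ↦ (2 q.2)⁻¹`, `q ↦ rtSq q.1 / (4 q.2)` are `ContDiffAt` (`ContDiffAt.inv`, `ContDiffAt.div`, denominators `≠ 0`), compose with `rd_chi_contDiff`, `rd_psi_contDiff`, `Complex.contDiff_exp`, `Complex.ofRealCLM.contDiff`.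
At a point with `q.2 ≤ 0`: on the neighbourhood `{x | H * x.2.2 < 2⁻¹^(β+5)}` the function vanishes (`rd_chi_supp`), so it is `ContDiffAt` by `contDiffAt_const.congr_of_eventuallyEq`. -/
theorem re_sp_sym_smooth (H : ℝ) (hH : 0 < H) (k β : ℕ) (A : ℝ × ℝ) : ContDiff ℝ ∞ (fun x : ℝ × RdWvPar.Mo => reSym H k β A x.1 x.2) := by
  rw [contDiff_iff_contDiffAt]
  intro x
  by_cases hx : 0 < x.2.2
  · have hq2 : ContDiffAt ℝ ∞ (fun x : ℝ × RdWvPar.Mo => x.2.2) x := (contDiff_snd.snd).contDiffAt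
    have hq1 : ContDiffAt ℝ ∞ (fun x : ℝ × RdWvPar.Mo => x.2.1) x := (contDiff_snd.fst).contDiffAt
    have hs : ContDiffAt ℝ ∞ (fun x : ℝ × RdWvPar.Mo => x.1) x := contDiff_fst.contDiffAt
    have hinv : ContDiffAt ℝ ∞ (fun x : ℝ × RdWvPar.Mo => (2 * x.2.2)⁻¹) x :=
      (contDiffAt_const.mul hq2).inv (by positivity)
    have hchi : ContDiffAt ℝ ∞ (fun x : ℝ × RdWvPar.Mo => rdChi β (H * x.2.2)) x :=
      (rd_chi_contDiff β).contDiffAt.comp x (contDiffAt_const.mul hq2)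
    have hpsi : ContDiffAt ℝ ∞ (fun x : ℝ × RdWvPar.Mo => rdPsi ((rdD H k)⁻¹ • ((2 * x.2.2)⁻¹ • x.2.1 - A))) x :=
      rd_psi_contDiff.contDiffAt.comp x
        (ContDiffAt.fun_smul contDiffAt_const ((ContDiffAt.fun_smul hinv hq1).sub contDiffAt_const))
    have hsq : ContDiffAt ℝ ∞ (fun x : ℝ × RdWvPar.Mo => rtSq x.2.1) x := by
      unfold rtSq
      exact ((contDiff_fst.contDiffAt.comp x hq1).pow 2).add ((contDiff_snd.contDiffAt.comp x hq1).pow 2)
    have hom : ContDiffAt ℝ ∞ (fun x : ℝ × RdWvPar.Mo => reOm x.2) x := by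
      unfold reOm
      exact hsq.div (contDiffAt_const.mul hq2) (by positivity)
    unfold reSym
    refine (Complex.ofRealCLM.contDiff.contDiffAt.comp x (hchi.mul hpsi)).mul ?_
    refine Complex.contDiff_exp.contDiffAt.comp x ?_
    exact (contDiffAt_const.mul (Complex.ofRealCLM.contDiff.contDiffAt.comp x (hs.mul hom))).neg
  · have hU : {y : ℝ × RdWvPar.Mo | H * y.2.2 < (2 : ℝ)⁻¹ ^ (β + 5)} ∈ nhds x := by
      refine (isOpen_lt (by fun_prop) continuous_const).mem_nhds ?_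
      have : H * x.2.2 ≤ 0 := mul_nonpos_of_nonneg_of_nonpos hH.le (not_lt.1 hx)
      exact lt_of_le_of_lt this (by positivity)
    refine (contDiffAt_const (c := (0 : ℂ))).congr_of_eventuallyEq ?_
    filter_upwards [hU] with y hy
    by_contra hne
    exact absurd (re_sp_sym_supp H hH k β A y.1 y.2 hne).1 (not_lt.2 (le_of_lt hy))

/-- the coordinates map `p ↦ ((p 0, p 1), p 2)` preserves the volume. -/
theorem re_sp_iso_mp : MeasurePreserving (fun p : TV => (((p 0, p 1), p 2) : ReSp)) volume volume := by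
  have h1 : MeasurePreserving (@WithLp.ofLp 2 (Fin 3 → ℝ)) volume volume := PiLp.volume_preserving_ofLp (Fin 3)
  have h2 := volume_preserving_piFinSuccAbove (fun _ : Fin 3 => ℝ) (Fin.last 2)
  have h3 : MeasurePreserving (Prod.swap : ℝ × (Fin 2 → ℝ) → (Fin 2 → ℝ) × ℝ) volume volume :=
    Measure.measurePreserving_swap
  have h4 : MeasurePreserving (Prod.map (@MeasurableEquiv.finTwoArrow ℝ _) (id : ℝ → ℝ)) volume volume :=
    (volume_preserving_finTwoArrow ℝ).prod (MeasurePreserving.id volume)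
  have h5 := h4.comp (h3.comp (h2.comp h1))
  convert h5 using 1
  funext p
  simp [MeasurableEquiv.piFinSuccAbove, MeasurableEquiv.finTwoArrow, MeasurableEquiv.piFinTwo, Fin.insertNthEquiv,
    Fin.succAbove]
  exact ⟨rfl, rfl⟩

/-- **LEAF L-256-RESP-ISO.**  `EuclideanSpace.measurableEquiv`/`EuclideanSpace.volume_preserving_measurableEquiv`, then `Fin 3 → ℝ ≃ (ℝ × ℝ) × ℝ` (`MeasurableEquiv.piFinSuccAbove`/`volume_preserving_piFinSuccAbove`, `volume_preserving_finTwoArrow`, `MeasurePreserving.prod`, `.swap`);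
the continuous linear equivalence by `LinearEquiv.toContinuousLinearEquiv` from explicit `toFun`, `invFun = fun z => !₂[z.1.1, z.1.2, z.2]`. -/
theorem re_sp_iso : ∃ e : TV ≃L[ℝ] ReSp, (∀ p, e p = ((p 0, p 1), p 2)) ∧ MeasurePreserving e volume volume := by
  let l : TV ≃ₗ[ℝ] ReSp :=
    { toFun := fun p => ((p 0, p 1), p 2)
      map_add' := fun p p' => rfl
      map_smul' := fun c p => rfl
      invFun := fun z => !₂[z.1.1, z.1.2, z.2]
      left_inv := fun p => by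
        ext i
        fin_cases i <;> rfl
      right_inv := fun z => rfl }
  refine ⟨l.toContinuousLinearEquiv, fun p => rfl, ?_⟩
  exact re_sp_iso_mp

open scoped FourierTransform RealInnerProductSpace in
/-- the reflection in the last variable, as a continuous linear equivalence. -/
noncomputable def reSpRefl : ReSp ≃L[ℝ] ReSp :=
  (ContinuousLinearEquiv.refl ℝ (ℝ × ℝ)).prodCongr (ContinuousLinearEquiv.neg ℝ)

theorem re_sp_refl_eqns_cite : True := by
  have := @reSpRefl.eq_1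
  trivial

theorem re_sp_refl_apply (z : ReSp) : reSpRefl z = (z.1, -z.2) := rfl

theorem re_sp_refl_mp : MeasurePreserving reSpRefl volume volume :=
  (MeasurePreserving.id (volume : Measure (ℝ × ℝ))).prod (Measure.measurePreserving_neg (volume : Measure ℝ))

theorem re_sp_haar : (volume : Measure ReSp).IsAddHaarMeasure := by
  have h1 : (volume : Measure (ℝ × ℝ)).IsAddHaarMeasure := by
    rw [Measure.volume_eq_prod]; infer_instance
  show (volume : Measure ((ℝ × ℝ) × ℝ)).IsAddHaarMeasure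
  rw [Measure.volume_eq_prod]; infer_instance

theorem re_sp_finrank : Module.finrank ℝ ReSp = 3 := by
  simp [ReSp]

theorem re_sp_two_pi_pos : (0 : ℝ) < 2 * Real.pi := by positivity

/-- change of variables `q = 2π (v₀, v₁, -v₂)`. -/
theorem re_sp_cv (e : TV ≃L[ℝ] ReSp) (hmp : MeasurePreserving e volume volume) (F : ReSp → ℂ) :
    ∫ q, F q = (((2 * Real.pi) ^ 3 : ℝ) : ℂ) * ∫ v : TV, F ((2 * Real.pi) • reSpRefl (e v)) := by
  have h1 : ∫ v : TV, F ((2 * Real.pi) • reSpRefl (e v)) = ∫ z : ReSp, F ((2 * Real.pi) • reSpRefl z) :=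
    hmp.integral_comp e.toHomeomorph.measurableEmbedding (fun z => F ((2 * Real.pi) • reSpRefl z))
  have h2 : ∫ z : ReSp, F ((2 * Real.pi) • reSpRefl z) = ∫ z : ReSp, F ((2 * Real.pi) • z) :=
    re_sp_refl_mp.integral_comp reSpRefl.toHomeomorph.measurableEmbedding (fun z => F ((2 * Real.pi) • z))
  have := re_sp_haar
  have h3 := Measure.integral_comp_smul (volume : Measure ReSp) F (2 * Real.pi)
  rw [re_sp_finrank] at h3
  rw [h1, h2, h3, abs_of_pos (by have := re_sp_two_pi_pos; positivity), Complex.real_smul, ← mul_assoc, ← Complex.ofReal_mul,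
    mul_inv_cancel₀ (by have := re_sp_two_pi_pos; positivity)]
  simp

open scoped RealInnerProductSpace in
theorem re_sp_pair_eq (e : TV ≃L[ℝ] ReSp) (he : ∀ p, e p = ((p 0, p 1), p 2)) (v p : TV) :
    rePair ((2 * Real.pi) • reSpRefl (e v)) (e p) = 2 * Real.pi * ⟪v, p⟫ := by
  rw [he, he, re_sp_refl_apply]
  simp [rePair, rtIp, PiLp.inner_apply, Fin.sum_univ_three]
  ring

open scoped FourierTransform RealInnerProductSpace in
/-- **LEAF L-256-RESP-INV: Fourier inversion on `(ℝ × ℝ) × ℝ` for the pairing `rePair`.**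
PLAN.  `e` from `re_sp_iso`.   `f ω = a (2π ω 0, 2π ω 1, -2π ω 2)` is smooth with compact support on `TV`: a Schwartz map (`HasCompactSupport.toSchwartzMap`).   With `w = e p`:   `∫ q, exp (I rePair q w) a q = (2π)³ 𝓕⁻ f p`  (linear change of variables `q = (2π ω 0, 2π ω 1, -2π ω 2)`:
`e` measure preserving + `Measure.integral_comp_smul`/`integral_comp_mul_left` and a reflection; `rePair q w = 2π ⟪ω, p⟫`; `Real.fourierInv_eq`, `Real.fourierChar_apply`).   `𝓕⁻ f` is Schwartz: integrable.   `𝓕 (𝓕⁻ f) = f` (`FourierTransform.fourier_fourierInv_eq`, `SchwartzMap.fourier_coe`), evaluated at `ω`. -/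
theorem re_sp_inv (a : RdWvPar.Mo → ℂ) (ha : ContDiff ℝ ∞ a) (hc : HasCompactSupport a) :
    Integrable (fun w : ReSp => ∫ q, Complex.exp (Complex.I * (rePair q w : ℂ)) * a q) ∧
    ∀ q : RdWvPar.Mo, (((2 * Real.pi) ^ 3)⁻¹ : ℝ) * ∫ w : ReSp, Complex.exp (-(Complex.I * (rePair q w : ℂ))) * ∫ q', Complex.exp (Complex.I * (rePair q' w : ℂ)) * a q' = a q := by
  obtain ⟨e, he, hmp⟩ := re_sp_iso
  have hπ := re_sp_two_pi_pos
  -- the linear equivalence `T`
  let T : TV ≃L[ℝ] ReSp := (e.trans reSpRefl).trans (ContinuousLinearEquiv.smulLeft (Units.mk0 (2 * Real.pi) hπ.ne'))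
  have hT : ∀ v, T v = (2 * Real.pi) • reSpRefl (e v) := fun v => rfl
  set f : TV → ℂ := fun v => a (T v) with hf
  have hfs : ContDiff ℝ ∞ f := ha.comp T.contDiff
  have hfc : HasCompactSupport f := hc.comp_homeomorph T.toHomeomorph
  let S : SchwartzMap TV ℂ := hfc.toSchwartzMap hfs
  have hS : (S : TV → ℂ) = f := rfl
  have hinvI : Integrable (𝓕⁻ f) := by
    have := (𝓕⁻ S).integrable (μ := volume)
    rwa [SchwartzMap.fourierInv_coe, hS] at this
  have hfI : Integrable f := S.integrable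
  have hFI : Integrable (𝓕 f) := by
    have := (𝓕 S).integrable (μ := volume)
    rwa [SchwartzMap.fourier_coe, hS] at this
  set g : ReSp → ℂ := fun w => ∫ q, Complex.exp (Complex.I * (rePair q w : ℂ)) * a q with hg
  -- `g ∘ e = (2π)³ 𝓕⁻ f`
  have hge : ∀ p : TV, g (e p) = (((2 * Real.pi) ^ 3 : ℝ) : ℂ) * 𝓕⁻ f p := by
    intro p
    simp only [hg]
    rw [re_sp_cv e hmp, Real.fourierInv_eq']
    congr 1
    refine integral_congr_ae (Filter.Eventually.of_forall fun v => ?_)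
    simp only [re_sp_pair_eq e he, smul_eq_mul, hf, hT]
    rw [mul_comm Complex.I]
  refine ⟨?_, fun q => ?_⟩
  · rw [← hmp.integrable_comp_emb e.toHomeomorph.measurableEmbedding]
    refine (hinvI.const_mul (((2 * Real.pi) ^ 3 : ℝ) : ℂ)).congr (Filter.Eventually.of_forall fun p => ?_)
    exact (hge p).symm
  · obtain ⟨v₀, rfl⟩ := T.surjective q
    have h1 : ∫ w : ReSp, Complex.exp (-(Complex.I * (rePair (T v₀) w : ℂ))) * g w
        = ∫ p : TV, Complex.exp (-(Complex.I * (rePair (T v₀) (e p) : ℂ))) * g (e p) :=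
      (hmp.integral_comp e.toHomeomorph.measurableEmbedding
        (fun w => Complex.exp (-(Complex.I * (rePair (T v₀) w : ℂ))) * g w)).symm
    have h2 : ∫ p : TV, Complex.exp (-(Complex.I * (rePair (T v₀) (e p) : ℂ))) * g (e p)
        = (((2 * Real.pi) ^ 3 : ℝ) : ℂ) * 𝓕 (𝓕⁻ f) v₀ := by
      rw [Real.fourier_eq', ← integral_const_mul]
      refine integral_congr_ae (Filter.Eventually.of_forall fun p => ?_)
      simp only [hge, hT, re_sp_pair_eq e he, smul_eq_mul]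
      rw [real_inner_comm]
      have e1 : -(Complex.I * ((2 * Real.pi * ⟪p, v₀⟫ : ℝ) : ℂ)) = ((-2 * Real.pi * ⟪p, v₀⟫ : ℝ) : ℂ) * Complex.I := by
        push_cast
        ring
      rw [e1]
      ring
    rw [h1, h2, hfs.continuous.fourier_fourierInv_eq hfI hFI, ← mul_assoc, ← Complex.ofReal_mul,
      inv_mul_cancel₀ (by positivity)]
    simp [hf]

/-- the bilinear form `-(rePair q Z)/(2π)` -/
noncomputable def reSpL : RdWvPar.Mo →L[ℝ] ReSp →L[ℝ] ℝ :=
  (-(2 * Real.pi)⁻¹) • ((ContinuousLinearMap.mul ℝ ℝ).bilinearComp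
      ((ContinuousLinearMap.fst ℝ ℝ ℝ).comp (ContinuousLinearMap.fst ℝ (ℝ × ℝ) ℝ)) ((ContinuousLinearMap.fst ℝ ℝ ℝ).comp (ContinuousLinearMap.fst ℝ (ℝ × ℝ) ℝ))
    + (ContinuousLinearMap.mul ℝ ℝ).bilinearComp
      ((ContinuousLinearMap.snd ℝ ℝ ℝ).comp (ContinuousLinearMap.fst ℝ (ℝ × ℝ) ℝ)) ((ContinuousLinearMap.snd ℝ ℝ ℝ).comp (ContinuousLinearMap.fst ℝ (ℝ × ℝ) ℝ))
    - (ContinuousLinearMap.mul ℝ ℝ).bilinearComp (ContinuousLinearMap.snd ℝ (ℝ × ℝ) ℝ) (ContinuousLinearMap.snd ℝ (ℝ × ℝ) ℝ))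

theorem re_sp_dec_L_apply (q : RdWvPar.Mo) (Z : ReSp) : reSpL q Z = -(2 * Real.pi)⁻¹ * rePair q Z := by
  simp [reSpL, rePair, rtIp]

theorem re_sp_dec_fourier (a : RdWvPar.Mo → ℂ) (Z : ReSp) :
    VectorFourier.fourierIntegral Real.fourierChar volume reSpL.toLinearMap₁₂ a Z = ∫ q, Complex.exp (Complex.I * (rePair q Z : ℂ)) * a q := by
  unfold VectorFourier.fourierIntegral
  refine integral_congr_ae (Filter.Eventually.of_forall fun q => ?_)
  have hL : reSpL.toLinearMap₁₂ q Z = -(2 * Real.pi)⁻¹ * rePair q Z := re_sp_dec_L_apply q Z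
  show Real.fourierChar (-(reSpL.toLinearMap₁₂ q Z)) • a q = Complex.exp (Complex.I * (rePair q Z : ℂ)) * a q
  rw [hL, Circle.smul_def, Real.fourierChar_apply, smul_eq_mul]
  congr 2
  push_cast
  have : (Real.pi : ℂ) ≠ 0 := by exact_mod_cast Real.pi_ne_zero
  field_simp

theorem re_sp_dec_haar : (volume : Measure RdWvPar.Mo).IsAddHaarMeasure := by
  have h1 : (volume : Measure (ℝ × ℝ)).IsAddHaarMeasure := by
    rw [Measure.volume_eq_prod]; infer_instance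
  rw [Measure.volume_eq_prod]; infer_instance

/-- **LEAF L-256-RESP-DEC: decay of the Fourier integral, explicit in the amplitude.**
PLAN.  `L : Mo →L[ℝ] ReSp →L[ℝ] ℝ`, `L q Z = -(rePair q Z)/(2π)` (`LinearMap.mkContinuous₂` or `IsBoundedBilinearMap.toContinuousLinearMap`), so that `VectorFourier.fourierIntegral 𝐞 volume L.toLinearMap₁₂ a Z = ∫ exp (I rePair q Z) a q`.
`VectorFourier.pow_mul_norm_iteratedFDeriv_fourierIntegral_le L ha.. (K := 0) (k := 0) (n := N)` with `v` = the three coordinate vectors `((1,0),0), ((0,1),0), ((0,0),1)` (`‖v‖ = 1`, `|L v Z| = |Z_i|/(2π)`):   `|Z_i|^N ‖I Z‖ ≤ (2π)^N 2^N ∑_{j ≤ N} ∫ ‖D^j a‖`.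
`‖Z‖ = max |Z_i|`, `(1+‖Z‖)^N ≤ 2^N (1 + ‖Z‖^N)`, `n = 0` gives `‖I Z‖ ≤ ∫ ‖a‖`.   Integrability of `‖q‖^0 ‖D^j a‖`: continuous with compact support (`HasCompactSupport.iteratedFDeriv`, `ContDiff.continuous_iteratedFDeriv`). -/
theorem re_sp_dec (N : ℕ) : ∃ C : ℝ, 0 ≤ C ∧ ∀ a : RdWvPar.Mo → ℂ, ContDiff ℝ ∞ a → HasCompactSupport a → ∀ Z : ReSp,
    (1 + ‖Z‖) ^ N * ‖∫ q, Complex.exp (Complex.I * (rePair q Z : ℂ)) * a q‖ ≤ C * ∑ j ∈ Finset.range (N + 1), ∫ q, ‖iteratedFDeriv ℝ j a q‖ := by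
  refine ⟨2 ^ N * (1 + (4 * Real.pi) ^ N), by positivity, fun a ha hc Z => ?_⟩
  obtain ⟨I, hI⟩ : ∃ I : ℝ, I = ‖∫ q, Complex.exp (Complex.I * (rePair q Z : ℂ)) * a q‖ := ⟨_, rfl⟩
  obtain ⟨Sg, hSg⟩ : ∃ Sg : ℝ, Sg = ∑ j ∈ Finset.range (N + 1), ∫ q, ‖iteratedFDeriv ℝ j a q‖ := ⟨_, rfl⟩
  rw [← hI, ← hSg]
  have hI0 : 0 ≤ I := by rw [hI]; exact norm_nonneg _
  have hint : ∀ (k n : ℕ), (k : ℕ∞) ≤ 0 → (n : ℕ∞) ≤ ⊤ → Integrable (fun v => ‖v‖ ^ k * ‖iteratedFDeriv ℝ n a v‖) volume := by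
    intro k n _ _
    apply Continuous.integrable_of_hasCompactSupport
    · exact (continuous_norm.pow k).mul (ha.continuous_iteratedFDeriv (by exact_mod_cast le_top)).norm
    · exact ((hc.iteratedFDeriv n).norm).mul_left
  have hterm : ∀ j ∈ Finset.range (N + 1), 0 ≤ ∫ q, ‖iteratedFDeriv ℝ j a q‖ := fun j _ => integral_nonneg fun q => norm_nonneg _
  have hSg0 : 0 ≤ Sg := by rw [hSg]; exact Finset.sum_nonneg hterm
  have key : ∀ v : RdWvPar.Mo, ‖v‖ ≤ 1 → |reSpL v Z| ^ N * I ≤ 2 ^ N * Sg := by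
    intro v hv
    have := re_sp_dec_haar
    have h := VectorFourier.pow_mul_norm_iteratedFDeriv_fourierIntegral_le reSpL (K := 0) (N := ⊤) ha hint (k := 0) (n := N)
      le_rfl le_top v Z
    rw [norm_iteratedFDeriv_zero, re_sp_dec_fourier, ← hI] at h
    have e : ∑ p ∈ Finset.range (0 + 1) ×ˢ Finset.range (N + 1), ∫ v, ‖v‖ ^ p.1 * ‖iteratedFDeriv ℝ p.2 a v‖ = Sg := by
      rw [Finset.sum_product, zero_add, Finset.range_one, Finset.sum_singleton, hSg]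
      simp only [pow_zero, one_mul]
    rw [e] at h
    have hvN : ‖v‖ ^ N ≤ 1 := pow_le_one₀ (norm_nonneg _) hv
    calc |reSpL v Z| ^ N * I ≤ ‖v‖ ^ N * (2 * Real.pi * ‖reSpL‖) ^ 0 * (2 * ((0 : ℕ) : ℝ) + 2) ^ N * Sg := h
      _ = ‖v‖ ^ N * (2 ^ N * Sg) := by simp; ring
      _ ≤ 1 * (2 ^ N * Sg) := by gcongr
      _ = _ := one_mul _
  have hcoord : ∀ z : ℝ, (∃ v : RdWvPar.Mo, ‖v‖ ≤ 1 ∧ |reSpL v Z| = (2 * Real.pi)⁻¹ * |z|) → |z| ^ N * I ≤ (4 * Real.pi) ^ N * Sg := by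
    rintro z ⟨v, hv, hvz⟩
    have h := key v hv
    rw [hvz, mul_pow] at h
    have hpi : 0 < (2 * Real.pi) ^ N := by positivity
    calc |z| ^ N * I = (2 * Real.pi) ^ N * (((2 * Real.pi)⁻¹) ^ N * |z| ^ N * I) := by
          rw [inv_pow]; field_simp
      _ ≤ (2 * Real.pi) ^ N * (2 ^ N * Sg) := by gcongr
      _ = _ := by rw [← mul_assoc, ← mul_pow]; congr 2; ring
  have hpi0 : 0 < (2 * Real.pi)⁻¹ := by positivity
  have h1 : |Z.1.1| ^ N * I ≤ (4 * Real.pi) ^ N * Sg := hcoord _ ⟨((1, 0), 0), by simp [Prod.norm_def], by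
    rw [re_sp_dec_L_apply, abs_mul, abs_neg, abs_of_pos hpi0]; simp [rePair, rtIp]⟩
  have h2 : |Z.1.2| ^ N * I ≤ (4 * Real.pi) ^ N * Sg := hcoord _ ⟨((0, 1), 0), by simp [Prod.norm_def], by
    rw [re_sp_dec_L_apply, abs_mul, abs_neg, abs_of_pos hpi0]; simp [rePair, rtIp]⟩
  have h3 : |Z.2| ^ N * I ≤ (4 * Real.pi) ^ N * Sg := hcoord _ ⟨((0, 0), 1), by simp [Prod.norm_def], by
    rw [re_sp_dec_L_apply, abs_mul, abs_neg, abs_of_pos hpi0]; simp [rePair, rtIp]⟩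
  have hZ : ‖Z‖ ^ N * I ≤ (4 * Real.pi) ^ N * Sg := by
    have e : ‖Z‖ = max (max |Z.1.1| |Z.1.2|) |Z.2| := by
      simp [Prod.norm_def, Real.norm_eq_abs]
    rw [e]
    rcases max_choice (max |Z.1.1| |Z.1.2|) |Z.2| with h | h
    · rw [h]
      rcases max_choice |Z.1.1| |Z.1.2| with h' | h'
      · rw [h']; exact h1
      · rw [h']; exact h2
    · rw [h]; exact h3
  have h0 : I ≤ Sg := by
    have e1 : I ≤ ∫ q, ‖iteratedFDeriv ℝ 0 a q‖ := by
      rw [hI]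
      refine (norm_integral_le_integral_norm _).trans (le_of_eq ?_)
      refine integral_congr_ae (Filter.Eventually.of_forall fun q => ?_)
      show ‖Complex.exp (Complex.I * (rePair q Z : ℂ)) * a q‖ = ‖iteratedFDeriv ℝ 0 a q‖
      rw [norm_iteratedFDeriv_zero, norm_mul, mul_comm Complex.I, Complex.norm_exp_ofReal_mul_I, one_mul]
    rw [hSg]
    exact e1.trans (Finset.single_le_sum hterm (Finset.mem_range.2 (Nat.succ_pos N)))
  have hpow : (1 + ‖Z‖) ^ N ≤ 2 ^ N * (1 + ‖Z‖ ^ N) := by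
    have hz0 := norm_nonneg Z
    rcases le_total ‖Z‖ 1 with h | h
    · calc (1 + ‖Z‖) ^ N ≤ 2 ^ N := pow_le_pow_left₀ (by positivity) (by linarith) N
        _ ≤ 2 ^ N * (1 + ‖Z‖ ^ N) := le_mul_of_one_le_right (by positivity) (by
            have : 0 ≤ ‖Z‖ ^ N := by positivity
            linarith)
    · calc (1 + ‖Z‖) ^ N ≤ (2 * ‖Z‖) ^ N := pow_le_pow_left₀ (by positivity) (by linarith) N
        _ = 2 ^ N * ‖Z‖ ^ N := mul_pow _ _ _
        _ ≤ 2 ^ N * (1 + ‖Z‖ ^ N) := by gcongr; linarith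
  calc (1 + ‖Z‖) ^ N * I ≤ 2 ^ N * (1 + ‖Z‖ ^ N) * I := by gcongr
    _ = 2 ^ N * (I + ‖Z‖ ^ N * I) := by ring
    _ ≤ 2 ^ N * (Sg + (4 * Real.pi) ^ N * Sg) := by gcongr
    _ = _ := by ring

/-- **LEAF L-256-RESP-PARAM: derivatives in `q` are bounded uniformly in a compact parameter.**
PLAN.  `(fun q => Φ (τ, q)) = (fun x => Φ ((τ, 0) + x)) ∘ ContinuousLinearMap.inr ℝ ℝ Mo`;   `ContinuousLinearMap.iteratedFDeriv_comp_right` + `iteratedFDeriv_comp_add_left`:   `‖D^j (Φ (τ, ·)) q‖ ≤ ‖D^j Φ (τ, q)‖ ‖inr‖^j ≤ ‖D^j Φ (τ, q)‖` (`ContinuousMultilinearMap.norm_compContinuousLinearMap_le`, `ContinuousLinearMap.norm_inr_le_one`).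
`D^j Φ` is continuous: bounded by `B₀` on the compact `Icc (-2) 2 ×ˢ closedBall 0 R`.   For `R < ‖q‖` the function `Φ (τ, ·)` vanishes near `q`: `D^j = 0`.   So the integral is `≤ B₀ vol (closedBall 0 R)` (`setIntegral`, `norm_setIntegral_le_of_norm_le_const`-type). -/
theorem re_sp_param (Φ : ℝ × RdWvPar.Mo → ℂ) (hΦ : ContDiff ℝ ∞ Φ) (R : ℝ) (h0 : ∀ (τ : ℝ) (q : RdWvPar.Mo), R < ‖q‖ → Φ (τ, q) = 0) (j : ℕ) :
    ∃ B : ℝ, 0 ≤ B ∧ ∀ τ : ℝ, |τ| ≤ 2 → ∫ q, ‖iteratedFDeriv ℝ j (fun q => Φ (τ, q)) q‖ ≤ B := by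
  have hcont : Continuous fun x => iteratedFDeriv ℝ j Φ x := hΦ.continuous_iteratedFDeriv (by exact_mod_cast le_top)
  have hK : IsCompact (Set.Icc (-2 : ℝ) 2 ×ˢ Metric.closedBall (0 : RdWvPar.Mo) R) := isCompact_Icc.prod (isCompact_closedBall 0 R)
  obtain ⟨B₀, hB₀⟩ := hK.exists_bound_of_continuousOn hcont.continuousOn
  refine ⟨max B₀ 0 * volume.real (Metric.closedBall (0 : RdWvPar.Mo) R), by positivity, fun τ hτ => ?_⟩
  have hle : ∀ q, ‖iteratedFDeriv ℝ j (fun q => Φ (τ, q)) q‖ ≤ ‖iteratedFDeriv ℝ j Φ (τ, q)‖ := by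
    intro q
    have e1 : (fun q => Φ (τ, q)) = (fun x => Φ ((τ, 0) + x)) ∘ (ContinuousLinearMap.inr ℝ ℝ RdWvPar.Mo) := by
      funext q; simp
    have hs : ContDiff ℝ ∞ (fun x => Φ ((τ, 0) + x)) := hΦ.comp (contDiff_const.add contDiff_id)
    rw [e1, ContinuousLinearMap.iteratedFDeriv_comp_right _ hs q (by exact_mod_cast le_top), iteratedFDeriv_comp_add_left]
    refine (ContinuousMultilinearMap.norm_compContinuousLinearMap_le _ _).trans ?_
    have e2 : (τ, (0 : RdWvPar.Mo)) + (ContinuousLinearMap.inr ℝ ℝ RdWvPar.Mo) q = (τ, q) := by simp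
    rw [e2]
    calc ‖iteratedFDeriv ℝ j Φ (τ, q)‖ * ∏ _i : Fin j, ‖ContinuousLinearMap.inr ℝ ℝ RdWvPar.Mo‖ ≤ ‖iteratedFDeriv ℝ j Φ (τ, q)‖ * 1 := by
          gcongr
          exact Finset.prod_le_one (fun _ _ => norm_nonneg _) (fun _ _ => ContinuousLinearMap.norm_inr_le_one ℝ ℝ RdWvPar.Mo)
      _ = _ := mul_one _
  have hsupp : tsupport (fun q => Φ (τ, q)) ⊆ Metric.closedBall (0 : RdWvPar.Mo) R := by
    refine closure_minimal ?_ Metric.isClosed_closedBall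
    intro q' hq'
    by_contra hc
    apply hq'
    apply h0
    simpa using hc
  have hpt : ∀ q, ‖iteratedFDeriv ℝ j (fun q => Φ (τ, q)) q‖ ≤ (Metric.closedBall (0 : RdWvPar.Mo) R).indicator (fun _ => max B₀ 0) q := by
    intro q
    by_cases hq : q ∈ Metric.closedBall (0 : RdWvPar.Mo) R
    · rw [Set.indicator_of_mem hq]
      exact ((hle q).trans (hB₀ (τ, q) ⟨⟨by linarith [(abs_le.1 hτ).1], (abs_le.1 hτ).2⟩, hq⟩)).trans (le_max_left _ _)
    · rw [Set.indicator_of_notMem hq]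
      have : iteratedFDeriv ℝ j (fun q => Φ (τ, q)) q = 0 := by
        by_contra hne
        exact hq (hsupp (support_iteratedFDeriv_subset j hne))
      rw [this, norm_zero]
  have := re_sp_dec_haar
  have hfin : volume (Metric.closedBall (0 : RdWvPar.Mo) R) ≠ ⊤ := (isCompact_closedBall (0 : RdWvPar.Mo) R).measure_lt_top.ne
  calc ∫ q, ‖iteratedFDeriv ℝ j (fun q => Φ (τ, q)) q‖ ≤ ∫ q, (Metric.closedBall (0 : RdWvPar.Mo) R).indicator (fun _ => max B₀ 0) q :=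
        integral_mono_of_nonneg (Filter.Eventually.of_forall fun q => norm_nonneg _)
          ((integrable_indicator_iff measurableSet_closedBall).2 (integrableOn_const hfin))
          (Filter.Eventually.of_forall hpt)
    _ = volume.real (Metric.closedBall (0 : RdWvPar.Mo) R) • max B₀ 0 := integral_indicator_const _ measurableSet_closedBall
    _ = _ := by rw [smul_eq_mul, mul_comm]

/-- the symbol at fixed `s` is smooth -/
theorem re_sp_sym_smooth_s (H : ℝ) (hH : 0 < H) (k β : ℕ) (A : ℝ × ℝ) (s : ℝ) : ContDiff ℝ ∞ (reSym H k β A s) := by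
  have h1 : ContDiff ℝ ∞ (fun q : RdWvPar.Mo => ((s, q) : ℝ × RdWvPar.Mo)) := contDiff_const.prodMk contDiff_id
  have h2 := (re_sp_sym_smooth H hH k β A).comp h1
  have h3 : ((fun x : ℝ × RdWvPar.Mo => reSym H k β A x.1 x.2) ∘ fun q : RdWvPar.Mo => ((s, q) : ℝ × RdWvPar.Mo)) = reSym H k β A s := by
    funext q
    rfl
  rwa [h3] at h2

/-- the symbol at fixed `s` has compact support -/
theorem re_sp_sym_compact (H : ℝ) (hH : 0 < H) (k β : ℕ) (A : ℝ × ℝ) (s : ℝ) : HasCompactSupport (reSym H k β A s) := by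
  obtain ⟨R, -, hR⟩ := re_sp_sym_bdd_supp H hH k β A
  refine HasCompactSupport.intro (isCompact_closedBall (0 : RdWvPar.Mo) R) fun q hq => hR s q ?_
  simpa [Metric.mem_closedBall, dist_zero_right] using hq

/-- **LEAF L-256-RESP-KER (glue): uniform decay of the normalised kernel.**
PLAN.  `re_sp_dec N` applied to `a = reSym 1 0 β 0 τ` (smooth: `re_sp_sym_smooth` composed with `q ↦ (τ, q)`; compact support: `re_sp_sym_bdd_supp`, `HasCompactSupport.intro (isCompact_closedBall ..)`), `re_sp_param` for `j ≤ N` (take the sum of the `B_j`).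
`(1+‖Z‖)^(-(N:ℝ)) = ((1+‖Z‖)^N)⁻¹`. -/
theorem re_sp_ker (β N : ℕ) : ∃ C : ℝ, 0 ≤ C ∧ ∀ τ : ℝ, |τ| ≤ 2 → ∀ Z : ReSp, ‖reK 1 0 β 0 τ Z‖ ≤ C * (1 + ‖Z‖) ^ (-(N : ℝ)) := by
  obtain ⟨C0, hC0, hdec⟩ := re_sp_dec N
  obtain ⟨R, -, hR⟩ := re_sp_sym_bdd_supp 1 one_pos 0 β 0
  have hpar := re_sp_param (fun x : ℝ × RdWvPar.Mo => reSym 1 0 β 0 x.1 x.2) (re_sp_sym_smooth 1 one_pos 0 β 0) R hR
  choose B hB0 hB using hpar
  have hπ : (0 : ℝ) < ((2 * Real.pi) ^ 3)⁻¹ := by positivity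
  refine ⟨((2 * Real.pi) ^ 3)⁻¹ * (C0 * ∑ j ∈ Finset.range (N + 1), B j),
    mul_nonneg hπ.le (mul_nonneg hC0 (Finset.sum_nonneg fun j _ => hB0 j)), fun τ hτ Z => ?_⟩
  have h1 := hdec (reSym 1 0 β 0 τ) (re_sp_sym_smooth_s 1 one_pos 0 β 0 τ) (re_sp_sym_compact 1 one_pos 0 β 0 τ) Z
  have h2 : ∑ j ∈ Finset.range (N + 1), ∫ q, ‖iteratedFDeriv ℝ j (reSym 1 0 β 0 τ) q‖ ≤ ∑ j ∈ Finset.range (N + 1), B j :=
    Finset.sum_le_sum fun j _ => hB j τ hτ
  have h3 : (0 : ℝ) < (1 + ‖Z‖) ^ N := by positivity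
  have h4 : (1 + ‖Z‖) ^ (-(N : ℝ)) = ((1 + ‖Z‖) ^ N)⁻¹ := by
    rw [Real.rpow_neg (by positivity), Real.rpow_natCast]
  unfold reK
  rw [norm_mul, Complex.norm_real, Real.norm_eq_abs, abs_of_pos hπ, h4, mul_assoc]
  refine mul_le_mul_of_nonneg_left ?_ hπ.le
  rw [← div_eq_mul_inv, le_div_iff₀ h3, mul_comm]
  exact h1.trans (mul_le_mul_of_nonneg_left h2 hC0)

/-- shear in the last variable -/
theorem re_sp_shear1 (g : ℝ × ℝ → ℝ) (hg : Measurable g) :
    MeasurePreserving (fun w : ReSp => ((w.1, w.2 + g w.1) : ReSp)) volume volume := by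
  have h := MeasurePreserving.skew_product (μa := (volume : Measure (ℝ × ℝ))) (μb := volume) (μc := (volume : Measure ℝ))
    (μd := volume) (MeasurePreserving.id _) (g := fun b y => y + g b)
    (by
      show Measurable (fun p : (ℝ × ℝ) × ℝ => p.2 + g p.1)
      exact measurable_snd.add (hg.comp measurable_fst))
    (Filter.Eventually.of_forall fun b => (measurePreserving_add_right volume (g b)).map_eq)
  exact h

/-- shear in the first two variables -/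
theorem re_sp_shear2 (h : ℝ → ℝ × ℝ) (hh : Measurable h) :
    MeasurePreserving (fun w : ReSp => ((w.1 + h w.2, w.2) : ReSp)) volume volume := by
  have h1 : MeasurePreserving (fun p : ℝ × (ℝ × ℝ) => ((p.1, p.2 + h p.1) : ℝ × (ℝ × ℝ))) volume volume :=
    MeasurePreserving.skew_product (μa := (volume : Measure ℝ)) (μb := volume) (μc := (volume : Measure (ℝ × ℝ)))
      (μd := volume) (MeasurePreserving.id _) (g := fun b y => y + h b)
      (by
        show Measurable (fun p : ℝ × (ℝ × ℝ) => p.2 + h p.1)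
        exact measurable_snd.add (hh.comp measurable_fst))
      (Filter.Eventually.of_forall fun b => (measurePreserving_add_right volume (h b)).map_eq)
  have h2 : MeasurePreserving (Prod.swap : (ℝ × ℝ) × ℝ → ℝ × (ℝ × ℝ)) volume volume := Measure.measurePreserving_swap
  have h3 : MeasurePreserving (Prod.swap : ℝ × (ℝ × ℝ) → (ℝ × ℝ) × ℝ) volume volume := Measure.measurePreserving_swap
  exact h3.comp (h1.comp h2)

/-- anisotropic dilation -/
theorem re_sp_dil (a b : ℝ) (ha : 0 < a) (hb : 0 < b) :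
    Measure.map (fun w : ReSp => ((a • w.1, b * w.2) : ReSp)) volume = ENNReal.ofReal ((a ^ 2 * b)⁻¹) • volume := by
  have h1 : Measure.map (fun x : ℝ × ℝ => a • x) volume = ENNReal.ofReal ((a ^ 2)⁻¹) • volume := by
    have hh : (volume : Measure (ℝ × ℝ)).IsAddHaarMeasure := by
      rw [Measure.volume_eq_prod]; infer_instance
    have := Measure.map_addHaar_smul (volume : Measure (ℝ × ℝ)) ha.ne'
    rw [this]
    congr 2
    rw [abs_of_pos (by positivity)]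
    simp
  have h2 : Measure.map (fun y : ℝ => b * y) volume = ENNReal.ofReal (b⁻¹) • volume := by
    rw [Real.map_volume_mul_left hb.ne', abs_of_pos (by positivity)]
  have h3 := Measure.map_prod_map (volume : Measure (ℝ × ℝ)) (volume : Measure ℝ) (measurable_const_smul a)
    (measurable_const_mul b)
  have h4 : (fun w : ReSp => ((a • w.1, b * w.2) : ReSp)) = Prod.map (fun x : ℝ × ℝ => a • x) (fun y : ℝ => b * y) := rfl
  rw [h4]
  show Measure.map _ ((volume : Measure (ℝ × ℝ)).prod (volume : Measure ℝ)) = _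
  rw [← h3, h1, h2, Measure.prod_smul_left, Measure.prod_smul_right, smul_smul, ← ENNReal.ofReal_mul (by positivity),
    mul_inv]
  rfl

/-- **LEAF L-256-RESP-QJAC: the linear change of variables in momentum space** `ξ = ζ/c + 2(σ/H) A`, `ρ = σ/H`.
PLAN.  `integral_prod_symm`/`integral_prod` is NOT available without integrability: use measure theory.   The map is `S ∘ D`, `D (ζ, σ) = (c⁻¹ ζ, σ/H)` (product of dilations: `Measure.map_addHaar_smul`, `Real.map_volume_mul_left`, `Measure.map_prod_map`) and the shear `S (ξ, ρ) = (ξ + 2ρA, ρ)` (measure preserving: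
`MeasurePreserving.skew_product` / `measurePreserving_add_prod`-type: for fixed `ρ` a translation).   Both are measurable equivalences: `integral_map_equiv`.   Alternative: `MeasureTheory.Measure.map_linearMap_addHaar_eq_smul_addHaar` with `det = c⁻² H⁻¹`. -/
theorem re_sp_qjac (H c : ℝ) (hH : 0 < H) (hc : 0 < c) (A : ℝ × ℝ) (f : RdWvPar.Mo → ℂ) :
    ∫ q, f q = (((c ^ 2 * H)⁻¹ : ℝ) : ℂ) * ∫ w : RdWvPar.Mo, f (c⁻¹ • w.1 + (2 * (w.2 / H)) • A, w.2 / H) := by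
  set Φ : ReSp → ReSp := fun w => (c⁻¹ • w.1 + (2 * (w.2 / H)) • A, w.2 / H) with hΦ
  have hcont : Continuous Φ := by
    rw [hΦ]
    fun_prop
  have hinj : Function.Injective Φ := by
    intro w w' hw
    simp only [hΦ, Prod.mk.injEq] at hw
    obtain ⟨h1, h2⟩ := hw
    have h3 : w.2 = w'.2 := by
      field_simp at h2
      exact h2
    rw [h3] at h1
    have h4 : c⁻¹ • w.1 = c⁻¹ • w'.1 := add_right_cancel h1
    have h5 : w.1 = w'.1 := smul_right_injective _ (inv_ne_zero hc.ne') h4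
    exact Prod.ext h5 h3
  have hemb : MeasurableEmbedding Φ := hcont.measurableEmbedding hinj
  have hmap : Measure.map Φ volume = ENNReal.ofReal (c ^ 2 * H) • volume := by
    have hS := re_sp_shear2 (fun r => (2 * r) • A) (by fun_prop)
    have hD := re_sp_dil c⁻¹ H⁻¹ (by positivity) (by positivity)
    have hcomp : Φ = (fun w : ReSp => ((w.1 + (2 * w.2) • A, w.2) : ReSp)) ∘ (fun w : ReSp => ((c⁻¹ • w.1, H⁻¹ * w.2) : ReSp)) := by
      funext w
      simp only [hΦ, Function.comp, div_eq_inv_mul]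
    rw [hcomp, ← Measure.map_map hS.measurable (by fun_prop), hD, Measure.map_smul, hS.map_eq]
    congr 2
    field_simp
  have h1 : ∫ w, f (Φ w) = ∫ q, f q ∂(Measure.map Φ volume) := (hemb.integral_map f).symm
  rw [h1, hmap, integral_smul_measure, ENNReal.toReal_ofReal (by positivity), Complex.real_smul, ← mul_assoc,
    ← Complex.ofReal_mul, inv_mul_cancel₀ (by positivity)]
  simp

/-- **LEAF L-256-RESP-ZJAC: the affine change of variables in space.**   Same method (`lintegral_map_equiv`): translation, shear `(b, y) ↦ (b, y - 2A·b)`, dilation. -/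
theorem re_sp_zjac (H : ℝ) (hH : 0 < H) (k : ℕ) (A : ℝ × ℝ) (s : ℝ) (f : ReSp → ℝ≥0∞) :
    ∫⁻ w, f (reZ H k A s w) = ENNReal.ofReal (rdQ H k ^ 2 * H) * ∫⁻ Z, f Z := by
  have hQ := (re_sp_dq H hH k).2.1
  have hcont : Continuous (reZ H k A s) := by
    unfold reZ rtIp
    fun_prop
  have hinj : Function.Injective (reZ H k A s) := by
    intro w w' hw
    simp only [reZ, Prod.mk.injEq] at hw
    obtain ⟨h1, h2⟩ := hw
    have h3 : w.1 - s • A = w'.1 - s • A := smul_right_injective _ (inv_ne_zero hQ.ne') h1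
    have h4 : w.1 = w'.1 := sub_left_injective h3
    rw [h4] at h2
    have h5 : w.2 = w'.2 := by
      field_simp at h2
      linarith
    exact Prod.ext h4 h5
  have hemb : MeasurableEmbedding (reZ H k A s) := hcont.measurableEmbedding hinj
  have hmap : Measure.map (reZ H k A s) volume = ENNReal.ofReal (rdQ H k ^ 2 * H) • volume := by
    have hS := re_sp_shear1 (fun b => -(2 * rtIp A b)) (by unfold rtIp; fun_prop)
    have hT : MeasurePreserving (fun w : ReSp => w + ((-(s • A), s * rtSq A) : ReSp)) volume volume := by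
      have := re_sp_haar
      exact measurePreserving_add_right volume _
    have hD := re_sp_dil (rdQ H k)⁻¹ H⁻¹ (by positivity) (by positivity)
    have hcomp : reZ H k A s = (fun w : ReSp => (((rdQ H k)⁻¹ • w.1, H⁻¹ * w.2) : ReSp)) ∘
        ((fun w : ReSp => w + ((-(s • A), s * rtSq A) : ReSp)) ∘ (fun w : ReSp => ((w.1, w.2 + -(2 * rtIp A w.1)) : ReSp))) := by
      funext w
      simp only [reZ, Function.comp, div_eq_inv_mul, Prod.fst_add, Prod.snd_add, sub_eq_add_neg]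
    rw [hcomp, ← Measure.map_map (by fun_prop) (hT.comp hS).measurable, (hT.comp hS).map_eq, hD]
    congr 2
    field_simp
  rw [← hemb.lintegral_map f, hmap, lintegral_smul_measure]
  rfl

/-- `rdD 1 0 = 1` -/
theorem re_sp_scale_d10 : rdD 1 0 = 1 := by
  simp [rdD, rdLen]

/-- the cut-off vanishes at `0` -/
theorem re_sp_scale_chi0 (β : ℕ) : rdChi β 0 = 0 := by
  by_contra h
  have := (rd_chi_supp h).1
  have h2 : (0 : ℝ) < (2 : ℝ)⁻¹ ^ (β + 5) := by positivity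
  linarith

/-- the pointwise identity behind the scaling -/
theorem re_sp_scale_pt (H : ℝ) (hH : 0 < H) (k β : ℕ) (A : ℝ × ℝ) (s : ℝ) (w : ReSp) (v : RdWvPar.Mo) :
    Complex.exp (Complex.I * (rePair ((rdQ H k)⁻¹ • v.1 + (2 * (v.2 / H)) • A, v.2 / H) w : ℂ))
        * reSym H k β A s ((rdQ H k)⁻¹ • v.1 + (2 * (v.2 / H)) • A, v.2 / H)
      = Complex.exp (Complex.I * (rePair v (reZ H k A s w) : ℂ)) * reSym 1 0 β 0 (s / rdLen k) v := by
  obtain ⟨hd, hc, hdc, hc2, -, -⟩ := re_sp_dq H hH k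
  obtain ⟨⟨ζ1, ζ2⟩, σ⟩ := v
  obtain ⟨⟨b1, b2⟩, y⟩ := w
  obtain ⟨A1, A2⟩ := A
  have hℓ := rdLen_pos k
  unfold reSym
  simp only
  have e1 : H * (σ / H) = σ := by field_simp
  rw [e1, one_mul, re_sp_scale_d10]
  rcases eq_or_ne σ 0 with rfl | hσ
  · rw [re_sp_scale_chi0]; simp
  have harg : (rdD H k)⁻¹ • ((2 * (σ / H))⁻¹ • ((rdQ H k)⁻¹ • ((ζ1, ζ2) : ℝ × ℝ) + (2 * (σ / H)) • ((A1, A2) : ℝ × ℝ)) - (A1, A2))
      = (1 : ℝ)⁻¹ • ((2 * σ)⁻¹ • ((ζ1, ζ2) : ℝ × ℝ) - 0) := by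
    rw [inv_one, one_smul, sub_zero]
    simp only [Prod.smul_mk, Prod.mk_add_mk, Prod.mk_sub_mk, smul_eq_mul]
    have h1 : ∀ (ζ a : ℝ), (rdD H k)⁻¹ * ((2 * (σ / H))⁻¹ * ((rdQ H k)⁻¹ * ζ + 2 * (σ / H) * a) - a)
        = (2 * σ)⁻¹ * ζ := by
      intro ζ a
      have h2 : (rdD H k)⁻¹ * (rdQ H k)⁻¹ = H⁻¹ := by rw [← mul_inv, hdc]
      have h3 : (2 * (σ / H))⁻¹ * ((rdQ H k)⁻¹ * ζ + 2 * (σ / H) * a) - a
          = (2 * (σ / H))⁻¹ * ((rdQ H k)⁻¹ * ζ) := by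
        field_simp
        ring
      rw [h3]
      calc (rdD H k)⁻¹ * ((2 * (σ / H))⁻¹ * ((rdQ H k)⁻¹ * ζ))
          = ((rdD H k)⁻¹ * (rdQ H k)⁻¹) * ((2 * (σ / H))⁻¹ * ζ) := by ring
        _ = (2 * σ)⁻¹ * ζ := by
          rw [h2]
          field_simp
    rw [h1, h1]
  rw [harg]
  have hph : ∀ (X : ℂ) (a b : ℝ), Complex.exp (Complex.I * (a : ℂ)) * (X * Complex.exp (-(Complex.I * (b : ℂ))))
      = X * Complex.exp (Complex.I * ((a - b : ℝ) : ℂ)) := by
    intro X a b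
    rw [mul_left_comm, ← Complex.exp_add]
    congr 2
    push_cast
    ring
  rw [hph, hph]
  congr 4
  have hℓ' : rdLen k = rdQ H k ^ 2 / H := by rw [hc2]; field_simp
  rw [hℓ']
  simp only [rePair, reOm, reZ, rtIp, rtSq, Prod.smul_mk, Prod.mk_add_mk, Prod.mk_sub_mk, smul_eq_mul]
  field_simp
  ring

/-- **LEAF L-256-RESP-SCALE: exact scaling of the kernels.**
PLAN.  `re_sp_qjac` with `c = rdQ H k`.   With `ξ = ζ/c + 2(σ/H)A`, `ρ = σ/H` (`σ ≠ 0`; for `σ = 0` both symbols vanish: `rdChi β 0 = 0` by `rd_chi_supp`):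
`(2ρ)⁻¹ ξ - A = (H/(2σc)) ζ`, `d⁻¹ H/c = 1` (`re_sp_dq`), so the windows agree with those of `reSym 1 0 β 0` (`rdD 1 0 = 1`);
`rePair (ξ,ρ) w - s reOm (ξ,ρ) = rePair (ζ,σ) (reZ H k A s w) - (s/ℓ) reOm (ζ,σ)`   (`c² = Hℓ`; `field_simp`, `ring`; unfold `rtIp`, `rtSq`).   `Complex.exp_add`. -/
theorem re_sp_scale (H : ℝ) (hH : 0 < H) (k β : ℕ) (A : ℝ × ℝ) (s : ℝ) (w : ReSp) :
    reK H k β A s w = (((rdQ H k ^ 2 * H)⁻¹ : ℝ) : ℂ) * reK 1 0 β 0 (s / rdLen k) (reZ H k A s w) := by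
  obtain ⟨-, hc, -, -, -, -⟩ := re_sp_dq H hH k
  unfold reK
  rw [re_sp_qjac H (rdQ H k) hH hc A]
  simp_rw [re_sp_scale_pt H hH k β A s w]
  ring

/-- **LEAF L-256-RESP-KB (1) (glue): pointwise bound.**  `re_sp_scale`, `re_sp_ker`, `|s / ℓ| ≤ 2`. -/
theorem re_sp_kb (β N : ℕ) : ∃ C : ℝ, 0 ≤ C ∧ ∀ (H : ℝ), 0 < H → ∀ (k : ℕ) (A : ℝ × ℝ) (s : ℝ), |s| ≤ 2 * rdLen k → ∀ w : ReSp,
    ‖reK H k β A s w‖ ≤ C * (rdQ H k ^ 2 * H)⁻¹ * (1 + ‖reZ H k A s w‖) ^ (-(N : ℝ)) := by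
  obtain ⟨C, hC, hK⟩ := re_sp_ker β N
  refine ⟨C, hC, fun H hH k A s hs w => ?_⟩
  obtain ⟨-, hc, -, -, -, -⟩ := re_sp_dq H hH k
  have hℓ := rdLen_pos k
  have hτ : |s / rdLen k| ≤ 2 := by
    rw [abs_div, abs_of_pos hℓ, div_le_iff₀ hℓ]
    exact hs
  have hpos : 0 < (rdQ H k ^ 2 * H)⁻¹ := by positivity
  rw [re_sp_scale H hH k β A s w, norm_mul, Complex.norm_real, Real.norm_eq_abs, abs_of_pos hpos]
  calc (rdQ H k ^ 2 * H)⁻¹ * ‖reK 1 0 β 0 (s / rdLen k) (reZ H k A s w)‖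
      ≤ (rdQ H k ^ 2 * H)⁻¹ * (C * (1 + ‖reZ H k A s w‖) ^ (-(N : ℝ))) :=
        mul_le_mul_of_nonneg_left (hK _ hτ _) hpos.le
    _ = C * (rdQ H k ^ 2 * H)⁻¹ * (1 + ‖reZ H k A s w‖) ^ (-(N : ℝ)) := by ring

/-- **LEAF L-256-RESP-KB (2).**  `∫⁻ (1+‖Z‖)^{-4} dZ < ∞` on `(ℝ × ℝ) × ℝ`:  e.g. `(1+‖Z‖)^{-4} ≤ (1+|Z.1.1|)^{-4/3} (1+|Z.1.2|)^{-4/3} (1+|Z.2|)^{-4/3}`, Tonelli (`lintegral_prod_mul`), one dimensional integral finite (`integrable_rpow_neg_one_add_norm_sq`-free: `integrableOn_Ioi_rpow_of_lt`);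
or `integrable_one_add_norm` (`finrank = 3 < 4`). -/
theorem re_sp_wt_int : ∃ C : ℝ, 0 ≤ C ∧ ∫⁻ Z : ReSp, ENNReal.ofReal ((1 + ‖Z‖) ^ (-4 : ℝ)) ≤ ENNReal.ofReal C := by
  have := re_sp_haar
  have hint : Integrable (fun Z : ReSp => (1 + ‖Z‖) ^ (-4 : ℝ)) volume := by
    apply integrable_one_add_norm
    rw [re_sp_finrank]
    norm_num
  refine ⟨∫ Z : ReSp, (1 + ‖Z‖) ^ (-4 : ℝ), integral_nonneg fun Z => by positivity, ?_⟩
  rw [ofReal_integral_eq_lintegral_ofReal hint (Filter.Eventually.of_forall fun Z => by positivity)]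

/-- **LEAF L-256-RESP-KB (3) (glue): `L¹` bound.**  `re_sp_kb β 4`, `re_sp_zjac` with `f Z = ofReal ((1+‖Z‖)^{-4})`, `re_sp_wt_int`;  `(q²H)⁻¹ (q²H) = 1`. -/
theorem re_sp_kl1 (β : ℕ) : ∃ C : ℝ, 0 ≤ C ∧ ∀ (H : ℝ), 0 < H → ∀ (k : ℕ) (A : ℝ × ℝ) (s : ℝ), |s| ≤ 2 * rdLen k →
    ∫⁻ w, ‖reK H k β A s w‖ₑ ≤ ENNReal.ofReal C := by
  obtain ⟨C, hC, hK⟩ := re_sp_kb β 4
  obtain ⟨C', hC', hW⟩ := re_sp_wt_int
  refine ⟨C * C', by positivity, fun H hH k A s hs => ?_⟩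
  obtain ⟨-, hc, -, -, -, -⟩ := re_sp_dq H hH k
  have hpos : 0 < rdQ H k ^ 2 * H := by positivity
  calc ∫⁻ w, ‖reK H k β A s w‖ₑ
      ≤ ∫⁻ w, ENNReal.ofReal (C * (rdQ H k ^ 2 * H)⁻¹) * ENNReal.ofReal ((1 + ‖reZ H k A s w‖) ^ (-4 : ℝ)) := by
        apply lintegral_mono
        intro w
        simp only
        rw [← ENNReal.ofReal_mul (by positivity), ← ofReal_norm]
        apply ENNReal.ofReal_le_ofReal
        have := hK H hH k A s hs w
        norm_num at this ⊢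
        exact this
    _ = ENNReal.ofReal (C * (rdQ H k ^ 2 * H)⁻¹) * ∫⁻ w, ENNReal.ofReal ((1 + ‖reZ H k A s w‖) ^ (-4 : ℝ)) := by
        rw [lintegral_const_mul' _ _ ENNReal.ofReal_ne_top]
    _ = ENNReal.ofReal (C * (rdQ H k ^ 2 * H)⁻¹) * (ENNReal.ofReal (rdQ H k ^ 2 * H) * ∫⁻ Z : ReSp, ENNReal.ofReal ((1 + ‖Z‖) ^ (-4 : ℝ))) := by
        rw [re_sp_zjac H hH k A s (fun Z => ENNReal.ofReal ((1 + ‖Z‖) ^ (-4 : ℝ)))]
    _ = ENNReal.ofReal C * ∫⁻ Z : ReSp, ENNReal.ofReal ((1 + ‖Z‖) ^ (-4 : ℝ)) := by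
        rw [← mul_assoc, ← ENNReal.ofReal_mul (by positivity)]
        congr 2
        field_simp
    _ ≤ ENNReal.ofReal C * ENNReal.ofReal C' := by gcongr
    _ = ENNReal.ofReal (C * C') := (ENNReal.ofReal_mul hC).symm

/-- the support of the symbol, with an explicit radius (monotone in `‖A‖`). -/
theorem re_sp_sym_bdd_supp_exp (H : ℝ) (hH : 0 < H) (k β : ℕ) (A : ℝ × ℝ) (a : ℝ) (hA : ‖A‖ ≤ a) (s : ℝ) (q : RdWvPar.Mo)
    (hq : 2 ^ (β + 5) / H + 2 * (2 ^ (β + 5) / H) * (a + 2 * rdD H k) < ‖q‖) : reSym H k β A s q = 0 := by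
  have hD := (re_sp_dq H hH k).1
  have ha0 : 0 ≤ a := (norm_nonneg A).trans hA
  set M : ℝ := 2 ^ (β + 5) / H with hM
  have hM0 : 0 < M := by positivity
  set W : ℝ := a + 2 * rdD H k with hW
  have hW0 : 0 < W := by positivity
  by_contra hne
  obtain ⟨h1, h2, h3⟩ := re_sp_sym_supp H hH k β A s q hne
  have hq2 : 0 < q.2 := by
    have : 0 < H * q.2 := lt_trans (by positivity) h1
    exact (pos_iff_pos_of_mul_pos this).1 hH
  have hq2M : q.2 < M := by
    rw [hM, lt_div_iff₀ hH]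
    linarith
  set u : ℝ × ℝ := (2 * q.2)⁻¹ • q.1 - A with hu
  have hu1 : |u.1| ≤ 2 * rdD H k := by
    apply abs_le_of_sq_le_sq' _ (by positivity) |> fun h => abs_le.2 h
    have : u.1 ^ 2 ≤ rtSq u := by
      unfold rtSq
      nlinarith [sq_nonneg u.2]
    nlinarith
  have hu2 : |u.2| ≤ 2 * rdD H k := by
    apply abs_le_of_sq_le_sq' _ (by positivity) |> fun h => abs_le.2 h
    have : u.2 ^ 2 ≤ rtSq u := by
      unfold rtSq
      nlinarith [sq_nonneg u.1]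
    nlinarith
  have hun : ‖u‖ ≤ 2 * rdD H k := by
    rw [Prod.norm_def]
    exact max_le hu1 hu2
  have hq1 : q.1 = (2 * q.2) • (u + A) := by
    rw [hu, sub_add_cancel, smul_smul, mul_inv_cancel₀ (by positivity), one_smul]
  have hq1n : ‖q.1‖ ≤ 2 * M * W := by
    rw [hq1, norm_smul, Real.norm_eq_abs, abs_of_pos (by positivity)]
    have : ‖u + A‖ ≤ W := by
      calc ‖u + A‖ ≤ ‖u‖ + ‖A‖ := norm_add_le _ _
        _ ≤ W := by rw [hW]; linarith
    have h0 : 0 ≤ ‖u + A‖ := norm_nonneg _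
    nlinarith
  have hqn : ‖q‖ ≤ M + 2 * M * W := by
    rw [Prod.norm_def]
    refine max_le ?_ ?_
    · linarith
    · rw [Real.norm_eq_abs, abs_of_pos hq2]
      have : 0 < 2 * M * W := by positivity
      linarith
  linarith

/-- **LEAF L-256-RESP-KCONT.**  `continuous_of_dominated`: the integrand is continuous in `(A, w)` (`rd_psi_contDiff.continuous`) and dominated by `B · 1_{closedBall 0 R'}` locally uniformly in `A`;  simpler: prove `ContinuousAt` at `(A₀, w₀)` using the bounded support for `|A - A₀| ≤ 1`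
(`|q.2| < 2^(β+5)/H`, `|ξ_i| ≤ 2ρ(|A₀ i| + 1 + √2 d)`), `MeasureTheory.continuousAt_of_dominated`. -/
theorem re_sp_K_cont (H : ℝ) (hH : 0 < H) (k β : ℕ) (s : ℝ) : Continuous (fun x : (ℝ × ℝ) × ReSp => reK H k β x.1 s x.2) := by
  obtain ⟨B, hB0, hB⟩ := re_sp_sym_norm_le
  unfold reK
  refine continuous_const.mul ?_
  rw [continuous_iff_continuousAt]
  intro x₀
  set R : ℝ := 2 ^ (β + 5) / H + 2 * (2 ^ (β + 5) / H) * ((‖x₀.1‖ + 1) + 2 * rdD H k) with hR
  have hexp : ∀ r : ℝ, ‖Complex.exp (Complex.I * (r : ℂ))‖ = 1 := by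
    intro r
    rw [mul_comm, Complex.norm_exp_ofReal_mul_I]
  refine continuousAt_of_dominated (bound := (Metric.closedBall (0 : RdWvPar.Mo) R).indicator (fun _ => B)) ?_ ?_ ?_ ?_
  · refine Filter.Eventually.of_forall fun x => ?_
    refine Continuous.aestronglyMeasurable ?_
    refine Continuous.mul ?_ (re_sp_sym_smooth_s H hH k β x.1 s).continuous
    unfold rePair rtIp
    fun_prop
  · have hU : {x : (ℝ × ℝ) × ReSp | ‖x.1‖ < ‖x₀.1‖ + 1} ∈ nhds x₀ :=
      (isOpen_lt (by fun_prop) continuous_const).mem_nhds (by simp)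
    filter_upwards [hU] with x hx
    refine Filter.Eventually.of_forall fun q => ?_
    rw [norm_mul, hexp, one_mul]
    by_cases hq : q ∈ Metric.closedBall (0 : RdWvPar.Mo) R
    · rw [Set.indicator_of_mem hq]
      exact hB _ _ _ _ _ _
    · rw [Set.indicator_of_notMem hq, re_sp_sym_bdd_supp_exp H hH k β x.1 (‖x₀.1‖ + 1) (le_of_lt hx) s q
        (by simpa [Metric.mem_closedBall, dist_zero_right] using hq)]
      simp
  · rw [integrable_indicator_iff measurableSet_closedBall]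
    exact integrableOn_const (isCompact_closedBall _ _).measure_lt_top.ne
  · refine Filter.Eventually.of_forall fun q => ?_
    refine Continuous.continuousAt ?_
    unfold reSym rePair rtIp
    have := rd_psi_contDiff.continuous
    fun_prop

/-- **LEAF L-256-RESP-KINV (glue): integrability and inversion for the kernels.**  `re_sp_inv` with `a = reSym H k β A s` (`re_sp_sym_smooth`, `re_sp_sym_bdd_supp`). -/
theorem re_sp_K_inv (H : ℝ) (hH : 0 < H) (k β : ℕ) (A : ℝ × ℝ) (s : ℝ) :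
    Integrable (reK H k β A s) ∧ ∀ q : RdWvPar.Mo, ∫ w : ReSp, Complex.exp (-(Complex.I * (rePair q w : ℂ))) * reK H k β A s w = reSym H k β A s q := by
  obtain ⟨h1, h2⟩ := re_sp_inv (reSym H k β A s) (re_sp_sym_smooth_s H hH k β A s) (re_sp_sym_compact H hH k β A s)
  refine ⟨h1.const_mul _, fun q => ?_⟩
  rw [← h2 q, ← integral_const_mul]
  refine integral_congr_ae (Filter.Eventually.of_forall fun w => ?_)
  simp only [reK]
  ring

end Claimed.Agent.R256
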