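import Claimed.Agent.R256.Re.SpaRep
import Claimed.Agent.R256.Tri.Kak

/-!
# Row 256, unit RE, block PLANE-A, file 4: THE SUP BOUND FROM ROUND REGULARITY            (architect helper213)            CONTRACT
`re_sp_sup`:   spectrum in the plateau of `β` and within `Λ d` of `A_*`, `κ`-regular at the cut `(T, k, β)`   ⟹   `‖reFld t G z‖² ≤ C Λ⁴ κ / ℓ³`, `|t - T| ≤ 2ℓ`.      (08 l.318-333.)
Notation: `H = p.H`, `ℓ = rdLen k`, `d = rdD H k`, `q = rdQ H k = ℓ d`, `H = ℓ d²`, `s = t - T`, `F = p.row T k β G`, `ρ = p.rw k = d⁻² dA db dy`.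
 (CS)  `‖u_t z‖² ≤ (∫ w dρ) (∫ ‖F‖² w dρ)`,   `w (A', z') = ‖reK H k β A' s (z - z')‖ 1_{|A' - A_*| ≤ M d}`, `M = Λ + 2`      (`re_sp_F2`, `re_sp_row_van`, `tri_cs`).
 (I1)  `∫ w dρ ≤ 4 M² C`      (`re_sp_kl1`).
 (I2)  `∫ ‖F‖² w dρ ≤ C M² κ / ℓ³`:   the ROUND tests `reQt .. a n` (radius `d`, velocity `A_* + d a`, centre = the point with `reZ`-coordinates `n` relative to `z`) cover; each has mass `≤ κ d⁴`; on it `w ≤ c (q²H)⁻¹ (1+‖n‖)^{-4}`;   `d⁴ (q²H)⁻¹ = ℓ⁻³`.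
Every `sorry` is a leaf `L-256-RESP-*`.   Statements FROZEN; auxiliary lemmas directly above your theorem, prefix `re_sp_`; edit only your block.
-/

set_option autoImplicit false

namespace Claimed.Agent.R256

open MeasureTheory
open scoped ENNReal

/-- the velocity `A_* + d a` -/
noncomputable def reAa (H : ℝ) (k : ℕ) (As : ℝ × ℝ) (a : ℤ × ℤ) : ℝ × ℝ := As + rdD H k • ((a.1 : ℝ), (a.2 : ℝ))

/-- horizontal centre: `(z.1 - bs - s Aa)/q = (n 0, n 1)` -/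
noncomputable def reBs (H : ℝ) (k : ℕ) (As : ℝ × ℝ) (s : ℝ) (z : ReSp) (a : ℤ × ℤ) (n : Fin 3 → ℤ) : ℝ × ℝ :=
  z.1 - s • reAa H k As a - rdQ H k • ((n 0 : ℝ), (n 1 : ℝ))

/-- vertical centre: `(z.2 - ys - 2 Aa·(z.1 - bs) + s |Aa|²)/H = n 2` -/
noncomputable def reYs (H : ℝ) (k : ℕ) (As : ℝ × ℝ) (s : ℝ) (z : ReSp) (a : ℤ × ℤ) (n : Fin 3 → ℤ) : ℝ :=
  z.2 - 2 * rtIp (reAa H k As a) (z.1 - reBs H k As s z a n) + s * rtSq (reAa H k As a) - H * (n 2 : ℝ)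

/-- the round test of radius `d_ℓ` number `(a, n)` -/
noncomputable def reQt (H : ℝ) (k : ℕ) (As : ℝ × ℝ) (s : ℝ) (z : ReSp) (a : ℤ × ℤ) (n : Fin 3 → ℤ) : RdTst :=
  ⟨rdD H k, 1, reAa H k As a, reBs H k As s z a n, reYs H k As s z a n, rtLin⟩

/-- the weight of (CS) -/
noncomputable def reWt (H : ℝ) (k β : ℕ) (As : ℝ × ℝ) (M s : ℝ) (z : ReSp) : RdWvPar.Ph → ℝ≥0∞ :=
  Set.indicator {x : RdWvPar.Ph | rtSq (x.1 - As) ≤ (M * rdD H k) ^ 2} fun x => ‖reK H k β x.1 s (z - x.2)‖ₑ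

theorem re_sp_sup_eqns_cite : True := by
  have := @reAa.eq_1
  have := @reBs.eq_1
  have := @reYs.eq_1
  have := @reQt.eq_1
  have := @reWt.eq_1
  trivial

/-- **LEAF L-256-RESP-QT (1).**  `(reQt ..).toT k = rtRound (rdLen k) d Aa bs ys` (`rfl`), `rt_round_adm`, `rdLen_pos`, `re_sp_dq`;  `RdTst.wt`: `1 ^ (1-η) = 1`. -/
theorem re_sp_qt_ok (η : ℝ) (p : RdWvPar) (k : ℕ) (As : ℝ × ℝ) (s : ℝ) (z : ReSp) (a : ℤ × ℤ) (n : Fin 3 → ℤ) :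
    (p.sys η).ok (reQt p.H k As s z a n) k ∧ (p.sys η).wt (reQt p.H k As s z a n) = rdD p.H k ^ 4 := by
  have hD := (re_sp_dq p.H p.H_pos k).1
  refine ⟨⟨rt_round_adm (rdLen_pos k) hD _ _ _, ?_⟩, ?_⟩
  · show rdD p.H k ≤ rdD p.H k * 1
    rw [mul_one]
  · show rdD p.H k ^ 4 * (1 : ℝ) ^ (1 - η) = _
    rw [Real.one_rpow, mul_one]

/-- scaling of `rtSq` -/
theorem re_sp_sq_smul (c : ℝ) (v : ℝ × ℝ) : rtSq (c • v) = c ^ 2 * rtSq v := by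
  simp only [rtSq, Prod.smul_fst, Prod.smul_snd, smul_eq_mul]
  ring

/-- **LEAF L-256-RESP-QT (2): the cell in coordinates.**  `rt_round_set`, unfold `RtTest.box`, `RtTest.x/z/V`, `rtRound`;  `rtSq (c⁻¹ • v) ≤ 1 ↔ rtSq v ≤ c²`;  `ℓ d = q`, `ℓ d² = H` (`re_sp_dq`). -/
theorem re_sp_qt_mem (p : RdWvPar) (T : ℝ) (k : ℕ) (As : ℝ × ℝ) (s : ℝ) (z : ReSp) (a : ℤ × ℤ) (n : Fin 3 → ℤ) (x : RdWvPar.Ph) :
    RdWvPar.co T x ∈ (reQt p.H k As s z a n).rows k ↔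
      rtSq (x.2.1 - reBs p.H k As s z a n) ≤ rdQ p.H k ^ 2 ∧
      |x.2.2 - reYs p.H k As s z a n - 2 * rtIp (reAa p.H k As a) (x.2.1 - reBs p.H k As s z a n)| ≤ p.H ∧
      rtSq (x.1 - reAa p.H k As a) ≤ rdD p.H k ^ 2 := by
  obtain ⟨hD, hQ, hDQ, hQ2, hD2, hQD⟩ := re_sp_dq p.H p.H_pos k
  have hl := rdLen_pos k
  have hH := p.H_pos
  have h0 : (reQt p.H k As s z a n).rows k
      = (rtRound (rdLen k) (rdD p.H k) (reAa p.H k As a) (reBs p.H k As s z a n) (reYs p.H k As s z a n)).box 1 := by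
    rw [← rt_round_set _ _ _ _ _ zero_le_one]
    rfl
  rw [h0]
  show (rtSq ((rdLen k * rdD p.H k)⁻¹ • (x.2.1 - reBs p.H k As s z a n)) ≤ 1 ^ 2 ∧
    |(x.2.2 - reYs p.H k As s z a n - 2 * rtIp (reAa p.H k As a) (x.2.1 - reBs p.H k As s z a n)) / (rdLen k * rdD p.H k ^ 2)| ≤ 1 ∧
    rtSq ((rdD p.H k)⁻¹ • (x.1 - reAa p.H k As a)) ≤ 1 ^ 2) ↔ _
  have e1 : rdLen k * rdD p.H k ^ 2 = p.H := by
    rw [hD2]
    field_simp
  rw [← hQD, e1, re_sp_sq_smul, re_sp_sq_smul, abs_div, abs_of_pos hH, div_le_one hH, inv_pow, inv_pow, one_pow,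
    inv_mul_le_iff₀ (by positivity), inv_mul_le_iff₀ (by positivity), mul_one, mul_one]

/-- **LEAF L-256-RESP-QT (3).**  By `re_sp_qt_mem` the set is closed (three `≤` between continuous functions: `isClosed_le`, `IsClosed.inter`). -/
theorem re_sp_qt_meas (p : RdWvPar) (T : ℝ) (k : ℕ) (As : ℝ × ℝ) (s : ℝ) (z : ReSp) (a : ℤ × ℤ) (n : Fin 3 → ℤ) :
    MeasurableSet {x : RdWvPar.Ph | RdWvPar.co T x ∈ (reQt p.H k As s z a n).rows k} := by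
  simp only [re_sp_qt_mem, Set.ofPred_and]
  refine IsClosed.measurableSet ?_
  have h1 : IsClosed {x : RdWvPar.Ph | rtSq (x.2.1 - reBs p.H k As s z a n) ≤ rdQ p.H k ^ 2} := by
    refine isClosed_le ?_ continuous_const
    unfold rtSq
    fun_prop
  have h2 : IsClosed {x : RdWvPar.Ph | |x.2.2 - reYs p.H k As s z a n - 2 * rtIp (reAa p.H k As a) (x.2.1 - reBs p.H k As s z a n)| ≤ p.H} := by
    refine isClosed_le ?_ continuous_const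
    unfold rtIp
    fun_prop
  have h3 : IsClosed {x : RdWvPar.Ph | rtSq (x.1 - reAa p.H k As a) ≤ rdD p.H k ^ 2} := by
    refine isClosed_le ?_ continuous_const
    unfold rtSq
    fun_prop
  exact h1.inter (h2.inter h3)

/-- the real inequality behind `re_sp_zcmp` -/
theorem re_sp_zcmp_real (N X1 X2 Y X1' X2' Y' e1 e2 τ : ℝ) (he1 : |e1| ≤ 1 / 2) (he2 : |e2| ≤ 1 / 2) (hτ : |τ| ≤ 2)
    (hX1 : X1 = X1' + τ * e1) (hX2 : X2 = X2' + τ * e2) (hY : Y = Y' + 2 * (e1 * X1 + e2 * X2) - τ * (e1 ^ 2 + e2 ^ 2))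
    (h1 : |X1'| ≤ N) (h2 : |X2'| ≤ N) (h3 : |Y'| ≤ N) :
    |X1| ≤ 3 * N + 3 ∧ |X2| ≤ 3 * N + 3 ∧ |Y| ≤ 3 * N + 3 := by
  have hN : 0 ≤ N := (abs_nonneg _).trans h1
  have a1 : |τ * e1| ≤ 1 := by
    rw [abs_mul]
    nlinarith [abs_nonneg τ, abs_nonneg e1]
  have a2 : |τ * e2| ≤ 1 := by
    rw [abs_mul]
    nlinarith [abs_nonneg τ, abs_nonneg e2]
  have b1 : |X1| ≤ N + 1 := by
    rw [hX1]
    exact (abs_add_le _ _).trans (add_le_add h1 a1)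
  have b2 : |X2| ≤ N + 1 := by
    rw [hX2]
    exact (abs_add_le _ _).trans (add_le_add h2 a2)
  have c1 : |e1 * X1| ≤ (N + 1) / 2 := by
    rw [abs_mul]
    nlinarith [abs_nonneg X1, abs_nonneg e1]
  have c2 : |e2 * X2| ≤ (N + 1) / 2 := by
    rw [abs_mul]
    nlinarith [abs_nonneg X2, abs_nonneg e2]
  have d1 : e1 ^ 2 ≤ 1 / 4 := by
    have := sq_abs e1
    nlinarith [abs_nonneg e1]
  have d2 : e2 ^ 2 ≤ 1 / 4 := by
    have := sq_abs e2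
    nlinarith [abs_nonneg e2]
  have d3 : |τ * (e1 ^ 2 + e2 ^ 2)| ≤ 1 := by
    rw [abs_mul, abs_of_nonneg (a := e1 ^ 2 + e2 ^ 2) (by positivity)]
    nlinarith [abs_nonneg τ, sq_nonneg e1, sq_nonneg e2]
  refine ⟨by linarith, by linarith, ?_⟩
  rw [hY]
  have := abs_le.1 h3
  have := abs_le.1 c1
  have := abs_le.1 c2
  have := abs_le.1 d3
  rw [abs_le]
  constructor <;> linarith

/-- **LEAF L-256-RESP-ZCMP: change of the velocity in `reZ`** (pure algebra).   `ê = (A' - A)/d`, `|ê_i| ≤ 1/2`, `τ = s/ℓ`, `|τ| ≤ 2`, `Z = reZ H k A s w = (X, Y)`, `Z' = reZ H k A' s w = (X', Y')`: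
`X' = X - τ ê`, `Y' = Y - 2 ê·X + τ |ê|²`   (`d/q = 1/ℓ`, `d q = H`, `d² /H = 1/ℓ`).   So `‖X‖ ≤ ‖X'‖ + 1`, `|Y| ≤ |Y'| + 2‖X‖ + 1 ≤ 3‖Z'‖ + 3`. -/
theorem re_sp_zcmp (H : ℝ) (hH : 0 < H) (k : ℕ) (A A' : ℝ × ℝ) (s : ℝ) (hs : |s| ≤ 2 * rdLen k) (w : ReSp)
    (h1 : |A'.1 - A.1| ≤ rdD H k / 2) (h2 : |A'.2 - A.2| ≤ rdD H k / 2) :
    1 + ‖reZ H k A s w‖ ≤ 4 * (1 + ‖reZ H k A' s w‖) := by
  obtain ⟨hD, hQ, hDQ, hQ2, hD2, hQD⟩ := re_sp_dq H hH k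
  have hl := rdLen_pos k
  have hH' : H = rdLen k * rdD H k ^ 2 := by
    rw [hD2]
    field_simp
  set N := ‖reZ H k A' s w‖ with hN
  have n1 : |(reZ H k A' s w).1.1| ≤ N := (norm_fst_le (reZ H k A' s w).1).trans (norm_fst_le _)
  have n2 : |(reZ H k A' s w).1.2| ≤ N := (norm_snd_le (reZ H k A' s w).1).trans (norm_fst_le _)
  have n3 : |(reZ H k A' s w).2| ≤ N := norm_snd_le (reZ H k A' s w)
  have he1 : |(A'.1 - A.1) / rdD H k| ≤ 1 / 2 := by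
    rw [abs_div, abs_of_pos hD, div_le_iff₀ hD]
    linarith
  have he2 : |(A'.2 - A.2) / rdD H k| ≤ 1 / 2 := by
    rw [abs_div, abs_of_pos hD, div_le_iff₀ hD]
    linarith
  have hτ : |s / rdLen k| ≤ 2 := by
    rw [abs_div, abs_of_pos hl, div_le_iff₀ hl]
    exact hs
  have key := re_sp_zcmp_real N (reZ H k A s w).1.1 (reZ H k A s w).1.2 (reZ H k A s w).2
    (reZ H k A' s w).1.1 (reZ H k A' s w).1.2 (reZ H k A' s w).2 _ _ _ he1 he2 hτ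
    (by
      simp only [reZ, Prod.smul_fst, Prod.fst_sub, smul_eq_mul]
      rw [hQD]
      field_simp
      ring)
    (by
      simp only [reZ, Prod.smul_snd, Prod.snd_sub, smul_eq_mul]
      rw [hQD]
      field_simp
      ring)
    (by
      simp only [reZ, Prod.smul_fst, Prod.fst_sub, Prod.smul_snd, Prod.snd_sub, smul_eq_mul, rtIp, rtSq]
      rw [hQD]
      generalize rdD H k = d at *
      generalize rdLen k = l at *
      subst hH'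
      field_simp
      ring)
    n1 n2 n3
  have hZ : ‖reZ H k A s w‖ ≤ 3 * N + 3 := by
    rw [Prod.norm_def, Prod.norm_def]
    exact max_le (max_le key.1 key.2.1) key.2.2
  have hN0 : 0 ≤ N := norm_nonneg _
  linarith

/-- comparison of negative powers, constant `8` -/
theorem re_sp_rpow_m4 (a b : ℝ) (ha : 0 < a) (h : a ≤ 8 * b) : b ^ (-4 : ℝ) ≤ 8 ^ 4 * a ^ (-4 : ℝ) := by
  have h1 : b ^ (-4 : ℝ) ≤ (a / 8) ^ (-4 : ℝ) :=
    Real.rpow_le_rpow_of_nonpos (by positivity) (by linarith) (by norm_num)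
  have h2 : (a / 8) ^ (-4 : ℝ) = 8 ^ 4 * a ^ (-4 : ℝ) := by
    rw [Real.div_rpow ha.le (by norm_num)]
    have : (8 : ℝ) ^ (-4 : ℝ) = (8 ^ 4)⁻¹ := by
      rw [show (-4 : ℝ) = -((4 : ℕ) : ℝ) by norm_num, Real.rpow_neg (by norm_num), Real.rpow_natCast]
    rw [this]
    field_simp
  exact h1.trans h2.le

/-- a coordinate is bounded by the Euclidean length -/
theorem re_sp_abs_le_of_sq (v : ℝ × ℝ) (r : ℝ) (hr : 0 ≤ r) (h : rtSq v ≤ r ^ 2) : |v.1| ≤ r ∧ |v.2| ≤ r := by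
  unfold rtSq at h
  constructor
  · exact abs_le_of_sq_le_sq' (by nlinarith [sq_nonneg v.2]) hr |> fun h => abs_le.2 h
  · exact abs_le_of_sq_le_sq' (by nlinarith [sq_nonneg v.1]) hr |> fun h => abs_le.2 h

/-- two coordinates at most `r/2` -/
theorem re_sp_sq_le_of_abs (v : ℝ × ℝ) (r : ℝ) (h1 : |v.1| ≤ r / 2) (h2 : |v.2| ≤ r / 2) : rtSq v ≤ r ^ 2 := by
  unfold rtSq
  have a1 := sq_abs v.1
  have a2 := sq_abs v.2
  nlinarith [abs_nonneg v.1, abs_nonneg v.2]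

/-- **LEAF L-256-RESP-COVPT: every relevant row lies in a round test on which the kernel is small.**
PLAN.  `x = (A', b', y')`.   `a_i = round ((A' - As)_i / d)`: `|A'_i - Aa_i| ≤ d/2` (`abs_sub_round`), `rtSq (A' - Aa) ≤ d²/2`, `|a_i| ≤ M + 1` (`|(A'-As)_i| ≤ M d`).   `Z = reZ H k Aa s (z - x.2)`, `n = round` of its three coordinates.
`b' - bs = -q (X - (n 0, n 1))`, `y' - ys - 2 Aa·(b' - bs) = -H (Y - n 2)`  (`ring` after unfolding): membership by `re_sp_qt_mem`.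
Kernel: `re_sp_kb β 4` at `A'`;  `re_sp_zcmp`: `1 + ‖Z‖ ≤ 4 (1 + ‖Z'‖)`;  `‖n‖ ≤ ‖Z‖ + 1/2` (sup norms; `Pi.norm_def`/`pi_norm_le_iff_of_nonneg`, `Int.norm_eq_abs`), so `1 + ‖n‖ ≤ 8 (1 + ‖Z'‖)`, `(1+‖Z'‖)^{-4} ≤ 8⁴ (1+‖n‖)^{-4}` (`tri_rpow_m4`-type).   `c = 8⁴ C₄`. -/
theorem re_sp_cov_pt (β : ℕ) : ∃ c : ℝ, 0 ≤ c ∧ ∀ (p : RdWvPar) (T : ℝ) (k : ℕ) (As : ℝ × ℝ) (s M : ℝ) (z : ReSp), |s| ≤ 2 * rdLen k → 0 ≤ M →
    ∀ x : RdWvPar.Ph, rtSq (x.1 - As) ≤ (M * rdD p.H k) ^ 2 → ∃ (a : ℤ × ℤ) (n : Fin 3 → ℤ), |(a.1 : ℝ)| ≤ M + 1 ∧ |(a.2 : ℝ)| ≤ M + 1 ∧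
      RdWvPar.co T x ∈ (reQt p.H k As s z a n).rows k ∧
      ‖reK p.H k β x.1 s (z - x.2)‖ ≤ c * (rdQ p.H k ^ 2 * p.H)⁻¹ * (1 + ‖n‖) ^ (-4 : ℝ) := by
  obtain ⟨C, hC, hkb⟩ := re_sp_kb β 4
  refine ⟨8 ^ 4 * C, by positivity, fun p T k As s M z hs hM x hx => ?_⟩
  obtain ⟨hD, hQ, hDQ, hQ2, hD2, hQD⟩ := re_sp_dq p.H p.H_pos k
  have hH := p.H_pos
  set d := rdD p.H k with hd
  set Q := rdQ p.H k with hQdef
  obtain ⟨hx1, hx2⟩ := re_sp_abs_le_of_sq _ _ (by positivity) hx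
  set a : ℤ × ℤ := (round ((x.1 - As).1 / d), round ((x.1 - As).2 / d)) with ha
  have ra1 := abs_sub_round ((x.1 - As).1 / d)
  have ra2 := abs_sub_round ((x.1 - As).2 / d)
  set Aa := reAa p.H k As a with hAa
  have hAa1 : x.1.1 - Aa.1 = d * ((x.1 - As).1 / d - (round ((x.1 - As).1 / d) : ℝ)) := by
    simp only [hAa, reAa, ha, Prod.fst_add, Prod.smul_fst, smul_eq_mul, Prod.fst_sub, ← hd]
    field_simp
    ring
  have hAa2 : x.1.2 - Aa.2 = d * ((x.1 - As).2 / d - (round ((x.1 - As).2 / d) : ℝ)) := by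
    simp only [hAa, reAa, ha, Prod.snd_add, Prod.smul_snd, smul_eq_mul, Prod.snd_sub, ← hd]
    field_simp
    ring
  have hA1 : |x.1.1 - Aa.1| ≤ d / 2 := by
    rw [hAa1, abs_mul, abs_of_pos hD]
    nlinarith
  have hA2 : |x.1.2 - Aa.2| ≤ d / 2 := by
    rw [hAa2, abs_mul, abs_of_pos hD]
    nlinarith
  set w : ReSp := z - x.2 with hw
  set Z := reZ p.H k Aa s w with hZ
  set n : Fin 3 → ℤ := ![round Z.1.1, round Z.1.2, round Z.2] with hn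
  have rn0 := abs_sub_round Z.1.1
  have rn1 := abs_sub_round Z.1.2
  have rn2 := abs_sub_round Z.2
  have hq1 : |(x.1 - As).1 / d| ≤ M := by
    rw [abs_div, abs_of_pos hD, div_le_iff₀ hD]
    exact hx1
  have hq2 : |(x.1 - As).2 / d| ≤ M := by
    rw [abs_div, abs_of_pos hD, div_le_iff₀ hD]
    exact hx2
  refine ⟨a, n, ?_, ?_, ?_, ?_⟩
  · show |((round ((x.1 - As).1 / d) : ℤ) : ℝ)| ≤ M + 1
    have := abs_le.1 ra1
    have := abs_le.1 hq1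
    rw [abs_le]
    constructor <;> linarith
  · show |((round ((x.1 - As).2 / d) : ℤ) : ℝ)| ≤ M + 1
    have := abs_le.1 ra2
    have := abs_le.1 hq2
    rw [abs_le]
    constructor <;> linarith
  · rw [re_sp_qt_mem]
    have hb : x.2.1 - reBs p.H k As s z a n = (-Q) • (Z.1 - ((round Z.1.1 : ℝ), (round Z.1.2 : ℝ))) := by
      have e0 : (n 0 : ℝ) = (round Z.1.1 : ℝ) := rfl
      have e1 : (n 1 : ℝ) = (round Z.1.2 : ℝ) := rfl
      have e2 : Z.1 = Q⁻¹ • (w.1 - s • Aa) := rfl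
      have e3 : Q • Z.1 = w.1 - s • Aa := by rw [e2, smul_smul, mul_inv_cancel₀ hQ.ne', one_smul]
      have e4 : w.1 = z.1 - x.2.1 := rfl
      unfold reBs
      rw [e0, e1, ← hAa, ← hQdef, neg_smul, smul_sub, e3, e4]
      abel
    refine ⟨?_, ?_, ?_⟩
    · rw [hb, re_sp_sq_smul, neg_sq]
      have : rtSq (Z.1 - ((round Z.1.1 : ℝ), (round Z.1.2 : ℝ))) ≤ 1 ^ 2 :=
        re_sp_sq_le_of_abs _ _ rn0 rn1
      nlinarith [sq_nonneg Q]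
    · have hy : x.2.2 - reYs p.H k As s z a n - 2 * rtIp (reAa p.H k As a) (x.2.1 - reBs p.H k As s z a n)
          = -(p.H * (Z.2 - (round Z.2 : ℝ))) := by
        have e0 : (n 2 : ℝ) = (round Z.2 : ℝ) := rfl
        have e2 : Z.2 = (w.2 - 2 * rtIp Aa w.1 + s * rtSq Aa) / p.H := rfl
        unfold reYs
        rw [e0, e2, ← hAa, hw]
        simp only [rtIp, Prod.fst_sub, Prod.snd_sub]
        field_simp
        ring
      rw [hy, abs_neg, abs_mul, abs_of_pos hH]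
      nlinarith
    · exact re_sp_sq_le_of_abs _ _ hA1 hA2
  · have h1 := hkb p.H hH k x.1 s hs w
    have h2 := re_sp_zcmp p.H hH k Aa x.1 s hs w hA1 hA2
    have hnn : ‖n‖ ≤ ‖Z‖ + 1 / 2 := by
      rw [pi_norm_le_iff_of_nonneg (by positivity)]
      have z0 : |Z.1.1| ≤ ‖Z‖ := (norm_fst_le Z.1).trans (norm_fst_le _)
      have z1 : |Z.1.2| ≤ ‖Z‖ := (norm_snd_le Z.1).trans (norm_fst_le _)
      have z2 : |Z.2| ≤ ‖Z‖ := norm_snd_le Z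
      have aux : ∀ t : ℝ, |t| ≤ ‖Z‖ → ‖(round t : ℤ)‖ ≤ ‖Z‖ + 1 / 2 := by
        intro t ht
        rw [Int.norm_eq_abs]
        have h3 := abs_le.1 (abs_sub_round t)
        have h4 := abs_le.1 ht
        rw [abs_le]
        constructor <;> linarith
      intro i
      fin_cases i
      · exact aux _ z0
      · exact aux _ z1
      · exact aux _ z2
    have h3 : (1 + ‖reZ p.H k x.1 s w‖) ^ (-4 : ℝ) ≤ 8 ^ 4 * (1 + ‖n‖) ^ (-4 : ℝ) := by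
      refine re_sp_rpow_m4 _ _ (by positivity) ?_
      have := norm_nonneg Z
      linarith
    have h4 : (-((4 : ℕ) : ℝ)) = (-4 : ℝ) := by norm_num
    rw [h4] at h1
    refine h1.trans ?_
    have h5 : 0 ≤ C * (Q ^ 2 * p.H)⁻¹ := by positivity
    calc C * (Q ^ 2 * p.H)⁻¹ * (1 + ‖reZ p.H k x.1 s w‖) ^ (-4 : ℝ)
        ≤ C * (Q ^ 2 * p.H)⁻¹ * (8 ^ 4 * (1 + ‖n‖) ^ (-4 : ℝ)) := mul_le_mul_of_nonneg_left h3 h5
      _ = 8 ^ 4 * C * (Q ^ 2 * p.H)⁻¹ * (1 + ‖n‖) ^ (-4 : ℝ) := by ring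

/-- **LEAF L-256-RESP-CELLMASS: regularity in `lintegral` form.**
PLAN.  `hreg Q hQ : (p.sys η).ms T k β (cell) G ≤ κ wt`;  unfold `PkSys.ms`, `PkSys.en` (`(p.sys η).An = p.an`, `(p.sys η).rho = p.rw`, `rfl`):  `∫ x, S.indicator 1 x * ‖(p.an T k β G) x‖² ∂ρ`.   `re_sp_an_spec` (a.e. equality).
`ofReal_integral_eq_lintegral_ofReal` (integrable: `Lp.memLp`, `MemLp.integrable_norm_pow`/`memLp_two_iff_integrable_sq_norm`, times an indicator `≤ 1`; nonneg), `lintegral_indicator hm`, `ofReal (‖c‖²) = ‖c‖ₑ²`. -/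
theorem re_sp_cell_mass (η : ℝ) (p : RdWvPar) (T : ℝ) (k β : ℕ) (κ : ℝ) (G : Lp ℂ 2 (volume : Measure RdWvPar.Mo))
    (hreg : (p.sys η).Reg T k β κ G) (Q : RdTst) (hQ : (p.sys η).ok Q k) (hm : MeasurableSet {x : RdWvPar.Ph | RdWvPar.co T x ∈ Q.rows k}) :
    ∫⁻ x in {x : RdWvPar.Ph | RdWvPar.co T x ∈ Q.rows k}, ‖p.row T k β G x‖ₑ ^ 2 ∂(p.rw k) ≤ ENNReal.ofReal (κ * (p.sys η).wt Q) := by
  set S : Set RdWvPar.Ph := {x : RdWvPar.Ph | RdWvPar.co T x ∈ Q.rows k} with hS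
  set F : Lp ℂ 2 (p.rw k) := p.an T k β G with hF
  have h0 : ∫ x, S.indicator (fun _ => (1 : ℝ)) x * ‖(F : RdWvPar.Ph → ℂ) x‖ ^ 2 ∂(p.rw k) ≤ κ * (p.sys η).wt Q := hreg Q hQ
  have hint : Integrable (fun x => ‖(F : RdWvPar.Ph → ℂ) x‖ ^ 2) (p.rw k) :=
    (memLp_two_iff_integrable_sq_norm (Lp.aestronglyMeasurable F)).1 (Lp.memLp F)
  have e1 : ∀ x, S.indicator (fun _ => (1 : ℝ)) x * ‖(F : RdWvPar.Ph → ℂ) x‖ ^ 2 = S.indicator (fun x => ‖(F : RdWvPar.Ph → ℂ) x‖ ^ 2) x := by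
    intro x
    by_cases hx : x ∈ S
    · simp [Set.indicator_of_mem hx]
    · simp [Set.indicator_of_notMem hx]
  have h1 : ∫⁻ x in S, ‖p.row T k β G x‖ₑ ^ 2 ∂(p.rw k) = ∫⁻ x in S, ‖(F : RdWvPar.Ph → ℂ) x‖ₑ ^ 2 ∂(p.rw k) := by
    refine lintegral_congr_ae (ae_restrict_of_ae ?_)
    filter_upwards [re_sp_an_spec p T k β G] with x hx
    rw [hF, hx]
  have h2 : ∫⁻ x in S, ‖(F : RdWvPar.Ph → ℂ) x‖ₑ ^ 2 ∂(p.rw k)
      = ENNReal.ofReal (∫ x, S.indicator (fun _ => (1 : ℝ)) x * ‖(F : RdWvPar.Ph → ℂ) x‖ ^ 2 ∂(p.rw k)) := by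
    simp_rw [e1]
    rw [integral_indicator hm, ofReal_integral_eq_lintegral_ofReal hint.integrableOn
      (Filter.Eventually.of_forall fun x => by positivity)]
    refine lintegral_congr fun x => ?_
    rw [ENNReal.ofReal_pow (norm_nonneg _), ofReal_norm]
  rw [h1, h2]
  exact ENNReal.ofReal_le_ofReal h0

/-- the kernel factor of the weight is continuous -/
theorem re_sp_cs_K_cont (H : ℝ) (hH : 0 < H) (k β : ℕ) (s : ℝ) (z : ReSp) :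
    Continuous (fun x : RdWvPar.Ph => reK H k β x.1 s (z - x.2)) := by
  have h := re_sp_K_cont H hH k β s
  have g : Continuous (fun x : RdWvPar.Ph => ((x.1, z - x.2) : (ℝ × ℝ) × ReSp)) := by fun_prop
  have h2 := h.comp g
  exact h2

/-- Tonelli on the phase space -/
theorem re_sp_cs_tonelli (f : RdWvPar.Ph → ℝ≥0∞) (hf : Measurable f) :
    ∫⁻ x : RdWvPar.Ph, f x = ∫⁻ A : ℝ × ℝ, ∫⁻ z' : ReSp, f (A, z') := by
  have hv : (volume : Measure RdWvPar.Ph) = (volume : Measure (ℝ × ℝ)).prod (volume : Measure ReSp) :=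
    Measure.volume_eq_prod _ _
  rw [hv]
  exact lintegral_prod _ hf.aemeasurable

/-- the disc of velocities is measurable -/
theorem re_sp_cs_disc_meas (As : ℝ × ℝ) (R : ℝ) : MeasurableSet {A : ℝ × ℝ | rtSq (A - As) ≤ R} := by
  have hc : Continuous (fun A : ℝ × ℝ => rtSq (A - As)) := by
    unfold rtSq
    fun_prop
  exact (isClosed_le hc continuous_const).measurableSet

/-- the weight is measurable -/
theorem re_sp_cs_wt_meas (H : ℝ) (hH : 0 < H) (k β : ℕ) (As : ℝ × ℝ) (M s : ℝ) (z : ReSp) :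
    Measurable (reWt H k β As M s z) := by
  unfold reWt
  refine Measurable.indicator (re_sp_cs_K_cont H hH k β s z).enorm.measurable ?_
  exact measurable_fst (re_sp_cs_disc_meas As ((M * rdD H k) ^ 2))

/-- **LEAF L-256-RESP-CS: Cauchy-Schwarz for the synthesis formula.**
PLAN.  `re_sp_F2`: `‖u_t z‖ₑ ≤ ofReal (d²)⁻¹ ∫⁻ A' ∫⁻ z' ‖K‖ₑ ‖F (A', z')‖ₑ` (`enorm_integral_le_lintegral_enorm` twice, `enorm_mul`).   `p.rw k = ofReal (ℓ/H) • volume`, `ℓ/H = (d²)⁻¹` (`re_sp_dq`), `volume` on `Ph` is the product (`Measure.volume_eq_prod`, `lintegral_prod`; measurability: `re_sp_K_cont`, `re_sp_row_cont`).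
`F (A', z') = 0` unless `rtSq (A' - As) ≤ ((Λ + 2) d)²` (`re_sp_row_van` with `M = Λ d`), so `‖K‖ₑ ‖F‖ₑ = ‖F‖ₑ reWt`.   `tri_cs (p.rw k) ‖F‖ₑ reWt`. -/
theorem re_sp_sup_cs (p : RdWvPar) (T t : ℝ) (k β : ℕ) (As : ℝ × ℝ) (Λ : ℝ) (hΛ : 0 ≤ Λ) (G : Lp ℂ 2 (volume : Measure RdWvPar.Mo)) (hG : Integrable (G : RdWvPar.Mo → ℂ))
    (h1 : p.Spec β G) (h2 : ∀ᵐ q ∂(volume : Measure RdWvPar.Mo), (G : RdWvPar.Mo → ℂ) q ≠ 0 → rtSq ((2 * q.2)⁻¹ • q.1 - As) ≤ (Λ * rdD p.H k) ^ 2) (z : ReSp) :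
    ‖reFld t G z‖ₑ ^ 2 ≤ (∫⁻ x, reWt p.H k β As (Λ + 2) (t - T) z x ∂(p.rw k)) * ∫⁻ x, ‖p.row T k β G x‖ₑ ^ 2 * reWt p.H k β As (Λ + 2) (t - T) z x ∂(p.rw k) := by
  obtain ⟨hd, -, -, -, hd2, -⟩ := re_sp_dq p.H p.H_pos k
  have hℓ := rdLen_pos k
  have hFc : Continuous (fun x : RdWvPar.Ph => p.row T k β G x) := re_sp_row_cont p T k β G hG
  have hKc := re_sp_cs_K_cont p.H p.H_pos k β (t - T) z
  have hWm := re_sp_cs_wt_meas p.H p.H_pos k β As (Λ + 2) (t - T) z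
  -- pointwise identity
  have hpt : ∀ x : RdWvPar.Ph, ‖reK p.H k β x.1 (t - T) (z - x.2) * p.row T k β G x‖ₑ
      = ‖p.row T k β G x‖ₑ * reWt p.H k β As (Λ + 2) (t - T) z x := by
    intro x
    unfold reWt
    by_cases hx : x ∈ {x : RdWvPar.Ph | rtSq (x.1 - As) ≤ ((Λ + 2) * rdD p.H k) ^ 2}
    · rw [Set.indicator_of_mem hx, enorm_mul, mul_comm]
    · rw [Set.indicator_of_notMem hx, mul_zero]
      have hx' : (Λ * rdD p.H k + 2 * rdD p.H k) ^ 2 < rtSq (x.1 - As) := by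
        have : ¬ rtSq (x.1 - As) ≤ ((Λ + 2) * rdD p.H k) ^ 2 := hx
        rw [← add_mul]
        exact not_le.mp this
      have h0 : p.row T k β G x = 0 :=
        re_sp_row_van p T k β G As (Λ * rdD p.H k) (by positivity) h2 x.1 x.2 hx'
      rw [h0, mul_zero, enorm_zero]
  have hmain : ‖reFld t G z‖ₑ ≤ ∫⁻ x, ‖p.row T k β G x‖ₑ * reWt p.H k β As (Λ + 2) (t - T) z x ∂(p.rw k) := by
    rw [re_sp_F2 p T t k β G hG h1 z, enorm_mul]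
    have e0 : ‖(((rdD p.H k ^ 2)⁻¹ : ℝ) : ℂ)‖ₑ = ENNReal.ofReal (rdLen k / p.H) := by
      rw [← ofReal_norm, Complex.norm_real, Real.norm_eq_abs, abs_of_pos (by positivity), hd2]
      congr 1
      field_simp
    rw [e0]
    unfold RdWvPar.rw
    rw [lintegral_smul_measure, smul_eq_mul]
    refine mul_le_mul' le_rfl ?_
    rw [re_sp_cs_tonelli (fun x => ‖p.row T k β G x‖ₑ * reWt p.H k β As (Λ + 2) (t - T) z x) (hFc.enorm.measurable.mul hWm)]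
    refine (enorm_integral_le_lintegral_enorm _).trans ?_
    refine lintegral_mono fun A => ?_
    refine (enorm_integral_le_lintegral_enorm _).trans ?_
    refine le_of_eq ?_
    refine lintegral_congr fun z' => ?_
    exact hpt (A, z')
  calc ‖reFld t G z‖ₑ ^ 2 ≤ (∫⁻ x, ‖p.row T k β G x‖ₑ * reWt p.H k β As (Λ + 2) (t - T) z x ∂(p.rw k)) ^ 2 := by
        gcongr
    _ ≤ _ := tri_cs (p.rw k) (fun x => ‖p.row T k β G x‖ₑ) (reWt p.H k β As (Λ + 2) (t - T) z)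
        hFc.enorm.measurable.aemeasurable hWm.aemeasurable

/-- **LEAF L-256-RESP-I1.**
PLAN.  `∫⁻ reWt dρ = ofReal (d²)⁻¹ ∫⁻ A' in D, ∫⁻ z', ‖reK H k β A' s (z - z')‖ₑ` (Tonelli, `lintegral_indicator`), inner integral `= ∫⁻ w ‖reK .. w‖ₑ ≤ C` (`lintegral_sub_left_eq_self`, `re_sp_kl1`);
`D ⊆ Icc`-square of side `2 M d`: `volume D ≤ ofReal (4 M² d²)` (`Real.volume_Icc`, `Measure.prod_prod`). -/
theorem re_sp_sup_I1 (β : ℕ) : ∃ C : ℝ, 0 ≤ C ∧ ∀ (p : RdWvPar) (k : ℕ) (As : ℝ × ℝ) (M s : ℝ) (z : ReSp), 0 ≤ M → |s| ≤ 2 * rdLen k →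
    ∫⁻ x, reWt p.H k β As M s z x ∂(p.rw k) ≤ ENNReal.ofReal (C * M ^ 2) := by
  obtain ⟨C, hC, hK⟩ := re_sp_kl1 β
  refine ⟨4 * C, by positivity, fun p k As M s z hM hs => ?_⟩
  obtain ⟨hd, -, -, -, hd2, -⟩ := re_sp_dq p.H p.H_pos k
  have hℓ := rdLen_pos k
  have hH := p.H_pos
  have hWm := re_sp_cs_wt_meas p.H p.H_pos k β As M s z
  have := re_sp_haar
  set R : ℝ := M * rdD p.H k with hR
  have hR0 : 0 ≤ R := by positivity
  set D : Set (ℝ × ℝ) := {A : ℝ × ℝ | rtSq (A - As) ≤ R ^ 2} with hD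
  have hDm : MeasurableSet D := re_sp_cs_disc_meas As (R ^ 2)
  have hDvol : volume D ≤ ENNReal.ofReal (4 * R ^ 2) := by
    have hsub : D ⊆ Set.Icc (As.1 - R) (As.1 + R) ×ˢ Set.Icc (As.2 - R) (As.2 + R) := by
      intro A hA
      have hA' : (A.1 - As.1) ^ 2 + (A.2 - As.2) ^ 2 ≤ R ^ 2 := hA
      have h1 : |A.1 - As.1| ≤ R := abs_le_of_sq_le_sq (by nlinarith [sq_nonneg (A.2 - As.2)]) hR0
      have h2 : |A.2 - As.2| ≤ R := abs_le_of_sq_le_sq (by nlinarith [sq_nonneg (A.1 - As.1)]) hR0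
      rw [abs_le] at h1 h2
      exact ⟨⟨by linarith [h1.1], by linarith [h1.2]⟩, ⟨by linarith [h2.1], by linarith [h2.2]⟩⟩
    refine (measure_mono hsub).trans ?_
    rw [Measure.volume_eq_prod, Measure.prod_prod, Real.volume_Icc, Real.volume_Icc, ← ENNReal.ofReal_mul (by linarith)]
    apply ENNReal.ofReal_le_ofReal
    nlinarith
  unfold RdWvPar.rw
  rw [lintegral_smul_measure, smul_eq_mul, re_sp_cs_tonelli _ hWm]
  have hin : ∀ A : ℝ × ℝ, ∫⁻ z' : ReSp, reWt p.H k β As M s z (A, z') ≤ D.indicator (fun _ => ENNReal.ofReal C) A := by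
    intro A
    by_cases hA : A ∈ D
    · rw [Set.indicator_of_mem hA]
      have e : ∀ z' : ReSp, reWt p.H k β As M s z (A, z') = ‖reK p.H k β A s (z - z')‖ₑ := by
        intro z'
        unfold reWt
        rw [Set.indicator_of_mem (show ((A, z') : RdWvPar.Ph) ∈ {x : RdWvPar.Ph | rtSq (x.1 - As) ≤ (M * rdD p.H k) ^ 2} from hA)]
      simp_rw [e]
      rw [lintegral_sub_left_eq_self (fun w : ReSp => ‖reK p.H k β A s w‖ₑ) z]
      exact hK p.H hH k A s hs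
    · rw [Set.indicator_of_notMem hA]
      have e : ∀ z' : ReSp, reWt p.H k β As M s z (A, z') = 0 := by
        intro z'
        unfold reWt
        rw [Set.indicator_of_notMem (show ((A, z') : RdWvPar.Ph) ∉ {x : RdWvPar.Ph | rtSq (x.1 - As) ≤ (M * rdD p.H k) ^ 2} from hA)]
      simp_rw [e]
      simp
  calc ENNReal.ofReal (rdLen k / p.H) * ∫⁻ A : ℝ × ℝ, ∫⁻ z' : ReSp, reWt p.H k β As M s z (A, z')
      ≤ ENNReal.ofReal (rdLen k / p.H) * ∫⁻ A : ℝ × ℝ, D.indicator (fun _ => ENNReal.ofReal C) A := by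
        gcongr with A
        exact hin A
    _ = ENNReal.ofReal (rdLen k / p.H) * (ENNReal.ofReal C * volume D) := by
        rw [lintegral_indicator_const hDm]
    _ ≤ ENNReal.ofReal (rdLen k / p.H) * (ENNReal.ofReal C * ENNReal.ofReal (4 * R ^ 2)) := by
        gcongr
    _ = ENNReal.ofReal (4 * C * M ^ 2) := by
        rw [← ENNReal.ofReal_mul hC, ← ENNReal.ofReal_mul (by positivity)]
        congr 1
        rw [hR, mul_pow, hd2]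
        field_simp

/-- the number of velocities -/
theorem re_sp_card_J (M : ℝ) (hM : 1 ≤ M) :
    (((Finset.Icc (-((⌈M⌉₊ : ℤ) + 1)) ((⌈M⌉₊ : ℤ) + 1) ×ˢ Finset.Icc (-((⌈M⌉₊ : ℤ) + 1)) ((⌈M⌉₊ : ℤ) + 1)).card : ℕ) : ℝ) ≤ 49 * M ^ 2 := by
  rw [Finset.card_product, Int.card_Icc]
  have h1 : ((⌈M⌉₊ : ℤ) + 1 + 1 - -((⌈M⌉₊ : ℤ) + 1)).toNat = 2 * ⌈M⌉₊ + 3 := by omega
  rw [h1]
  have h2 : (⌈M⌉₊ : ℝ) < M + 1 := Nat.ceil_lt_add_one (by linarith)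
  have h3 : (0 : ℝ) ≤ (⌈M⌉₊ : ℝ) := Nat.cast_nonneg _
  push_cast
  nlinarith

/-- **LEAF L-256-RESP-I2.**
PLAN.  `J = {a : ℤ × ℤ | |a.1|, |a.2| ≤ M + 1}` as a `Finset` (`Finset.Icc (-N) N ×ˢ Finset.Icc (-N) N`, `N = ⌈M⌉₊ + 1`, card `≤ (2M + 5)²`).   By `re_sp_cov_pt` pointwise
`reWt x ≤ ∑_{a ∈ J} ∑' n, ofReal (c (q²H)⁻¹ (1+‖n‖)^{-4}) · 1_{cell (a,n)} x`  (`ENNReal.le_tsum`, `Finset.single_le_sum`).   Integrate against `‖F‖²` (`lintegral_finset_sum'`, `lintegral_tsum`, `lintegral_const_mul`, `lintegral_indicator`, `re_sp_qt_meas`; `F` continuous: `re_sp_row_cont`),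
`re_sp_cell_mass` with `re_sp_qt_ok`: each cell `≤ κ d⁴`.   `tri_alpha_sum1`.   `d⁴ (q²H)⁻¹ = ℓ⁻³` (`re_sp_dq`).   `(2M+5)² ≤ 49 M²` for `M ≥ 1`. -/
theorem re_sp_sup_I2 (β : ℕ) : ∃ C : ℝ, 0 ≤ C ∧ ∀ (η : ℝ) (p : RdWvPar) (T : ℝ) (k : ℕ) (κ : ℝ) (As : ℝ × ℝ) (M s : ℝ) (z : ReSp) (G : Lp ℂ 2 (volume : Measure RdWvPar.Mo)),
    Integrable (G : RdWvPar.Mo → ℂ) → 1 ≤ M → 0 ≤ κ → |s| ≤ 2 * rdLen k → (p.sys η).Reg T k β κ G →
    ∫⁻ x, ‖p.row T k β G x‖ₑ ^ 2 * reWt p.H k β As M s z x ∂(p.rw k) ≤ ENNReal.ofReal (C * M ^ 2 * κ / rdLen k ^ 3) := by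
  obtain ⟨c, hc, hcov⟩ := re_sp_cov_pt β
  obtain ⟨C1, hC1, hsum⟩ := tri_alpha_sum1
  refine ⟨49 * c * C1, by positivity, fun η p T k κ As M s z G hG hM hκ hs hreg => ?_⟩
  obtain ⟨hD, hQ, hDQ, hQ2, hD2, hQD⟩ := re_sp_dq p.H p.H_pos k
  have hH := p.H_pos
  have hl := rdLen_pos k
  set N : ℤ := (⌈M⌉₊ : ℤ) + 1 with hN
  set J : Finset (ℤ × ℤ) := Finset.Icc (-N) N ×ˢ Finset.Icc (-N) N with hJ
  set F : RdWvPar.Ph → ℂ := p.row T k β G with hF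
  have hFc : Continuous F := re_sp_row_cont p T k β G hG
  have hFm : Measurable (fun x => ‖F x‖ₑ ^ 2) := (hFc.measurable.enorm).pow_const 2
  set cell : ℤ × ℤ → (Fin 3 → ℤ) → Set RdWvPar.Ph := fun a n => {x | RdWvPar.co T x ∈ (reQt p.H k As s z a n).rows k} with hcell
  have hcm : ∀ a n, MeasurableSet (cell a n) := fun a n => re_sp_qt_meas p T k As s z a n
  set c0 : ℝ := c * (rdQ p.H k ^ 2 * p.H)⁻¹ with hc0
  have hc00 : 0 ≤ c0 := by positivity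
  have hNM : M + 1 ≤ (N : ℝ) := by
    rw [hN]
    push_cast
    linarith [Nat.le_ceil M]
  have hpt : ∀ x, ‖F x‖ₑ ^ 2 * reWt p.H k β As M s z x
      ≤ ∑ a ∈ J, ∑' n : Fin 3 → ℤ, ENNReal.ofReal (c0 * (1 + ‖n‖) ^ (-4 : ℝ)) * (cell a n).indicator (fun x => ‖F x‖ₑ ^ 2) x := by
    intro x
    by_cases hx : rtSq (x.1 - As) ≤ (M * rdD p.H k) ^ 2
    · obtain ⟨a, n, ha1, ha2, hmem, hK⟩ := hcov p T k As s M z hs (by linarith) x hx
      have haJ : a ∈ J := by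
        have b1 := abs_le.1 (ha1.trans hNM)
        have b2 := abs_le.1 (ha2.trans hNM)
        rw [hJ, Finset.mem_product, Finset.mem_Icc, Finset.mem_Icc]
        refine ⟨⟨?_, ?_⟩, ⟨?_, ?_⟩⟩
        · exact_mod_cast b1.1
        · exact_mod_cast b1.2
        · exact_mod_cast b2.1
        · exact_mod_cast b2.2
      have h1 : reWt p.H k β As M s z x = ‖reK p.H k β x.1 s (z - x.2)‖ₑ := Set.indicator_of_mem (s := {x : RdWvPar.Ph | rtSq (x.1 - As) ≤ (M * rdD p.H k) ^ 2}) hx _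
      have hmem' : x ∈ cell a n := hmem
      rw [h1]
      calc ‖F x‖ₑ ^ 2 * ‖reK p.H k β x.1 s (z - x.2)‖ₑ
          ≤ ENNReal.ofReal (c0 * (1 + ‖n‖) ^ (-4 : ℝ)) * (cell a n).indicator (fun x => ‖F x‖ₑ ^ 2) x := by
            rw [Set.indicator_of_mem hmem', mul_comm]
            refine mul_le_mul_left ?_ _
            rw [← ofReal_norm]
            exact ENNReal.ofReal_le_ofReal hK
        _ ≤ ∑' n : Fin 3 → ℤ, ENNReal.ofReal (c0 * (1 + ‖n‖) ^ (-4 : ℝ)) * (cell a n).indicator (fun x => ‖F x‖ₑ ^ 2) x :=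
            ENNReal.le_tsum n
        _ ≤ _ := Finset.single_le_sum
            (f := fun a => ∑' n : Fin 3 → ℤ, ENNReal.ofReal (c0 * (1 + ‖n‖) ^ (-4 : ℝ)) * (cell a n).indicator (fun x => ‖F x‖ₑ ^ 2) x)
            (fun _ _ => zero_le) haJ
    · have h1 : reWt p.H k β As M s z x = 0 := Set.indicator_of_notMem (s := {x : RdWvPar.Ph | rtSq (x.1 - As) ≤ (M * rdD p.H k) ^ 2}) hx _
      rw [h1, mul_zero]
      exact zero_le
  have hgm : ∀ a n, Measurable (fun x => ENNReal.ofReal (c0 * (1 + ‖n‖) ^ (-4 : ℝ)) * (cell a n).indicator (fun x => ‖F x‖ₑ ^ 2) x) :=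
    fun a n => (hFm.indicator (hcm a n)).const_mul _
  have hcard : (J.card : ℝ≥0∞) ≤ ENNReal.ofReal (49 * M ^ 2) := by
    rw [← ENNReal.ofReal_natCast]
    exact ENNReal.ofReal_le_ofReal (re_sp_card_J M hM)
  have hs2 : ∑' n : Fin 3 → ℤ, ENNReal.ofReal (c0 * (1 + ‖n‖) ^ (-4 : ℝ)) ≤ ENNReal.ofReal (c0 * C1) := by
    simp_rw [ENNReal.ofReal_mul hc00]
    rw [ENNReal.tsum_mul_left]
    exact mul_le_mul_right hsum _
  calc ∫⁻ x, ‖F x‖ₑ ^ 2 * reWt p.H k β As M s z x ∂(p.rw k)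
      ≤ ∫⁻ x, ∑ a ∈ J, ∑' n : Fin 3 → ℤ, ENNReal.ofReal (c0 * (1 + ‖n‖) ^ (-4 : ℝ)) * (cell a n).indicator (fun x => ‖F x‖ₑ ^ 2) x ∂(p.rw k) :=
        lintegral_mono hpt
    _ = ∑ a ∈ J, ∑' n : Fin 3 → ℤ, ENNReal.ofReal (c0 * (1 + ‖n‖) ^ (-4 : ℝ)) * ∫⁻ x in cell a n, ‖F x‖ₑ ^ 2 ∂(p.rw k) := by
        rw [lintegral_finsetSum _ (fun a _ => Measurable.tsum fun n => hgm a n)]
        refine Finset.sum_congr rfl fun a _ => ?_
        rw [lintegral_tsum (fun n => (hgm a n).aemeasurable)]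
        refine tsum_congr fun n => ?_
        rw [lintegral_const_mul _ (hFm.indicator (hcm a n)), lintegral_indicator (hcm a n)]
    _ ≤ ∑ a ∈ J, ∑' n : Fin 3 → ℤ, ENNReal.ofReal (c0 * (1 + ‖n‖) ^ (-4 : ℝ)) * ENNReal.ofReal (κ * rdD p.H k ^ 4) := by
        refine Finset.sum_le_sum fun a _ => ENNReal.tsum_le_tsum fun n => mul_le_mul_right ?_ _
        have h := re_sp_cell_mass η p T k β κ G hreg (reQt p.H k As s z a n) (re_sp_qt_ok η p k As s z a n).1 (hcm a n)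
        rwa [(re_sp_qt_ok η p k As s z a n).2] at h
    _ = (J.card : ℝ≥0∞) * ((∑' n : Fin 3 → ℤ, ENNReal.ofReal (c0 * (1 + ‖n‖) ^ (-4 : ℝ))) * ENNReal.ofReal (κ * rdD p.H k ^ 4)) := by
        rw [Finset.sum_const, ENNReal.tsum_mul_right, nsmul_eq_mul]
    _ ≤ ENNReal.ofReal (49 * M ^ 2) * (ENNReal.ofReal (c0 * C1) * ENNReal.ofReal (κ * rdD p.H k ^ 4)) :=
        mul_le_mul' hcard (mul_le_mul_left hs2 _)
    _ = ENNReal.ofReal (49 * c * C1 * M ^ 2 * κ / rdLen k ^ 3) := by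
        rw [← ENNReal.ofReal_mul (by positivity), ← ENNReal.ofReal_mul (by positivity)]
        congr 1
        have e1 : rdD p.H k ^ 4 = (p.H / rdLen k) ^ 2 := by
          rw [← hD2]
          ring
        rw [hc0, e1, hQ2]
        field_simp

/-- **LEAF L-256-RESP-SUP (glue): THE SUP BOUND.**
PLAN.  For each `β ≤ bm` take `C₁ β`, `C₂ β` of `re_sp_sup_I1/I2`; `C = 81 · max_{β ≤ bm} (C₁ β C₂ β)` (`Finset.sup'`/sum over `Finset.range (bm+1)`).   `re_sp_L1`, `re_sp_sup_cs`, `M = Λ + 2 ≤ 3Λ`, `M⁴ ≤ 81 Λ⁴`.   Back to reals: `‖c‖ₑ ^ 2 = ofReal (‖c‖²)`, `ENNReal.ofReal_le_ofReal_iff`. -/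
theorem re_sp_sup (bm : ℕ) : ∃ C : ℝ, 0 ≤ C ∧ ∀ (η : ℝ) (p : RdWvPar) (T t : ℝ) (k β : ℕ) (κ Λ : ℝ) (As : ℝ × ℝ) (G : Lp ℂ 2 (volume : Measure RdWvPar.Mo)),
    β ≤ bm → 1 ≤ Λ → 0 ≤ κ → p.Spec β G →
    (∀ᵐ q ∂(volume : Measure RdWvPar.Mo), (G : RdWvPar.Mo → ℂ) q ≠ 0 → rtSq ((2 * q.2)⁻¹ • q.1 - As) ≤ (Λ * rdD p.H k) ^ 2) →
    (p.sys η).Reg T k β κ G → |t - T| ≤ 2 * rdLen k → ∀ z : ReSp, ‖reFld t G z‖ ^ 2 ≤ C * Λ ^ 4 * κ / rdLen k ^ 3 := by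
  choose C1f hC1f h1 using re_sp_sup_I1
  choose C2f hC2f h2 using re_sp_sup_I2
  obtain ⟨S, hS⟩ : ∃ S : ℝ, S = ∑ β ∈ Finset.range (bm + 1), C1f β * C2f β := ⟨_, rfl⟩
  have hS0 : 0 ≤ S := hS ▸ Finset.sum_nonneg fun β _ => mul_nonneg (hC1f β) (hC2f β)
  have hSle : ∀ β, β ≤ bm → C1f β * C2f β ≤ S := fun β hβ => by
    rw [hS]
    exact Finset.single_le_sum (f := fun β => C1f β * C2f β) (fun i _ => mul_nonneg (hC1f i) (hC2f i)) (Finset.mem_range.mpr (by omega))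
  refine ⟨81 * S, by positivity, ?_⟩
  intro η p T t k β κ Λ As G hβ hΛ hκ hspec hang hreg hs z
  have hl : 0 < rdLen k := rdLen_pos k
  have hG := re_sp_L1 p β As (Λ * rdD p.H k) G hspec hang
  have hcs := re_sp_sup_cs p T t k β As Λ (by linarith) G hG hspec hang z
  have i1 := h1 β p k As (Λ + 2) (t - T) z (by linarith) hs
  have i2 := h2 β η p T k κ As (Λ + 2) (t - T) z G hG (by linarith) hκ hs hreg
  have h3 : ENNReal.ofReal (‖reFld t G z‖ ^ 2) ≤ ENNReal.ofReal (C1f β * (Λ + 2) ^ 2 * (C2f β * (Λ + 2) ^ 2 * κ / rdLen k ^ 3)) := by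
    rw [ENNReal.ofReal_mul (mul_nonneg (hC1f β) (by positivity)), ENNReal.ofReal_pow (norm_nonneg _), ofReal_norm]
    exact hcs.trans (mul_le_mul' i1 i2)
  have h4 := (ENNReal.ofReal_le_ofReal_iff (by have := hC1f β; have := hC2f β; positivity)).mp h3
  refine h4.trans ?_
  have hM : (Λ + 2) ^ 4 ≤ 81 * Λ ^ 4 := by
    have : Λ + 2 ≤ 3 * Λ := by linarith
    calc (Λ + 2) ^ 4 ≤ (3 * Λ) ^ 4 := by gcongr
      _ = 81 * Λ ^ 4 := by ring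
  calc C1f β * (Λ + 2) ^ 2 * (C2f β * (Λ + 2) ^ 2 * κ / rdLen k ^ 3)
      = (C1f β * C2f β) * (Λ + 2) ^ 4 * κ / rdLen k ^ 3 := by ring
    _ ≤ S * (81 * Λ ^ 4) * κ / rdLen k ^ 3 := by
        have := hSle β hβ
        have := mul_nonneg (hC1f β) (hC2f β)
        gcongr
    _ = 81 * S * Λ ^ 4 * κ / rdLen k ^ 3 := by ring

end Claimed.Agent.R256
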